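import Vale.Agent.P237.Petty.Cor.Grid.Tiny.N15.Cert

/-!
# P237: a cell down to zero in dimension 15, subdivisions
-/

namespace Vale.Agent.P237.Petty.Cor.Grid.Tiny.N15

def covers20 : cell.Covers Vale.Agent.P237.Petty.Cor.Grid.N15.table row20.1 :=
  ⟨(.cut .d 0 (.cut .v 16777216 (.cut .d (-8388608) (.void 1 ⟨⟨0, 0, 0, 0, 0, 100000, 0, 0, 0, ⟨0, 0⟩, 0⟩, 0, 0⟩ 0 0) (.cut .d (-4194304) (.void 1 ⟨⟨0, 0, 0, 0, 0, 100000, 0, 0, 0, ⟨0, 0⟩, 0⟩, 0, 0⟩ 0 0) (.cut .d (-2097152) (.void 1 ⟨⟨0, 0, 0, 0, 0, 100000, 0, 0, 0, ⟨0, 0⟩, 0⟩, 0, 0⟩ 0 0) (.cut .d (-1048576) (.void 1 ⟨⟨0, 0, 0, 0, 0, 100000, 0, 0, 0, ⟨0, 0⟩, 0⟩, 0, 0⟩ 0 0) (.cut .d (-524288)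 (.void 1 ⟨⟨0, 0, 0, 0, 0, 100000, 0, 0, 0, ⟨0, 0⟩, 0⟩, 0, 0⟩ 0 0) (.cut .d (-262144) (.void 1 ⟨⟨0, 0, 0, 0, 0, 100000, 0, 0, 0, ⟨0, 0⟩, 0⟩, 0, 0⟩ 0 0) (.cut .d (-131072) (.void 1 ⟨⟨0, 0, 0, 0, 0, 100000, 0, 0, 0, ⟨0, 0⟩, 0⟩, 0, 0⟩ 0 0) (.cut .d (-65536) (.void 1 ⟨⟨0, 0, 0, 0, 0, 100000, 0, 0, 0, ⟨0, 0⟩, 0⟩, 0, 0⟩ 0 0) (.cut .d (-32768) (.void 1 ⟨⟨0, 0, 0, 0, 0, 100000, 0, 0, 0, ⟨0, 0⟩, 0⟩, 0, 0⟩ 0 0) (.cut .d (-16384) (.void 1 ⟨⟨0, 0, 0, 0, 0, 100000, 0, 0, 0, ⟨0, 0⟩, 0⟩, 0, 0⟩ 0 0) (.cut .v 8388608 (.cut .v 4194304 (.void 4 ⟨⟨0, 0, 100000, 0, 0, 0, 0, 0, 0, ⟨0, 0⟩, 0⟩, 0, 0⟩ 0 0) (.pos 5 .mm ⟨⟨0, 0, 10568044, 0, 0, 244051649, 0, 0,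 0, ⟨0, 0⟩, 0⟩, 0, 0⟩ 0 0)) (.cut .s 12615680 (.pos 3 .mm ⟨⟨0, 0, 0, 0, 0, 703834504, 0, 0, 0, ⟨0, 0⟩, 0⟩, 0, 0⟩ 0 0) (.pos 3 .mm ⟨⟨0, 0, 0, 0, 0, 753675896, 0, 0, 0, ⟨0, 0⟩, 0⟩, 0, 0⟩ 0 0))))))))))))) (.cut .v 268435456 (.cut .v 67108864 (.cut .v 33554432 (.cut .d (-8388608) (.void 24 ⟨⟨100000, 0, 0, 0, 0, 0, 0, 0, 0, ⟨0, 0⟩, 0⟩, 0, 0⟩ 0 0) (.cut .v 25165824 (.cut .d (-4194304) (.void 25 ⟨⟨100000, 0, 0, 0, 0, 0, 0, 0, 0, ⟨0, 0⟩, 0⟩, 0, 0⟩ 0 0) (.cut .v 20971520 (.cut .d (-2097152) (.void 27 ⟨⟨100000, 0, 0, 0, 0, 0, 0, 0, 0, ⟨0, 0⟩, 0⟩, 0, 0⟩ 0 0) (.cut .v 18874368 (.cut .d (-1048576) (.void 29 ⟨⟨100000, 0, 0, 0, 0, 0, 0, 0, 0, ⟨0, 0⟩,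 0⟩, 0, 0⟩ 0 0) (.cut .v 17825792 (.cut .d (-524288) (.void 31 ⟨⟨100000, 0, 0, 0, 0, 0, 0, 0, 0, ⟨0, 0⟩, 0⟩, 0, 0⟩ 0 0) (.cut .v 17301504 (.cut .d (-262144) (.void 33 ⟨⟨100000, 0, 0, 0, 0, 0, 0, 0, 0, ⟨0, 0⟩, 0⟩, 0, 0⟩ 0 0) (.cut .d (-131072) (.void 33 ⟨⟨100000, 0, 0, 0, 0, 0, 0, 0, 0, ⟨0, 0⟩, 0⟩, 0, 0⟩ 0 0) (.cut .d (-65536) (.void 33 ⟨⟨100000, 0, 0, 0, 0, 0, 0, 0, 0, ⟨0, 0⟩, 0⟩, 0, 0⟩ 0 0) (.cut .d (-32768) (.void 33 ⟨⟨100000, 0, 0, 0, 0, 0, 0, 0, 0, ⟨0, 0⟩, 0⟩, 0, 0⟩ 0 0) (.cut .d (-16384) (.void 33 ⟨⟨0, 0, 0, 0, 0, 100000, 0, 0, 0, ⟨0, 0⟩, 0⟩, 0, 0⟩ 0 0) (.cut .v 17039360 (.cut .v 16908288 (.cut .s 12615680 (.cut .v 16842752 (.cut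 .s 12566528 (.cut .d (-8192) (.cut .d (-12288) (.void 39 ⟨⟨0, 0, 0, 0, 0, 100000, 0, 0, 0, ⟨0, 0⟩, 0⟩, 0, 0⟩ 0 0) (.cut .l 123033 (.void 39 ⟨⟨0, 0, 0, 0, 0, 100000, 0, 0, 0, ⟨0, 0⟩, 0⟩, 0, 0⟩ 0 0) (.cut .l 184549 (.pos 39 .mp ⟨⟨329105684, 0, 0, 0, 0, 168791893, 0, 0, 0, ⟨0, 0⟩, 0⟩, 0, 0⟩ 0 0) (.cut .s 12541952 (.pos 39 .mp ⟨⟨332700345, 0, 0, 0, 0, 139890644, 0, 0, 0, ⟨0, 0⟩, 0⟩, 0, 0⟩ 0 0) (.cut .s 12554240 (.pos 39 .mp ⟨⟨328365682, 0, 0, 0, 0, 161140092, 0, 0, 0, ⟨0, 0⟩, 0⟩, 0, 0⟩ 0 0) (.pos 39 .mp ⟨⟨331011850, 0, 0, 0, 0, 162362308, 0, 0, 0, ⟨0, 0⟩, 0⟩, 0, 0⟩ 0 0)))))) (.cut .v 16809984 (.cut .s 12541952 (.cut .l 123033 (.cut .d (-4096)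 (.cut .s 12529664 (.pos 49 .mp ⟨⟨322736913, 0, 0, 0, 0, 160277130, 0, 0, 0, ⟨0, 0⟩, 0⟩, 0, 0⟩ 0 0) (.pos 49 .mp ⟨⟨325323588, 0, 0, 0, 0, 161360130, 0, 0, 0, ⟨0, 0⟩, 0⟩, 0, 0⟩ 0 0)) (.cut .v 16793600 (.cut .l 61516 (.cut .d (-2048) (.pos 55 .mp ⟨⟨322536958, 0, 0, 0, 0, 164583132, 0, 0, 0, ⟨0, 0⟩, 0⟩, 0, 0⟩ 0 0) (.cut .v 16785408 (.cut .l 30758 (.cut .d (-1024) (.pos 57 .mp ⟨⟨322437637, 0, 0, 0, 0, 164357635, 0, 0, 0, ⟨0, 0⟩, 0⟩, 0, 0⟩ 0 0) (.cut .v 16781312 (.cut .l 15379 (.cut .d (-512) (.pos 65 .mp ⟨⟨322388279, 0, 0, 0, 0, 164244356, 0, 0, 0, ⟨0, 0⟩, 0⟩, 0, 0⟩ 0 0) (.cut .v 16779264 (.cut .l 7689 (.cut .s 12529664 (.cut .s 12523520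 (.pos 67 .mp ⟨⟨327459315, 0, 0, 0, 0, 145072986, 0, 0, 0, ⟨0, 0⟩, 0⟩, 0, 0⟩ 0 0) (.pos 67 .mp ⟨⟨328582551, 0, 0, 0, 0, 145888198, 0, 0, 0, ⟨0, 0⟩, 0⟩, 0, 0⟩ 0 0)) (.cut .s 12535808 (.pos 67 .mp ⟨⟨329720638, 0, 0, 0, 0, 146696167, 0, 0, 0, ⟨0, 0⟩, 0⟩, 0, 0⟩ 0 0) (.pos 67 .mp ⟨⟨330873794, 0, 0, 0, 0, 147496545, 0, 0, 0, ⟨0, 0⟩, 0⟩, 0, 0⟩ 0 0))) (.pos 67 .mp ⟨⟨327696559, 0, 0, 0, 0, 143510823, 0, 0, 0, ⟨0, 0⟩, 0⟩, 0, 0⟩ 0 0)) (.pos 68 .mp ⟨⟨414754260, 0, 0, 0, 0, 0, 0, 0, 0, ⟨0, 0⟩, 0⟩, 0, 0⟩ 0 0))) (.pos 65 .mp ⟨⟨327887232, 0, 0, 0, 0, 143280996, 0, 0, 0, ⟨0, 0⟩, 0⟩, 0, 0⟩ 0 0)) (.pos 66 .mp ⟨⟨414819226, 0, 0, 0, 0, 0, 0, 0, 0, ⟨0, 0⟩,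 0⟩, 0, 0⟩ 0 0))) (.pos 57 .mp ⟨⟨328268265, 0, 0, 0, 0, 142822876, 0, 0, 0, ⟨0, 0⟩, 0⟩, 0, 0⟩ 0 0)) (.pos 58 .mp ⟨⟨414938605, 0, 0, 0, 0, 0, 0, 0, 0, ⟨0, 0⟩, 0⟩, 0, 0⟩ 0 0))) (.pos 55 .mp ⟨⟨329031431, 0, 0, 0, 0, 141905095, 0, 0, 0, ⟨0, 0⟩, 0⟩, 0, 0⟩ 0 0)) (.pos 56 .mp ⟨⟨415174233, 0, 0, 0, 0, 0, 0, 0, 0, ⟨0, 0⟩, 0⟩, 0, 0⟩ 0 0))) (.pos 49 .mp ⟨⟨330561045, 0, 0, 0, 0, 140064982, 0, 0, 0, ⟨0, 0⟩, 0⟩, 0, 0⟩ 0 0)) (.cut .l 123033 (.cut .d (-4096) (.cut .s 12554240 (.pos 49 .mp ⟨⟨327932696, 0, 0, 0, 0, 162485064, 0, 0, 0, ⟨0, 0⟩, 0⟩, 0, 0⟩ 0 0) (.pos 49 .mp ⟨⟨330564424, 0, 0, 0, 0, 163652339, 0, 0, 0, ⟨0, 0⟩, 0⟩, 0, 0⟩ 0 0)) (.cut .v 16793600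 (.cut .l 61516 (.cut .d (-2048) (.pos 55 .mp ⟨⟨327718548, 0, 0, 0, 0, 166931382, 0, 0, 0, ⟨0, 0⟩, 0⟩, 0, 0⟩ 0 0) (.cut .v 16785408 (.cut .l 30758 (.cut .d (-1024) (.pos 57 .mp ⟨⟨327612146, 0, 0, 0, 0, 166711808, 0, 0, 0, ⟨0, 0⟩, 0⟩, 0, 0⟩ 0 0) (.cut .v 16781312 (.cut .l 15379 (.cut .d (-512) (.pos 65 .mp ⟨⟨327559253, 0, 0, 0, 0, 166601479, 0, 0, 0, ⟨0, 0⟩, 0⟩, 0, 0⟩ 0 0) (.cut .v 16779264 (.cut .l 7689 (.cut .s 12554240 (.cut .s 12548096 (.pos 67 .mp ⟨⟨332042239, 0, 0, 0, 0, 148288984, 0, 0, 0, ⟨0, 0⟩, 0⟩, 0, 0⟩ 0 0) (.pos 67 .mp ⟨⟨333226195, 0, 0, 0, 0, 149073129, 0, 0, 0, ⟨0, 0⟩, 0⟩, 0, 0⟩ 0 0)) (.cut .s 12560384 (.pos 67 .mp ⟨⟨334425884,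 0, 0, 0, 0, 149848625, 0, 0, 0, ⟨0, 0⟩, 0⟩, 0, 0⟩ 0 0) (.pos 67 .mp ⟨⟨335641529, 0, 0, 0, 0, 150615115, 0, 0, 0, ⟨0, 0⟩, 0⟩, 0, 0⟩ 0 0))) (.pos 67 .mp ⟨⟨332959699, 0, 0, 0, 0, 145836024, 0, 0, 0, ⟨0, 0⟩, 0⟩, 0, 0⟩ 0 0)) (.pos 68 .mp ⟨⟨421094666, 0, 0, 0, 0, 0, 0, 0, 0, ⟨0, 0⟩, 0⟩, 0, 0⟩ 0 0))) (.pos 65 .mp ⟨⟨333156108, 0, 0, 0, 0, 145598500, 0, 0, 0, ⟨0, 0⟩, 0⟩, 0, 0⟩ 0 0)) (.pos 66 .mp ⟨⟨421160683, 0, 0, 0, 0, 0, 0, 0, 0, ⟨0, 0⟩, 0⟩, 0, 0⟩ 0 0))) (.pos 57 .mp ⟨⟨333548610, 0, 0, 0, 0, 145125014, 0, 0, 0, ⟨0, 0⟩, 0⟩, 0, 0⟩ 0 0)) (.pos 58 .mp ⟨⟨421281929, 0, 0, 0, 0, 0, 0, 0, 0, ⟨0, 0⟩, 0⟩, 0, 0⟩ 0 0))) (.pos 55 .mp ⟨⟨334334742, 0, 0,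 0, 0, 144176463, 0, 0, 0, ⟨0, 0⟩, 0⟩, 0, 0⟩ 0 0)) (.pos 56 .mp ⟨⟨421521217, 0, 0, 0, 0, 0, 0, 0, 0, ⟨0, 0⟩, 0⟩, 0, 0⟩ 0 0))) (.cut .s 12554240 (.pos 49 .mp ⟨⟨333224102, 0, 0, 0, 0, 145199533, 0, 0, 0, ⟨0, 0⟩, 0⟩, 0, 0⟩ 0 0) (.pos 49 .mp ⟨⟨335910378, 0, 0, 0, 0, 146355835, 0, 0, 0, ⟨0, 0⟩, 0⟩, 0, 0⟩ 0 0)))) (.pos 50 .mp ⟨⟨420400761, 0, 0, 0, 0, 0, 0, 0, 0, ⟨0, 0⟩, 0⟩, 0, 0⟩ 0 0))) (.cut .d (-8192) (.cut .d (-12288) (.void 39 ⟨⟨0, 0, 0, 0, 0, 100000, 0, 0, 0, ⟨0, 0⟩, 0⟩, 0, 0⟩ 0 0) (.cut .l 123033 (.void 39 ⟨⟨0, 0, 0, 0, 0, 100000, 0, 0, 0, ⟨0, 0⟩, 0⟩, 0, 0⟩ 0 0) (.cut .l 184549 (.pos 39 .mp ⟨⟨339652655, 0, 0, 0, 0, 174422304, 0, 0, 0,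 ⟨0, 0⟩, 0⟩, 0, 0⟩ 0 0) (.cut .s 12591104 (.cut .s 12578816 (.pos 39 .mp ⟨⟨333680954, 0, 0, 0, 0, 163611324, 0, 0, 0, ⟨0, 0⟩, 0⟩, 0, 0⟩ 0 0) (.pos 39 .mp ⟨⟨336373188, 0, 0, 0, 0, 164886900, 0, 0, 0, ⟨0, 0⟩, 0⟩, 0, 0⟩ 0 0)) (.cut .s 12603392 (.pos 39 .mp ⟨⟨339088745, 0, 0, 0, 0, 166188793, 0, 0, 0, ⟨0, 0⟩, 0⟩, 0, 0⟩ 0 0) (.pos 39 .mp ⟨⟨341827822, 0, 0, 0, 0, 167516754, 0, 0, 0, ⟨0, 0⟩, 0⟩, 0, 0⟩ 0 0)))))) (.cut .v 16809984 (.cut .s 12591104 (.cut .l 123033 (.cut .d (-4096) (.cut .s 12578816 (.pos 49 .mp ⟨⟨333218959, 0, 0, 0, 0, 164862365, 0, 0, 0, ⟨0, 0⟩, 0⟩, 0, 0⟩ 0 0) (.pos 49 .mp ⟨⟨335896494, 0, 0, 0, 0, 166115558, 0, 0, 0, ⟨0, 0⟩,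 0⟩, 0, 0⟩ 0 0)) (.cut .v 16793600 (.cut .l 61516 (.cut .s 12578816 (.cut .s 12572672 (.pos 55 .mp ⟨⟨337409278, 0, 0, 0, 0, 150599303, 0, 0, 0, ⟨0, 0⟩, 0⟩, 0, 0⟩ 0 0) (.pos 55 .mp ⟨⟨338762047, 0, 0, 0, 0, 151185668, 0, 0, 0, ⟨0, 0⟩, 0⟩, 0, 0⟩ 0 0)) (.cut .s 12584960 (.pos 55 .mp ⟨⟨340120694, 0, 0, 0, 0, 151778457, 0, 0, 0, ⟨0, 0⟩, 0⟩, 0, 0⟩ 0 0) (.pos 55 .mp ⟨⟨341485246, 0, 0, 0, 0, 152377638, 0, 0, 0, ⟨0, 0⟩, 0⟩, 0, 0⟩ 0 0))) (.pos 55 .mp ⟨⟨339730621, 0, 0, 0, 0, 146505899, 0, 0, 0, ⟨0, 0⟩, 0⟩, 0, 0⟩ 0 0)) (.pos 56 .mp ⟨⟨428050946, 0, 0, 0, 0, 0, 0, 0, 0, ⟨0, 0⟩, 0⟩, 0, 0⟩ 0 0))) (.cut .s 12578816 (.pos 49 .mp ⟨⟨338620066, 0, 0, 0,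 0, 147526294, 0, 0, 0, ⟨0, 0⟩, 0⟩, 0, 0⟩ 0 0) (.pos 49 .mp ⟨⟨341353365, 0, 0, 0, 0, 148710344, 0, 0, 0, ⟨0, 0⟩, 0⟩, 0, 0⟩ 0 0))) (.cut .s 12603392 (.cut .l 123033 (.cut .d (-4096) (.pos 49 .mp ⟨⟨338597221, 0, 0, 0, 0, 167412338, 0, 0, 0, ⟨0, 0⟩, 0⟩, 0, 0⟩ 0 0) (.cut .s 12597248 (.pos 49 .mp ⟨⟨343479925, 0, 0, 0, 0, 151985520, 0, 0, 0, ⟨0, 0⟩, 0⟩, 0, 0⟩ 0 0) (.pos 49 .mp ⟨⟨344858744, 0, 0, 0, 0, 152586918, 0, 0, 0, ⟨0, 0⟩, 0⟩, 0, 0⟩ 0 0))) (.pos 49 .mp ⟨⟨344110472, 0, 0, 0, 0, 149907419, 0, 0, 0, ⟨0, 0⟩, 0⟩, 0, 0⟩ 0 0)) (.cut .l 123033 (.cut .d (-4096) (.pos 49 .mp ⟨⟨341321335, 0, 0, 0, 0, 168753132, 0, 0, 0, ⟨0, 0⟩, 0⟩, 0, 0⟩ 0 0) (.cut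 .v 16793600 (.cut .s 12609536 (.pos 55 .mp ⟨⟨345614576, 0, 0, 0, 0, 154240586, 0, 0, 0, ⟨0, 0⟩, 0⟩, 0, 0⟩ 0 0) (.pos 55 .mp ⟨⟨347002995, 0, 0, 0, 0, 154861481, 0, 0, 0, ⟨0, 0⟩, 0⟩, 0, 0⟩ 0 0)) (.pos 56 .mp ⟨⟨435638701, 0, 0, 0, 0, 0, 0, 0, 0, ⟨0, 0⟩, 0⟩, 0, 0⟩ 0 0))) (.pos 49 .mp ⟨⟨346891588, 0, 0, 0, 0, 151116944, 0, 0, 0, ⟨0, 0⟩, 0⟩, 0, 0⟩ 0 0)))) (.pos 50 .mp ⟨⟨433541872, 0, 0, 0, 0, 0, 0, 0, 0, ⟨0, 0⟩, 0⟩, 0, 0⟩ 0 0)))) (.pos 40 .mp ⟨⟨437252423, 0, 0, 0, 0, 0, 0, 0, 0, ⟨0, 0⟩, 0⟩, 0, 0⟩ 0 0)) (.cut .v 16842752 (.cut .s 12664832 (.cut .d (-8192) (.cut .d (-12288) (.void 39 ⟨⟨0, 0, 0, 0, 0, 100000, 0, 0, 0, ⟨0, 0⟩, 0⟩, 0, 0⟩ 0 0)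 (.cut .l 123033 (.void 39 ⟨⟨0, 0, 0, 0, 0, 100000, 0, 0, 0, ⟨0, 0⟩, 0⟩, 0, 0⟩ 0 0) (.cut .l 184549 (.pos 39 .mp ⟨⟨350535899, 0, 0, 0, 0, 180850488, 0, 0, 0, ⟨0, 0⟩, 0⟩, 0, 0⟩ 0 0) (.cut .s 12640256 (.cut .s 12627968 (.pos 39 .mp ⟨⟨344590618, 0, 0, 0, 0, 168870530, 0, 0, 0, ⟨0, 0⟩, 0⟩, 0, 0⟩ 0 0) (.pos 39 .mp ⟨⟨347377334, 0, 0, 0, 0, 170249862, 0, 0, 0, ⟨0, 0⟩, 0⟩, 0, 0⟩ 0 0)) (.cut .s 12652544 (.pos 39 .mp ⟨⟨350188174, 0, 0, 0, 0, 171654487, 0, 0, 0, ⟨0, 0⟩, 0⟩, 0, 0⟩ 0 0) (.pos 39 .mp ⟨⟨353023344, 0, 0, 0, 0, 173084139, 0, 0, 0, ⟨0, 0⟩, 0⟩, 0, 0⟩ 0 0)))))) (.cut .v 16809984 (.cut .s 12640256 (.cut .s 12627968 (.cut .l 123033 (.cut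 .d (-4096) (.pos 49 .mp ⟨⟨344069035, 0, 0, 0, 0, 170138369, 0, 0, 0, ⟨0, 0⟩, 0⟩, 0, 0⟩ 0 0) (.cut .v 16793600 (.cut .s 12621824 (.pos 55 .mp ⟨⟨348397444, 0, 0, 0, 0, 155489948, 0, 0, 0, ⟨0, 0⟩, 0⟩, 0, 0⟩ 0 0) (.pos 55 .mp ⟨⟨349797948, 0, 0, 0, 0, 156125973, 0, 0, 0, ⟨0, 0⟩, 0⟩, 0, 0⟩ 0 0)) (.pos 56 .mp ⟨⟨439082759, 0, 0, 0, 0, 0, 0, 0, 0, ⟨0, 0⟩, 0⟩, 0, 0⟩ 0 0))) (.pos 49 .mp ⟨⟨349696918, 0, 0, 0, 0, 152338344, 0, 0, 0, ⟨0, 0⟩, 0⟩, 0, 0⟩ 0 0)) (.cut .l 123033 (.cut .d (-4096) (.pos 49 .mp ⟨⟨346840520, 0, 0, 0, 0, 171568485, 0, 0, 0, ⟨0, 0⟩, 0⟩, 0, 0⟩ 0 0) (.cut .v 16793600 (.cut .s 12634112 (.pos 55 .mp ⟨⟨351204533, 0, 0, 0, 0, 156769545,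 0, 0, 0, ⟨0, 0⟩, 0⟩, 0, 0⟩ 0 0) (.pos 55 .mp ⟨⟨352617226, 0, 0, 0, 0, 157420653, 0, 0, 0, ⟨0, 0⟩, 0⟩, 0, 0⟩ 0 0)) (.pos 56 .mp ⟨⟨442574638, 0, 0, 0, 0, 0, 0, 0, 0, ⟨0, 0⟩, 0⟩, 0, 0⟩ 0 0))) (.pos 49 .mp ⟨⟨352526667, 0, 0, 0, 0, 153571038, 0, 0, 0, ⟨0, 0⟩, 0⟩, 0, 0⟩ 0 0))) (.cut .s 12652544 (.cut .l 123033 (.cut .d (-4096) (.pos 49 .mp ⟨⟨349635993, 0, 0, 0, 0, 173043920, 0, 0, 0, ⟨0, 0⟩, 0⟩, 0, 0⟩ 0 0) (.cut .s 12646400 (.cut .s 12643328 (.pos 49 .mp ⟨⟨353739715, 0, 0, 0, 0, 158107127, 0, 0, 0, ⟨0, 0⟩, 0⟩, 0, 0⟩ 0 0) (.pos 49 .mp ⟨⟨354466227, 0, 0, 0, 0, 158414431, 0, 0, 0, ⟨0, 0⟩, 0⟩, 0, 0⟩ 0 0)) (.pos 49 .mp ⟨⟨356107057, 0, 0, 0, 0,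 157669781, 0, 0, 0, ⟨0, 0⟩, 0⟩, 0, 0⟩ 0 0))) (.pos 49 .mp ⟨⟨355381044, 0, 0, 0, 0, 154814440, 0, 0, 0, ⟨0, 0⟩, 0⟩, 0, 0⟩ 0 0)) (.cut .l 123033 (.cut .d (-4096) (.pos 49 .mp ⟨⟨352455660, 0, 0, 0, 0, 174565120, 0, 0, 0, ⟨0, 0⟩, 0⟩, 0, 0⟩ 0 0) (.cut .s 12658688 (.pos 49 .mp ⟨⟨357540704, 0, 0, 0, 0, 158338917, 0, 0, 0, ⟨0, 0⟩, 0⟩, 0, 0⟩ 0 0) (.pos 49 .mp ⟨⟨358980574, 0, 0, 0, 0, 159015518, 0, 0, 0, ⟨0, 0⟩, 0⟩, 0, 0⟩ 0 0))) (.pos 49 .mp ⟨⟨358260260, 0, 0, 0, 0, 156067961, 0, 0, 0, ⟨0, 0⟩, 0⟩, 0, 0⟩ 0 0)))) (.pos 50 .mp ⟨⟨447430417, 0, 0, 0, 0, 0, 0, 0, 0, ⟨0, 0⟩, 0⟩, 0, 0⟩ 0 0))) (.cut .d (-8192) (.cut .d (-12288) (.void 39 ⟨⟨0, 0, 0, 0,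 0, 100000, 0, 0, 0, ⟨0, 0⟩, 0⟩, 0, 0⟩ 0 0) (.cut .d (-10240) (.pos 39 .mp ⟨⟨357365306, 0, 0, 0, 0, 195277569, 0, 0, 0, ⟨0, 0⟩, 0⟩, 0, 0⟩ 0 0) (.cut .l 123033 (.void 39 ⟨⟨0, 0, 0, 0, 0, 100000, 0, 0, 0, ⟨0, 0⟩, 0⟩, 0, 0⟩ 0 0) (.cut .l 184549 (.pos 39 .mp ⟨⟨361765739, 0, 0, 0, 0, 188110998, 0, 0, 0, ⟨0, 0⟩, 0⟩, 0, 0⟩ 0 0) (.cut .s 12689408 (.pos 39 .mp ⟨⟨365065576, 0, 0, 0, 0, 152588981, 0, 0, 0, ⟨0, 0⟩, 0⟩, 0, 0⟩ 0 0) (.pos 39 .mp ⟨⟨371027787, 0, 0, 0, 0, 155177120, 0, 0, 0, ⟨0, 0⟩, 0⟩, 0, 0⟩ 0 0)))))) (.cut .v 16809984 (.cut .s 12689408 (.cut .s 12677120 (.cut .l 123033 (.cut .d (-4096) (.pos 49 .mp ⟨⟨355299726, 0, 0, 0, 0, 176132537,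 0, 0, 0, ⟨0, 0⟩, 0⟩, 0, 0⟩ 0 0) (.cut .s 12670976 (.pos 49 .mp ⟨⟨360426693, 0, 0, 0, 0, 159699569, 0, 0, 0, ⟨0, 0⟩, 0⟩, 0, 0⟩ 0 0) (.pos 49 .mp ⟨⟨361879089, 0, 0, 0, 0, 160391057, 0, 0, 0, ⟨0, 0⟩, 0⟩, 0, 0⟩ 0 0))) (.pos 49 .mp ⟨⟨361164529, 0, 0, 0, 0, 157331007, 0, 0, 0, ⟨0, 0⟩, 0⟩, 0, 0⟩ 0 0)) (.cut .l 123033 (.cut .d (-4096) (.pos 49 .mp ⟨⟨358168403, 0, 0, 0, 0, 177746625, 0, 0, 0, ⟨0, 0⟩, 0⟩, 0, 0⟩ 0 0) (.cut .s 12683264 (.pos 49 .mp ⟨⟨363337788, 0, 0, 0, 0, 161089968, 0, 0, 0, ⟨0, 0⟩, 0⟩, 0, 0⟩ 0 0) (.pos 49 .mp ⟨⟨364802817, 0, 0, 0, 0, 161796288, 0, 0, 0, ⟨0, 0⟩, 0⟩, 0, 0⟩ 0 0))) (.pos 49 .mp ⟨⟨364094066, 0, 0, 0, 0, 158602979,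 0, 0, 0, ⟨0, 0⟩, 0⟩, 0, 0⟩ 0 0))) (.cut .s 12701696 (.cut .l 123033 (.cut .d (-4096) (.pos 49 .mp ⟨⟨361061903, 0, 0, 0, 0, 179407847, 0, 0, 0, ⟨0, 0⟩, 0⟩, 0, 0⟩ 0 0) (.cut .s 12695552 (.pos 49 .mp ⟨⟨366274205, 0, 0, 0, 0, 162510003, 0, 0, 0, ⟨0, 0⟩, 0⟩, 0, 0⟩ 0 0) (.pos 49 .mp ⟨⟨367751977, 0, 0, 0, 0, 163231099, 0, 0, 0, ⟨0, 0⟩, 0⟩, 0, 0⟩ 0 0))) (.pos 49 .mp ⟨⟨367049090, 0, 0, 0, 0, 159883274, 0, 0, 0, ⟨0, 0⟩, 0⟩, 0, 0⟩ 0 0)) (.cut .l 123033 (.cut .d (-4096) (.pos 49 .mp ⟨⟨363980440, 0, 0, 0, 0, 181116670, 0, 0, 0, ⟨0, 0⟩, 0⟩, 0, 0⟩ 0 0) (.cut .s 12707840 (.pos 49 .mp ⟨⟨369236164, 0, 0, 0, 0, 163959559, 0, 0, 0, ⟨0, 0⟩, 0⟩, 0, 0⟩ 0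 0) (.pos 49 .mp ⟨⟨370726791, 0, 0, 0, 0, 164695370, 0, 0, 0, ⟨0, 0⟩, 0⟩, 0, 0⟩ 0 0))) (.pos 49 .mp ⟨⟨370029823, 0, 0, 0, 0, 161171285, 0, 0, 0, ⟨0, 0⟩, 0⟩, 0, 0⟩ 0 0)))) (.pos 50 .mp ⟨⟨462090867, 0, 0, 0, 0, 0, 0, 0, 0, ⟨0, 0⟩, 0⟩, 0, 0⟩ 0 0)))) (.pos 40 .mp ⟨⟨465692422, 0, 0, 0, 0, 0, 0, 0, 0, ⟨0, 0⟩, 0⟩, 0, 0⟩ 0 0))) (.pos 38 .mp ⟨⟨464567886, 0, 0, 0, 0, 0, 0, 0, 0, ⟨0, 0⟩, 0⟩, 0, 0⟩ 0 0)) (.void 36 ⟨⟨100000, 0, 0, 0, 0, 0, 0, 0, 0, ⟨0, 0⟩, 0⟩, 0, 0⟩ 0 0))))))) (.void 34 ⟨⟨100000, 0, 0, 0, 0, 0, 0, 0, 0, ⟨0, 0⟩, 0⟩, 0, 0⟩ 0 0))) (.void 32 ⟨⟨100000, 0, 0, 0, 0, 0, 0, 0, 0, ⟨0, 0⟩, 0⟩, 0, 0⟩ 0 0))) (.void 30 ⟨⟨100000, 0, 0, 0, 0, 0,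 0, 0, 0, ⟨0, 0⟩, 0⟩, 0, 0⟩ 0 0))) (.void 28 ⟨⟨100000, 0, 0, 0, 0, 0, 0, 0, 0, ⟨0, 0⟩, 0⟩, 0, 0⟩ 0 0))) (.void 26 ⟨⟨100000, 0, 0, 0, 0, 0, 0, 0, 0, ⟨0, 0⟩, 0⟩, 0, 0⟩ 0 0))) (.void 91 ⟨⟨100000, 0, 0, 0, 0, 0, 0, 0, 0, ⟨0, 0⟩, 0⟩, 0, 0⟩ 0 0)) (.void 98 ⟨⟨100000, 0, 0, 0, 0, 0, 0, 0, 0, ⟨0, 0⟩, 0⟩, 0, 0⟩ 0 0)) (.void 117 ⟨⟨95205, 0, 0, 4433, 0, 0, 339, 0, 0, ⟨0, 0⟩, 0⟩, 0, 0⟩ 0 0))) (.cut .v 16777216 (.cut .v 8388608 (.cut .v 4194304 (.cut .d 2854763 (.pos 4 .pm ⟨⟨0, 0, 556424059, 0, 0, 0, 0, 0, 0, ⟨0, 0⟩, 0⟩, 0, 31972⟩ 0 0) (.cut .v 2097152 (.cut .v 1048576 (.pos 113 .pm ⟨⟨0, 0, 2191926, 0, 0, 0, 0, 0, 0, ⟨0, 0⟩, 0⟩, 0, 8952⟩ 0 0) (.pos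 114 .pm ⟨⟨0, 29653886, 0, 0, 0, 0, 0, 0, 0, ⟨0, 0⟩, 0⟩, 0, 24867⟩ 0 0)) (.cut .d 4282144 (.pos 7 .pm ⟨⟨0, 0, 0, 0, 0, 0, 0, 0, 0, ⟨0, 0⟩, 0⟩, 0, 31972⟩ 0 0) (.cut .d 4995835 (.pos 7 .pm ⟨⟨0, 0, 0, 0, 0, 0, 0, 0, 0, ⟨0, 0⟩, 0⟩, 0, 38587⟩ 0 0) (.pos 7 .pm ⟨⟨0, 132761109, 0, 0, 0, 0, 0, 0, 0, ⟨0, 0⟩, 0⟩, 0, 39000⟩ 0 0))))) (.cut .d 2854763 (.pos 5 .pm ⟨⟨0, 0, 10550218, 0, 0, 0, 0, 0, 0, ⟨0, 0⟩, 0⟩, 0, 0⟩ 0 0) (.cut .d 4282144 (.pos 5 .pm ⟨⟨0, 0, 0, 0, 0, 0, 0, 0, 0, ⟨0, 0⟩, 0⟩, 0, 44761⟩ 0 0) (.cut .d 4995835 (.pos 5 .pm ⟨⟨0, 0, 0, 0, 0, 0, 0, 0, 0, ⟨0, 0⟩, 0⟩, 0, 44761⟩ 0 0) (.pos 5 .pm ⟨⟨0, 178968329, 0, 0, 0, 0, 0, 0, 0, ⟨0, 0⟩, 0⟩,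 0, 54600⟩ 0 0))))) (.cut .d 2854763 (.pos 3 .pm ⟨⟨0, 0, 0, 0, 0, 0, 0, 0, 0, ⟨0, 0⟩, 0⟩, 0, 0⟩ 0 0) (.pos 3 .pm ⟨⟨0, 162000886, 0, 0, 0, 0, 0, 0, 0, ⟨0, 0⟩, 0⟩, 0, 74602⟩ 0 0))) (.cut .v 268435456 (.cut .v 67108864 (.cut .d 2854763 (.cut .d 1427381 (.cut .v 33554432 (.cut .d 713690 (.cut .v 25165824 (.cut .d 356845 (.cut .v 20971520 (.cut .d 178422 (.cut .v 18874368 (.cut .v 17825792 (.cut .s 12615680 (.pos 31 .pp ⟨⟨304713274, 0, 0, 0, 0, 0, 0, 0, 0, ⟨0, 0⟩, 0⟩, 11588024, 0⟩ 0 0) (.pos 31 .pp ⟨⟨327199807, 0, 0, 0, 0, 0, 0, 0, 0, ⟨0, 0⟩, 0⟩, 11991941, 0⟩ 0 0)) (.pos 32 .pp ⟨⟨470545978, 0, 0, 0, 0, 0, 0, 0, 0, ⟨0, 0⟩, 0⟩, 0, 0⟩ 0 0))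 (.pos 30 .pp ⟨⟨566939441, 0, 0, 0, 0, 0, 0, 0, 0, ⟨0, 0⟩, 0⟩, 0, 0⟩ 0 0)) (.pos 27 .pp ⟨⟨0, 0, 0, 0, 0, 0, 0, 0, 0, ⟨0, 0⟩, 0⟩, 40823028, 41478⟩ 0 0)) (.cut .d 178422 (.void 28 ⟨⟨100000, 0, 0, 0, 0, 0, 0, 0, 0, ⟨0, 0⟩, 0⟩, 0, 0⟩ 0 0) (.pos 28 .pp ⟨⟨0, 0, 0, 0, 0, 0, 0, 0, 0, ⟨0, 0⟩, 0⟩, 61874520, 0⟩ 0 0))) (.pos 25 .pp ⟨⟨0, 0, 0, 0, 0, 0, 0, 0, 0, ⟨0, 0⟩, 0⟩, 37730366, 48677⟩ 0 0)) (.pos 26 .pp ⟨⟨0, 0, 0, 0, 0, 0, 0, 0, 0, ⟨0, 0⟩, 0⟩, 94136774, 0⟩ 0 0)) (.pos 24 .pp ⟨⟨0, 0, 0, 0, 0, 0, 0, 0, 0, ⟨0, 0⟩, 0⟩, 34312603, 56632⟩ 0 0)) (.cut .d 713690 (.void 91 ⟨⟨0, 0, 0, 0, 0, 0, 0, 0, 0, ⟨0, 0⟩, 0⟩, 100000, 0⟩ 0 0) (.pos 91 .pp ⟨⟨0, 0, 0,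 0, 0, 0, 0, 0, 0, ⟨0, 0⟩, 0⟩, 105626214, 0⟩ 0 0))) (.pos 90 .pp ⟨⟨0, 0, 0, 0, 0, 0, 0, 0, 0, ⟨0, 0⟩, 0⟩, 17145449, 96592⟩ 0 0)) (.pos 90 .pp ⟨⟨0, 198052590, 0, 0, 0, 0, 0, 0, 0, ⟨0, 0⟩, 0⟩, 0, 111902⟩ 0 0)) (.void 98 ⟨⟨0, 0, 0, 45564, 0, 0, 0, 0, 0, ⟨0, 0⟩, 0⟩, 54436, 0⟩ 0 0)) (.void 117 ⟨⟨0, 0, 0, 0, 0, 0, 0, 0, 0, ⟨0, 0⟩, 0⟩, 100000, 0⟩ 0 0)))),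
    by decide +kernel⟩

def covers21 : cell.Covers Vale.Agent.P237.Petty.Cor.Grid.N15.table row21.1 :=
  ⟨(.cut .d 0 (.cut .v 16777216 (.cut .d (-8388608) (.void 1 ⟨⟨0, 0, 0, 0, 0, 100000, 0, 0, 0, ⟨0, 0⟩, 0⟩, 0, 0⟩ 0 0) (.cut .d (-4194304) (.void 1 ⟨⟨0, 0, 0, 0, 0, 100000, 0, 0, 0, ⟨0, 0⟩, 0⟩, 0, 0⟩ 0 0) (.cut .d (-2097152) (.void 1 ⟨⟨0, 0, 0, 0, 0, 100000, 0, 0, 0, ⟨0, 0⟩, 0⟩, 0, 0⟩ 0 0) (.cut .d (-1048576) (.void 1 ⟨⟨0, 0, 0, 0, 0, 100000, 0, 0, 0, ⟨0, 0⟩, 0⟩, 0, 0⟩ 0 0) (.cut .d (-524288) (.void 1 ⟨⟨0, 0, 0, 0, 0, 100000, 0, 0, 0, ⟨0, 0⟩, 0⟩, 0, 0⟩ 0 0) (.cut .d (-262144) (.void 1 ⟨⟨0, 0, 0, 0, 0, 100000, 0, 0, 0, ⟨0, 0⟩, 0⟩, 0,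 0⟩ 0 0) (.cut .d (-131072) (.void 1 ⟨⟨0, 0, 0, 0, 0, 100000, 0, 0, 0, ⟨0, 0⟩, 0⟩, 0, 0⟩ 0 0) (.cut .d (-65536) (.void 1 ⟨⟨0, 0, 0, 0, 0, 100000, 0, 0, 0, ⟨0, 0⟩, 0⟩, 0, 0⟩ 0 0) (.cut .d (-32768) (.void 1 ⟨⟨0, 0, 0, 0, 0, 100000, 0, 0, 0, ⟨0, 0⟩, 0⟩, 0, 0⟩ 0 0) (.cut .d (-16384) (.void 1 ⟨⟨0, 0, 0, 0, 0, 100000, 0, 0, 0, ⟨0, 0⟩, 0⟩, 0, 0⟩ 0 0) (.cut .v 8388608 (.cut .v 4194304 (.void 4 ⟨⟨0, 0, 100000, 0, 0, 0, 0, 0, 0, ⟨0, 0⟩, 0⟩, 0, 0⟩ 0 0) (.pos 5 .mm ⟨⟨0, 0, 12529653, 0, 0, 281817541, 0, 0, 0, ⟨0, 0⟩, 0⟩, 0, 0⟩ 0 0)) (.cut .s 12845056 (.pos 3 .mm ⟨⟨0, 0, 0, 0, 0, 816624785, 0, 0, 0, ⟨0, 0⟩, 0⟩, 0, 0⟩ 0 0) (.pos 3 .mm ⟨⟨0, 0, 0, 0,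 0, 896432025, 0, 0, 0, ⟨0, 0⟩, 0⟩, 0, 0⟩ 0 0))))))))))))) (.cut .v 268435456 (.cut .v 67108864 (.cut .v 33554432 (.cut .d (-8388608) (.void 24 ⟨⟨99930, 0, 0, 0, 0, 0, 0, 0, 0, ⟨0, 0⟩, 0⟩, 0, 0⟩ 0 0) (.cut .v 25165824 (.cut .d (-4194304) (.void 25 ⟨⟨100000, 0, 0, 0, 0, 0, 0, 0, 0, ⟨0, 0⟩, 0⟩, 0, 0⟩ 0 0) (.cut .v 20971520 (.cut .d (-2097152) (.void 27 ⟨⟨100000, 0, 0, 0, 0, 0, 0, 0, 0, ⟨0, 0⟩, 0⟩, 0, 0⟩ 0 0) (.cut .v 18874368 (.cut .d (-1048576) (.void 29 ⟨⟨100000, 0, 0, 0, 0, 0, 0, 0, 0, ⟨0, 0⟩, 0⟩, 0, 0⟩ 0 0) (.cut .v 17825792 (.cut .d (-524288) (.void 31 ⟨⟨100000, 0, 0, 0, 0, 0, 0, 0, 0, ⟨0, 0⟩, 0⟩, 0, 0⟩ 0 0) (.cut .d (-262144) (.void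 31 ⟨⟨100000, 0, 0, 0, 0, 0, 0, 0, 0, ⟨0, 0⟩, 0⟩, 0, 0⟩ 0 0) (.cut .d (-131072) (.void 31 ⟨⟨100000, 0, 0, 0, 0, 0, 0, 0, 0, ⟨0, 0⟩, 0⟩, 0, 0⟩ 0 0) (.cut .d (-65536) (.void 31 ⟨⟨100000, 0, 0, 0, 0, 0, 0, 0, 0, ⟨0, 0⟩, 0⟩, 0, 0⟩ 0 0) (.cut .d (-32768) (.void 31 ⟨⟨100000, 0, 0, 0, 0, 0, 0, 0, 0, ⟨0, 0⟩, 0⟩, 0, 0⟩ 0 0) (.cut .d (-16384) (.void 31 ⟨⟨0, 0, 0, 0, 0, 100000, 0, 0, 0, ⟨0, 0⟩, 0⟩, 0, 0⟩ 0 0) (.cut .v 17301504 (.cut .v 17039360 (.cut .v 16908288 (.cut .s 12845056 (.cut .s 12779520 (.cut .v 16842752 (.cut .d (-8192) (.cut .d (-12288) (.void 39 ⟨⟨0, 0, 0, 0, 0, 100000, 0, 0, 0, ⟨0, 0⟩, 0⟩, 0, 0⟩ 0 0) (.cut .l 123033 (.void 39 ⟨⟨0,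 0, 0, 0, 0, 100000, 0, 0, 0, ⟨0, 0⟩, 0⟩, 0, 0⟩ 0 0) (.cut .l 184549 (.pos 39 .mp ⟨⟨379369024, 0, 0, 0, 0, 192457190, 0, 0, 0, ⟨0, 0⟩, 0⟩, 0, 0⟩ 0 0) (.cut .s 12746752 (.cut .s 12730368 (.pos 39 .mp ⟨⟨367574862, 0, 0, 0, 0, 182955051, 0, 0, 0, ⟨0, 0⟩, 0⟩, 0, 0⟩ 0 0) (.pos 39 .mp ⟨⟨371567030, 0, 0, 0, 0, 184792831, 0, 0, 0, ⟨0, 0⟩, 0⟩, 0, 0⟩ 0 0)) (.cut .s 12763136 (.pos 39 .mp ⟨⟨375606962, 0, 0, 0, 0, 186691578, 0, 0, 0, ⟨0, 0⟩, 0⟩, 0, 0⟩ 0 0) (.pos 39 .mp ⟨⟨379695216, 0, 0, 0, 0, 188650590, 0, 0, 0, ⟨0, 0⟩, 0⟩, 0, 0⟩ 0 0)))))) (.cut .s 12746752 (.cut .v 16809984 (.cut .s 12730368 (.cut .l 123033 (.cut .d (-4096) (.pos 49 .mp ⟨⟨366927250,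 0, 0, 0, 0, 184766092, 0, 0, 0, ⟨0, 0⟩, 0⟩, 0, 0⟩ 0 0) (.cut .v 16793600 (.cut .l 61516 (.cut .d (-2048) (.pos 55 .mp ⟨⟨366606225, 0, 0, 0, 0, 184423941, 0, 0, 0, ⟨0, 0⟩, 0⟩, 0, 0⟩ 0 0) (.cut .s 12722176 (.pos 55 .mp ⟨⟨370410429, 0, 0, 0, 0, 168796645, 0, 0, 0, ⟨0, 0⟩, 0⟩, 0, 0⟩ 0 0) (.pos 55 .mp ⟨⟨372480673, 0, 0, 0, 0, 169458373, 0, 0, 0, ⟨0, 0⟩, 0⟩, 0, 0⟩ 0 0))) (.pos 55 .mp ⟨⟨372137377, 0, 0, 0, 0, 164228836, 0, 0, 0, ⟨0, 0⟩, 0⟩, 0, 0⟩ 0 0)) (.pos 56 .mp ⟨⟨469315090, 0, 0, 0, 0, 0, 0, 0, 0, ⟨0, 0⟩, 0⟩, 0, 0⟩ 0 0))) (.pos 49 .mp ⟨⟨374050265, 0, 0, 0, 0, 161871570, 0, 0, 0, ⟨0, 0⟩, 0⟩, 0, 0⟩ 0 0)) (.cut .l 123033 (.cut .d (-4096)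 (.pos 49 .mp ⟨⟨370894557, 0, 0, 0, 0, 186485438, 0, 0, 0, ⟨0, 0⟩, 0⟩, 0, 0⟩ 0 0) (.cut .v 16793600 (.cut .l 61516 (.cut .d (-2048) (.pos 55 .mp ⟨⟨370561147, 0, 0, 0, 0, 186155564, 0, 0, 0, ⟨0, 0⟩, 0⟩, 0, 0⟩ 0 0) (.cut .s 12738560 (.pos 55 .mp ⟨⟨374485695, 0, 0, 0, 0, 170287435, 0, 0, 0, ⟨0, 0⟩, 0⟩, 0, 0⟩ 0 0) (.pos 55 .mp ⟨⟨376502703, 0, 0, 0, 0, 171133852, 0, 0, 0, ⟨0, 0⟩, 0⟩, 0, 0⟩ 0 0))) (.pos 55 .mp ⟨⟨376164976, 0, 0, 0, 0, 166000731, 0, 0, 0, ⟨0, 0⟩, 0⟩, 0, 0⟩ 0 0)) (.pos 56 .mp ⟨⟨474121063, 0, 0, 0, 0, 0, 0, 0, 0, ⟨0, 0⟩, 0⟩, 0, 0⟩ 0 0))) (.pos 49 .mp ⟨⟨378115865, 0, 0, 0, 0, 163591465, 0, 0, 0, ⟨0, 0⟩, 0⟩, 0, 0⟩ 0 0))) (.pos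 50 .mp ⟨⟨473672130, 0, 0, 0, 0, 0, 0, 0, 0, ⟨0, 0⟩, 0⟩, 0, 0⟩ 0 0)) (.cut .v 16809984 (.cut .s 12763136 (.cut .l 123033 (.cut .d (-4096) (.pos 49 .mp ⟨⟨374909307, 0, 0, 0, 0, 188298520, 0, 0, 0, ⟨0, 0⟩, 0⟩, 0, 0⟩ 0 0) (.cut .v 16793600 (.cut .l 61516 (.cut .d (-2048) (.pos 55 .mp ⟨⟨374563352, 0, 0, 0, 0, 187981051, 0, 0, 0, ⟨0, 0⟩, 0⟩, 0, 0⟩ 0 0) (.cut .v 16785408 (.cut .s 12754944 (.pos 57 .mp ⟨⟨378188492, 0, 0, 0, 0, 172572462, 0, 0, 0, ⟨0, 0⟩, 0⟩, 0, 0⟩ 0 0) (.cut .s 12759040 (.pos 57 .mp ⟨⟨382659619, 0, 0, 0, 0, 168630556, 0, 0, 0, ⟨0, 0⟩, 0⟩, 0, 0⟩ 0 0) (.pos 57 .mp ⟨⟨383589222, 0, 0, 0, 0, 169228444, 0, 0, 0, ⟨0, 0⟩, 0⟩, 0, 0⟩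 0 0))) (.pos 58 .mp ⟨⟨478754166, 0, 0, 0, 0, 0, 0, 0, 0, ⟨0, 0⟩, 0⟩, 0, 0⟩ 0 0))) (.pos 55 .mp ⟨⟨380240876, 0, 0, 0, 0, 167809676, 0, 0, 0, ⟨0, 0⟩, 0⟩, 0, 0⟩ 0 0)) (.pos 56 .mp ⟨⟨479024811, 0, 0, 0, 0, 0, 0, 0, 0, ⟨0, 0⟩, 0⟩, 0, 0⟩ 0 0))) (.cut .s 12754944 (.pos 49 .mp ⟨⟨380166979, 0, 0, 0, 0, 167416133, 0, 0, 0, ⟨0, 0⟩, 0⟩, 0, 0⟩ 0 0) (.pos 49 .mp ⟨⟨382230397, 0, 0, 0, 0, 168321178, 0, 0, 0, ⟨0, 0⟩, 0⟩, 0, 0⟩ 0 0))) (.cut .s 12771328 (.cut .l 123033 (.cut .d (-4096) (.pos 49 .mp ⟨⟨378972055, 0, 0, 0, 0, 186117725, 0, 0, 0, ⟨0, 0⟩, 0⟩, 0, 0⟩ 0 0) (.cut .s 12767232 (.pos 49 .mp ⟨⟨383863135, 0, 0, 0, 0, 170963153, 0, 0, 0, ⟨0, 0⟩, 0⟩,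 0, 0⟩ 0 0) (.pos 49 .mp ⟨⟨384935877, 0, 0, 0, 0, 171335727, 0, 0, 0, ⟨0, 0⟩, 0⟩, 0, 0⟩ 0 0))) (.pos 49 .mp ⟨⟨384306191, 0, 0, 0, 0, 169234858, 0, 0, 0, ⟨0, 0⟩, 0⟩, 0, 0⟩ 0 0)) (.cut .l 123033 (.cut .d (-4096) (.pos 49 .mp ⟨⟨381021604, 0, 0, 0, 0, 187070036, 0, 0, 0, ⟨0, 0⟩, 0⟩, 0, 0⟩ 0 0) (.cut .s 12775424 (.pos 49 .mp ⟨⟨386003304, 0, 0, 0, 0, 171728938, 0, 0, 0, ⟨0, 0⟩, 0⟩, 0, 0⟩ 0 0) (.pos 49 .mp ⟨⟨387046099, 0, 0, 0, 0, 172180440, 0, 0, 0, ⟨0, 0⟩, 0⟩, 0, 0⟩ 0 0))) (.pos 49 .mp ⟨⟨386394434, 0, 0, 0, 0, 170156967, 0, 0, 0, ⟨0, 0⟩, 0⟩, 0, 0⟩ 0 0)))) (.pos 50 .mp ⟨⟨483536466, 0, 0, 0, 0, 0, 0, 0, 0, ⟨0, 0⟩, 0⟩, 0, 0⟩ 0 0)))) (.pos 40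 .mp ⟨⟨491840152, 0, 0, 0, 0, 0, 0, 0, 0, ⟨0, 0⟩, 0⟩, 0, 0⟩ 0 0)) (.cut .v 16842752 (.cut .d (-8192) (.cut .l 123033 (.void 39 ⟨⟨0, 0, 0, 0, 0, 100000, 0, 0, 0, ⟨0, 0⟩, 0⟩, 0, 0⟩ 0 0) (.cut .d (-12288) (.void 39 ⟨⟨0, 0, 0, 0, 0, 100000, 0, 0, 0, ⟨0, 0⟩, 0⟩, 0, 0⟩ 0 0) (.cut .l 184549 (.void 39 ⟨⟨0, 0, 0, 0, 0, 100000, 0, 0, 0, ⟨0, 0⟩, 0⟩, 0, 0⟩ 0 0) (.cut .s 12812288 (.cut .s 12795904 (.pos 39 .mp ⟨⟨383832361, 0, 0, 0, 0, 190669146, 0, 0, 0, ⟨0, 0⟩, 0⟩, 0, 0⟩ 0 0) (.pos 39 .mp ⟨⟨388018975, 0, 0, 0, 0, 192746508, 0, 0, 0, ⟨0, 0⟩, 0⟩, 0, 0⟩ 0 0)) (.cut .s 12828672 (.pos 39 .mp ⟨⟨392255646, 0, 0, 0, 0, 194881915, 0, 0, 0, ⟨0, 0⟩, 0⟩, 0,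 0⟩ 0 0) (.pos 39 .mp ⟨⟨396542971, 0, 0, 0, 0, 197074592, 0, 0, 0, ⟨0, 0⟩, 0⟩, 0, 0⟩ 0 0)))))) (.cut .s 12812288 (.cut .v 16809984 (.cut .s 12795904 (.cut .s 12787712 (.cut .l 123033 (.cut .d (-4096) (.pos 49 .mp ⟨⟨383083365, 0, 0, 0, 0, 188046433, 0, 0, 0, ⟨0, 0⟩, 0⟩, 0, 0⟩ 0 0) (.cut .s 12783616 (.pos 49 .mp ⟨⟨388092014, 0, 0, 0, 0, 172636195, 0, 0, 0, ⟨0, 0⟩, 0⟩, 0, 0⟩ 0 0) (.pos 49 .mp ⟨⟨389141059, 0, 0, 0, 0, 173096199, 0, 0, 0, ⟨0, 0⟩, 0⟩, 0, 0⟩ 0 0))) (.pos 49 .mp ⟨⟨388495200, 0, 0, 0, 0, 171087295, 0, 0, 0, ⟨0, 0⟩, 0⟩, 0, 0⟩ 0 0)) (.cut .l 123033 (.cut .d (-4096) (.pos 49 .mp ⟨⟨385157411, 0, 0, 0, 0, 189047080, 0, 0, 0, ⟨0, 0⟩,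 0⟩, 0, 0⟩ 0 0) (.cut .s 12791808 (.pos 49 .mp ⟨⟨390193243, 0, 0, 0, 0, 173560448, 0, 0, 0, ⟨0, 0⟩, 0⟩, 0, 0⟩ 0 0) (.pos 49 .mp ⟨⟨391248575, 0, 0, 0, 0, 174028938, 0, 0, 0, ⟨0, 0⟩, 0⟩, 0, 0⟩ 0 0))) (.pos 49 .mp ⟨⟨390608562, 0, 0, 0, 0, 172025634, 0, 0, 0, ⟨0, 0⟩, 0⟩, 0, 0⟩ 0 0))) (.cut .s 12804096 (.cut .l 123033 (.cut .d (-4096) (.pos 49 .mp ⟨⟨387243813, 0, 0, 0, 0, 190072141, 0, 0, 0, ⟨0, 0⟩, 0⟩, 0, 0⟩ 0 0) (.cut .s 12800000 (.pos 49 .mp ⟨⟨392307064, 0, 0, 0, 0, 174501664, 0, 0, 0, ⟨0, 0⟩, 0⟩, 0, 0⟩ 0 0) (.pos 49 .mp ⟨⟨393368721, 0, 0, 0, 0, 174978623, 0, 0, 0, ⟨0, 0⟩, 0⟩, 0, 0⟩ 0 0))) (.pos 49 .mp ⟨⟨392734596, 0, 0, 0, 0, 172971771,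 0, 0, 0, ⟨0, 0⟩, 0⟩, 0, 0⟩ 0 0)) (.cut .l 123033 (.cut .d (-4096) (.pos 49 .mp ⟨⟨389342646, 0, 0, 0, 0, 191121782, 0, 0, 0, ⟨0, 0⟩, 0⟩, 0, 0⟩ 0 0) (.cut .s 12808192 (.pos 49 .mp ⟨⟨394433553, 0, 0, 0, 0, 175459809, 0, 0, 0, ⟨0, 0⟩, 0⟩, 0, 0⟩ 0 0) (.pos 49 .mp ⟨⟨395501572, 0, 0, 0, 0, 175945220, 0, 0, 0, ⟨0, 0⟩, 0⟩, 0, 0⟩ 0 0))) (.pos 49 .mp ⟨⟨394873376, 0, 0, 0, 0, 173925496, 0, 0, 0, ⟨0, 0⟩, 0⟩, 0, 0⟩ 0 0)))) (.pos 50 .mp ⟨⟨493798321, 0, 0, 0, 0, 0, 0, 0, 0, ⟨0, 0⟩, 0⟩, 0, 0⟩ 0 0)) (.cut .v 16809984 (.cut .s 12828672 (.cut .s 12820480 (.cut .l 123033 (.cut .d (-4096) (.pos 49 .mp ⟨⟨391453982, 0, 0, 0, 0, 192196170, 0, 0, 0, ⟨0, 0⟩,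 0⟩, 0, 0⟩ 0 0) (.cut .s 12816384 (.pos 49 .mp ⟨⟨396572785, 0, 0, 0, 0, 176434849, 0, 0, 0, ⟨0, 0⟩, 0⟩, 0, 0⟩ 0 0) (.pos 49 .mp ⟨⟨397647203, 0, 0, 0, 0, 176928693, 0, 0, 0, ⟨0, 0⟩, 0⟩, 0, 0⟩ 0 0))) (.pos 49 .mp ⟨⟨397024979, 0, 0, 0, 0, 174886595, 0, 0, 0, ⟨0, 0⟩, 0⟩, 0, 0⟩ 0 0)) (.cut .l 123033 (.cut .d (-4096) (.pos 49 .mp ⟨⟨393577896, 0, 0, 0, 0, 193295474, 0, 0, 0, ⟨0, 0⟩, 0⟩, 0, 0⟩ 0 0) (.cut .s 12824576 (.pos 49 .mp ⟨⟨398724835, 0, 0, 0, 0, 177426746, 0, 0, 0, ⟨0, 0⟩, 0⟩, 0, 0⟩ 0 0) (.pos 49 .mp ⟨⟨399805692, 0, 0, 0, 0, 177929005, 0, 0, 0, ⟨0, 0⟩, 0⟩, 0, 0⟩ 0 0))) (.pos 49 .mp ⟨⟨399189480, 0, 0, 0, 0, 175854855, 0, 0, 0, ⟨0, 0⟩,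 0⟩, 0, 0⟩ 0 0))) (.cut .s 12836864 (.cut .l 123033 (.cut .d (-4096) (.pos 49 .mp ⟨⟨395714464, 0, 0, 0, 0, 194419863, 0, 0, 0, ⟨0, 0⟩, 0⟩, 0, 0⟩ 0 0) (.cut .s 12832768 (.pos 49 .mp ⟨⟨400889781, 0, 0, 0, 0, 178435465, 0, 0, 0, ⟨0, 0⟩, 0⟩, 0, 0⟩ 0 0) (.pos 49 .mp ⟨⟨401977114, 0, 0, 0, 0, 178946120, 0, 0, 0, ⟨0, 0⟩, 0⟩, 0, 0⟩ 0 0))) (.pos 49 .mp ⟨⟨401366957, 0, 0, 0, 0, 176830060, 0, 0, 0, ⟨0, 0⟩, 0⟩, 0, 0⟩ 0 0)) (.cut .l 123033 (.cut .d (-4096) (.pos 49 .mp ⟨⟨397863761, 0, 0, 0, 0, 195569510, 0, 0, 0, ⟨0, 0⟩, 0⟩, 0, 0⟩ 0 0) (.cut .s 12840960 (.pos 49 .mp ⟨⟨403067699, 0, 0, 0, 0, 179460967, 0, 0, 0, ⟨0, 0⟩, 0⟩, 0, 0⟩ 0 0) (.pos 49 .mp ⟨⟨404161548,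 0, 0, 0, 0, 179979999, 0, 0, 0, ⟨0, 0⟩, 0⟩, 0, 0⟩ 0 0))) (.pos 49 .mp ⟨⟨403557488, 0, 0, 0, 0, 177811994, 0, 0, 0, ⟨0, 0⟩, 0⟩, 0, 0⟩ 0 0)))) (.pos 50 .mp ⟨⟨504466731, 0, 0, 0, 0, 0, 0, 0, 0, ⟨0, 0⟩, 0⟩, 0, 0⟩ 0 0)))) (.pos 40 .mp ⟨⟨512923284, 0, 0, 0, 0, 0, 0, 0, 0, ⟨0, 0⟩, 0⟩, 0, 0⟩ 0 0))) (.cut .s 12910592 (.cut .v 16842752 (.cut .d (-8192) (.cut .d (-12288) (.void 39 ⟨⟨0, 0, 0, 0, 0, 100000, 0, 0, 0, ⟨0, 0⟩, 0⟩, 0, 0⟩ 0 0) (.cut .d (-10240) (.pos 39 .mp ⟨⟨405232084, 0, 0, 0, 0, 227110576, 0, 0, 0, ⟨0, 0⟩, 0⟩, 0, 0⟩ 0 0) (.cut .l 123033 (.void 39 ⟨⟨100000, 0, 0, 0, 0, 0, 0, 0, 0, ⟨0, 0⟩, 0⟩, 0, 0⟩ 0 0) (.cut .l 184549 (.void 39 ⟨⟨0,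 0, 0, 0, 0, 100000, 0, 0, 0, ⟨0, 0⟩, 0⟩, 0, 0⟩ 0 0) (.cut .s 12877824 (.cut .s 12861440 (.pos 39 .mp ⟨⟨409159834, 0, 0, 0, 0, 176037166, 0, 0, 0, ⟨0, 0⟩, 0⟩, 0, 0⟩ 0 0) (.pos 39 .mp ⟨⟨405272022, 0, 0, 0, 0, 201101472, 0, 0, 0, ⟨0, 0⟩, 0⟩, 0, 0⟩ 0 0)) (.cut .s 12894208 (.pos 39 .mp ⟨⟨409714993, 0, 0, 0, 0, 203481190, 0, 0, 0, ⟨0, 0⟩, 0⟩, 0, 0⟩ 0 0) (.pos 39 .mp ⟨⟨414211111, 0, 0, 0, 0, 205927947, 0, 0, 0, ⟨0, 0⟩, 0⟩, 0, 0⟩ 0 0))))))) (.cut .s 12877824 (.cut .v 16809984 (.cut .s 12861440 (.cut .s 12853248 (.cut .l 123033 (.cut .d (-4096) (.pos 49 .mp ⟨⟨400025864, 0, 0, 0, 0, 196744587, 0, 0, 0, ⟨0, 0⟩, 0⟩, 0, 0⟩ 0 0) (.cut .s 12849152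 (.pos 49 .mp ⟨⟨405258668, 0, 0, 0, 0, 180503213, 0, 0, 0, ⟨0, 0⟩, 0⟩, 0, 0⟩ 0 0) (.pos 49 .mp ⟨⟨406359071, 0, 0, 0, 0, 181030603, 0, 0, 0, ⟨0, 0⟩, 0⟩, 0, 0⟩ 0 0))) (.pos 49 .mp ⟨⟨405761152, 0, 0, 0, 0, 178800439, 0, 0, 0, ⟨0, 0⟩, 0⟩, 0, 0⟩ 0 0)) (.cut .l 123033 (.cut .d (-4096) (.pos 49 .mp ⟨⟨402200849, 0, 0, 0, 0, 197945267, 0, 0, 0, ⟨0, 0⟩, 0⟩, 0, 0⟩ 0 0) (.cut .s 12857344 (.pos 49 .mp ⟨⟨407462765, 0, 0, 0, 0, 181562164, 0, 0, 0, ⟨0, 0⟩, 0⟩, 0, 0⟩ 0 0) (.pos 49 .mp ⟨⟨408569762, 0, 0, 0, 0, 182097891, 0, 0, 0, ⟨0, 0⟩, 0⟩, 0, 0⟩ 0 0))) (.pos 49 .mp ⟨⟨407978026, 0, 0, 0, 0, 179795177, 0, 0, 0, ⟨0, 0⟩, 0⟩, 0, 0⟩ 0 0))) (.cut .s 12869632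 (.cut .l 123033 (.cut .d (-4096) (.pos 49 .mp ⟨⟨404388794, 0, 0, 0, 0, 199171728, 0, 0, 0, ⟨0, 0⟩, 0⟩, 0, 0⟩ 0 0) (.cut .s 12865536 (.pos 49 .mp ⟨⟨409680071, 0, 0, 0, 0, 182637778, 0, 0, 0, ⟨0, 0⟩, 0⟩, 0, 0⟩ 0 0) (.pos 49 .mp ⟨⟨410793702, 0, 0, 0, 0, 183181821, 0, 0, 0, ⟨0, 0⟩, 0⟩, 0, 0⟩ 0 0))) (.pos 49 .mp ⟨⟨410208192, 0, 0, 0, 0, 180795987, 0, 0, 0, ⟨0, 0⟩, 0⟩, 0, 0⟩ 0 0)) (.cut .l 123033 (.cut .d (-4096) (.pos 49 .mp ⟨⟨406589778, 0, 0, 0, 0, 200424145, 0, 0, 0, ⟨0, 0⟩, 0⟩, 0, 0⟩ 0 0) (.cut .s 12873728 (.pos 49 .mp ⟨⟨411890693, 0, 0, 0, 0, 183769053, 0, 0, 0, ⟨0, 0⟩, 0⟩, 0, 0⟩ 0 0) (.pos 49 .mp ⟨⟨412970645, 0, 0, 0, 0, 184400284,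 0, 0, 0, ⟨0, 0⟩, 0⟩, 0, 0⟩ 0 0))) (.pos 49 .mp ⟨⟨412451730, 0, 0, 0, 0, 181802650, 0, 0, 0, ⟨0, 0⟩, 0⟩, 0, 0⟩ 0 0)))) (.pos 50 .mp ⟨⟨515551038, 0, 0, 0, 0, 0, 0, 0, 0, ⟨0, 0⟩, 0⟩, 0, 0⟩ 0 0)) (.cut .v 16809984 (.cut .s 12894208 (.cut .s 12886016 (.cut .l 123033 (.cut .d (-4096) (.pos 49 .mp ⟨⟨408803879, 0, 0, 0, 0, 201702698, 0, 0, 0, ⟨0, 0⟩, 0⟩, 0, 0⟩ 0 0) (.cut .s 12881920 (.pos 49 .mp ⟨⟨414050436, 0, 0, 0, 0, 185042548, 0, 0, 0, ⟨0, 0⟩, 0⟩, 0, 0⟩ 0 0) (.pos 49 .mp ⟨⟨415130029, 0, 0, 0, 0, 185695931, 0, 0, 0, ⟨0, 0⟩, 0⟩, 0, 0⟩ 0 0))) (.pos 49 .mp ⟨⟨414708720, 0, 0, 0, 0, 182814942, 0, 0, 0, ⟨0, 0⟩, 0⟩, 0, 0⟩ 0 0)) (.cut .d (-4096)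 (.pos 49 .mp ⟨⟨411857947, 0, 0, 0, 0, 197973773, 0, 0, 0, ⟨0, 0⟩, 0⟩, 0, 0⟩ 0 0) (.cut .s 12890112 (.pos 49 .mp ⟨⟨416123737, 0, 0, 0, 0, 186764924, 0, 0, 0, ⟨0, 0⟩, 0⟩, 0, 0⟩ 0 0) (.pos 49 .mp ⟨⟨417363159, 0, 0, 0, 0, 187170393, 0, 0, 0, ⟨0, 0⟩, 0⟩, 0, 0⟩ 0 0)))) (.cut .l 123033 (.cut .d (-4096) (.pos 49 .mp ⟨⟨413271753, 0, 0, 0, 0, 209050067, 0, 0, 0, ⟨0, 0⟩, 0⟩, 0, 0⟩ 0 0) (.cut .v 16793600 (.cut .l 61516 (.cut .d (-2048) (.pos 55 .mp ⟨⟨412805414, 0, 0, 0, 0, 208850320, 0, 0, 0, ⟨0, 0⟩, 0⟩, 0, 0⟩ 0 0) (.cut .s 12902400 (.pos 55 .mp ⟨⟨417199839, 0, 0, 0, 0, 190472053, 0, 0, 0, ⟨0, 0⟩, 0⟩, 0, 0⟩ 0 0) (.pos 55 .mp ⟨⟨419472069, 0, 0,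 0, 0, 191658713, 0, 0, 0, ⟨0, 0⟩, 0⟩, 0, 0⟩ 0 0))) (.pos 55 .mp ⟨⟨419194534, 0, 0, 0, 0, 185482623, 0, 0, 0, ⟨0, 0⟩, 0⟩, 0, 0⟩ 0 0)) (.pos 56 .mp ⟨⟨527745631, 0, 0, 0, 0, 0, 0, 0, 0, ⟨0, 0⟩, 0⟩, 0, 0⟩ 0 0))) (.pos 49 .mp ⟨⟨421561228, 0, 0, 0, 0, 182500312, 0, 0, 0, ⟨0, 0⟩, 0⟩, 0, 0⟩ 0 0))) (.pos 50 .mp ⟨⟨527060899, 0, 0, 0, 0, 0, 0, 0, 0, ⟨0, 0⟩, 0⟩, 0, 0⟩ 0 0)))) (.pos 40 .mp ⟨⟨535086483, 0, 0, 0, 0, 0, 0, 0, 0, ⟨0, 0⟩, 0⟩, 0, 0⟩ 0 0)) (.cut .v 16842752 (.cut .d (-8192) (.cut .s 12943360 (.cut .s 12926976 (.pos 39 .mp ⟨⟨418761023, 0, 0, 0, 0, 212233818, 0, 0, 0, ⟨0, 0⟩, 0⟩, 0, 0⟩ 0 0) (.pos 39 .mp ⟨⟨423365391, 0, 0, 0, 0, 215138134,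 0, 0, 0, ⟨0, 0⟩, 0⟩, 0, 0⟩ 0 0)) (.pos 39 .mp ⟨⟨428024887, 0, 0, 0, 0, 228176216, 0, 0, 0, ⟨0, 0⟩, 0⟩, 0, 0⟩ 0 0)) (.cut .s 12943360 (.cut .v 16809984 (.cut .s 12926976 (.cut .l 123033 (.cut .d (-4096) (.pos 49 .mp ⟨⟨417793062, 0, 0, 0, 0, 211873605, 0, 0, 0, ⟨0, 0⟩, 0⟩, 0, 0⟩ 0 0) (.cut .v 16793600 (.cut .l 61516 (.cut .d (-2048) (.pos 55 .mp ⟨⟨417312477, 0, 0, 0, 0, 211687644, 0, 0, 0, ⟨0, 0⟩, 0⟩, 0, 0⟩ 0 0) (.cut .s 12918784 (.pos 55 .mp ⟨⟨421757884, 0, 0, 0, 0, 192861970, 0, 0, 0, ⟨0, 0⟩, 0⟩, 0, 0⟩ 0 0) (.pos 55 .mp ⟨⟨424000764, 0, 0, 0, 0, 194192613, 0, 0, 0, ⟨0, 0⟩, 0⟩, 0, 0⟩ 0 0))) (.pos 55 .mp ⟨⟨423786326, 0, 0, 0, 0, 187569489,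 0, 0, 0, ⟨0, 0⟩, 0⟩, 0, 0⟩ 0 0)) (.pos 56 .mp ⟨⟨533690606, 0, 0, 0, 0, 0, 0, 0, 0, ⟨0, 0⟩, 0⟩, 0, 0⟩ 0 0))) (.pos 49 .mp ⟨⟨426198349, 0, 0, 0, 0, 184524211, 0, 0, 0, ⟨0, 0⟩, 0⟩, 0, 0⟩ 0 0)) (.cut .l 123033 (.cut .d (-4096) (.pos 49 .mp ⟨⟨422368460, 0, 0, 0, 0, 214805990, 0, 0, 0, ⟨0, 0⟩, 0⟩, 0, 0⟩ 0 0) (.cut .s 12935168 (.cut .s 12931072 (.pos 49 .mp ⟨⟨428412599, 0, 0, 0, 0, 191161464, 0, 0, 0, ⟨0, 0⟩, 0⟩, 0, 0⟩ 0 0) (.pos 49 .mp ⟨⟨429739955, 0, 0, 0, 0, 191515794, 0, 0, 0, ⟨0, 0⟩, 0⟩, 0, 0⟩ 0 0)) (.pos 49 .mp ⟨⟨431418772, 0, 0, 0, 0, 192118047, 0, 0, 0, ⟨0, 0⟩, 0⟩, 0, 0⟩ 0 0))) (.pos 49 .mp ⟨⟨430891287, 0, 0, 0, 0, 186565143, 0, 0,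 0, ⟨0, 0⟩, 0⟩, 0, 0⟩ 0 0))) (.pos 50 .mp ⟨⟨539006303, 0, 0, 0, 0, 0, 0, 0, 0, ⟨0, 0⟩, 0⟩, 0, 0⟩ 0 0)) (.cut .v 16809984 (.cut .s 12959744 (.cut .l 123033 (.cut .d (-4096) (.pos 49 .mp ⟨⟨426998617, 0, 0, 0, 0, 217848736, 0, 0, 0, ⟨0, 0⟩, 0⟩, 0, 0⟩ 0 0) (.cut .s 12951552 (.pos 49 .mp ⟨⟨433779716, 0, 0, 0, 0, 193352926, 0, 0, 0, ⟨0, 0⟩, 0⟩, 0, 0⟩ 0 0) (.pos 49 .mp ⟨⟨436154828, 0, 0, 0, 0, 194603871, 0, 0, 0, ⟨0, 0⟩, 0⟩, 0, 0⟩ 0 0))) (.pos 49 .mp ⟨⟨435640735, 0, 0, 0, 0, 188621256, 0, 0, 0, ⟨0, 0⟩, 0⟩, 0, 0⟩ 0 0)) (.cut .l 123033 (.cut .d (-4096) (.pos 49 .mp ⟨⟨431684211, 0, 0, 0, 0, 221003383, 0, 0, 0, ⟨0, 0⟩, 0⟩, 0, 0⟩ 0 0) (.cut .s 12967936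 (.pos 49 .mp ⟨⟨438544197, 0, 0, 0, 0, 195870827, 0, 0, 0, ⟨0, 0⟩, 0⟩, 0, 0⟩ 0 0) (.pos 49 .mp ⟨⟨440850021, 0, 0, 0, 0, 197345722, 0, 0, 0, ⟨0, 0⟩, 0⟩, 0, 0⟩ 0 0))) (.pos 49 .mp ⟨⟨440447396, 0, 0, 0, 0, 190690674, 0, 0, 0, ⟨0, 0⟩, 0⟩, 0, 0⟩ 0 0))) (.pos 50 .mp ⟨⟨551397580, 0, 0, 0, 0, 0, 0, 0, 0, ⟨0, 0⟩, 0⟩, 0, 0⟩ 0 0)))) (.pos 40 .mp ⟨⟨558294029, 0, 0, 0, 0, 0, 0, 0, 0, ⟨0, 0⟩, 0⟩, 0, 0⟩ 0 0)))) (.pos 38 .mp ⟨⟨546910643, 0, 0, 0, 0, 0, 0, 0, 0, ⟨0, 0⟩, 0⟩, 0, 0⟩ 0 0)) (.void 36 ⟨⟨100000, 0, 0, 0, 0, 0, 0, 0, 0, ⟨0, 0⟩, 0⟩, 0, 0⟩ 0 0)) (.void 34 ⟨⟨100000, 0, 0, 0, 0, 0, 0, 0, 0, ⟨0, 0⟩, 0⟩, 0, 0⟩ 0 0)))))))) (.void 32 ⟨⟨100000, 0, 0,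 0, 0, 0, 0, 0, 0, ⟨0, 0⟩, 0⟩, 0, 0⟩ 0 0))) (.void 30 ⟨⟨100000, 0, 0, 0, 0, 0, 0, 0, 0, ⟨0, 0⟩, 0⟩, 0, 0⟩ 0 0))) (.void 28 ⟨⟨100000, 0, 0, 0, 0, 0, 0, 0, 0, ⟨0, 0⟩, 0⟩, 0, 0⟩ 0 0))) (.void 26 ⟨⟨100000, 0, 0, 0, 0, 0, 0, 0, 0, ⟨0, 0⟩, 0⟩, 0, 0⟩ 0 0))) (.void 91 ⟨⟨100000, 0, 0, 0, 0, 0, 0, 0, 0, ⟨0, 0⟩, 0⟩, 0, 0⟩ 0 0)) (.void 98 ⟨⟨100000, 0, 0, 0, 0, 0, 0, 0, 0, ⟨0, 0⟩, 0⟩, 0, 0⟩ 0 0)) (.void 117 ⟨⟨94031, 0, 0, 4426, 0, 0, 0, 0, 0, ⟨0, 0⟩, 0⟩, 0, 0⟩ 0 0))) (.cut .v 16777216 (.cut .v 8388608 (.cut .v 4194304 (.cut .d 2680896 (.pos 4 .pm ⟨⟨0, 0, 627704574, 0, 0, 0, 0, 0, 0, ⟨0, 0⟩, 0⟩, 0, 23922⟩ 0 0) (.cut .v 2097152 (.cut .v 1048576 (.cut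 .v 524288 (.pos 122 .pm ⟨⟨0, 0, 11020662, 0, 0, 0, 0, 0, 0, ⟨0, 0⟩, 0⟩, 0, 3417⟩ 0 0) (.pos 123 .pm ⟨⟨0, 13621484, 0, 0, 0, 0, 0, 0, 0, ⟨0, 0⟩, 0⟩, 0, 9850⟩ 0 0)) (.pos 114 .pm ⟨⟨0, 40842167, 0, 0, 0, 0, 0, 0, 0, ⟨0, 0⟩, 0⟩, 0, 18606⟩ 0 0)) (.cut .d 4021344 (.pos 7 .pm ⟨⟨0, 0, 0, 0, 0, 0, 0, 0, 0, ⟨0, 0⟩, 0⟩, 0, 18606⟩ 0 0) (.cut .d 4691568 (.pos 7 .pm ⟨⟨0, 0, 0, 0, 0, 0, 0, 0, 0, ⟨0, 0⟩, 0⟩, 0, 28872⟩ 0 0) (.cut .d 5026680 (.cut .d 4859124 (.pos 7 .pm ⟨⟨0, 128119209, 0, 0, 0, 0, 0, 0, 0, ⟨0, 0⟩, 0⟩, 0, 33491⟩ 0 0) (.pos 7 .pm ⟨⟨0, 159247125, 0, 0, 0, 0, 0, 0, 0, ⟨0, 0⟩, 0⟩, 0, 31944⟩ 0 0)) (.pos 7 .pm ⟨⟨0, 199049524, 0, 0, 0, 0, 0,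 0, 0, ⟨0, 0⟩, 0⟩, 0, 31944⟩ 0 0)))))) (.cut .d 2680896 (.pos 5 .pm ⟨⟨0, 0, 12237573, 0, 0, 0, 0, 0, 0, ⟨0, 0⟩, 0⟩, 0, 0⟩ 0 0) (.cut .d 4021344 (.pos 5 .pm ⟨⟨0, 0, 0, 0, 0, 0, 0, 0, 0, ⟨0, 0⟩, 0⟩, 0, 33491⟩ 0 0) (.cut .d 4691568 (.pos 5 .pm ⟨⟨0, 4853501, 0, 0, 0, 0, 0, 0, 0, ⟨0, 0⟩, 0⟩, 0, 41864⟩ 0 0) (.cut .d 5026680 (.cut .s 12845056 (.pos 5 .pm ⟨⟨0, 155088958, 0, 0, 0, 0, 0, 0, 0, ⟨0, 0⟩, 0⟩, 0, 44721⟩ 0 0) (.pos 5 .pm ⟨⟨0, 209633413, 0, 0, 0, 0, 0, 0, 0, ⟨0, 0⟩, 0⟩, 0, 38764⟩ 0 0)) (.pos 5 .pm ⟨⟨0, 258309445, 0, 0, 0, 0, 0, 0, 0, ⟨0, 0⟩, 0⟩, 0, 41864⟩ 0 0)))))) (.cut .d 2680896 (.pos 3 .pm ⟨⟨0, 0, 0, 0, 0, 0, 0, 0, 0, ⟨0, 0⟩, 0⟩,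 0, 0⟩ 0 0) (.pos 3 .pm ⟨⟨0, 202835213, 0, 0, 0, 0, 0, 0, 0, ⟨0, 0⟩, 0⟩, 0, 55819⟩ 0 0))) (.cut .v 268435456 (.cut .v 67108864 (.cut .d 2680896 (.cut .d 1340448 (.cut .v 33554432 (.cut .d 670224 (.cut .v 25165824 (.cut .d 335112 (.cut .v 20971520 (.cut .d 167556 (.cut .v 18874368 (.cut .v 17825792 (.cut .s 12845056 (.pos 31 .pp ⟨⟨392140749, 0, 0, 0, 0, 0, 0, 0, 0, ⟨0, 0⟩, 0⟩, 7954446, 0⟩ 0 0) (.pos 31 .pp ⟨⟨432504224, 0, 0, 0, 0, 0, 0, 0, 0, ⟨0, 0⟩, 0⟩, 7955921, 0⟩ 0 0)) (.pos 32 .pp ⟨⟨543357579, 0, 0, 0, 0, 0, 0, 0, 0, ⟨0, 0⟩, 0⟩, 0, 0⟩ 0 0)) (.pos 30 .pp ⟨⟨661674093, 0, 0, 0, 0, 0, 0, 0, 0, ⟨0, 0⟩, 0⟩, 0, 0⟩ 0 0)) (.pos 27 .pp ⟨⟨0,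 0, 0, 0, 0, 0, 0, 0, 0, ⟨0, 0⟩, 0⟩, 46208530, 34119⟩ 0 0)) (.cut .d 167556 (.pos 28 .pp ⟨⟨975770875, 0, 0, 0, 0, 0, 0, 0, 0, ⟨0, 0⟩, 0⟩, 0, 0⟩ 0 0) (.pos 28 .pp ⟨⟨0, 0, 0, 0, 0, 0, 0, 0, 0, ⟨0, 0⟩, 0⟩, 71281944, 0⟩ 0 0))) (.pos 25 .pp ⟨⟨0, 0, 0, 0, 0, 0, 0, 0, 0, ⟨0, 0⟩, 0⟩, 42440807, 40453⟩ 0 0)) (.pos 26 .pp ⟨⟨0, 0, 0, 0, 0, 0, 0, 0, 0, ⟨0, 0⟩, 0⟩, 109678026, 0⟩ 0 0)) (.pos 24 .pp ⟨⟨0, 0, 0, 0, 0, 0, 0, 0, 0, ⟨0, 0⟩, 0⟩, 38228446, 47535⟩ 0 0)) (.cut .d 670224 (.void 91 ⟨⟨0, 0, 0, 0, 0, 0, 0, 0, 0, ⟨0, 0⟩, 0⟩, 100000, 0⟩ 0 0) (.pos 91 .pp ⟨⟨0, 0, 0, 0, 0, 0, 0, 0, 0, ⟨0, 0⟩, 0⟩, 120483457, 0⟩ 0 0))) (.pos 90 .pp ⟨⟨0, 0, 0, 0, 0, 0,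 0, 0, 0, ⟨0, 0⟩, 0⟩, 19098830, 79695⟩ 0 0)) (.pos 90 .pp ⟨⟨0, 258165402, 0, 0, 0, 0, 0, 0, 0, ⟨0, 0⟩, 0⟩, 0, 83728⟩ 0 0)) (.void 98 ⟨⟨0, 0, 0, 45948, 0, 0, 0, 0, 0, ⟨0, 0⟩, 0⟩, 54052, 0⟩ 0 0)) (.void 117 ⟨⟨0, 0, 0, 0, 0, 0, 0, 0, 0, ⟨0, 0⟩, 0⟩, 100000, 0⟩ 0 0)))),
    by decide +kernel⟩

def covers22 : cell.Covers Vale.Agent.P237.Petty.Cor.Grid.N15.table row22.1 :=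
  ⟨(.cut .d 0 (.cut .v 16777216 (.cut .d (-8388608) (.void 1 ⟨⟨0, 0, 0, 0, 0, 100000, 0, 0, 0, ⟨0, 0⟩, 0⟩, 0, 0⟩ 0 0) (.cut .d (-4194304) (.void 1 ⟨⟨0, 0, 0, 0, 0, 107266, 0, 0, 0, ⟨0, 0⟩, 0⟩, 0, 0⟩ 0 0) (.cut .d (-2097152) (.void 1 ⟨⟨0, 0, 0, 0, 0, 100000, 0, 0, 0, ⟨0, 0⟩, 0⟩, 0, 0⟩ 0 0) (.cut .d (-1048576) (.void 1 ⟨⟨0, 0, 0, 0, 0, 100000, 0, 0, 0, ⟨0, 0⟩, 0⟩, 0, 0⟩ 0 0) (.cut .d (-524288) (.void 1 ⟨⟨0, 0, 0, 0, 0, 100000, 0, 0, 0, ⟨0, 0⟩, 0⟩, 0, 0⟩ 0 0) (.cut .d (-262144) (.void 1 ⟨⟨0, 0, 0, 0, 0, 100000, 0, 0, 0, ⟨0, 0⟩, 0⟩, 0, 0⟩ 0 0) (.cut .d (-131072) (.void 1 ⟨⟨0, 0, 0, 0, 0, 100000, 0, 0, 0, ⟨0, 0⟩, 0⟩, 0, 0⟩ 0 0) (.cut .d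 (-65536) (.void 1 ⟨⟨0, 0, 0, 0, 0, 100000, 0, 0, 0, ⟨0, 0⟩, 0⟩, 0, 0⟩ 0 0) (.cut .d (-32768) (.void 1 ⟨⟨0, 0, 0, 0, 0, 100000, 0, 0, 0, ⟨0, 0⟩, 0⟩, 0, 0⟩ 0 0) (.cut .d (-16384) (.void 1 ⟨⟨0, 0, 0, 0, 0, 100000, 0, 0, 0, ⟨0, 0⟩, 0⟩, 0, 0⟩ 0 0) (.cut .v 8388608 (.cut .v 4194304 (.void 4 ⟨⟨0, 0, 100000, 0, 0, 0, 0, 0, 0, ⟨0, 0⟩, 0⟩, 0, 0⟩ 0 0) (.pos 5 .mm ⟨⟨0, 0, 15735733, 0, 0, 342864434, 0, 0, 0, ⟨0, 0⟩, 0⟩, 0, 0⟩ 0 0)) (.cut .s 13107200 (.pos 3 .mm ⟨⟨0, 0, 0, 0, 0, 987672094, 0, 0, 0, ⟨0, 0⟩, 0⟩, 0, 0⟩ 0 0) (.pos 3 .mm ⟨⟨0, 0, 0, 0, 0, 1084864396, 0, 0, 0, ⟨0, 0⟩, 0⟩, 0, 0⟩ 0 0))))))))))))) (.cut .v 268435456 (.cut .v 67108864 (.cut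 .v 33554432 (.cut .d (-8388608) (.void 24 ⟨⟨99995, 0, 0, 0, 0, 0, 0, 0, 0, ⟨0, 0⟩, 0⟩, 0, 0⟩ 0 0) (.cut .v 25165824 (.cut .d (-4194304) (.void 25 ⟨⟨100000, 0, 0, 0, 0, 0, 0, 0, 0, ⟨0, 0⟩, 0⟩, 0, 0⟩ 0 0) (.cut .v 20971520 (.cut .d (-2097152) (.void 27 ⟨⟨100000, 0, 0, 0, 0, 0, 0, 0, 0, ⟨0, 0⟩, 0⟩, 0, 0⟩ 0 0) (.cut .v 18874368 (.cut .d (-1048576) (.void 29 ⟨⟨100000, 0, 0, 0, 0, 0, 0, 0, 0, ⟨0, 0⟩, 0⟩, 0, 0⟩ 0 0) (.cut .d (-524288) (.void 29 ⟨⟨100000, 0, 0, 0, 0, 0, 0, 0, 0, ⟨0, 0⟩, 0⟩, 0, 0⟩ 0 0) (.cut .v 17825792 (.cut .d (-262144) (.void 31 ⟨⟨100000, 0, 0, 0, 0, 0, 0, 0, 0, ⟨0, 0⟩, 0⟩, 0, 0⟩ 0 0) (.cut .d (-131072) (.void 31 ⟨⟨100000,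 0, 0, 0, 0, 0, 0, 0, 0, ⟨0, 0⟩, 0⟩, 0, 0⟩ 0 0) (.cut .d (-65536) (.void 31 ⟨⟨100000, 0, 0, 0, 0, 0, 0, 0, 0, ⟨0, 0⟩, 0⟩, 0, 0⟩ 0 0) (.cut .d (-32768) (.void 31 ⟨⟨100000, 0, 0, 0, 0, 0, 0, 0, 0, ⟨0, 0⟩, 0⟩, 0, 0⟩ 0 0) (.cut .d (-16384) (.void 31 ⟨⟨100000, 0, 0, 0, 0, 0, 0, 0, 0, ⟨0, 0⟩, 0⟩, 0, 0⟩ 0 0) (.cut .v 17301504 (.cut .v 17039360 (.cut .v 16908288 (.cut .s 13107200 (.cut .d (-8192) (.cut .v 16842752 (.cut .d (-12288) (.void 39 ⟨⟨0, 0, 0, 0, 0, 100000, 0, 0, 0, ⟨0, 0⟩, 0⟩, 0, 0⟩ 0 0) (.cut .d (-10240) (.void 39 ⟨⟨0, 0, 0, 0, 0, 100000, 0, 0, 0, ⟨0, 0⟩, 0⟩, 0, 0⟩ 0 0) (.cut .l 123033 (.void 39 ⟨⟨100000, 0, 0, 0, 0, 0, 0, 0, 0, ⟨0,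 0⟩, 0⟩, 0, 0⟩ 0 0) (.cut .l 184549 (.void 39 ⟨⟨0, 0, 0, 0, 0, 100000, 0, 0, 0, ⟨0, 0⟩, 0⟩, 0, 0⟩ 0 0) (.cut .s 13041664 (.cut .s 13008896 (.pos 39 .mp ⟨⟨439981995, 0, 0, 0, 0, 224910454, 0, 0, 0, ⟨0, 0⟩, 0⟩, 0, 0⟩ 0 0) (.pos 39 .mp ⟨⟨448976603, 0, 0, 0, 0, 231347179, 0, 0, 0, ⟨0, 0⟩, 0⟩, 0, 0⟩ 0 0)) (.cut .s 13074432 (.pos 39 .mp ⟨⟨458343662, 0, 0, 0, 0, 237783229, 0, 0, 0, ⟨0, 0⟩, 0⟩, 0, 0⟩ 0 0) (.cut .s 13090816 (.pos 39 .mp ⟨⟨468311665, 0, 0, 0, 0, 232973817, 0, 0, 0, ⟨0, 0⟩, 0⟩, 0, 0⟩ 0 0) (.pos 39 .mp ⟨⟨473375104, 0, 0, 0, 0, 235945271, 0, 0, 0, ⟨0, 0⟩, 0⟩, 0, 0⟩ 0 0)))))))) (.pos 40 .mp ⟨⟨623587471, 0, 0, 0, 0, 0, 0, 0, 0, ⟨0,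 0⟩, 0⟩, 0, 0⟩ 0 0)) (.cut .v 16842752 (.cut .s 13041664 (.cut .s 13008896 (.cut .v 16809984 (.cut .s 12992512 (.cut .l 123033 (.cut .d (-4096) (.pos 49 .mp ⟨⟨436427005, 0, 0, 0, 0, 224263696, 0, 0, 0, ⟨0, 0⟩, 0⟩, 0, 0⟩ 0 0) (.cut .s 12984320 (.pos 49 .mp ⟨⟨443033443, 0, 0, 0, 0, 199110666, 0, 0, 0, ⟨0, 0⟩, 0⟩, 0, 0⟩ 0 0) (.pos 49 .mp ⟨⟨445760795, 0, 0, 0, 0, 199414174, 0, 0, 0, ⟨0, 0⟩, 0⟩, 0, 0⟩ 0 0))) (.pos 49 .mp ⟨⟨445320335, 0, 0, 0, 0, 193762190, 0, 0, 0, ⟨0, 0⟩, 0⟩, 0, 0⟩ 0 0)) (.cut .l 123033 (.cut .d (-4096) (.pos 49 .mp ⟨⟨441232703, 0, 0, 0, 0, 226080863, 0, 0, 0, ⟨0, 0⟩, 0⟩, 0, 0⟩ 0 0) (.cut .s 13000704 (.pos 49 .mp ⟨⟨448249050,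 0, 0, 0, 0, 200238558, 0, 0, 0, ⟨0, 0⟩, 0⟩, 0, 0⟩ 0 0) (.pos 49 .mp ⟨⟨450712922, 0, 0, 0, 0, 201162811, 0, 0, 0, ⟨0, 0⟩, 0⟩, 0, 0⟩ 0 0))) (.pos 49 .mp ⟨⟨450253274, 0, 0, 0, 0, 195873296, 0, 0, 0, ⟨0, 0⟩, 0⟩, 0, 0⟩ 0 0))) (.pos 50 .mp ⟨⟨564265663, 0, 0, 0, 0, 0, 0, 0, 0, ⟨0, 0⟩, 0⟩, 0, 0⟩ 0 0)) (.cut .v 16809984 (.cut .s 13025280 (.cut .l 123033 (.cut .d (-4096) (.pos 49 .mp ⟨⟨446098301, 0, 0, 0, 0, 228019293, 0, 0, 0, ⟨0, 0⟩, 0⟩, 0, 0⟩ 0 0) (.cut .s 13017088 (.pos 49 .mp ⟨⟨453192203, 0, 0, 0, 0, 202108992, 0, 0, 0, ⟨0, 0⟩, 0⟩, 0, 0⟩ 0 0) (.cut .s 13021184 (.pos 49 .mp ⟨⟨455149908, 0, 0, 0, 0, 203051480, 0, 0, 0, ⟨0, 0⟩, 0⟩, 0, 0⟩ 0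 0) (.pos 49 .mp ⟨⟨456213975, 0, 0, 0, 0, 203843758, 0, 0, 0, ⟨0, 0⟩, 0⟩, 0, 0⟩ 0 0)))) (.pos 49 .mp ⟨⟨455248152, 0, 0, 0, 0, 198031156, 0, 0, 0, ⟨0, 0⟩, 0⟩, 0, 0⟩ 0 0)) (.cut .s 13033472 (.cut .s 13029376 (.pos 49 .mp ⟨⟨461185636, 0, 0, 0, 0, 198176410, 0, 0, 0, ⟨0, 0⟩, 0⟩, 0, 0⟩ 0 0) (.pos 49 .mp ⟨⟨462460248, 0, 0, 0, 0, 198651859, 0, 0, 0, ⟨0, 0⟩, 0⟩, 0, 0⟩ 0 0)) (.cut .s 13037568 (.pos 49 .mp ⟨⟨463738868, 0, 0, 0, 0, 199132627, 0, 0, 0, ⟨0, 0⟩, 0⟩, 0, 0⟩ 0 0) (.pos 49 .mp ⟨⟨465021507, 0, 0, 0, 0, 199618707, 0, 0, 0, ⟨0, 0⟩, 0⟩, 0, 0⟩ 0 0)))) (.pos 50 .mp ⟨⟨575921830, 0, 0, 0, 0, 0, 0, 0, 0, ⟨0, 0⟩, 0⟩, 0, 0⟩ 0 0))) (.cut .s 13074432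 (.cut .v 16809984 (.cut .s 13058048 (.cut .s 13049856 (.cut .s 13045760 (.pos 49 .mp ⟨⟨466308180, 0, 0, 0, 0, 200110091, 0, 0, 0, ⟨0, 0⟩, 0⟩, 0, 0⟩ 0 0) (.cut .s 13047808 (.pos 49 .mp ⟨⟨466953033, 0, 0, 0, 0, 201120083, 0, 0, 0, ⟨0, 0⟩, 0⟩, 0, 0⟩ 0 0) (.pos 49 .mp ⟨⟨467598899, 0, 0, 0, 0, 201370939, 0, 0, 0, ⟨0, 0⟩, 0⟩, 0, 0⟩ 0 0))) (.cut .d (-4096) (.pos 49 .mp ⟨⟨459797327, 0, 0, 0, 0, 221255887, 0, 0, 0, ⟨0, 0⟩, 0⟩, 0, 0⟩ 0 0) (.cut .s 13053952 (.pos 49 .mp ⟨⟨464468800, 0, 0, 0, 0, 208661865, 0, 0, 0, ⟨0, 0⟩, 0⟩, 0, 0⟩ 0 0) (.pos 49 .mp ⟨⟨465597963, 0, 0, 0, 0, 209438648, 0, 0, 0, ⟨0, 0⟩, 0⟩, 0, 0⟩ 0 0)))) (.cut .s 13066240 (.cut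 .d (-4096) (.pos 49 .mp ⟨⟨461910478, 0, 0, 0, 0, 223208395, 0, 0, 0, ⟨0, 0⟩, 0⟩, 0, 0⟩ 0 0) (.cut .s 13062144 (.pos 49 .mp ⟨⟨466737931, 0, 0, 0, 0, 210210291, 0, 0, 0, ⟨0, 0⟩, 0⟩, 0, 0⟩ 0 0) (.pos 49 .mp ⟨⟨468093133, 0, 0, 0, 0, 210612854, 0, 0, 0, ⟨0, 0⟩, 0⟩, 0, 0⟩ 0 0))) (.cut .d (-4096) (.pos 49 .mp ⟨⟨464080509, 0, 0, 0, 0, 225108361, 0, 0, 0, ⟨0, 0⟩, 0⟩, 0, 0⟩ 0 0) (.cut .s 13070336 (.pos 49 .mp ⟨⟨469472338, 0, 0, 0, 0, 210986655, 0, 0, 0, ⟨0, 0⟩, 0⟩, 0, 0⟩ 0 0) (.pos 49 .mp ⟨⟨470851062, 0, 0, 0, 0, 211375321, 0, 0, 0, ⟨0, 0⟩, 0⟩, 0, 0⟩ 0 0))))) (.pos 50 .mp ⟨⟨588084585, 0, 0, 0, 0, 0, 0, 0, 0, ⟨0, 0⟩, 0⟩, 0, 0⟩ 0 0)) (.cut .v 16809984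 (.cut .s 13090816 (.cut .s 13082624 (.cut .l 123033 (.cut .d (-4096) (.pos 49 .mp ⟨⟨466174982, 0, 0, 0, 0, 231260683, 0, 0, 0, ⟨0, 0⟩, 0⟩, 0, 0⟩ 0 0) (.cut .s 13078528 (.pos 49 .mp ⟨⟨472287919, 0, 0, 0, 0, 211475152, 0, 0, 0, ⟨0, 0⟩, 0⟩, 0, 0⟩ 0 0) (.pos 49 .mp ⟨⟨473593013, 0, 0, 0, 0, 212045266, 0, 0, 0, ⟨0, 0⟩, 0⟩, 0, 0⟩ 0 0))) (.pos 49 .mp ⟨⟨473229448, 0, 0, 0, 0, 209345009, 0, 0, 0, ⟨0, 0⟩, 0⟩, 0, 0⟩ 0 0)) (.cut .l 123033 (.cut .d (-4096) (.pos 49 .mp ⟨⟨468755298, 0, 0, 0, 0, 232475942, 0, 0, 0, ⟨0, 0⟩, 0⟩, 0, 0⟩ 0 0) (.cut .s 13086720 (.pos 49 .mp ⟨⟨474902185, 0, 0, 0, 0, 212620761, 0, 0, 0, ⟨0, 0⟩, 0⟩, 0, 0⟩ 0 0) (.pos 49 .mp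 ⟨⟨476215450, 0, 0, 0, 0, 213201629, 0, 0, 0, ⟨0, 0⟩, 0⟩, 0, 0⟩ 0 0))) (.pos 49 .mp ⟨⟨475862953, 0, 0, 0, 0, 210538092, 0, 0, 0, ⟨0, 0⟩, 0⟩, 0, 0⟩ 0 0))) (.cut .s 13099008 (.cut .l 123033 (.cut .d (-4096) (.pos 49 .mp ⟨⟨471351668, 0, 0, 0, 0, 233723778, 0, 0, 0, ⟨0, 0⟩, 0⟩, 0, 0⟩ 0 0) (.cut .s 13094912 (.pos 49 .mp ⟨⟨477532818, 0, 0, 0, 0, 213787863, 0, 0, 0, ⟨0, 0⟩, 0⟩, 0, 0⟩ 0 0) (.pos 49 .mp ⟨⟨478854305, 0, 0, 0, 0, 214379456, 0, 0, 0, ⟨0, 0⟩, 0⟩, 0, 0⟩ 0 0))) (.pos 49 .mp ⟨⟨478512959, 0, 0, 0, 0, 211740082, 0, 0, 0, ⟨0, 0⟩, 0⟩, 0, 0⟩ 0 0)) (.cut .l 123033 (.cut .d (-4096) (.pos 49 .mp ⟨⟨473964197, 0, 0, 0, 0, 235004428, 0, 0, 0,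 ⟨0, 0⟩, 0⟩, 0, 0⟩ 0 0) (.cut .s 13103104 (.pos 49 .mp ⟨⟨480179924, 0, 0, 0, 0, 214976400, 0, 0, 0, ⟨0, 0⟩, 0⟩, 0, 0⟩ 0 0) (.pos 49 .mp ⟨⟨481509687, 0, 0, 0, 0, 215578687, 0, 0, 0, ⟨0, 0⟩, 0⟩, 0, 0⟩ 0 0))) (.pos 49 .mp ⟨⟨481179571, 0, 0, 0, 0, 212950690, 0, 0, 0, ⟨0, 0⟩, 0⟩, 0, 0⟩ 0 0)))) (.pos 50 .mp ⟨⟨600766332, 0, 0, 0, 0, 0, 0, 0, 0, ⟨0, 0⟩, 0⟩, 0, 0⟩ 0 0)))) (.pos 40 .mp ⟨⟨590270796, 0, 0, 0, 0, 0, 0, 0, 0, ⟨0, 0⟩, 0⟩, 0, 0⟩ 0 0))) (.cut .d (-8192) (.cut .v 16842752 (.cut .l 123033 (.void 39 ⟨⟨100000, 0, 0, 0, 0, 0, 0, 0, 0, ⟨0, 0⟩, 0⟩, 0, 0⟩ 0 0) (.cut .d (-12288) (.void 39 ⟨⟨0, 0, 0, 0, 0, 100000, 0, 0, 0, ⟨0, 0⟩, 0⟩, 0, 0⟩ 0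 0) (.cut .d (-10240) (.void 39 ⟨⟨0, 0, 0, 0, 0, 100000, 0, 0, 0, ⟨0, 0⟩, 0⟩, 0, 0⟩ 0 0) (.cut .l 184549 (.void 39 ⟨⟨0, 0, 0, 0, 0, 100000, 0, 0, 0, ⟨0, 0⟩, 0⟩, 0, 0⟩ 0 0) (.cut .s 13172736 (.cut .l 215307 (.pos 39 .mp ⟨⟨487455116, 0, 0, 0, 0, 263974110, 0, 0, 0, ⟨0, 0⟩, 0⟩, 0, 0⟩ 0 0) (.cut .s 13139968 (.cut .s 13123584 (.pos 39 .mp ⟨⟨477989089, 0, 0, 0, 0, 239632192, 0, 0, 0, ⟨0, 0⟩, 0⟩, 0, 0⟩ 0 0) (.pos 39 .mp ⟨⟨483337024, 0, 0, 0, 0, 242318745, 0, 0, 0, ⟨0, 0⟩, 0⟩, 0, 0⟩ 0 0)) (.pos 39 .mp ⟨⟨488751844, 0, 0, 0, 0, 255432301, 0, 0, 0, ⟨0, 0⟩, 0⟩, 0, 0⟩ 0 0))) (.cut .s 13205504 (.pos 39 .mp ⟨⟨499785665, 0, 0, 0, 0, 263273767, 0, 0,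 0, ⟨0, 0⟩, 0⟩, 0, 0⟩ 0 0) (.pos 39 .mp ⟨⟨511097763, 0, 0, 0, 0, 269918316, 0, 0, 0, ⟨0, 0⟩, 0⟩, 0, 0⟩ 0 0))))))) (.pos 40 .mp ⟨⟨678972808, 0, 0, 0, 0, 0, 0, 0, 0, ⟨0, 0⟩, 0⟩, 0, 0⟩ 0 0)) (.cut .v 16842752 (.cut .s 13172736 (.cut .s 13139968 (.cut .v 16809984 (.cut .s 13123584 (.cut .s 13115392 (.cut .l 123033 (.cut .d (-4096) (.pos 49 .mp ⟨⟨476592988, 0, 0, 0, 0, 236318132, 0, 0, 0, ⟨0, 0⟩, 0⟩, 0, 0⟩ 0 0) (.cut .s 13111296 (.pos 49 .mp ⟨⟨482843608, 0, 0, 0, 0, 216186310, 0, 0, 0, ⟨0, 0⟩, 0⟩, 0, 0⟩ 0 0) (.pos 49 .mp ⟨⟨484181701, 0, 0, 0, 0, 216799260, 0, 0, 0, ⟨0, 0⟩, 0⟩, 0, 0⟩ 0 0))) (.pos 49 .mp ⟨⟨483862898, 0, 0, 0, 0, 214169625,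 0, 0, 0, ⟨0, 0⟩, 0⟩, 0, 0⟩ 0 0)) (.cut .l 123033 (.cut .d (-4096) (.pos 49 .mp ⟨⟨479238147, 0, 0, 0, 0, 237665131, 0, 0, 0, ⟨0, 0⟩, 0⟩, 0, 0⟩ 0 0) (.cut .s 13119488 (.pos 49 .mp ⟨⟨485523979, 0, 0, 0, 0, 217417530, 0, 0, 0, ⟨0, 0⟩, 0⟩, 0, 0⟩ 0 0) (.pos 49 .mp ⟨⟨486870455, 0, 0, 0, 0, 218041113, 0, 0, 0, ⟨0, 0⟩, 0⟩, 0, 0⟩ 0 0))) (.pos 49 .mp ⟨⟨486563047, 0, 0, 0, 0, 215396595, 0, 0, 0, ⟨0, 0⟩, 0⟩, 0, 0⟩ 0 0))) (.cut .s 13131776 (.cut .l 123033 (.cut .d (-4096) (.pos 49 .mp ⟨⟨481899781, 0, 0, 0, 0, 239045669, 0, 0, 0, ⟨0, 0⟩, 0⟩, 0, 0⟩ 0 0) (.cut .s 13127680 (.pos 49 .mp ⟨⟨488221144, 0, 0, 0, 0, 218669998, 0, 0, 0, ⟨0, 0⟩, 0⟩, 0, 0⟩ 0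 0) (.pos 49 .mp ⟨⟨489576059, 0, 0, 0, 0, 219304180, 0, 0, 0, ⟨0, 0⟩, 0⟩, 0, 0⟩ 0 0))) (.pos 49 .mp ⟨⟨489280128, 0, 0, 0, 0, 216631303, 0, 0, 0, ⟨0, 0⟩, 0⟩, 0, 0⟩ 0 0)) (.cut .l 123033 (.cut .d (-4096) (.pos 49 .mp ⟨⟨484577995, 0, 0, 0, 0, 240459990, 0, 0, 0, ⟨0, 0⟩, 0⟩, 0, 0⟩ 0 0) (.cut .s 13135872 (.pos 49 .mp ⟨⟨490935214, 0, 0, 0, 0, 219943648, 0, 0, 0, ⟨0, 0⟩, 0⟩, 0, 0⟩ 0 0) (.pos 49 .mp ⟨⟨492298622, 0, 0, 0, 0, 220588396, 0, 0, 0, ⟨0, 0⟩, 0⟩, 0, 0⟩ 0 0))) (.pos 49 .mp ⟨⟨492014251, 0, 0, 0, 0, 217873455, 0, 0, 0, ⟨0, 0⟩, 0⟩, 0, 0⟩ 0 0)))) (.pos 50 .mp ⟨⟨613979920, 0, 0, 0, 0, 0, 0, 0, 0, ⟨0, 0⟩, 0⟩, 0, 0⟩ 0 0)) (.cut .v 16809984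 (.cut .s 13156352 (.cut .s 13148160 (.cut .l 123033 (.cut .d (-4096) (.pos 49 .mp ⟨⟨487272900, 0, 0, 0, 0, 241908344, 0, 0, 0, ⟨0, 0⟩, 0⟩, 0, 0⟩ 0 0) (.cut .s 13144064 (.pos 49 .mp ⟨⟨493666298, 0, 0, 0, 0, 221238413, 0, 0, 0, ⟨0, 0⟩, 0⟩, 0, 0⟩ 0 0) (.pos 49 .mp ⟨⟨495038256, 0, 0, 0, 0, 221893692, 0, 0, 0, ⟨0, 0⟩, 0⟩, 0, 0⟩ 0 0))) (.pos 49 .mp ⟨⟨494765529, 0, 0, 0, 0, 219122753, 0, 0, 0, ⟨0, 0⟩, 0⟩, 0, 0⟩ 0 0)) (.cut .l 123033 (.cut .d (-4096) (.pos 49 .mp ⟨⟨489984603, 0, 0, 0, 0, 243390979, 0, 0, 0, ⟨0, 0⟩, 0⟩, 0, 0⟩ 0 0) (.cut .s 13152256 (.pos 49 .mp ⟨⟨496414509, 0, 0, 0, 0, 222554225, 0, 0, 0, ⟨0, 0⟩, 0⟩, 0, 0⟩ 0 0) (.pos 49 .mp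 ⟨⟨497795071, 0, 0, 0, 0, 223220001, 0, 0, 0, ⟨0, 0⟩, 0⟩, 0, 0⟩ 0 0))) (.pos 49 .mp ⟨⟨497534073, 0, 0, 0, 0, 220378895, 0, 0, 0, ⟨0, 0⟩, 0⟩, 0, 0⟩ 0 0))) (.cut .s 13164544 (.cut .l 123033 (.cut .d (-4096) (.pos 49 .mp ⟨⟨492713215, 0, 0, 0, 0, 244908149, 0, 0, 0, ⟨0, 0⟩, 0⟩, 0, 0⟩ 0 0) (.cut .s 13160448 (.pos 49 .mp ⟨⟨499179958, 0, 0, 0, 0, 223891012, 0, 0, 0, ⟨0, 0⟩, 0⟩, 0, 0⟩ 0 0) (.pos 49 .mp ⟨⟨500569182, 0, 0, 0, 0, 224567250, 0, 0, 0, ⟨0, 0⟩, 0⟩, 0, 0⟩ 0 0))) (.pos 49 .mp ⟨⟨500319996, 0, 0, 0, 0, 221641581, 0, 0, 0, ⟨0, 0⟩, 0⟩, 0, 0⟩ 0 0)) (.cut .l 123033 (.cut .d (-4096) (.pos 49 .mp ⟨⟨495458848, 0, 0, 0, 0, 246460108, 0, 0, 0,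 ⟨0, 0⟩, 0⟩, 0, 0⟩ 0 0) (.cut .s 13168640 (.pos 49 .mp ⟨⟨501962759, 0, 0, 0, 0, 225248705, 0, 0, 0, ⟨0, 0⟩, 0⟩, 0, 0⟩ 0 0) (.pos 49 .mp ⟨⟨503360702, 0, 0, 0, 0, 225935368, 0, 0, 0, ⟨0, 0⟩, 0⟩, 0, 0⟩ 0 0))) (.pos 49 .mp ⟨⟨503123415, 0, 0, 0, 0, 222910507, 0, 0, 0, ⟨0, 0⟩, 0⟩, 0, 0⟩ 0 0)))) (.pos 50 .mp ⟨⟨627738666, 0, 0, 0, 0, 0, 0, 0, 0, ⟨0, 0⟩, 0⟩, 0, 0⟩ 0 0))) (.cut .s 13205504 (.cut .v 16809984 (.cut .s 13189120 (.cut .s 13180928 (.cut .l 123033 (.cut .d (-4096) (.pos 49 .mp ⟨⟨498221613, 0, 0, 0, 0, 248047112, 0, 0, 0, ⟨0, 0⟩, 0⟩, 0, 0⟩ 0 0) (.cut .s 13176832 (.pos 49 .mp ⟨⟨504763026, 0, 0, 0, 0, 226627230, 0, 0, 0, ⟨0, 0⟩, 0⟩, 0,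 0⟩ 0 0) (.pos 49 .mp ⟨⟨506169746, 0, 0, 0, 0, 227324280, 0, 0, 0, ⟨0, 0⟩, 0⟩, 0, 0⟩ 0 0))) (.pos 49 .mp ⟨⟨505944443, 0, 0, 0, 0, 224185366, 0, 0, 0, ⟨0, 0⟩, 0⟩, 0, 0⟩ 0 0)) (.cut .d (-4096) (.pos 49 .mp ⟨⟨501043406, 0, 0, 0, 0, 245096597, 0, 0, 0, ⟨0, 0⟩, 0⟩, 0, 0⟩ 0 0) (.cut .s 13185024 (.pos 49 .mp ⟨⟨507580876, 0, 0, 0, 0, 228219265, 0, 0, 0, ⟨0, 0⟩, 0⟩, 0, 0⟩ 0 0) (.pos 49 .mp ⟨⟨508996431, 0, 0, 0, 0, 228941315, 0, 0, 0, ⟨0, 0⟩, 0⟩, 0, 0⟩ 0 0)))) (.cut .s 13197312 (.cut .d (-4096) (.pos 49 .mp ⟨⟨504198652, 0, 0, 0, 0, 245971231, 0, 0, 0, ⟨0, 0⟩, 0⟩, 0, 0⟩ 0 0) (.cut .s 13193216 (.pos 49 .mp ⟨⟨510334191, 0, 0, 0, 0, 229828372, 0,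 0, 0, ⟨0, 0⟩, 0⟩, 0, 0⟩ 0 0) (.pos 49 .mp ⟨⟨511667750, 0, 0, 0, 0, 230738549, 0, 0, 0, ⟨0, 0⟩, 0⟩, 0, 0⟩ 0 0))) (.cut .d (-4096) (.pos 49 .mp ⟨⟨507428731, 0, 0, 0, 0, 246760961, 0, 0, 0, ⟨0, 0⟩, 0⟩, 0, 0⟩ 0 0) (.cut .s 13201408 (.pos 49 .mp ⟨⟨512998686, 0, 0, 0, 0, 231668840, 0, 0, 0, ⟨0, 0⟩, 0⟩, 0, 0⟩ 0 0) (.pos 49 .mp ⟨⟨514354495, 0, 0, 0, 0, 232569945, 0, 0, 0, ⟨0, 0⟩, 0⟩, 0, 0⟩ 0 0))))) (.pos 50 .mp ⟨⟨642056372, 0, 0, 0, 0, 0, 0, 0, 0, ⟨0, 0⟩, 0⟩, 0, 0⟩ 0 0)) (.cut .v 16809984 (.cut .s 13221888 (.cut .s 13213696 (.cut .d (-4096) (.pos 49 .mp ⟨⟨510734831, 0, 0, 0, 0, 247463622, 0, 0, 0, ⟨0, 0⟩, 0⟩, 0, 0⟩ 0 0) (.cut .s 13209600 (.pos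 49 .mp ⟨⟨515962884, 0, 0, 0, 0, 233033113, 0, 0, 0, ⟨0, 0⟩, 0⟩, 0, 0⟩ 0 0) (.pos 49 .mp ⟨⟨517586648, 0, 0, 0, 0, 233483988, 0, 0, 0, ⟨0, 0⟩, 0⟩, 0, 0⟩ 0 0))) (.cut .d (-4096) (.pos 49 .mp ⟨⟨514118152, 0, 0, 0, 0, 248077029, 0, 0, 0, ⟨0, 0⟩, 0⟩, 0, 0⟩ 0 0) (.cut .s 13217792 (.pos 49 .mp ⟨⟨519225927, 0, 0, 0, 0, 233922350, 0, 0, 0, ⟨0, 0⟩, 0⟩, 0, 0⟩ 0 0) (.pos 49 .mp ⟨⟨520880856, 0, 0, 0, 0, 234347981, 0, 0, 0, ⟨0, 0⟩, 0⟩, 0, 0⟩ 0 0)))) (.cut .s 13230080 (.cut .s 13225984 (.pos 49 .mp ⟨⟨527118431, 0, 0, 0, 0, 226862931, 0, 0, 0, ⟨0, 0⟩, 0⟩, 0, 0⟩ 0 0) (.pos 49 .mp ⟨⟨528600747, 0, 0, 0, 0, 227584463, 0, 0, 0, ⟨0, 0⟩, 0⟩, 0, 0⟩ 0 0)) (.cut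 .s 13234176 (.pos 49 .mp ⟨⟨530087748, 0, 0, 0, 0, 228310882, 0, 0, 0, ⟨0, 0⟩, 0⟩, 0, 0⟩ 0 0) (.pos 49 .mp ⟨⟨531579451, 0, 0, 0, 0, 229042177, 0, 0, 0, ⟨0, 0⟩, 0⟩, 0, 0⟩ 0 0)))) (.pos 50 .mp ⟨⟨656947352, 0, 0, 0, 0, 0, 0, 0, 0, ⟨0, 0⟩, 0⟩, 0, 0⟩ 0 0)))) (.pos 40 .mp ⟨⟨643648144, 0, 0, 0, 0, 0, 0, 0, 0, ⟨0, 0⟩, 0⟩, 0, 0⟩ 0 0)))) (.pos 38 .mp ⟨⟨653163257, 0, 0, 0, 0, 0, 0, 0, 0, ⟨0, 0⟩, 0⟩, 0, 0⟩ 0 0)) (.void 36 ⟨⟨100000, 0, 0, 0, 0, 0, 0, 0, 0, ⟨0, 0⟩, 0⟩, 0, 0⟩ 0 0)) (.void 34 ⟨⟨100000, 0, 0, 0, 0, 0, 0, 0, 0, ⟨0, 0⟩, 0⟩, 0, 0⟩ 0 0))))))) (.void 32 ⟨⟨100000, 0, 0, 0, 0, 0, 0, 0, 0, ⟨0, 0⟩, 0⟩, 0, 0⟩ 0 0)))) (.void 30 ⟨⟨100000, 0, 0,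 0, 0, 0, 0, 0, 0, ⟨0, 0⟩, 0⟩, 0, 0⟩ 0 0))) (.void 28 ⟨⟨100000, 0, 0, 0, 0, 0, 0, 0, 0, ⟨0, 0⟩, 0⟩, 0, 0⟩ 0 0))) (.void 26 ⟨⟨100000, 0, 0, 0, 0, 0, 0, 0, 0, ⟨0, 0⟩, 0⟩, 0, 0⟩ 0 0))) (.void 91 ⟨⟨100000, 0, 0, 0, 0, 0, 0, 0, 0, ⟨0, 0⟩, 0⟩, 0, 0⟩ 0 0)) (.void 98 ⟨⟨100000, 0, 0, 0, 0, 0, 0, 0, 0, ⟨0, 0⟩, 0⟩, 0, 0⟩ 0 0)) (.void 117 ⟨⟨59021, 31004, 0, 1241, 0, 0, 0, 0, 0, ⟨0, 0⟩, 0⟩, 0, 52⟩ 0 0))) (.cut .v 16777216 (.cut .v 8388608 (.cut .v 4194304 (.cut .d 2457270 (.pos 4 .pm ⟨⟨0, 0, 715845227, 0, 0, 0, 0, 0, 0, ⟨0, 0⟩, 0⟩, 0, 17224⟩ 0 0) (.cut .v 2097152 (.cut .v 1048576 (.cut .v 524288 (.pos 122 .pm ⟨⟨0, 0, 7804725, 0, 0, 0, 0, 0, 0, ⟨0,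 0⟩, 0⟩, 0, 2461⟩ 0 0) (.pos 123 .pm ⟨⟨0, 19297989, 0, 0, 0, 0, 0, 0, 0, ⟨0, 0⟩, 0⟩, 0, 5071⟩ 0 0)) (.cut .d 3685905 (.pos 114 .pm ⟨⟨0, 0, 5137801, 0, 0, 0, 0, 0, 0, ⟨0, 0⟩, 0⟩, 0, 9274⟩ 0 0) (.pos 114 .pm ⟨⟨0, 84295238, 0, 0, 0, 0, 0, 0, 0, ⟨0, 0⟩, 0⟩, 0, 12872⟩ 0 0))) (.cut .d 3685905 (.pos 7 .pm ⟨⟨0, 0, 0, 0, 0, 0, 0, 0, 0, ⟨0, 0⟩, 0⟩, 0, 13396⟩ 0 0) (.cut .d 4300223 (.pos 7 .pm ⟨⟨0, 0, 0, 0, 0, 0, 0, 0, 0, ⟨0, 0⟩, 0⟩, 0, 20787⟩ 0 0) (.cut .d 4607382 (.cut .s 13107200 (.pos 7 .pm ⟨⟨0, 131116809, 0, 0, 0, 0, 0, 0, 0, ⟨0, 0⟩, 0⟩, 0, 24534⟩ 0 0) (.cut .d 4453802 (.pos 7 .pm ⟨⟨0, 155982041, 0, 0, 0, 0, 0, 0, 0, ⟨0, 0⟩, 0⟩, 0, 20328⟩ 0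 0) (.pos 7 .pm ⟨⟨0, 197675414, 0, 0, 0, 0, 0, 0, 0, ⟨0, 0⟩, 0⟩, 0, 20328⟩ 0 0))) (.cut .s 13107200 (.cut .s 13041664 (.pos 7 .pm ⟨⟨0, 175218961, 0, 0, 0, 0, 0, 0, 0, ⟨0, 0⟩, 0⟩, 0, 23905⟩ 0 0) (.pos 7 .pm ⟨⟨0, 205971836, 0, 0, 0, 0, 0, 0, 0, ⟨0, 0⟩, 0⟩, 0, 22077⟩ 0 0)) (.pos 7 .pm ⟨⟨0, 909425843, 0, 0, 0, 0, 0, 0, 0, ⟨0, 0⟩, 0⟩, 0, 15811⟩ 0 0))))))) (.cut .d 2457270 (.pos 5 .pm ⟨⟨0, 0, 15374696, 0, 0, 0, 0, 0, 0, ⟨0, 0⟩, 0⟩, 0, 0⟩ 0 0) (.cut .d 3685905 (.pos 5 .pm ⟨⟨0, 0, 0, 0, 0, 0, 0, 0, 0, ⟨0, 0⟩, 0⟩, 0, 24113⟩ 0 0) (.cut .d 4300223 (.pos 5 .pm ⟨⟨0, 0, 0, 0, 0, 0, 0, 0, 0, ⟨0, 0⟩, 0⟩, 0, 24113⟩ 0 0) (.cut .v 6291456 (.cut .d 4607382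 (.cut .s 13107200 (.pos 8 .pm ⟨⟨0, 180420813, 0, 0, 0, 0, 0, 0, 0, ⟨0, 0⟩, 0⟩, 0, 28459⟩ 0 0) (.pos 8 .pm ⟨⟨0, 226813516, 0, 0, 0, 0, 0, 0, 0, ⟨0, 0⟩, 0⟩, 0, 27225⟩ 0 0)) (.pos 8 .pm ⟨⟨0, 274715745, 0, 0, 0, 0, 0, 0, 0, ⟨0, 0⟩, 0⟩, 0, 30142⟩ 0 0)) (.pos 9 .pm ⟨⟨0, 320645023, 0, 0, 0, 0, 0, 0, 0, ⟨0, 0⟩, 0⟩, 0, 32882⟩ 0 0)))))) (.cut .d 2457270 (.pos 3 .pm ⟨⟨0, 0, 0, 0, 0, 0, 0, 0, 0, ⟨0, 0⟩, 0⟩, 0, 0⟩ 0 0) (.pos 3 .pm ⟨⟨0, 244223723, 0, 0, 0, 0, 0, 0, 0, ⟨0, 0⟩, 0⟩, 0, 40189⟩ 0 0))) (.cut .v 268435456 (.cut .v 67108864 (.cut .d 2457270 (.cut .d 1228635 (.cut .v 33554432 (.cut .d 614317 (.cut .v 25165824 (.cut .d 307158 (.cut .v 20971520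 (.cut .d 153579 (.cut .v 18874368 (.cut .d 76789 (.cut .v 17825792 (.cut .s 13107200 (.pos 31 .pp ⟨⟨439475223, 0, 0, 0, 0, 0, 0, 0, 0, ⟨0, 0⟩, 0⟩, 13113904, 0⟩ 0 0) (.pos 31 .pp ⟨⟨479747356, 0, 0, 0, 0, 0, 0, 0, 0, ⟨0, 0⟩, 0⟩, 14274755, 0⟩ 0 0)) (.pos 32 .pp ⟨⟨677716946, 0, 0, 0, 0, 0, 0, 0, 0, ⟨0, 0⟩, 0⟩, 0, 0⟩ 0 0)) (.pos 29 .pp ⟨⟨460742965, 0, 0, 0, 0, 0, 0, 0, 0, ⟨0, 0⟩, 0⟩, 0, 13960⟩ 0 0)) (.pos 30 .pp ⟨⟨784299523, 0, 0, 0, 0, 0, 0, 0, 0, ⟨0, 0⟩, 0⟩, 0, 0⟩ 0 0)) (.pos 27 .pp ⟨⟨0, 0, 0, 0, 0, 0, 0, 0, 0, ⟨0, 0⟩, 0⟩, 54692283, 25807⟩ 0 0)) (.cut .d 153579 (.pos 28 .pp ⟨⟨1154240117, 0, 0, 0, 0, 0, 0, 0, 0, ⟨0, 0⟩, 0⟩, 0, 0⟩ 0 0) (.pos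 28 .pp ⟨⟨0, 0, 0, 0, 0, 0, 0, 0, 0, ⟨0, 0⟩, 0⟩, 84354628, 0⟩ 0 0))) (.pos 25 .pp ⟨⟨0, 0, 0, 0, 0, 0, 0, 0, 0, ⟨0, 0⟩, 0⟩, 49894813, 30882⟩ 0 0)) (.cut .d 307158 (.void 26 ⟨⟨0, 0, 0, 0, 0, 0, 0, 0, 0, ⟨0, 0⟩, 0⟩, 100000, 0⟩ 0 0) (.pos 26 .pp ⟨⟨0, 0, 0, 0, 0, 0, 0, 0, 0, ⟨0, 0⟩, 0⟩, 99947198, 0⟩ 0 0))) (.pos 24 .pp ⟨⟨0, 0, 0, 0, 0, 0, 0, 0, 0, ⟨0, 0⟩, 0⟩, 44524271, 36564⟩ 0 0)) (.cut .d 614317 (.void 91 ⟨⟨0, 0, 0, 0, 0, 0, 0, 0, 0, ⟨0, 0⟩, 0⟩, 100000, 0⟩ 0 0) (.pos 91 .pp ⟨⟨0, 0, 0, 0, 0, 0, 0, 0, 0, ⟨0, 0⟩, 0⟩, 141607320, 0⟩ 0 0))) (.pos 90 .pp ⟨⟨0, 0, 0, 0, 0, 0, 0, 0, 0, ⟨0, 0⟩, 0⟩, 22822018, 59524⟩ 0 0)) (.pos 90 .pp ⟨⟨0, 316301156,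 0, 0, 0, 0, 0, 0, 0, ⟨0, 0⟩, 0⟩, 0, 60283⟩ 0 0)) (.void 98 ⟨⟨0, 0, 0, 46360, 0, 0, 0, 0, 0, ⟨0, 0⟩, 0⟩, 53640, 0⟩ 0 0)) (.void 117 ⟨⟨0, 0, 0, 0, 0, 0, 0, 0, 0, ⟨0, 0⟩, 0⟩, 100000, 0⟩ 0 0)))),
    by decide +kernel⟩

def covers23 : cell.Covers Vale.Agent.P237.Petty.Cor.Grid.N15.table row23.1 :=
  ⟨(.cut .d 0 (.cut .v 16777216 (.cut .v 8388608 (.pos 2 .mm ⟨⟨0, 0, 685434752, 0, 0, 2108686030, 0, 0, 0, ⟨0, 0⟩, 0⟩, 0, 0⟩ 0 0) (.cut .d (-8388608) (.void 3 ⟨⟨100000, 0, 0, 0, 0, 0, 0, 0, 0, ⟨0, 0⟩, 0⟩, 0, 0⟩ 0 0) (.cut .d (-4194304) (.void 3 ⟨⟨100000, 0, 0, 0, 0, 0, 0, 0, 0, ⟨0, 0⟩, 0⟩, 0, 0⟩ 0 0) (.cut .d (-2097152) (.void 3 ⟨⟨100000, 0, 0,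 0, 0, 0, 0, 0, 0, ⟨0, 0⟩, 0⟩, 0, 0⟩ 0 0) (.cut .d (-1048576) (.void 3 ⟨⟨0, 0, 0, 0, 0, 100000, 0, 0, 0, ⟨0, 0⟩, 0⟩, 0, 0⟩ 0 0) (.cut .d (-524288) (.void 3 ⟨⟨0, 0, 0, 0, 0, 100000, 0, 0, 0, ⟨0, 0⟩, 0⟩, 0, 0⟩ 0 0) (.cut .d (-262144) (.void 3 ⟨⟨0, 0, 0, 0, 0, 100000, 0, 0, 0, ⟨0, 0⟩, 0⟩, 0, 0⟩ 0 0) (.cut .d (-131072) (.void 3 ⟨⟨0, 0, 0, 0, 0, 100000, 0, 0, 0, ⟨0, 0⟩, 0⟩, 0, 0⟩ 0 0) (.cut .s 13369344 (.pos 3 .mm ⟨⟨0, 0, 0, 0, 0, 1207644863, 0, 0, 0, ⟨0, 0⟩, 0⟩, 0, 0⟩ 0 0) (.pos 3 .mm ⟨⟨0, 0, 0, 0, 0, 1335737061, 0, 0, 0, ⟨0, 0⟩, 0⟩, 0, 0⟩ 0 0)))))))))) (.cut .v 268435456 (.cut .v 67108864 (.cut .v 33554432 (.cut .d (-8388608) (.void 24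 ⟨⟨100000, 0, 0, 0, 0, 0, 0, 0, 0, ⟨0, 0⟩, 0⟩, 0, 0⟩ 0 0) (.cut .v 25165824 (.cut .d (-4194304) (.void 25 ⟨⟨100000, 0, 0, 0, 0, 0, 0, 0, 0, ⟨0, 0⟩, 0⟩, 0, 0⟩ 0 0) (.cut .v 20971520 (.cut .d (-2097152) (.void 27 ⟨⟨100000, 0, 0, 0, 0, 0, 0, 0, 0, ⟨0, 0⟩, 0⟩, 0, 0⟩ 0 0) (.cut .d (-1048576) (.void 27 ⟨⟨100000, 0, 0, 0, 0, 0, 0, 0, 0, ⟨0, 0⟩, 0⟩, 0, 0⟩ 0 0) (.cut .v 18874368 (.cut .d (-524288) (.void 29 ⟨⟨100000, 0, 0, 0, 0, 0, 0, 0, 0, ⟨0, 0⟩, 0⟩, 0, 0⟩ 0 0) (.cut .v 17825792 (.cut .d (-262144) (.void 31 ⟨⟨100000, 0, 0, 0, 0, 0, 0, 0, 0, ⟨0, 0⟩, 0⟩, 0, 0⟩ 0 0) (.cut .d (-131072) (.void 31 ⟨⟨100000, 0, 0, 0, 0, 0, 0, 0, 0, ⟨0, 0⟩, 0⟩, 0,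 0⟩ 0 0) (.cut .d (-65536) (.void 31 ⟨⟨100000, 0, 0, 0, 0, 0, 0, 0, 0, ⟨0, 0⟩, 0⟩, 0, 0⟩ 0 0) (.cut .d (-32768) (.void 31 ⟨⟨100000, 0, 0, 0, 0, 0, 0, 0, 0, ⟨0, 0⟩, 0⟩, 0, 0⟩ 0 0) (.cut .d (-16384) (.void 31 ⟨⟨100000, 0, 0, 0, 0, 0, 0, 0, 0, ⟨0, 0⟩, 0⟩, 0, 0⟩ 0 0) (.cut .v 17301504 (.cut .v 17039360 (.cut .v 16908288 (.cut .d (-8192) (.cut .v 16842752 (.cut .d (-12288) (.void 39 ⟨⟨0, 0, 0, 0, 0, 100000, 0, 0, 0, ⟨0, 0⟩, 0⟩, 0, 0⟩ 0 0) (.cut .d (-10240) (.void 39 ⟨⟨0, 0, 0, 0, 0, 100000, 0, 0, 0, ⟨0, 0⟩, 0⟩, 0, 0⟩ 0 0) (.cut .d (-9216) (.void 39 ⟨⟨0, 0, 0, 0, 0, 100000, 0, 0, 0, ⟨0, 0⟩, 0⟩, 0, 0⟩ 0 0) (.cut .l 123033 (.void 39 ⟨⟨100000,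 0, 0, 0, 0, 0, 0, 0, 0, ⟨0, 0⟩, 0⟩, 0, 0⟩ 0 0) (.cut .l 184549 (.void 39 ⟨⟨0, 0, 0, 0, 0, 100000, 0, 0, 0, ⟨0, 0⟩, 0⟩, 0, 0⟩ 0 0) (.cut .l 215307 (.void 39 ⟨⟨0, 0, 0, 0, 0, 100000, 0, 0, 0, ⟨0, 0⟩, 0⟩, 0, 0⟩ 0 0) (.cut .s 13369344 (.cut .v 16809984 (.pos 49 .mp ⟨⟨0, 0, 0, 0, 0, 1243656287, 0, 0, 0, ⟨0, 0⟩, 0⟩, 0, 0⟩ 0 0) (.cut .s 13303808 (.pos 50 .mp ⟨⟨551620364, 0, 0, 0, 0, 238102144, 0, 0, 0, ⟨0, 0⟩, 0⟩, 0, 0⟩ 0 0) (.pos 50 .mp ⟨⟨577319333, 0, 0, 0, 0, 246892737, 0, 0, 0, ⟨0, 0⟩, 0⟩, 0, 0⟩ 0 0))) (.cut .s 13434880 (.pos 39 .mp ⟨⟨573655593, 0, 0, 0, 0, 339581640, 0, 0, 0, ⟨0, 0⟩, 0⟩, 0, 0⟩ 0 0) (.pos 39 .mp ⟨⟨599116484, 0, 0, 0, 0,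 361898534, 0, 0, 0, ⟨0, 0⟩, 0⟩, 0, 0⟩ 0 0))))))))) (.void 40 ⟨⟨100000, 0, 0, 0, 0, 0, 0, 0, 0, ⟨0, 0⟩, 0⟩, 0, 0⟩ 0 0)) (.cut .s 13369344 (.cut .v 16842752 (.cut .s 13303808 (.cut .s 13271040 (.cut .v 16809984 (.cut .s 13254656 (.cut .s 13246464 (.cut .s 13242368 (.pos 49 .mp ⟨⟨533077694, 0, 0, 0, 0, 229783047, 0, 0, 0, ⟨0, 0⟩, 0⟩, 0, 0⟩ 0 0) (.pos 49 .mp ⟨⟨534578970, 0, 0, 0, 0, 230327277, 0, 0, 0, ⟨0, 0⟩, 0⟩, 0, 0⟩ 0 0)) (.cut .s 13250560 (.pos 49 .mp ⟨⟨536085205, 0, 0, 0, 0, 230878612, 0, 0, 0, ⟨0, 0⟩, 0⟩, 0, 0⟩ 0 0) (.pos 49 .mp ⟨⟨537596416, 0, 0, 0, 0, 231437042, 0, 0, 0, ⟨0, 0⟩, 0⟩, 0, 0⟩ 0 0))) (.cut .s 13262848 (.cut .s 13258752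 (.pos 49 .mp ⟨⟨539112619, 0, 0, 0, 0, 232002557, 0, 0, 0, ⟨0, 0⟩, 0⟩, 0, 0⟩ 0 0) (.cut .s 13260800 (.pos 49 .mp ⟨⟨539872598, 0, 0, 0, 0, 233157053, 0, 0, 0, ⟨0, 0⟩, 0⟩, 0, 0⟩ 0 0) (.pos 49 .mp ⟨⟨540633831, 0, 0, 0, 0, 233446513, 0, 0, 0, ⟨0, 0⟩, 0⟩, 0, 0⟩ 0 0))) (.cut .d (-4096) (.pos 49 .mp ⟨⟨531547776, 0, 0, 0, 0, 257091211, 0, 0, 0, ⟨0, 0⟩, 0⟩, 0, 0⟩ 0 0) (.cut .s 13266944 (.pos 49 .mp ⟨⟨536864337, 0, 0, 0, 0, 242242628, 0, 0, 0, ⟨0, 0⟩, 0⟩, 0, 0⟩ 0 0) (.pos 49 .mp ⟨⟨538168183, 0, 0, 0, 0, 243195097, 0, 0, 0, ⟨0, 0⟩, 0⟩, 0, 0⟩ 0 0))))) (.pos 50 .mp ⟨⟨672454539, 0, 0, 0, 0, 0, 0, 0, 0, ⟨0, 0⟩, 0⟩, 0, 0⟩ 0 0)) (.cut .v 16809984 (.cut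 .s 13287424 (.cut .s 13279232 (.cut .d (-4096) (.pos 49 .mp ⟨⟨533987659, 0, 0, 0, 0, 259480685, 0, 0, 0, ⟨0, 0⟩, 0⟩, 0, 0⟩ 0 0) (.cut .s 13275136 (.pos 49 .mp ⟨⟨539485394, 0, 0, 0, 0, 244141564, 0, 0, 0, ⟨0, 0⟩, 0⟩, 0, 0⟩ 0 0) (.pos 49 .mp ⟨⟨541038806, 0, 0, 0, 0, 244680459, 0, 0, 0, ⟨0, 0⟩, 0⟩, 0, 0⟩ 0 0))) (.cut .d (-4096) (.pos 49 .mp ⟨⟨536496188, 0, 0, 0, 0, 261809667, 0, 0, 0, ⟨0, 0⟩, 0⟩, 0, 0⟩ 0 0) (.cut .s 13283328 (.pos 49 .mp ⟨⟨542684817, 0, 0, 0, 0, 245070409, 0, 0, 0, ⟨0, 0⟩, 0⟩, 0, 0⟩ 0 0) (.pos 49 .mp ⟨⟨544330053, 0, 0, 0, 0, 245479719, 0, 0, 0, ⟨0, 0⟩, 0⟩, 0, 0⟩ 0 0)))) (.cut .s 13295616 (.cut .d (-4096) (.pos 49 .mp ⟨⟨539074788,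 0, 0, 0, 0, 264075601, 0, 0, 0, ⟨0, 0⟩, 0⟩, 0, 0⟩ 0 0) (.cut .s 13291520 (.pos 49 .mp ⟨⟨545883645, 0, 0, 0, 0, 246084511, 0, 0, 0, ⟨0, 0⟩, 0⟩, 0, 0⟩ 0 0) (.pos 49 .mp ⟨⟨547422109, 0, 0, 0, 0, 246736634, 0, 0, 0, ⟨0, 0⟩, 0⟩, 0, 0⟩ 0 0))) (.cut .d (-4096) (.pos 49 .mp ⟨⟨541724896, 0, 0, 0, 0, 266275909, 0, 0, 0, ⟨0, 0⟩, 0⟩, 0, 0⟩ 0 0) (.cut .s 13299712 (.pos 49 .mp ⟨⟨548965622, 0, 0, 0, 0, 247397036, 0, 0, 0, ⟨0, 0⟩, 0⟩, 0, 0⟩ 0 0) (.pos 49 .mp ⟨⟨550514201, 0, 0, 0, 0, 248065720, 0, 0, 0, ⟨0, 0⟩, 0⟩, 0, 0⟩ 0 0))))) (.pos 50 .mp ⟨⟨649484260, 0, 0, 0, 0, 69590754, 0, 0, 0, ⟨0, 0⟩, 0⟩, 0, 0⟩ 0 0))) (.cut .s 13336576 (.cut .v 16809984 (.cut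 .s 13320192 (.cut .s 13312000 (.cut .d (-4096) (.pos 49 .mp ⟨⟨544447955, 0, 0, 0, 0, 268407991, 0, 0, 0, ⟨0, 0⟩, 0⟩, 0, 0⟩ 0 0) (.cut .s 13307904 (.pos 49 .mp ⟨⟨552067864, 0, 0, 0, 0, 248742693, 0, 0, 0, ⟨0, 0⟩, 0⟩, 0, 0⟩ 0 0) (.pos 49 .mp ⟨⟨553626628, 0, 0, 0, 0, 249427959, 0, 0, 0, ⟨0, 0⟩, 0⟩, 0, 0⟩ 0 0))) (.cut .d (-4096) (.pos 49 .mp ⟨⟨547245422, 0, 0, 0, 0, 270469224, 0, 0, 0, ⟨0, 0⟩, 0⟩, 0, 0⟩ 0 0) (.cut .s 13316096 (.pos 49 .mp ⟨⟨555190510, 0, 0, 0, 0, 250121525, 0, 0, 0, ⟨0, 0⟩, 0⟩, 0, 0⟩ 0 0) (.pos 49 .mp ⟨⟨556759529, 0, 0, 0, 0, 250823395, 0, 0, 0, ⟨0, 0⟩, 0⟩, 0, 0⟩ 0 0)))) (.cut .s 13328384 (.cut .d (-4096) (.cut .s 13324288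 (.pos 49 .mp ⟨⟨552787858, 0, 0, 0, 0, 264938120, 0, 0, 0, ⟨0, 0⟩, 0⟩, 0, 0⟩ 0 0) (.pos 49 .mp ⟨⟨554258675, 0, 0, 0, 0, 265881605, 0, 0, 0, ⟨0, 0⟩, 0⟩, 0, 0⟩ 0 0)) (.cut .s 13324288 (.pos 49 .mp ⟨⟨558333703, 0, 0, 0, 0, 251533575, 0, 0, 0, ⟨0, 0⟩, 0⟩, 0, 0⟩ 0 0) (.pos 49 .mp ⟨⟨559913047, 0, 0, 0, 0, 252252069, 0, 0, 0, ⟨0, 0⟩, 0⟩, 0, 0⟩ 0 0))) (.cut .d (-4096) (.cut .s 13332480 (.pos 49 .mp ⟨⟨555748927, 0, 0, 0, 0, 266805872, 0, 0, 0, ⟨0, 0⟩, 0⟩, 0, 0⟩ 0 0) (.pos 49 .mp ⟨⟨557258802, 0, 0, 0, 0, 267710584, 0, 0, 0, ⟨0, 0⟩, 0⟩, 0, 0⟩ 0 0)) (.cut .s 13332480 (.pos 49 .mp ⟨⟨561497582, 0, 0, 0, 0, 252978884, 0, 0, 0, ⟨0, 0⟩, 0⟩, 0, 0⟩ 0 0)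 (.pos 49 .mp ⟨⟨563087324, 0, 0, 0, 0, 253714022, 0, 0, 0, ⟨0, 0⟩, 0⟩, 0, 0⟩ 0 0))))) (.pos 50 .mp ⟨⟨663003401, 0, 0, 0, 0, 72982279, 0, 0, 0, ⟨0, 0⟩, 0⟩, 0, 0⟩ 0 0)) (.cut .v 16809984 (.cut .s 13352960 (.cut .s 13344768 (.cut .d (-4096) (.cut .s 13340672 (.pos 49 .mp ⟨⟨558788484, 0, 0, 0, 0, 268595403, 0, 0, 0, ⟨0, 0⟩, 0⟩, 0, 0⟩ 0 0) (.pos 49 .mp ⟨⟨560338163, 0, 0, 0, 0, 269459991, 0, 0, 0, ⟨0, 0⟩, 0⟩, 0, 0⟩ 0 0)) (.cut .s 13340672 (.pos 49 .mp ⟨⟨564682292, 0, 0, 0, 0, 254457491, 0, 0, 0, ⟨0, 0⟩, 0⟩, 0, 0⟩ 0 0) (.pos 49 .mp ⟨⟨566282504, 0, 0, 0, 0, 255209294, 0, 0, 0, ⟨0, 0⟩, 0⟩, 0, 0⟩ 0 0))) (.cut .d (-4096) (.cut .s 13348864 (.pos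 49 .mp ⟨⟨561908025, 0, 0, 0, 0, 270304005, 0, 0, 0, ⟨0, 0⟩, 0⟩, 0, 0⟩ 0 0) (.pos 49 .mp ⟨⟨563498261, 0, 0, 0, 0, 271127106, 0, 0, 0, ⟨0, 0⟩, 0⟩, 0, 0⟩ 0 0)) (.cut .s 13348864 (.pos 49 .mp ⟨⟨567887977, 0, 0, 0, 0, 255969436, 0, 0, 0, ⟨0, 0⟩, 0⟩, 0, 0⟩ 0 0) (.pos 49 .mp ⟨⟨569498731, 0, 0, 0, 0, 256737922, 0, 0, 0, ⟨0, 0⟩, 0⟩, 0, 0⟩ 0 0)))) (.cut .s 13361152 (.cut .d (-4096) (.cut .s 13357056 (.pos 49 .mp ⟨⟨565109059, 0, 0, 0, 0, 271928948, 0, 0, 0, ⟨0, 0⟩, 0⟩, 0, 0⟩ 0 0) (.pos 49 .mp ⟨⟨566740609, 0, 0, 0, 0, 272709188, 0, 0, 0, ⟨0, 0⟩, 0⟩, 0, 0⟩ 0 0)) (.cut .s 13357056 (.pos 49 .mp ⟨⟨571114784, 0, 0, 0, 0, 257514757, 0, 0, 0, ⟨0, 0⟩,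 0⟩, 0, 0⟩ 0 0) (.pos 49 .mp ⟨⟨572736153, 0, 0, 0, 0, 258299944, 0, 0, 0, ⟨0, 0⟩, 0⟩, 0, 0⟩ 0 0))) (.cut .d (-4096) (.cut .s 13365248 (.pos 49 .mp ⟨⟨568393103, 0, 0, 0, 0, 273467479, 0, 0, 0, ⟨0, 0⟩, 0⟩, 0, 0⟩ 0 0) (.pos 49 .mp ⟨⟨570066732, 0, 0, 0, 0, 274203472, 0, 0, 0, ⟨0, 0⟩, 0⟩, 0, 0⟩ 0 0)) (.cut .s 13365248 (.pos 49 .mp ⟨⟨574362859, 0, 0, 0, 0, 259093490, 0, 0, 0, ⟨0, 0⟩, 0⟩, 0, 0⟩ 0 0) (.pos 49 .mp ⟨⟨575994918, 0, 0, 0, 0, 259895398, 0, 0, 0, ⟨0, 0⟩, 0⟩, 0, 0⟩ 0 0))))) (.pos 50 .mp ⟨⟨678562388, 0, 0, 0, 0, 73867512, 0, 0, 0, ⟨0, 0⟩, 0⟩, 0, 0⟩ 0 0)))) (.pos 40 .mp ⟨⟨704923081, 0, 0, 0, 0, 0, 0, 0, 0, ⟨0, 0⟩, 0⟩, 0, 0⟩ 0 0)) (.cut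 .v 16842752 (.cut .s 13434880 (.cut .s 13402112 (.cut .v 16809984 (.cut .s 13385728 (.cut .s 13377536 (.cut .d (-4096) (.cut .s 13373440 (.pos 49 .mp ⟨⟨571761689, 0, 0, 0, 0, 274916818, 0, 0, 0, ⟨0, 0⟩, 0⟩, 0, 0⟩ 0 0) (.pos 49 .mp ⟨⟨573478166, 0, 0, 0, 0, 275607167, 0, 0, 0, ⟨0, 0⟩, 0⟩, 0, 0⟩ 0 0)) (.cut .s 13373440 (.pos 49 .mp ⟨⟨577632351, 0, 0, 0, 0, 260705672, 0, 0, 0, ⟨0, 0⟩, 0⟩, 0, 0⟩ 0 0) (.pos 49 .mp ⟨⟨579275176, 0, 0, 0, 0, 261524317, 0, 0, 0, ⟨0, 0⟩, 0⟩, 0, 0⟩ 0 0))) (.cut .d (-4096) (.pos 49 .mp ⟨⟨572482114, 0, 0, 0, 0, 284086473, 0, 0, 0, ⟨0, 0⟩, 0⟩, 0, 0⟩ 0 0) (.cut .s 13381632 (.pos 49 .mp ⟨⟨580923412, 0, 0, 0, 0, 262351338,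 0, 0, 0, ⟨0, 0⟩, 0⟩, 0, 0⟩ 0 0) (.pos 49 .mp ⟨⟨582577077, 0, 0, 0, 0, 263186737, 0, 0, 0, ⟨0, 0⟩, 0⟩, 0, 0⟩ 0 0)))) (.cut .s 13393920 (.cut .d (-4096) (.pos 49 .mp ⟨⟨576016560, 0, 0, 0, 0, 285388331, 0, 0, 0, ⟨0, 0⟩, 0⟩, 0, 0⟩ 0 0) (.cut .s 13389824 (.pos 49 .mp ⟨⟨584236191, 0, 0, 0, 0, 264030520, 0, 0, 0, ⟨0, 0⟩, 0⟩, 0, 0⟩ 0 0) (.pos 49 .mp ⟨⟨585900774, 0, 0, 0, 0, 264882690, 0, 0, 0, ⟨0, 0⟩, 0⟩, 0, 0⟩ 0 0))) (.cut .d (-4096) (.pos 49 .mp ⟨⟨579640578, 0, 0, 0, 0, 286591855, 0, 0, 0, ⟨0, 0⟩, 0⟩, 0, 0⟩ 0 0) (.cut .s 13398016 (.pos 49 .mp ⟨⟨587570844, 0, 0, 0, 0, 265743252, 0, 0, 0, ⟨0, 0⟩, 0⟩, 0, 0⟩ 0 0) (.pos 49 .mp ⟨⟨589246421, 0,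 0, 0, 0, 266612208, 0, 0, 0, ⟨0, 0⟩, 0⟩, 0, 0⟩ 0 0))))) (.pos 50 .mp ⟨⟨696341012, 0, 0, 0, 0, 71929896, 0, 0, 0, ⟨0, 0⟩, 0⟩, 0, 0⟩ 0 0)) (.cut .v 16809984 (.cut .s 13418496 (.cut .s 13410304 (.cut .d (-4096) (.pos 49 .mp ⟨⟨577241088, 0, 0, 0, 0, 300627734, 0, 0, 0, ⟨0, 0⟩, 0⟩, 0, 0⟩ 0 0) (.cut .s 13406208 (.pos 49 .mp ⟨⟨590927524, 0, 0, 0, 0, 267489564, 0, 0, 0, ⟨0, 0⟩, 0⟩, 0, 0⟩ 0 0) (.pos 49 .mp ⟨⟨592614173, 0, 0, 0, 0, 268375322, 0, 0, 0, ⟨0, 0⟩, 0⟩, 0, 0⟩ 0 0))) (.cut .d (-4096) (.pos 49 .mp ⟨⟨580538708, 0, 0, 0, 0, 302712516, 0, 0, 0, ⟨0, 0⟩, 0⟩, 0, 0⟩ 0 0) (.cut .s 13414400 (.pos 49 .mp ⟨⟨594306387, 0, 0, 0, 0, 269269486, 0, 0,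 0, ⟨0, 0⟩, 0⟩, 0, 0⟩ 0 0) (.pos 49 .mp ⟨⟨596004187, 0, 0, 0, 0, 270172060, 0, 0, 0, ⟨0, 0⟩, 0⟩, 0, 0⟩ 0 0)))) (.cut .s 13426688 (.cut .d (-4096) (.pos 49 .mp ⟨⟨583857868, 0, 0, 0, 0, 304845519, 0, 0, 0, ⟨0, 0⟩, 0⟩, 0, 0⟩ 0 0) (.cut .s 13422592 (.pos 49 .mp ⟨⟨597574175, 0, 0, 0, 0, 271343046, 0, 0, 0, ⟨0, 0⟩, 0⟩, 0, 0⟩ 0 0) (.pos 49 .mp ⟨⟨599135742, 0, 0, 0, 0, 272549919, 0, 0, 0, ⟨0, 0⟩, 0⟩, 0, 0⟩ 0 0))) (.cut .d (-4096) (.pos 49 .mp ⟨⟨587198721, 0, 0, 0, 0, 307027123, 0, 0, 0, ⟨0, 0⟩, 0⟩, 0, 0⟩ 0 0) (.cut .s 13430784 (.pos 49 .mp ⟨⟨601034512, 0, 0, 0, 0, 273163962, 0, 0, 0, ⟨0, 0⟩, 0⟩, 0, 0⟩ 0 0) (.pos 49 .mp ⟨⟨603001163, 0, 0, 0,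 0, 273674469, 0, 0, 0, ⟨0, 0⟩, 0⟩, 0, 0⟩ 0 0))))) (.pos 50 .mp ⟨⟨716524894, 0, 0, 0, 0, 66840809, 0, 0, 0, ⟨0, 0⟩, 0⟩, 0, 0⟩ 0 0))) (.cut .s 13467648 (.cut .v 16809984 (.cut .s 13451264 (.cut .s 13443072 (.cut .d (-4096) (.pos 49 .mp ⟨⟨590561422, 0, 0, 0, 0, 309257711, 0, 0, 0, ⟨0, 0⟩, 0⟩, 0, 0⟩ 0 0) (.cut .s 13438976 (.pos 49 .mp ⟨⟨604988024, 0, 0, 0, 0, 274168111, 0, 0, 0, ⟨0, 0⟩, 0⟩, 0, 0⟩ 0 0) (.pos 49 .mp ⟨⟨606995287, 0, 0, 0, 0, 274644579, 0, 0, 0, ⟨0, 0⟩, 0⟩, 0, 0⟩ 0 0))) (.cut .s 13447168 (.pos 49 .mp ⟨⟨601873824, 0, 0, 0, 0, 289150376, 0, 0, 0, ⟨0, 0⟩, 0⟩, 0, 0⟩ 0 0) (.pos 49 .mp ⟨⟨603991086, 0, 0, 0, 0, 289394708, 0, 0, 0,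 ⟨0, 0⟩, 0⟩, 0, 0⟩ 0 0))) (.cut .s 13459456 (.cut .s 13455360 (.pos 49 .mp ⟨⟨606856463, 0, 0, 0, 0, 288260793, 0, 0, 0, ⟨0, 0⟩, 0⟩, 0, 0⟩ 0 0) (.pos 49 .mp ⟨⟨609825967, 0, 0, 0, 0, 286949457, 0, 0, 0, ⟨0, 0⟩, 0⟩, 0, 0⟩ 0 0)) (.cut .s 13463552 (.pos 49 .mp ⟨⟨612854538, 0, 0, 0, 0, 285544722, 0, 0, 0, ⟨0, 0⟩, 0⟩, 0, 0⟩ 0 0) (.pos 49 .mp ⟨⟨615942529, 0, 0, 0, 0, 284045898, 0, 0, 0, ⟨0, 0⟩, 0⟩, 0, 0⟩ 0 0)))) (.pos 50 .mp ⟨⟨739305798, 0, 0, 0, 0, 58258961, 0, 0, 0, ⟨0, 0⟩, 0⟩, 0, 0⟩ 0 0)) (.cut .v 16809984 (.cut .s 13484032 (.cut .s 13475840 (.cut .s 13471744 (.pos 49 .mp ⟨⟨619090299, 0, 0, 0, 0, 282452297, 0, 0, 0, ⟨0, 0⟩, 0⟩, 0, 0⟩ 0 0)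 (.pos 49 .mp ⟨⟨622298204, 0, 0, 0, 0, 280763227, 0, 0, 0, ⟨0, 0⟩, 0⟩, 0, 0⟩ 0 0)) (.cut .s 13479936 (.pos 49 .mp ⟨⟨625566603, 0, 0, 0, 0, 278977995, 0, 0, 0, ⟨0, 0⟩, 0⟩, 0, 0⟩ 0 0) (.pos 49 .mp ⟨⟨628895853, 0, 0, 0, 0, 277095906, 0, 0, 0, ⟨0, 0⟩, 0⟩, 0, 0⟩ 0 0))) (.cut .d (-4096) (.pos 49 .mp ⟨⟨611205321, 0, 0, 0, 0, 328313963, 0, 0, 0, ⟨0, 0⟩, 0⟩, 0, 0⟩ 0 0) (.cut .s 13492224 (.pos 49 .mp ⟨⟨627542806, 0, 0, 0, 0, 284823880, 0, 0, 0, ⟨0, 0⟩, 0⟩, 0, 0⟩ 0 0) (.pos 49 .mp ⟨⟨631072599, 0, 0, 0, 0, 287108438, 0, 0, 0, ⟨0, 0⟩, 0⟩, 0, 0⟩ 0 0)))) (.pos 50 .mp ⟨⟨764881951, 0, 0, 0, 0, 45829745, 0, 0, 0, ⟨0, 0⟩, 0⟩, 0, 0⟩ 0 0)))) (.pos 40 .mp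 ⟨⟨771522103, 0, 0, 0, 0, 0, 0, 0, 0, ⟨0, 0⟩, 0⟩, 0, 0⟩ 0 0)))) (.pos 38 .mp ⟨⟨782852213, 0, 0, 0, 0, 0, 0, 0, 0, ⟨0, 0⟩, 0⟩, 0, 0⟩ 0 0)) (.void 36 ⟨⟨100000, 0, 0, 0, 0, 0, 0, 0, 0, ⟨0, 0⟩, 0⟩, 0, 0⟩ 0 0)) (.void 34 ⟨⟨100000, 0, 0, 0, 0, 0, 0, 0, 0, ⟨0, 0⟩, 0⟩, 0, 0⟩ 0 0))))))) (.void 32 ⟨⟨100000, 0, 0, 0, 0, 0, 0, 0, 0, ⟨0, 0⟩, 0⟩, 0, 0⟩ 0 0))) (.void 30 ⟨⟨100000, 0, 0, 0, 0, 0, 0, 0, 0, ⟨0, 0⟩, 0⟩, 0, 0⟩ 0 0)))) (.void 28 ⟨⟨100000, 0, 0, 0, 0, 0, 0, 0, 0, ⟨0, 0⟩, 0⟩, 0, 0⟩ 0 0))) (.void 26 ⟨⟨100000, 0, 0, 0, 0, 0, 0, 0, 0, ⟨0, 0⟩, 0⟩, 0, 0⟩ 0 0))) (.void 91 ⟨⟨100000, 0, 0, 0, 0, 0, 0, 0, 0, ⟨0, 0⟩, 0⟩, 0, 0⟩ 0 0)) (.void 98 ⟨⟨100000,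 0, 0, 0, 0, 0, 0, 0, 0, ⟨0, 0⟩, 0⟩, 0, 0⟩ 0 0)) (.void 117 ⟨⟨95722, 0, 0, 4784, 0, 0, 0, 0, 0, ⟨0, 0⟩, 0⟩, 0, 0⟩ 0 0))) (.cut .v 16777216 (.cut .v 8388608 (.cut .v 4194304 (.cut .d 2242500 (.pos 4 .pm ⟨⟨0, 0, 825776030, 0, 0, 0, 0, 0, 0, ⟨0, 0⟩, 0⟩, 0, 11968⟩ 0 0) (.cut .v 2097152 (.cut .v 1048576 (.cut .v 524288 (.pos 122 .pm ⟨⟨0, 0, 4354252, 0, 0, 0, 0, 0, 0, ⟨0, 0⟩, 0⟩, 0, 1710⟩ 0 0) (.pos 123 .pm ⟨⟨0, 24469380, 0, 0, 0, 0, 0, 0, 0, ⟨0, 0⟩, 0⟩, 0, 3650⟩ 0 0)) (.cut .d 3363750 (.pos 114 .pm ⟨⟨0, 0, 22735069, 0, 0, 0, 0, 0, 0, ⟨0, 0⟩, 0⟩, 0, 6444⟩ 0 0) (.cut .d 3924375 (.pos 114 .pm ⟨⟨0, 0, 0, 0, 0, 0, 0, 0, 0, ⟨0, 0⟩, 0⟩, 0, 9308⟩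 0 0) (.pos 114 .pm ⟨⟨0, 125853920, 0, 0, 0, 0, 0, 0, 0, ⟨0, 0⟩, 0⟩, 0, 9308⟩ 0 0)))) (.cut .d 3363750 (.pos 7 .pm ⟨⟨0, 0, 0, 0, 0, 0, 0, 0, 0, ⟨0, 0⟩, 0⟩, 0, 9308⟩ 0 0) (.cut .d 3924375 (.pos 7 .pm ⟨⟨0, 0, 0, 0, 0, 0, 0, 0, 0, ⟨0, 0⟩, 0⟩, 0, 11968⟩ 0 0) (.cut .d 4204688 (.cut .s 13369344 (.pos 7 .pm ⟨⟨0, 142813014, 0, 0, 0, 0, 0, 0, 0, ⟨0, 0⟩, 0⟩, 0, 17207⟩ 0 0) (.pos 7 .pm ⟨⟨0, 188056205, 0, 0, 0, 0, 0, 0, 0, ⟨0, 0⟩, 0⟩, 0, 14383⟩ 0 0)) (.cut .s 13369344 (.cut .d 4344844 (.pos 7 .pm ⟨⟨0, 181449138, 0, 0, 0, 0, 0, 0, 0, ⟨0, 0⟩, 0⟩, 0, 17207⟩ 0 0) (.pos 7 .pm ⟨⟨0, 230849667, 0, 0, 0, 0, 0, 0, 0, ⟨0, 0⟩, 0⟩, 0, 17207⟩ 0 0)) (.void 7 ⟨⟨0,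 100000, 0, 0, 0, 0, 0, 0, 0, ⟨0, 0⟩, 0⟩, 0, 0⟩ 0 0))))))) (.cut .d 2242500 (.pos 5 .pm ⟨⟨0, 0, 19226294, 0, 0, 0, 0, 0, 0, ⟨0, 0⟩, 0⟩, 0, 0⟩ 0 0) (.cut .d 3363750 (.pos 5 .pm ⟨⟨0, 0, 0, 0, 0, 0, 0, 0, 0, ⟨0, 0⟩, 0⟩, 0, 16755⟩ 0 0) (.cut .d 3924375 (.pos 5 .pm ⟨⟨0, 0, 0, 0, 0, 0, 0, 0, 0, ⟨0, 0⟩, 0⟩, 0, 16755⟩ 0 0) (.cut .d 4204688 (.pos 5 .pm ⟨⟨0, 225204853, 0, 0, 0, 0, 0, 0, 0, ⟨0, 0⟩, 0⟩, 0, 20943⟩ 0 0) (.pos 5 .pm ⟨⟨0, 316926788, 0, 0, 0, 0, 0, 0, 0, ⟨0, 0⟩, 0⟩, 0, 20943⟩ 0 0)))))) (.cut .d 2242500 (.pos 3 .pm ⟨⟨0, 0, 0, 0, 0, 0, 0, 0, 0, ⟨0, 0⟩, 0⟩, 0, 0⟩ 0 0) (.pos 3 .pm ⟨⟨0, 285258003, 0, 0, 0, 0, 0, 0, 0, ⟨0, 0⟩, 0⟩, 0, 27924⟩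 0 0))) (.cut .v 268435456 (.cut .v 67108864 (.cut .d 2242500 (.cut .d 1121250 (.cut .v 33554432 (.cut .d 560625 (.cut .v 25165824 (.cut .d 280312 (.cut .v 20971520 (.cut .d 140156 (.cut .v 18874368 (.cut .d 70078 (.cut .v 17825792 (.cut .s 13369344 (.pos 31 .pp ⟨⟨528028746, 0, 0, 0, 0, 0, 0, 0, 0, ⟨0, 0⟩, 0⟩, 15152939, 0⟩ 0 0) (.pos 31 .pp ⟨⟨580183122, 0, 0, 0, 0, 0, 0, 0, 0, ⟨0, 0⟩, 0⟩, 16246761, 0⟩ 0 0)) (.pos 32 .pp ⟨⟨808207712, 0, 0, 0, 0, 0, 0, 0, 0, ⟨0, 0⟩, 0⟩, 0, 0⟩ 0 0)) (.pos 29 .pp ⟨⟨548816276, 0, 0, 0, 0, 0, 0, 0, 0, ⟨0, 0⟩, 0⟩, 0, 9963⟩ 0 0)) (.cut .d 70078 (.pos 30 .pp ⟨⟨1167130408, 0, 0, 0, 0, 0, 0, 0, 0, ⟨0, 0⟩, 0⟩, 0,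 0⟩ 0 0) (.pos 30 .pp ⟨⟨857583975, 0, 0, 0, 0, 0, 0, 0, 0, ⟨0, 0⟩, 0⟩, 0, 0⟩ 0 0))) (.pos 27 .pp ⟨⟨0, 0, 0, 0, 0, 0, 0, 0, 0, ⟨0, 0⟩, 0⟩, 65033189, 18577⟩ 0 0)) (.cut .d 140156 (.pos 28 .pp ⟨⟨672860103, 0, 0, 0, 0, 0, 0, 0, 0, ⟨0, 0⟩, 0⟩, 65671121, 0⟩ 0 0) (.pos 28 .pp ⟨⟨0, 0, 0, 0, 0, 0, 0, 0, 0, ⟨0, 0⟩, 0⟩, 100304687, 0⟩ 0 0))) (.pos 25 .pp ⟨⟨0, 0, 0, 0, 0, 0, 0, 0, 0, ⟨0, 0⟩, 0⟩, 59036807, 22417⟩ 0 0)) (.cut .d 280312 (.void 26 ⟨⟨0, 0, 0, 0, 0, 0, 0, 0, 0, ⟨0, 0⟩, 0⟩, 100000, 0⟩ 0 0) (.pos 26 .pp ⟨⟨0, 0, 0, 0, 0, 0, 0, 0, 0, ⟨0, 0⟩, 0⟩, 118364227, 0⟩ 0 0))) (.pos 24 .pp ⟨⟨0, 0, 0, 0, 0, 0, 0, 0, 0, ⟨0, 0⟩, 0⟩, 52404219, 26665⟩ 0 0))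 (.cut .d 560625 (.void 91 ⟨⟨0, 0, 0, 0, 0, 0, 0, 0, 0, ⟨0, 0⟩, 0⟩, 100000, 0⟩ 0 0) (.pos 91 .pp ⟨⟨0, 0, 0, 0, 0, 0, 0, 0, 0, ⟨0, 0⟩, 0⟩, 167925956, 0⟩ 0 0))) (.pos 90 .pp ⟨⟨0, 0, 0, 0, 0, 0, 0, 0, 0, ⟨0, 0⟩, 0⟩, 28104689, 42227⟩ 0 0)) (.pos 90 .pp ⟨⟨0, 371223697, 0, 0, 0, 0, 0, 0, 0, ⟨0, 0⟩, 0⟩, 0, 41886⟩ 0 0)) (.void 98 ⟨⟨0, 0, 0, 47115, 0, 0, 0, 0, 0, ⟨0, 0⟩, 0⟩, 53082, 0⟩ 0 0)) (.void 117 ⟨⟨0, 0, 0, 0, 0, 0, 0, 0, 0, ⟨0, 0⟩, 0⟩, 100000, 0⟩ 0 0)))),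
    by decide +kernel⟩

def covers24 : cell.Covers Vale.Agent.P237.Petty.Cor.Grid.N15.table row24.1 :=
  ⟨(.cut .d 0 (.cut .v 16777216 (.cut .v 8388608 (.pos 2 .mm ⟨⟨0, 0, 780443993, 0, 0, 2895922696, 0, 0, 0, ⟨0, 0⟩, 0⟩, 0, 0⟩ 0 0) (.cut .d (-8388608) (.void 3 ⟨⟨100000, 0, 0, 0, 0, 0, 0, 0, 0, ⟨0, 0⟩, 0⟩, 0, 0⟩ 0 0) (.cut .d (-4194304) (.void 3 ⟨⟨100000, 0, 0, 0, 0, 0, 0, 0, 0, ⟨0, 0⟩, 0⟩, 0, 0⟩ 0 0) (.cut .d (-2097152) (.void 3 ⟨⟨100000, 0, 0, 0, 0, 0, 0, 0, 0, ⟨0, 0⟩, 0⟩, 0, 0⟩ 0 0) (.cut .d (-1048576) (.void 3 ⟨⟨0, 0, 0, 0, 0, 100000, 0, 0, 0, ⟨0, 0⟩, 0⟩, 0, 0⟩ 0 0) (.cut .d (-524288) (.void 3 ⟨⟨0, 0, 0, 0, 0, 100000, 0, 0, 0, ⟨0,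 0⟩, 0⟩, 0, 0⟩ 0 0) (.cut .d (-262144) (.void 3 ⟨⟨0, 0, 0, 0, 0, 100000, 0, 0, 0, ⟨0, 0⟩, 0⟩, 0, 0⟩ 0 0) (.cut .d (-131072) (.void 3 ⟨⟨0, 0, 0, 0, 0, 100000, 0, 0, 0, ⟨0, 0⟩, 0⟩, 0, 0⟩ 0 0) (.cut .s 13631488 (.pos 3 .mm ⟨⟨0, 0, 0, 0, 0, 1480261209, 0, 0, 0, ⟨0, 0⟩, 0⟩, 0, 0⟩ 0 0) (.cut .s 13697024 (.pos 3 .mm ⟨⟨0, 0, 0, 0, 0, 1563309849, 0, 0, 0, ⟨0, 0⟩, 0⟩, 0, 0⟩ 0 0) (.pos 3 .mm ⟨⟨0, 0, 0, 0, 0, 1647001945, 0, 0, 0, ⟨0, 0⟩, 0⟩, 0, 0⟩ 0 0))))))))))) (.cut .v 268435456 (.cut .v 67108864 (.cut .v 33554432 (.cut .d (-8388608) (.void 24 ⟨⟨100000, 0, 0, 0, 0, 0, 0, 0, 0, ⟨0, 0⟩, 0⟩, 0, 0⟩ 0 0) (.cut .v 25165824 (.cut .d (-4194304) (.void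 25 ⟨⟨100000, 0, 0, 0, 0, 0, 0, 0, 0, ⟨0, 0⟩, 0⟩, 0, 0⟩ 0 0) (.cut .d (-2097152) (.void 25 ⟨⟨100000, 0, 0, 0, 0, 0, 0, 0, 0, ⟨0, 0⟩, 0⟩, 0, 0⟩ 0 0) (.cut .v 20971520 (.cut .d (-1048576) (.void 27 ⟨⟨100000, 0, 0, 0, 0, 0, 0, 0, 0, ⟨0, 0⟩, 0⟩, 0, 0⟩ 0 0) (.cut .v 18874368 (.cut .d (-524288) (.void 29 ⟨⟨100000, 0, 0, 0, 0, 0, 0, 0, 0, ⟨0, 0⟩, 0⟩, 0, 0⟩ 0 0) (.cut .v 17825792 (.cut .d (-262144) (.void 31 ⟨⟨100000, 0, 0, 0, 0, 0, 0, 0, 0, ⟨0, 0⟩, 0⟩, 0, 0⟩ 0 0) (.cut .d (-131072) (.void 31 ⟨⟨100000, 0, 0, 0, 0, 0, 0, 0, 0, ⟨0, 0⟩, 0⟩, 0, 0⟩ 0 0) (.cut .d (-65536) (.void 31 ⟨⟨100000, 0, 0, 0, 0, 0, 0, 0, 0, ⟨0, 0⟩, 0⟩, 0, 0⟩ 0 0) (.cut .d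 (-32768) (.void 31 ⟨⟨100000, 0, 0, 0, 0, 0, 0, 0, 0, ⟨0, 0⟩, 0⟩, 0, 0⟩ 0 0) (.cut .d (-16384) (.void 31 ⟨⟨100000, 0, 0, 0, 0, 0, 0, 0, 0, ⟨0, 0⟩, 0⟩, 0, 0⟩ 0 0) (.cut .v 17301504 (.cut .v 17039360 (.cut .d (-8192) (.pos 35 .mp ⟨⟨640879989, 0, 0, 0, 0, 2557102844, 0, 0, 0, ⟨0, 0⟩, 0⟩, 0, 0⟩ 0 0) (.cut .v 16908288 (.cut .s 13631488 (.cut .v 16842752 (.cut .s 13565952 (.cut .s 13533184 (.cut .v 16809984 (.cut .s 13516800 (.cut .d (-4096) (.pos 49 .mp ⟨⟨618272059, 0, 0, 0, 0, 333588788, 0, 0, 0, ⟨0, 0⟩, 0⟩, 0, 0⟩ 0 0) (.cut .s 13508608 (.pos 49 .mp ⟨⟨635138157, 0, 0, 0, 0, 288556082, 0, 0, 0, ⟨0, 0⟩, 0⟩, 0, 0⟩ 0 0) (.pos 49 .mp ⟨⟨638484329,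 0, 0, 0, 0, 290293427, 0, 0, 0, ⟨0, 0⟩, 0⟩, 0, 0⟩ 0 0))) (.cut .d (-4096) (.pos 49 .mp ⟨⟨625451814, 0, 0, 0, 0, 336270054, 0, 0, 0, ⟨0, 0⟩, 0⟩, 0, 0⟩ 0 0) (.cut .s 13524992 (.pos 49 .mp ⟨⟨642180903, 0, 0, 0, 0, 291568925, 0, 0, 0, ⟨0, 0⟩, 0⟩, 0, 0⟩ 0 0) (.pos 49 .mp ⟨⟨645903189, 0, 0, 0, 0, 292887903, 0, 0, 0, ⟨0, 0⟩, 0⟩, 0, 0⟩ 0 0)))) (.pos 50 .mp ⟨⟨775897809, 0, 0, 0, 0, 59887190, 0, 0, 0, ⟨0, 0⟩, 0⟩, 0, 0⟩ 0 0)) (.cut .v 16809984 (.cut .s 13549568 (.cut .s 13541376 (.cut .s 13537280 (.pos 49 .mp ⟨⟨646625967, 0, 0, 0, 0, 299265269, 0, 0, 0, ⟨0, 0⟩, 0⟩, 0, 0⟩ 0 0) (.pos 49 .mp ⟨⟨646946635, 0, 0, 0, 0, 302935058, 0, 0, 0, ⟨0, 0⟩, 0⟩,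 0, 0⟩ 0 0)) (.cut .s 13545472 (.pos 49 .mp ⟨⟨647322509, 0, 0, 0, 0, 306524227, 0, 0, 0, ⟨0, 0⟩, 0⟩, 0, 0⟩ 0 0) (.pos 49 .mp ⟨⟨647754053, 0, 0, 0, 0, 310031890, 0, 0, 0, ⟨0, 0⟩, 0⟩, 0, 0⟩ 0 0))) (.cut .d (-4096) (.cut .s 13557760 (.pos 49 .mp ⟨⟨640109036, 0, 0, 0, 0, 337269784, 0, 0, 0, ⟨0, 0⟩, 0⟩, 0, 0⟩ 0 0) (.pos 49 .mp ⟨⟨643836439, 0, 0, 0, 0, 338867515, 0, 0, 0, ⟨0, 0⟩, 0⟩, 0, 0⟩ 0 0)) (.cut .l 123033 (.cut .v 16793600 (.cut .d (-2048) (.pos 55 .mp ⟨⟨641988865, 0, 0, 0, 0, 337080519, 0, 0, 0, ⟨0, 0⟩, 0⟩, 0, 0⟩ 0 0) (.cut .s 13557760 (.pos 55 .mp ⟨⟨652408091, 0, 0, 0, 0, 305528884, 0, 0, 0, ⟨0, 0⟩, 0⟩, 0, 0⟩ 0 0) (.pos 55 .mp ⟨⟨656196479,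 0, 0, 0, 0, 307092919, 0, 0, 0, ⟨0, 0⟩, 0⟩, 0, 0⟩ 0 0))) (.pos 56 .mp ⟨⟨740942812, 0, 0, 0, 0, 157633292, 0, 0, 0, ⟨0, 0⟩, 0⟩, 0, 0⟩ 0 0)) (.pos 49 .mp ⟨⟨652812179, 0, 0, 0, 0, 297125555, 0, 0, 0, ⟨0, 0⟩, 0⟩, 0, 0⟩ 0 0)))) (.pos 50 .mp ⟨⟨788607266, 0, 0, 0, 0, 69447319, 0, 0, 0, ⟨0, 0⟩, 0⟩, 0, 0⟩ 0 0))) (.cut .s 13598720 (.cut .v 16809984 (.cut .s 13582336 (.cut .d (-4096) (.cut .s 13574144 (.pos 49 .mp ⟨⟨647589456, 0, 0, 0, 0, 340523216, 0, 0, 0, ⟨0, 0⟩, 0⟩, 0, 0⟩ 0 0) (.pos 49 .mp ⟨⟨651368278, 0, 0, 0, 0, 342237368, 0, 0, 0, ⟨0, 0⟩, 0⟩, 0, 0⟩ 0 0)) (.cut .l 123033 (.cut .v 16793600 (.cut .s 13574144 (.cut .s 13570048 (.pos 55 .mp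 ⟨⟨664722702, 0, 0, 0, 0, 298786442, 0, 0, 0, ⟨0, 0⟩, 0⟩, 0, 0⟩ 0 0) (.pos 55 .mp ⟨⟨666164937, 0, 0, 0, 0, 300465187, 0, 0, 0, ⟨0, 0⟩, 0⟩, 0, 0⟩ 0 0)) (.cut .s 13578240 (.pos 55 .mp ⟨⟨667635382, 0, 0, 0, 0, 302116089, 0, 0, 0, ⟨0, 0⟩, 0⟩, 0, 0⟩ 0 0) (.pos 55 .mp ⟨⟨669134363, 0, 0, 0, 0, 303738580, 0, 0, 0, ⟨0, 0⟩, 0⟩, 0, 0⟩ 0 0))) (.pos 56 .mp ⟨⟨747232183, 0, 0, 0, 0, 163252745, 0, 0, 0, ⟨0, 0⟩, 0⟩, 0, 0⟩ 0 0)) (.pos 49 .mp ⟨⟨660350492, 0, 0, 0, 0, 300916324, 0, 0, 0, ⟨0, 0⟩, 0⟩, 0, 0⟩ 0 0))) (.cut .d (-4096) (.cut .s 13590528 (.pos 49 .mp ⟨⟨655173099, 0, 0, 0, 0, 344010455, 0, 0, 0, ⟨0, 0⟩, 0⟩, 0, 0⟩ 0 0) (.pos 49 .mp ⟨⟨659004114, 0,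 0, 0, 0, 345842966, 0, 0, 0, ⟨0, 0⟩, 0⟩, 0, 0⟩ 0 0)) (.cut .l 123033 (.cut .v 16793600 (.cut .s 13590528 (.cut .s 13586432 (.pos 55 .mp ⟨⟨670662209, 0, 0, 0, 0, 305332086, 0, 0, 0, ⟨0, 0⟩, 0⟩, 0, 0⟩ 0 0) (.pos 55 .mp ⟨⟨672219251, 0, 0, 0, 0, 306896031, 0, 0, 0, ⟨0, 0⟩, 0⟩, 0, 0⟩ 0 0)) (.cut .s 13594624 (.pos 55 .mp ⟨⟨673805821, 0, 0, 0, 0, 308429836, 0, 0, 0, ⟨0, 0⟩, 0⟩, 0, 0⟩ 0 0) (.pos 55 .mp ⟨⟨675406966, 0, 0, 0, 0, 309963084, 0, 0, 0, ⟨0, 0⟩, 0⟩, 0, 0⟩ 0 0))) (.pos 56 .mp ⟨⟨754211697, 0, 0, 0, 0, 168006855, 0, 0, 0, ⟨0, 0⟩, 0⟩, 0, 0⟩ 0 0)) (.pos 49 .mp ⟨⟨667990122, 0, 0, 0, 0, 304791833, 0, 0, 0, ⟨0, 0⟩, 0⟩, 0, 0⟩ 0 0)))) (.pos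 50 .mp ⟨⟨803945676, 0, 0, 0, 0, 75766774, 0, 0, 0, ⟨0, 0⟩, 0⟩, 0, 0⟩ 0 0)) (.cut .v 16809984 (.cut .s 13615104 (.cut .d (-4096) (.cut .s 13606912 (.pos 49 .mp ⟨⟨662861520, 0, 0, 0, 0, 347735396, 0, 0, 0, ⟨0, 0⟩, 0⟩, 0, 0⟩ 0 0) (.pos 49 .mp ⟨⟨666745515, 0, 0, 0, 0, 349688245, 0, 0, 0, ⟨0, 0⟩, 0⟩, 0, 0⟩ 0 0)) (.cut .l 123033 (.cut .v 16793600 (.cut .s 13606912 (.cut .s 13602816 (.pos 55 .mp ⟨⟨676641341, 0, 0, 0, 0, 312248704, 0, 0, 0, ⟨0, 0⟩, 0⟩, 0, 0⟩ 0 0) (.pos 55 .mp ⟨⟨677938186, 0, 0, 0, 0, 314439777, 0, 0, 0, ⟨0, 0⟩, 0⟩, 0, 0⟩ 0 0)) (.cut .s 13611008 (.pos 55 .mp ⟨⟨679297976, 0, 0, 0, 0, 316535393, 0, 0, 0, ⟨0, 0⟩, 0⟩, 0, 0⟩ 0 0)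 (.pos 55 .mp ⟨⟨680721187, 0, 0, 0, 0, 318534640, 0, 0, 0, ⟨0, 0⟩, 0⟩, 0, 0⟩ 0 0))) (.pos 56 .mp ⟨⟨761913176, 0, 0, 0, 0, 171838973, 0, 0, 0, ⟨0, 0⟩, 0⟩, 0, 0⟩ 0 0)) (.pos 49 .mp ⟨⟨675732615, 0, 0, 0, 0, 308747976, 0, 0, 0, ⟨0, 0⟩, 0⟩, 0, 0⟩ 0 0))) (.cut .d (-4096) (.cut .s 13623296 (.pos 49 .mp ⟨⟨670656303, 0, 0, 0, 0, 351702017, 0, 0, 0, ⟨0, 0⟩, 0⟩, 0, 0⟩ 0 0) (.pos 49 .mp ⟨⟨674594085, 0, 0, 0, 0, 353777223, 0, 0, 0, ⟨0, 0⟩, 0⟩, 0, 0⟩ 0 0)) (.cut .l 123033 (.cut .v 16793600 (.cut .s 13623296 (.cut .s 13619200 (.pos 55 .mp ⟨⟨682208294, 0, 0, 0, 0, 320436605, 0, 0, 0, ⟨0, 0⟩, 0⟩, 0, 0⟩ 0 0) (.pos 55 .mp ⟨⟨683759774, 0, 0, 0, 0, 322240373,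 0, 0, 0, ⟨0, 0⟩, 0⟩, 0, 0⟩ 0 0)) (.cut .s 13627392 (.pos 55 .mp ⟨⟨685376106, 0, 0, 0, 0, 323945025, 0, 0, 0, ⟨0, 0⟩, 0⟩, 0, 0⟩ 0 0) (.pos 55 .mp ⟨⟨687057768, 0, 0, 0, 0, 325549643, 0, 0, 0, ⟨0, 0⟩, 0⟩, 0, 0⟩ 0 0))) (.pos 56 .mp ⟨⟨770369018, 0, 0, 0, 0, 174691275, 0, 0, 0, ⟨0, 0⟩, 0⟩, 0, 0⟩ 0 0)) (.pos 49 .mp ⟨⟨683579552, 0, 0, 0, 0, 312780587, 0, 0, 0, ⟨0, 0⟩, 0⟩, 0, 0⟩ 0 0)))) (.pos 50 .mp ⟨⟨822164575, 0, 0, 0, 0, 78398714, 0, 0, 0, ⟨0, 0⟩, 0⟩, 0, 0⟩ 0 0)))) (.pos 40 .mp ⟨⟨848401841, 0, 0, 0, 0, 0, 0, 0, 0, ⟨0, 0⟩, 0⟩, 0, 0⟩ 0 0)) (.cut .s 13697024 (.cut .v 16842752 (.cut .s 13664256 (.cut .v 16809984 (.cut .s 13647872 (.cut .d (-4096)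 (.cut .s 13639680 (.pos 49 .mp ⟨⟨678559067, 0, 0, 0, 0, 355914378, 0, 0, 0, ⟨0, 0⟩, 0⟩, 0, 0⟩ 0 0) (.pos 49 .mp ⟨⟨682551457, 0, 0, 0, 0, 358114003, 0, 0, 0, ⟨0, 0⟩, 0⟩, 0, 0⟩ 0 0)) (.cut .l 123033 (.cut .v 16793600 (.cut .s 13639680 (.cut .s 13635584 (.pos 55 .mp ⟨⟨688805240, 0, 0, 0, 0, 327053303, 0, 0, 0, ⟨0, 0⟩, 0⟩, 0, 0⟩ 0 0) (.pos 55 .mp ⟨⟨690619003, 0, 0, 0, 0, 328455082, 0, 0, 0, ⟨0, 0⟩, 0⟩, 0, 0⟩ 0 0)) (.cut .s 13643776 (.pos 55 .mp ⟨⟨692499537, 0, 0, 0, 0, 329754054, 0, 0, 0, ⟨0, 0⟩, 0⟩, 0, 0⟩ 0 0) (.pos 55 .mp ⟨⟨694447327, 0, 0, 0, 0, 330949290, 0, 0, 0, ⟨0, 0⟩, 0⟩, 0, 0⟩ 0 0))) (.pos 56 .mp ⟨⟨779612207, 0, 0, 0, 0, 176504733,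 0, 0, 0, ⟨0, 0⟩, 0⟩, 0, 0⟩ 0 0)) (.pos 49 .mp ⟨⟨691532543, 0, 0, 0, 0, 316885440, 0, 0, 0, ⟨0, 0⟩, 0⟩, 0, 0⟩ 0 0))) (.cut .d (-4096) (.cut .s 13656064 (.pos 49 .mp ⟨⟨686571465, 0, 0, 0, 0, 360376623, 0, 0, 0, ⟨0, 0⟩, 0⟩, 0, 0⟩ 0 0) (.pos 49 .mp ⟨⟨690619302, 0, 0, 0, 0, 362702769, 0, 0, 0, ⟨0, 0⟩, 0⟩, 0, 0⟩ 0 0)) (.cut .l 123033 (.cut .v 16793600 (.cut .s 13656064 (.cut .s 13651968 (.pos 55 .mp ⟨⟨696462855, 0, 0, 0, 0, 332039858, 0, 0, 0, ⟨0, 0⟩, 0⟩, 0, 0⟩ 0 0) (.pos 55 .mp ⟨⟨698546607, 0, 0, 0, 0, 333024827, 0, 0, 0, ⟨0, 0⟩, 0⟩, 0, 0⟩ 0 0)) (.cut .s 13660160 (.pos 55 .mp ⟨⟨700699068, 0, 0, 0, 0, 333903260, 0, 0, 0, ⟨0, 0⟩, 0⟩, 0, 0⟩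 0 0) (.pos 55 .mp ⟨⟨702920724, 0, 0, 0, 0, 334674219, 0, 0, 0, ⟨0, 0⟩, 0⟩, 0, 0⟩ 0 0))) (.pos 56 .mp ⟨⟨789676331, 0, 0, 0, 0, 177219079, 0, 0, 0, ⟨0, 0⟩, 0⟩, 0, 0⟩ 0 0)) (.pos 49 .mp ⟨⟨699593234, 0, 0, 0, 0, 321058245, 0, 0, 0, ⟨0, 0⟩, 0⟩, 0, 0⟩ 0 0)))) (.pos 50 .mp ⟨⟨843524703, 0, 0, 0, 0, 76877447, 0, 0, 0, ⟨0, 0⟩, 0⟩, 0, 0⟩ 0 0)) (.cut .v 16809984 (.cut .s 13680640 (.cut .d (-4096) (.cut .s 13672448 (.pos 49 .mp ⟨⟨694695184, 0, 0, 0, 0, 365092980, 0, 0, 0, ⟨0, 0⟩, 0⟩, 0, 0⟩ 0 0) (.pos 49 .mp ⟨⟨698799326, 0, 0, 0, 0, 367547797, 0, 0, 0, ⟨0, 0⟩, 0⟩, 0, 0⟩ 0 0)) (.cut .l 123033 (.cut .v 16793600 (.cut .s 13672448 (.cut .s 13668352 (.pos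 55 .mp ⟨⟨705212063, 0, 0, 0, 0, 335336763, 0, 0, 0, ⟨0, 0⟩, 0⟩, 0, 0⟩ 0 0) (.pos 55 .mp ⟨⟨707573576, 0, 0, 0, 0, 335889951, 0, 0, 0, ⟨0, 0⟩, 0⟩, 0, 0⟩ 0 0)) (.cut .s 13676544 (.pos 55 .mp ⟨⟨710005750, 0, 0, 0, 0, 336332836, 0, 0, 0, ⟨0, 0⟩, 0⟩, 0, 0⟩ 0 0) (.pos 55 .mp ⟨⟨712509078, 0, 0, 0, 0, 336664471, 0, 0, 0, ⟨0, 0⟩, 0⟩, 0, 0⟩ 0 0))) (.pos 56 .mp ⟨⟨800595601, 0, 0, 0, 0, 176772775, 0, 0, 0, ⟨0, 0⟩, 0⟩, 0, 0⟩ 0 0)) (.pos 49 .mp ⟨⟨707763305, 0, 0, 0, 0, 325294650, 0, 0, 0, ⟨0, 0⟩, 0⟩, 0, 0⟩ 0 0))) (.cut .d (-4096) (.cut .s 13688832 (.pos 49 .mp ⟨⟨702931947, 0, 0, 0, 0, 370067768, 0, 0, 0, ⟨0, 0⟩, 0⟩, 0, 0⟩ 0 0) (.pos 49 .mp ⟨⟨707093269,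 0, 0, 0, 0, 372653449, 0, 0, 0, ⟨0, 0⟩, 0⟩, 0, 0⟩ 0 0)) (.cut .l 123033 (.cut .v 16793600 (.cut .s 13688832 (.cut .s 13684736 (.pos 55 .mp ⟨⟨715084053, 0, 0, 0, 0, 336883905, 0, 0, 0, ⟨0, 0⟩, 0⟩, 0, 0⟩ 0 0) (.pos 55 .mp ⟨⟨717731166, 0, 0, 0, 0, 336990184, 0, 0, 0, ⟨0, 0⟩, 0⟩, 0, 0⟩ 0 0)) (.cut .s 13692928 (.pos 55 .mp ⟨⟨720450914, 0, 0, 0, 0, 336982354, 0, 0, 0, ⟨0, 0⟩, 0⟩, 0, 0⟩ 0 0) (.pos 55 .mp ⟨⟨723243792, 0, 0, 0, 0, 336859455, 0, 0, 0, ⟨0, 0⟩, 0⟩, 0, 0⟩ 0 0))) (.pos 56 .mp ⟨⟨812404868, 0, 0, 0, 0, 175102975, 0, 0, 0, ⟨0, 0⟩, 0⟩, 0, 0⟩ 0 0)) (.pos 49 .mp ⟨⟨716044471, 0, 0, 0, 0, 329590234, 0, 0, 0, ⟨0, 0⟩, 0⟩, 0, 0⟩ 0 0)))) (.pos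 50 .mp ⟨⟨868296520, 0, 0, 0, 0, 70717402, 0, 0, 0, ⟨0, 0⟩, 0⟩, 0, 0⟩ 0 0))) (.pos 40 .mp ⟨⟨903621632, 0, 0, 0, 0, 0, 0, 0, 0, ⟨0, 0⟩, 0⟩, 0, 0⟩ 0 0)) (.cut .v 16842752 (.cut .s 13729792 (.cut .v 16809984 (.cut .s 13713408 (.cut .d (-4096) (.cut .s 13705216 (.pos 49 .mp ⟨⟨711283515, 0, 0, 0, 0, 375305398, 0, 0, 0, ⟨0, 0⟩, 0⟩, 0, 0⟩ 0 0) (.pos 49 .mp ⟨⟨715502911, 0, 0, 0, 0, 378024182, 0, 0, 0, ⟨0, 0⟩, 0⟩, 0, 0⟩ 0 0)) (.cut .l 123033 (.cut .v 16793600 (.cut .s 13705216 (.cut .s 13701120 (.pos 55 .mp ⟨⟨726110298, 0, 0, 0, 0, 336620527, 0, 0, 0, ⟨0, 0⟩, 0⟩, 0, 0⟩ 0 0) (.pos 55 .mp ⟨⟨729050929, 0, 0, 0, 0, 336264604, 0, 0, 0, ⟨0, 0⟩, 0⟩,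 0, 0⟩ 0 0)) (.cut .s 13709312 (.pos 55 .mp ⟨⟨731620003, 0, 0, 0, 0, 336677397, 0, 0, 0, ⟨0, 0⟩, 0⟩, 0, 0⟩ 0 0) (.pos 55 .mp ⟨⟨734215106, 0, 0, 0, 0, 337069305, 0, 0, 0, ⟨0, 0⟩, 0⟩, 0, 0⟩ 0 0))) (.pos 56 .mp ⟨⟨825139638, 0, 0, 0, 0, 172145491, 0, 0, 0, ⟨0, 0⟩, 0⟩, 0, 0⟩ 0 0)) (.pos 49 .mp ⟨⟨724438483, 0, 0, 0, 0, 333940512, 0, 0, 0, ⟨0, 0⟩, 0⟩, 0, 0⟩ 0 0))) (.cut .d (-4096) (.cut .s 13721600 (.pos 49 .mp ⟨⟨719751685, 0, 0, 0, 0, 380810372, 0, 0, 0, ⟨0, 0⟩, 0⟩, 0, 0⟩ 0 0) (.pos 49 .mp ⟨⟨724030068, 0, 0, 0, 0, 383664546, 0, 0, 0, ⟨0, 0⟩, 0⟩, 0, 0⟩ 0 0)) (.cut .l 123033 (.cut .v 16793600 (.cut .s 13721600 (.cut .s 13717504 (.pos 55 .mp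 ⟨⟨736850518, 0, 0, 0, 0, 337412032, 0, 0, 0, ⟨0, 0⟩, 0⟩, 0, 0⟩ 0 0) (.pos 55 .mp ⟨⟨739526630, 0, 0, 0, 0, 337704884, 0, 0, 0, ⟨0, 0⟩, 0⟩, 0, 0⟩ 0 0)) (.cut .s 13725696 (.pos 55 .mp ⟨⟨742243832, 0, 0, 0, 0, 337947163, 0, 0, 0, ⟨0, 0⟩, 0⟩, 0, 0⟩ 0 0) (.pos 55 .mp ⟨⟨745002518, 0, 0, 0, 0, 338138167, 0, 0, 0, ⟨0, 0⟩, 0⟩, 0, 0⟩ 0 0))) (.pos 56 .mp ⟨⟨838836096, 0, 0, 0, 0, 167834753, 0, 0, 0, ⟨0, 0⟩, 0⟩, 0, 0⟩ 0 0)) (.pos 49 .mp ⟨⟨732947130, 0, 0, 0, 0, 338340924, 0, 0, 0, ⟨0, 0⟩, 0⟩, 0, 0⟩ 0 0)))) (.pos 50 .mp ⟨⟨896760765, 0, 0, 0, 0, 59412027, 0, 0, 0, ⟨0, 0⟩, 0⟩, 0, 0⟩ 0 0)) (.cut .v 16809984 (.cut .s 13746176 (.cut .s 13737984 (.cut .d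 (-4096) (.pos 49 .mp ⟨⟨728338293, 0, 0, 0, 0, 386587287, 0, 0, 0, ⟨0, 0⟩, 0⟩, 0, 0⟩ 0 0) (.cut .s 13733888 (.pos 49 .mp ⟨⟨745825738, 0, 0, 0, 0, 342245537, 0, 0, 0, ⟨0, 0⟩, 0⟩, 0, 0⟩ 0 0) (.pos 49 .mp ⟨⟨748452228, 0, 0, 0, 0, 342763695, 0, 0, 0, ⟨0, 0⟩, 0⟩, 0, 0⟩ 0 0))) (.cut .s 13742080 (.cut .s 13740032 (.pos 49 .mp ⟨⟨751730639, 0, 0, 0, 0, 341922673, 0, 0, 0, ⟨0, 0⟩, 0⟩, 0, 0⟩ 0 0) (.pos 49 .mp ⟨⟨753564802, 0, 0, 0, 0, 341171832, 0, 0, 0, ⟨0, 0⟩, 0⟩, 0, 0⟩ 0 0)) (.pos 49 .mp ⟨⟨743905705, 0, 0, 0, 0, 363485135, 0, 0, 0, ⟨0, 0⟩, 0⟩, 0, 0⟩ 0 0))) (.cut .s 13754368 (.cut .s 13750272 (.pos 49 .mp ⟨⟨746972633, 0, 0, 0, 0, 363155093, 0,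 0, 0, ⟨0, 0⟩, 0⟩, 0, 0⟩ 0 0) (.pos 49 .mp ⟨⟨750797506, 0, 0, 0, 0, 361417922, 0, 0, 0, ⟨0, 0⟩, 0⟩, 0, 0⟩ 0 0)) (.cut .s 13758464 (.pos 49 .mp ⟨⟨754702895, 0, 0, 0, 0, 359551424, 0, 0, 0, ⟨0, 0⟩, 0⟩, 0, 0⟩ 0 0) (.pos 49 .mp ⟨⟨758689321, 0, 0, 0, 0, 357554593, 0, 0, 0, ⟨0, 0⟩, 0⟩, 0, 0⟩ 0 0)))) (.pos 50 .mp ⟨⟨929209056, 0, 0, 0, 0, 42432603, 0, 0, 0, ⟨0, 0⟩, 0⟩, 0, 0⟩ 0 0))) (.pos 40 .mp ⟨⟨947766851, 0, 0, 0, 0, 0, 0, 0, 0, ⟨0, 0⟩, 0⟩, 0, 0⟩ 0 0)))) (.pos 38 .mp ⟨⟨924577343, 0, 0, 0, 0, 0, 0, 0, 0, ⟨0, 0⟩, 0⟩, 0, 0⟩ 0 0))) (.void 36 ⟨⟨100000, 0, 0, 0, 0, 0, 0, 0, 0, ⟨0, 0⟩, 0⟩, 0, 0⟩ 0 0)) (.void 34 ⟨⟨100000, 0, 0, 0, 0, 0, 0, 0, 0, ⟨0,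 0⟩, 0⟩, 0, 0⟩ 0 0))))))) (.void 32 ⟨⟨100000, 0, 0, 0, 0, 0, 0, 0, 0, ⟨0, 0⟩, 0⟩, 0, 0⟩ 0 0))) (.void 30 ⟨⟨100000, 0, 0, 0, 0, 0, 0, 0, 0, ⟨0, 0⟩, 0⟩, 0, 0⟩ 0 0))) (.void 28 ⟨⟨100000, 0, 0, 0, 0, 0, 0, 0, 0, ⟨0, 0⟩, 0⟩, 0, 0⟩ 0 0)))) (.void 26 ⟨⟨100000, 0, 0, 0, 0, 0, 0, 0, 0, ⟨0, 0⟩, 0⟩, 0, 0⟩ 0 0))) (.void 91 ⟨⟨100000, 0, 0, 0, 0, 0, 0, 0, 0, ⟨0, 0⟩, 0⟩, 0, 0⟩ 0 0)) (.void 98 ⟨⟨100000, 0, 0, 0, 0, 0, 0, 0, 0, ⟨0, 0⟩, 0⟩, 0, 0⟩ 0 0)) (.void 117 ⟨⟨96368, 0, 0, 4835, 0, 0, 0, 0, 0, ⟨0, 0⟩, 0⟩, 0, 0⟩ 0 0))) (.cut .v 16777216 (.cut .v 8388608 (.cut .v 4194304 (.cut .d 2036071 (.pos 4 .pm ⟨⟨0, 0, 965465679, 0, 0, 0, 0, 0, 0, ⟨0, 0⟩, 0⟩,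 0, 7914⟩ 0 0) (.cut .v 2097152 (.cut .v 1048576 (.cut .v 524288 (.pos 122 .pm ⟨⟨0, 0, 1814006, 0, 0, 0, 0, 0, 0, ⟨0, 0⟩, 0⟩, 0, 571⟩ 0 0) (.pos 123 .pm ⟨⟨0, 28488919, 0, 0, 0, 0, 0, 0, 0, ⟨0, 0⟩, 0⟩, 0, 2535⟩ 0 0)) (.cut .d 3054106 (.pos 114 .pm ⟨⟨0, 0, 12651825, 0, 0, 0, 0, 0, 0, ⟨0, 0⟩, 0⟩, 0, 4261⟩ 0 0) (.pos 114 .pm ⟨⟨0, 103582544, 0, 0, 0, 0, 0, 0, 0, ⟨0, 0⟩, 0⟩, 0, 4921⟩ 0 0))) (.cut .d 3054106 (.pos 7 .pm ⟨⟨0, 0, 0, 0, 0, 0, 0, 0, 0, ⟨0, 0⟩, 0⟩, 0, 6155⟩ 0 0) (.cut .d 3563124 (.pos 7 .pm ⟨⟨0, 0, 0, 0, 0, 0, 0, 0, 0, ⟨0, 0⟩, 0⟩, 0, 7914⟩ 0 0) (.cut .d 3817633 (.pos 7 .pm ⟨⟨0, 155882760, 0, 0, 0, 0, 0, 0, 0, ⟨0, 0⟩, 0⟩, 0, 9296⟩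 0 0) (.pos 7 .pm ⟨⟨0, 243822912, 0, 0, 0, 0, 0, 0, 0, ⟨0, 0⟩, 0⟩, 0, 11079⟩ 0 0)))))) (.cut .d 2036071 (.pos 5 .pm ⟨⟨0, 0, 23998728, 0, 0, 0, 0, 0, 0, ⟨0, 0⟩, 0⟩, 0, 0⟩ 0 0) (.cut .d 3054106 (.pos 5 .pm ⟨⟨0, 0, 0, 0, 0, 0, 0, 0, 0, ⟨0, 0⟩, 0⟩, 0, 11079⟩ 0 0) (.cut .d 3563124 (.pos 5 .pm ⟨⟨0, 152619762, 0, 0, 0, 0, 0, 0, 0, ⟨0, 0⟩, 0⟩, 0, 11079⟩ 0 0) (.pos 5 .pm ⟨⟨0, 301769975, 0, 0, 0, 0, 0, 0, 0, ⟨0, 0⟩, 0⟩, 0, 13849⟩ 0 0))))) (.cut .d 2036071 (.pos 3 .pm ⟨⟨0, 0, 0, 0, 0, 0, 0, 0, 0, ⟨0, 0⟩, 0⟩, 0, 0⟩ 0 0) (.pos 3 .pm ⟨⟨0, 321591272, 0, 0, 0, 0, 0, 0, 0, ⟨0, 0⟩, 0⟩, 0, 18465⟩ 0 0))) (.cut .v 268435456 (.cut .v 67108864 (.cut .d 2036071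 (.cut .d 1018035 (.cut .v 33554432 (.cut .d 509017 (.cut .v 25165824 (.cut .d 254508 (.cut .v 20971520 (.cut .d 127254 (.cut .v 18874368 (.cut .d 63627 (.cut .v 17825792 (.cut .s 13631488 (.pos 31 .pp ⟨⟨643492690, 0, 0, 0, 0, 0, 0, 0, 0, ⟨0, 0⟩, 0⟩, 16879445, 0⟩ 0 0) (.pos 31 .pp ⟨⟨705676893, 0, 0, 0, 0, 0, 0, 0, 0, ⟨0, 0⟩, 0⟩, 18544641, 0⟩ 0 0)) (.pos 32 .pp ⟨⟨969714584, 0, 0, 0, 0, 0, 0, 0, 0, ⟨0, 0⟩, 0⟩, 0, 0⟩ 0 0)) (.pos 29 .pp ⟨⟨656994788, 0, 0, 0, 0, 0, 0, 0, 0, ⟨0, 0⟩, 0⟩, 0, 7003⟩ 0 0)) (.cut .d 63627 (.pos 30 .pp ⟨⟨1216294238, 0, 0, 0, 0, 0, 0, 0, 0, ⟨0, 0⟩, 0⟩, 0, 0⟩ 0 0) (.pos 30 .pp ⟨⟨1025998443, 0, 0, 0, 0, 0, 0, 0, 0,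 ⟨0, 0⟩, 0⟩, 0, 0⟩ 0 0))) (.pos 27 .pp ⟨⟨0, 0, 0, 0, 0, 0, 0, 0, 0, ⟨0, 0⟩, 0⟩, 77766040, 13004⟩ 0 0)) (.cut .d 127254 (.pos 28 .pp ⟨⟨898060510, 0, 0, 0, 0, 0, 0, 0, 0, ⟨0, 0⟩, 0⟩, 70000994, 0⟩ 0 0) (.pos 28 .pp ⟨⟨0, 0, 0, 0, 0, 0, 0, 0, 0, ⟨0, 0⟩, 0⟩, 120008733, 0⟩ 0 0))) (.pos 25 .pp ⟨⟨0, 0, 0, 0, 0, 0, 0, 0, 0, ⟨0, 0⟩, 0⟩, 70371648, 15745⟩ 0 0)) (.cut .d 254508 (.void 26 ⟨⟨0, 0, 0, 0, 0, 0, 0, 0, 0, ⟨0, 0⟩, 0⟩, 100000, 0⟩ 0 0) (.pos 26 .pp ⟨⟨0, 0, 0, 0, 0, 0, 0, 0, 0, ⟨0, 0⟩, 0⟩, 140969585, 0⟩ 0 0))) (.pos 24 .pp ⟨⟨0, 0, 0, 0, 0, 0, 0, 0, 0, ⟨0, 0⟩, 0⟩, 62103410, 18810⟩ 0 0)) (.cut .d 509017 (.void 91 ⟨⟨0, 0, 0, 0, 0, 0, 0, 0, 0,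 ⟨0, 0⟩, 0⟩, 100000, 0⟩ 0 0) (.pos 91 .pp ⟨⟨0, 0, 0, 0, 0, 0, 0, 0, 0, ⟨0, 0⟩, 0⟩, 201169048, 0⟩ 0 0))) (.pos 90 .pp ⟨⟨0, 0, 0, 0, 0, 0, 0, 0, 0, ⟨0, 0⟩, 0⟩, 35604926, 28632⟩ 0 0)) (.pos 90 .pp ⟨⟨0, 414131984, 0, 0, 0, 0, 0, 0, 0, ⟨0, 0⟩, 0⟩, 0, 27698⟩ 0 0)) (.void 98 ⟨⟨0, 0, 0, 47176, 0, 0, 0, 0, 0, ⟨0, 0⟩, 0⟩, 52824, 0⟩ 0 0)) (.void 117 ⟨⟨0, 0, 0, 0, 0, 0, 0, 0, 0, ⟨0, 0⟩, 0⟩, 100000, 0⟩ 0 0)))),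
    by decide +kernel⟩

def covers25 : cell.Covers Vale.Agent.P237.Petty.Cor.Grid.N15.table row25.1 :=
  ⟨(.cut .d 0 (.cut .v 16777216 (.cut .v 8388608 (.pos 2 .mm ⟨⟨0, 0, 877053798, 0, 0, 3649532730, 0, 0, 0, ⟨0, 0⟩, 0⟩, 0, 0⟩ 0 0) (.cut .d (-8388608) (.void 3 ⟨⟨99978, 0, 0, 0, 0, 0, 0, 0, 0, ⟨0, 0⟩, 0⟩, 0, 0⟩ 0 0) (.cut .d (-4194304) (.void 3 ⟨⟨100000, 0, 0, 0, 0, 0, 0, 0, 0, ⟨0, 0⟩, 0⟩, 0, 0⟩ 0 0) (.cut .d (-2097152) (.void 3 ⟨⟨100000, 0, 0, 0, 0, 0, 0, 0, 0, ⟨0, 0⟩, 0⟩, 0, 0⟩ 0 0) (.cut .d (-1048576) (.void 3 ⟨⟨0, 0, 0, 0, 0, 100000, 0, 0, 0, ⟨0, 0⟩, 0⟩, 0, 0⟩ 0 0) (.cut .d (-524288) (.void 3 ⟨⟨0, 0, 0, 0, 0, 100000, 0, 0, 0, ⟨0,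 0⟩, 0⟩, 0, 0⟩ 0 0) (.cut .d (-262144) (.void 3 ⟨⟨0, 0, 0, 0, 0, 100000, 0, 0, 0, ⟨0, 0⟩, 0⟩, 0, 0⟩ 0 0) (.cut .d (-131072) (.void 3 ⟨⟨0, 0, 0, 0, 0, 100000, 0, 0, 0, ⟨0, 0⟩, 0⟩, 0, 0⟩ 0 0) (.cut .s 13860864 (.pos 3 .mm ⟨⟨0, 0, 0, 0, 0, 1780538718, 0, 0, 0, ⟨0, 0⟩, 0⟩, 0, 0⟩ 0 0) (.pos 3 .mm ⟨⟨0, 0, 0, 0, 0, 1929450089, 0, 0, 0, ⟨0, 0⟩, 0⟩, 0, 0⟩ 0 0)))))))))) (.cut .v 268435456 (.cut .v 67108864 (.cut .v 33554432 (.cut .d (-8388608) (.void 24 ⟨⟨100000, 0, 0, 0, 0, 0, 0, 0, 0, ⟨0, 0⟩, 0⟩, 0, 0⟩ 0 0) (.cut .v 25165824 (.cut .d (-4194304) (.void 25 ⟨⟨100000, 0, 0, 0, 0, 0, 0, 0, 0, ⟨0, 0⟩, 0⟩, 0, 0⟩ 0 0) (.cut .d (-2097152) (.void 25 ⟨⟨100000,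 0, 0, 0, 0, 0, 0, 0, 0, ⟨0, 0⟩, 0⟩, 0, 0⟩ 0 0) (.cut .v 20971520 (.cut .d (-1048576) (.void 27 ⟨⟨100000, 0, 0, 0, 0, 0, 0, 0, 0, ⟨0, 0⟩, 0⟩, 0, 0⟩ 0 0) (.cut .v 18874368 (.cut .d (-524288) (.void 29 ⟨⟨100000, 0, 0, 0, 0, 0, 0, 0, 0, ⟨0, 0⟩, 0⟩, 0, 0⟩ 0 0) (.cut .v 17825792 (.cut .d (-262144) (.void 31 ⟨⟨100000, 0, 0, 0, 0, 0, 0, 0, 0, ⟨0, 0⟩, 0⟩, 0, 0⟩ 0 0) (.cut .d (-131072) (.void 31 ⟨⟨100000, 0, 0, 0, 0, 0, 0, 0, 0, ⟨0, 0⟩, 0⟩, 0, 0⟩ 0 0) (.cut .d (-65536) (.void 31 ⟨⟨100000, 0, 0, 0, 0, 0, 0, 0, 0, ⟨0, 0⟩, 0⟩, 0, 0⟩ 0 0) (.cut .d (-32768) (.void 31 ⟨⟨100000, 0, 0, 0, 0, 0, 0, 0, 0, ⟨0, 0⟩, 0⟩, 0, 0⟩ 0 0) (.cut .d (-16384) (.void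 31 ⟨⟨100000, 0, 0, 0, 0, 0, 0, 0, 0, ⟨0, 0⟩, 0⟩, 0, 0⟩ 0 0) (.cut .d (-8192) (.void 31 ⟨⟨0, 0, 0, 0, 0, 100000, 0, 0, 0, ⟨0, 0⟩, 0⟩, 0, 0⟩ 0 0) (.cut .v 17301504 (.cut .v 17039360 (.cut .v 16908288 (.cut .s 13860864 (.cut .v 16842752 (.cut .s 13811712 (.cut .s 13787136 (.cut .v 16809984 (.cut .s 13774848 (.cut .d (-4096) (.pos 49 .mp ⟨⟨745868404, 0, 0, 0, 0, 402350822, 0, 0, 0, ⟨0, 0⟩, 0⟩, 0, 0⟩ 0 0) (.cut .s 13768704 (.pos 49 .mp ⟨⟨764915418, 0, 0, 0, 0, 351277972, 0, 0, 0, ⟨0, 0⟩, 0⟩, 0, 0⟩ 0 0) (.pos 49 .mp ⟨⟨768240474, 0, 0, 0, 0, 352730437, 0, 0, 0, ⟨0, 0⟩, 0⟩, 0, 0⟩ 0 0))) (.cut .d (-4096) (.pos 49 .mp ⟨⟨752591999, 0, 0, 0, 0,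 405087610, 0, 0, 0, ⟨0, 0⟩, 0⟩, 0, 0⟩ 0 0) (.cut .s 13780992 (.pos 49 .mp ⟨⟨771695769, 0, 0, 0, 0, 354033562, 0, 0, 0, ⟨0, 0⟩, 0⟩, 0, 0⟩ 0 0) (.pos 49 .mp ⟨⟨775170182, 0, 0, 0, 0, 355368835, 0, 0, 0, ⟨0, 0⟩, 0⟩, 0, 0⟩ 0 0)))) (.pos 50 .mp ⟨⟨891590600, 0, 0, 0, 0, 145044890, 0, 0, 0, ⟨0, 0⟩, 0⟩, 0, 0⟩ 0 0)) (.cut .v 16809984 (.cut .s 13799424 (.cut .d (-4096) (.pos 49 .mp ⟨⟨759389098, 0, 0, 0, 0, 407996369, 0, 0, 0, ⟨0, 0⟩, 0⟩, 0, 0⟩ 0 0) (.cut .s 13793280 (.pos 49 .mp ⟨⟨778663828, 0, 0, 0, 0, 356736273, 0, 0, 0, ⟨0, 0⟩, 0⟩, 0, 0⟩ 0 0) (.pos 49 .mp ⟨⟨782176824, 0, 0, 0, 0, 358135897, 0, 0, 0, ⟨0, 0⟩, 0⟩, 0, 0⟩ 0 0))) (.cut .d (-4096)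 (.pos 49 .mp ⟨⟨766260587, 0, 0, 0, 0, 411079380, 0, 0, 0, ⟨0, 0⟩, 0⟩, 0, 0⟩ 0 0) (.cut .l 123033 (.cut .d (-2048) (.pos 49 .mp ⟨⟨779100289, 0, 0, 0, 0, 383365649, 0, 0, 0, ⟨0, 0⟩, 0⟩, 0, 0⟩ 0 0) (.cut .s 13805568 (.pos 49 .mp ⟨⟨780662114, 0, 0, 0, 0, 368513483, 0, 0, 0, ⟨0, 0⟩, 0⟩, 0, 0⟩ 0 0) (.pos 49 .mp ⟨⟨784378501, 0, 0, 0, 0, 369615189, 0, 0, 0, ⟨0, 0⟩, 0⟩, 0, 0⟩ 0 0))) (.pos 49 .mp ⟨⟨781225942, 0, 0, 0, 0, 360394513, 0, 0, 0, ⟨0, 0⟩, 0⟩, 0, 0⟩ 0 0)))) (.pos 50 .mp ⟨⟨903172323, 0, 0, 0, 0, 154933219, 0, 0, 0, ⟨0, 0⟩, 0⟩, 0, 0⟩ 0 0))) (.cut .s 13836288 (.cut .v 16809984 (.cut .s 13824000 (.cut .d (-4096) (.pos 49 .mp ⟨⟨773207370,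 0, 0, 0, 0, 414338966, 0, 0, 0, ⟨0, 0⟩, 0⟩, 0, 0⟩ 0 0) (.cut .l 123033 (.cut .d (-2048) (.pos 49 .mp ⟨⟨785214358, 0, 0, 0, 0, 388643144, 0, 0, 0, ⟨0, 0⟩, 0⟩, 0, 0⟩ 0 0) (.cut .s 13817856 (.pos 49 .mp ⟨⟨787976711, 0, 0, 0, 0, 371044224, 0, 0, 0, ⟨0, 0⟩, 0⟩, 0, 0⟩ 0 0) (.pos 49 .mp ⟨⟨791534924, 0, 0, 0, 0, 372633533, 0, 0, 0, ⟨0, 0⟩, 0⟩, 0, 0⟩ 0 0))) (.pos 49 .mp ⟨⟨788319028, 0, 0, 0, 0, 363789296, 0, 0, 0, ⟨0, 0⟩, 0⟩, 0, 0⟩ 0 0))) (.cut .d (-4096) (.pos 49 .mp ⟨⟨780230364, 0, 0, 0, 0, 417777485, 0, 0, 0, ⟨0, 0⟩, 0⟩, 0, 0⟩ 0 0) (.cut .l 123033 (.cut .v 16793600 (.cut .d (-2048) (.pos 55 .mp ⟨⟨782043756, 0, 0, 0, 0, 412220817, 0, 0, 0,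 ⟨0, 0⟩, 0⟩, 0, 0⟩ 0 0) (.cut .s 13830144 (.pos 55 .mp ⟨⟨793710507, 0, 0, 0, 0, 376806748, 0, 0, 0, ⟨0, 0⟩, 0⟩, 0, 0⟩ 0 0) (.pos 55 .mp ⟨⟨797302027, 0, 0, 0, 0, 378473602, 0, 0, 0, ⟨0, 0⟩, 0⟩, 0, 0⟩ 0 0))) (.pos 56 .mp ⟨⟨876223982, 0, 0, 0, 0, 237922020, 0, 0, 0, ⟨0, 0⟩, 0⟩, 0, 0⟩ 0 0)) (.pos 49 .mp ⟨⟨795490574, 0, 0, 0, 0, 367236238, 0, 0, 0, ⟨0, 0⟩, 0⟩, 0, 0⟩ 0 0)))) (.pos 50 .mp ⟨⟨916830489, 0, 0, 0, 0, 162146790, 0, 0, 0, ⟨0, 0⟩, 0⟩, 0, 0⟩ 0 0)) (.cut .v 16809984 (.cut .s 13848576 (.cut .d (-4096) (.cut .s 13842432 (.pos 49 .mp ⟨⟨787330503, 0, 0, 0, 0, 415943687, 0, 0, 0, ⟨0, 0⟩, 0⟩, 0, 0⟩ 0 0) (.pos 49 .mp ⟨⟨790909797, 0, 0, 0,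 0, 417776974, 0, 0, 0, ⟨0, 0⟩, 0⟩, 0, 0⟩ 0 0)) (.cut .l 123033 (.cut .v 16793600 (.cut .d (-2048) (.pos 55 .mp ⟨⟨789135599, 0, 0, 0, 0, 415833843, 0, 0, 0, ⟨0, 0⟩, 0⟩, 0, 0⟩ 0 0) (.cut .s 13842432 (.pos 55 .mp ⟨⟨800913427, 0, 0, 0, 0, 380173323, 0, 0, 0, ⟨0, 0⟩, 0⟩, 0, 0⟩ 0 0) (.pos 55 .mp ⟨⟨804544830, 0, 0, 0, 0, 381905926, 0, 0, 0, ⟨0, 0⟩, 0⟩, 0, 0⟩ 0 0))) (.pos 56 .mp ⟨⟨883197742, 0, 0, 0, 0, 241787126, 0, 0, 0, ⟨0, 0⟩, 0⟩, 0, 0⟩ 0 0)) (.pos 49 .mp ⟨⟨802741544, 0, 0, 0, 0, 370732868, 0, 0, 0, ⟨0, 0⟩, 0⟩, 0, 0⟩ 0 0))) (.cut .d (-4096) (.cut .s 13854720 (.pos 49 .mp ⟨⟨794508735, 0, 0, 0, 0, 419656330, 0, 0, 0, ⟨0, 0⟩, 0⟩, 0, 0⟩ 0 0)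 (.pos 49 .mp ⟨⟨798127436, 0, 0, 0, 0, 421582066, 0, 0, 0, ⟨0, 0⟩, 0⟩, 0, 0⟩ 0 0)) (.cut .l 123033 (.cut .v 16793600 (.cut .d (-2048) (.pos 55 .mp ⟨⟨796305632, 0, 0, 0, 0, 419630106, 0, 0, 0, ⟨0, 0⟩, 0⟩, 0, 0⟩ 0 0) (.cut .l 61516 (.cut .d (-1024) (.pos 55 .mp ⟨⟨807008299, 0, 0, 0, 0, 396292342, 0, 0, 0, ⟨0, 0⟩, 0⟩, 0, 0⟩ 0 0) (.cut .s 13854720 (.pos 55 .mp ⟨⟨805476745, 0, 0, 0, 0, 388522838, 0, 0, 0, ⟨0, 0⟩, 0⟩, 0, 0⟩ 0 0) (.pos 55 .mp ⟨⟨809198612, 0, 0, 0, 0, 390208297, 0, 0, 0, ⟨0, 0⟩, 0⟩, 0, 0⟩ 0 0))) (.pos 55 .mp ⟨⟨807709335, 0, 0, 0, 0, 377281986, 0, 0, 0, ⟨0, 0⟩, 0⟩, 0, 0⟩ 0 0))) (.pos 56 .mp ⟨⟨890748730, 0, 0, 0, 0, 244880194,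 0, 0, 0, ⟨0, 0⟩, 0⟩, 0, 0⟩ 0 0)) (.pos 49 .mp ⟨⟨810072920, 0, 0, 0, 0, 374276680, 0, 0, 0, ⟨0, 0⟩, 0⟩, 0, 0⟩ 0 0)))) (.pos 50 .mp ⟨⟨932716073, 0, 0, 0, 0, 166413882, 0, 0, 0, ⟨0, 0⟩, 0⟩, 0, 0⟩ 0 0)))) (.pos 40 .mp ⟨⟨1010607975, 0, 0, 0, 0, 0, 0, 0, 0, ⟨0, 0⟩, 0⟩, 0, 0⟩ 0 0)) (.cut .v 16842752 (.cut .s 13910016 (.cut .s 13885440 (.cut .v 16809984 (.cut .s 13873152 (.cut .d (-4096) (.cut .s 13867008 (.pos 49 .mp ⟨⟨801766024, 0, 0, 0, 0, 423554493, 0, 0, 0, ⟨0, 0⟩, 0⟩, 0, 0⟩ 0 0) (.pos 49 .mp ⟨⟨805424622, 0, 0, 0, 0, 425573928, 0, 0, 0, ⟨0, 0⟩, 0⟩, 0, 0⟩ 0 0)) (.cut .l 123033 (.cut .v 16793600 (.cut .d (-2048) (.pos 55 .mp ⟨⟨803554822,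 0, 0, 0, 0, 423612080, 0, 0, 0, ⟨0, 0⟩, 0⟩, 0, 0⟩ 0 0) (.cut .l 61516 (.cut .d (-1024) (.pos 55 .mp ⟨⟨814116563, 0, 0, 0, 0, 400620769, 0, 0, 0, ⟨0, 0⟩, 0⟩, 0, 0⟩ 0 0) (.cut .s 13867008 (.pos 55 .mp ⟨⟨812923848, 0, 0, 0, 0, 391963064, 0, 0, 0, ⟨0, 0⟩, 0⟩, 0, 0⟩ 0 0) (.pos 55 .mp ⟨⟨816652165, 0, 0, 0, 0, 393788059, 0, 0, 0, ⟨0, 0⟩, 0⟩, 0, 0⟩ 0 0))) (.pos 55 .mp ⟨⟨815076384, 0, 0, 0, 0, 380937573, 0, 0, 0, ⟨0, 0⟩, 0⟩, 0, 0⟩ 0 0))) (.pos 56 .mp ⟨⟨898896557, 0, 0, 0, 0, 247165739, 0, 0, 0, ⟨0, 0⟩, 0⟩, 0, 0⟩ 0 0)) (.pos 49 .mp ⟨⟨817485698, 0, 0, 0, 0, 377865142, 0, 0, 0, ⟨0, 0⟩, 0⟩, 0, 0⟩ 0 0))) (.cut .d (-4096) (.cut .s 13879296 (.pos 49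 .mp ⟨⟨809103353, 0, 0, 0, 0, 427640688, 0, 0, 0, ⟨0, 0⟩, 0⟩, 0, 0⟩ 0 0) (.pos 49 .mp ⟨⟨812802343, 0, 0, 0, 0, 429755094, 0, 0, 0, ⟨0, 0⟩, 0⟩, 0, 0⟩ 0 0)) (.cut .l 123033 (.cut .v 16793600 (.cut .d (-2048) (.pos 55 .mp ⟨⟨810884149, 0, 0, 0, 0, 427782277, 0, 0, 0, ⟨0, 0⟩, 0⟩, 0, 0⟩ 0 0) (.cut .l 61516 (.cut .d (-1024) (.pos 55 .mp ⟨⟨821487402, 0, 0, 0, 0, 404694479, 0, 0, 0, ⟨0, 0⟩, 0⟩, 0, 0⟩ 0 0) (.cut .s 13879296 (.pos 55 .mp ⟨⟨820383269, 0, 0, 0, 0, 395684213, 0, 0, 0, ⟨0, 0⟩, 0⟩, 0, 0⟩ 0 0) (.pos 55 .mp ⟨⟨824116860, 0, 0, 0, 0, 397652471, 0, 0, 0, ⟨0, 0⟩, 0⟩, 0, 0⟩ 0 0))) (.pos 55 .mp ⟨⟨822525260, 0, 0, 0, 0, 384636191, 0, 0, 0, ⟨0,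 0⟩, 0⟩, 0, 0⟩ 0 0))) (.pos 56 .mp ⟨⟨907661129, 0, 0, 0, 0, 248607673, 0, 0, 0, ⟨0, 0⟩, 0⟩, 0, 0⟩ 0 0)) (.pos 49 .mp ⟨⟨824980894, 0, 0, 0, 0, 381495686, 0, 0, 0, ⟨0, 0⟩, 0⟩, 0, 0⟩ 0 0)))) (.cut .s 13873152 (.pos 50 .mp ⟨⟨891799139, 0, 0, 0, 0, 262976879, 0, 0, 0, ⟨0, 0⟩, 0⟩, 0, 0⟩ 0 0) (.pos 50 .mp ⟨⟨900476667, 0, 0, 0, 0, 264618225, 0, 0, 0, ⟨0, 0⟩, 0⟩, 0, 0⟩ 0 0))) (.cut .v 16809984 (.cut .s 13897728 (.cut .d (-4096) (.cut .s 13891584 (.pos 49 .mp ⟨⟨816521718, 0, 0, 0, 0, 431917469, 0, 0, 0, ⟨0, 0⟩, 0⟩, 0, 0⟩ 0 0) (.pos 49 .mp ⟨⟨820261606, 0, 0, 0, 0, 434128141, 0, 0, 0, ⟨0, 0⟩, 0⟩, 0, 0⟩ 0 0)) (.cut .l 123033 (.cut .v 16793600 (.cut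 .d (-2048) (.pos 55 .mp ⟨⟨818294613, 0, 0, 0, 0, 432143253, 0, 0, 0, ⟨0, 0⟩, 0⟩, 0, 0⟩ 0 0) (.cut .l 61516 (.cut .d (-1024) (.pos 55 .mp ⟨⟨829128116, 0, 0, 0, 0, 408499693, 0, 0, 0, ⟨0, 0⟩, 0⟩, 0, 0⟩ 0 0) (.cut .s 13891584 (.pos 55 .mp ⟨⟨827852637, 0, 0, 0, 0, 399693787, 0, 0, 0, ⟨0, 0⟩, 0⟩, 0, 0⟩ 0 0) (.pos 55 .mp ⟨⟨831590292, 0, 0, 0, 0, 401809129, 0, 0, 0, ⟨0, 0⟩, 0⟩, 0, 0⟩ 0 0))) (.pos 55 .mp ⟨⟨830056988, 0, 0, 0, 0, 388375255, 0, 0, 0, ⟨0, 0⟩, 0⟩, 0, 0⟩ 0 0))) (.pos 56 .mp ⟨⟨917062652, 0, 0, 0, 0, 249169297, 0, 0, 0, ⟨0, 0⟩, 0⟩, 0, 0⟩ 0 0)) (.pos 49 .mp ⟨⟨832559538, 0, 0, 0, 0, 385165713, 0, 0, 0, ⟨0, 0⟩, 0⟩, 0, 0⟩ 0 0))) (.cut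 .d (-4096) (.cut .s 13903872 (.pos 49 .mp ⟨⟨824022135, 0, 0, 0, 0, 436387436, 0, 0, 0, ⟨0, 0⟩, 0⟩, 0, 0⟩ 0 0) (.pos 49 .mp ⟨⟨827803435, 0, 0, 0, 0, 438695688, 0, 0, 0, ⟨0, 0⟩, 0⟩, 0, 0⟩ 0 0)) (.cut .l 123033 (.cut .v 16793600 (.cut .d (-2048) (.pos 55 .mp ⟨⟨825787230, 0, 0, 0, 0, 436697607, 0, 0, 0, ⟨0, 0⟩, 0⟩, 0, 0⟩ 0 0) (.cut .s 13903872 (.cut .s 13900800 (.pos 55 .mp ⟨⟨841040144, 0, 0, 0, 0, 392406228, 0, 0, 0, ⟨0, 0⟩, 0⟩, 0, 0⟩ 0 0) (.pos 55 .mp ⟨⟨843081879, 0, 0, 0, 0, 393204392, 0, 0, 0, ⟨0, 0⟩, 0⟩, 0, 0⟩ 0 0)) (.pos 55 .mp ⟨⟨841986634, 0, 0, 0, 0, 401042943, 0, 0, 0, ⟨0, 0⟩, 0⟩, 0, 0⟩ 0 0))) (.pos 56 .mp ⟨⟨927121643, 0, 0, 0,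 0, 248813283, 0, 0, 0, ⟨0, 0⟩, 0⟩, 0, 0⟩ 0 0)) (.pos 49 .mp ⟨⟨840222680, 0, 0, 0, 0, 388872589, 0, 0, 0, ⟨0, 0⟩, 0⟩, 0, 0⟩ 0 0)))) (.cut .s 13897728 (.pos 50 .mp ⟨⟨909790705, 0, 0, 0, 0, 265380901, 0, 0, 0, ⟨0, 0⟩, 0⟩, 0, 0⟩ 0 0) (.pos 50 .mp ⟨⟨919761795, 0, 0, 0, 0, 265227541, 0, 0, 0, ⟨0, 0⟩, 0⟩, 0, 0⟩ 0 0)))) (.cut .s 13934592 (.cut .v 16809984 (.cut .s 13922304 (.cut .d (-4096) (.pos 49 .mp ⟨⟨831605636, 0, 0, 0, 0, 447063870, 0, 0, 0, ⟨0, 0⟩, 0⟩, 0, 0⟩ 0 0) (.cut .l 123033 (.cut .v 16793600 (.cut .d (-2048) (.pos 55 .mp ⟨⟨833363033, 0, 0, 0, 0, 441447981, 0, 0, 0, ⟨0, 0⟩, 0⟩, 0, 0⟩ 0 0) (.cut .s 13916160 (.pos 55 .mp ⟨⟨845846433,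 0, 0, 0, 0, 403137918, 0, 0, 0, ⟨0, 0⟩, 0⟩, 0, 0⟩ 0 0) (.pos 55 .mp ⟨⟨849727784, 0, 0, 0, 0, 405265869, 0, 0, 0, ⟨0, 0⟩, 0⟩, 0, 0⟩ 0 0))) (.pos 56 .mp ⟨⟨937858931, 0, 0, 0, 0, 247501662, 0, 0, 0, ⟨0, 0⟩, 0⟩, 0, 0⟩ 0 0)) (.pos 49 .mp ⟨⟨847971388, 0, 0, 0, 0, 392613647, 0, 0, 0, ⟨0, 0⟩, 0⟩, 0, 0⟩ 0 0))) (.cut .d (-4096) (.pos 49 .mp ⟨⟨839273272, 0, 0, 0, 0, 452023664, 0, 0, 0, ⟨0, 0⟩, 0⟩, 0, 0⟩ 0 0) (.cut .l 123033 (.cut .d (-2048) (.pos 49 .mp ⟨⟨851634586, 0, 0, 0, 0, 425495802, 0, 0, 0, ⟨0, 0⟩, 0⟩, 0, 0⟩ 0 0) (.cut .s 13928448 (.pos 49 .mp ⟨⟨855135828, 0, 0, 0, 0, 404675402, 0, 0, 0, ⟨0, 0⟩, 0⟩, 0, 0⟩ 0 0) (.pos 49 .mp ⟨⟨859067419,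 0, 0, 0, 0, 406856176, 0, 0, 0, ⟨0, 0⟩, 0⟩, 0, 0⟩ 0 0))) (.pos 49 .mp ⟨⟨855806747, 0, 0, 0, 0, 396386185, 0, 0, 0, ⟨0, 0⟩, 0⟩, 0, 0⟩ 0 0)))) (.pos 50 .mp ⟨⟨995316147, 0, 0, 0, 0, 158678225, 0, 0, 0, ⟨0, 0⟩, 0⟩, 0, 0⟩ 0 0)) (.cut .v 16809984 (.cut .s 13946880 (.cut .d (-4096) (.pos 49 .mp ⟨⟨847026109, 0, 0, 0, 0, 457185487, 0, 0, 0, ⟨0, 0⟩, 0⟩, 0, 0⟩ 0 0) (.cut .l 123033 (.cut .d (-2048) (.pos 49 .mp ⟨⟨860414664, 0, 0, 0, 0, 428154703, 0, 0, 0, ⟨0, 0⟩, 0⟩, 0, 0⟩ 0 0) (.cut .s 13940736 (.pos 49 .mp ⟨⟨863021013, 0, 0, 0, 0, 409069850, 0, 0, 0, ⟨0, 0⟩, 0⟩, 0, 0⟩ 0 0) (.pos 49 .mp ⟨⟨866996750, 0, 0, 0, 0, 411316421, 0, 0, 0, ⟨0, 0⟩, 0⟩,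 0, 0⟩ 0 0))) (.pos 49 .mp ⟨⟨863729863, 0, 0, 0, 0, 400187463, 0, 0, 0, ⟨0, 0⟩, 0⟩, 0, 0⟩ 0 0))) (.cut .d (-4096) (.pos 49 .mp ⟨⟨854865237, 0, 0, 0, 0, 462552129, 0, 0, 0, ⟨0, 0⟩, 0⟩, 0, 0⟩ 0 0) (.cut .l 123033 (.cut .d (-2048) (.pos 49 .mp ⟨⟨869502722, 0, 0, 0, 0, 430473454, 0, 0, 0, ⟨0, 0⟩, 0⟩, 0, 0⟩ 0 0) (.cut .s 13953024 (.pos 49 .mp ⟨⟨870890185, 0, 0, 0, 0, 413820696, 0, 0, 0, ⟨0, 0⟩, 0⟩, 0, 0⟩ 0 0) (.pos 49 .mp ⟨⟨874666317, 0, 0, 0, 0, 416658329, 0, 0, 0, ⟨0, 0⟩, 0⟩, 0, 0⟩ 0 0))) (.pos 49 .mp ⟨⟨871741860, 0, 0, 0, 0, 404014707, 0, 0, 0, ⟨0, 0⟩, 0⟩, 0, 0⟩ 0 0)))) (.pos 50 .mp ⟨⟨1021714731, 0, 0, 0, 0, 148251446, 0, 0, 0, ⟨0, 0⟩,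 0⟩, 0, 0⟩ 0 0)))) (.pos 40 .mp ⟨⟨1086054384, 0, 0, 0, 0, 0, 0, 0, 0, ⟨0, 0⟩, 0⟩, 0, 0⟩ 0 0))) (.pos 38 .mp ⟨⟨1081854246, 0, 0, 0, 0, 0, 0, 0, 0, ⟨0, 0⟩, 0⟩, 0, 0⟩ 0 0)) (.void 36 ⟨⟨100000, 0, 0, 0, 0, 0, 0, 0, 0, ⟨0, 0⟩, 0⟩, 0, 0⟩ 0 0)) (.void 34 ⟨⟨100000, 0, 0, 0, 0, 0, 0, 0, 0, ⟨0, 0⟩, 0⟩, 0, 0⟩ 0 0)))))))) (.void 32 ⟨⟨100000, 0, 0, 0, 0, 0, 0, 0, 0, ⟨0, 0⟩, 0⟩, 0, 0⟩ 0 0))) (.void 30 ⟨⟨100000, 0, 0, 0, 0, 0, 0, 0, 0, ⟨0, 0⟩, 0⟩, 0, 0⟩ 0 0))) (.void 28 ⟨⟨100000, 0, 0, 0, 0, 0, 0, 0, 0, ⟨0, 0⟩, 0⟩, 0, 0⟩ 0 0)))) (.void 26 ⟨⟨100000, 0, 0, 0, 0, 0, 0, 0, 0, ⟨0, 0⟩, 0⟩, 0, 0⟩ 0 0))) (.void 91 ⟨⟨100000, 0, 0, 0, 0, 0, 0, 0, 0, ⟨0, 0⟩,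 0⟩, 0, 0⟩ 0 0)) (.void 98 ⟨⟨100000, 0, 0, 0, 0, 0, 0, 0, 0, ⟨0, 0⟩, 0⟩, 0, 0⟩ 0 0)) (.void 117 ⟨⟨95057, 0, 0, 4943, 0, 0, 0, 0, 0, ⟨0, 0⟩, 0⟩, 0, 0⟩ 0 0))) (.cut .v 16777216 (.cut .v 8388608 (.cut .v 4194304 (.cut .d 1837506 (.pos 4 .pm ⟨⟨0, 0, 1097576794, 0, 0, 0, 0, 0, 0, ⟨0, 0⟩, 0⟩, 0, 5611⟩ 0 0) (.cut .v 2097152 (.cut .v 1048576 (.cut .v 524288 (.pos 122 .pm ⟨⟨0, 0, 1718815, 0, 0, 0, 0, 0, 0, ⟨0, 0⟩, 0⟩, 0, 405⟩ 0 0) (.pos 123 .pm ⟨⟨0, 27362927, 0, 0, 0, 0, 0, 0, 0, ⟨0, 0⟩, 0⟩, 0, 1679⟩ 0 0)) (.pos 114 .pm ⟨⟨0, 61887693, 0, 0, 0, 0, 0, 0, 0, ⟨0, 0⟩, 0⟩, 0, 3259⟩ 0 0)) (.cut .d 2756259 (.pos 7 .pm ⟨⟨0, 0, 0, 0, 0, 0, 0, 0, 0, ⟨0,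 0⟩, 0⟩, 0, 4364⟩ 0 0) (.pos 7 .pm ⟨⟨0, 155235566, 0, 0, 0, 0, 0, 0, 0, ⟨0, 0⟩, 0⟩, 0, 6156⟩ 0 0)))) (.cut .d 1837506 (.pos 5 .pm ⟨⟨0, 0, 29979328, 0, 0, 0, 0, 0, 0, ⟨0, 0⟩, 0⟩, 0, 0⟩ 0 0) (.pos 5 .pm ⟨⟨0, 192862054, 0, 0, 0, 0, 0, 0, 0, ⟨0, 0⟩, 0⟩, 0, 7855⟩ 0 0))) (.pos 3 .pm ⟨⟨0, 0, 0, 0, 0, 0, 0, 0, 0, ⟨0, 0⟩, 0⟩, 0, 0⟩ 0 0)) (.cut .v 268435456 (.cut .v 67108864 (.cut .d 1837506 (.cut .d 918753 (.cut .v 33554432 (.cut .d 459376 (.cut .v 25165824 (.cut .d 229688 (.cut .v 20971520 (.cut .d 114844 (.cut .v 18874368 (.cut .v 17825792 (.cut .s 13860864 (.pos 31 .pp ⟨⟨740298459, 0, 0, 0, 0, 0, 0, 0, 0, ⟨0, 0⟩, 0⟩, 22959356, 0⟩ 0 0) (.pos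 31 .pp ⟨⟨798310446, 0, 0, 0, 0, 0, 0, 0, 0, ⟨0, 0⟩, 0⟩, 24287705, 0⟩ 0 0)) (.pos 32 .pp ⟨⟨1087246775, 0, 0, 0, 0, 0, 0, 0, 0, ⟨0, 0⟩, 0⟩, 0, 0⟩ 0 0)) (.pos 30 .pp ⟨⟨1305535027, 0, 0, 0, 0, 0, 0, 0, 0, ⟨0, 0⟩, 0⟩, 0, 0⟩ 0 0)) (.pos 27 .pp ⟨⟨0, 0, 0, 0, 0, 0, 0, 0, 0, ⟨0, 0⟩, 0⟩, 93630573, 8598⟩ 0 0)) (.cut .d 114844 (.pos 28 .pp ⟨⟨0, 0, 0, 0, 0, 0, 0, 0, 0, ⟨0, 0⟩, 0⟩, 177864779, 0⟩ 0 0) (.pos 28 .pp ⟨⟨0, 0, 0, 0, 0, 0, 0, 0, 0, ⟨0, 0⟩, 0⟩, 141891665, 0⟩ 0 0))) (.pos 25 .pp ⟨⟨0, 0, 0, 0, 0, 0, 0, 0, 0, ⟨0, 0⟩, 0⟩, 84596977, 10441⟩ 0 0)) (.pos 26 .pp ⟨⟨0, 0, 0, 0, 0, 0, 0, 0, 0, ⟨0, 0⟩, 0⟩, 212795687, 0⟩ 0 0)) (.pos 24 .pp ⟨⟨0, 0, 0,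 0, 0, 0, 0, 0, 0, ⟨0, 0⟩, 0⟩, 74275335, 12547⟩ 0 0)) (.cut .d 459376 (.void 91 ⟨⟨0, 0, 0, 0, 0, 0, 0, 0, 0, ⟨0, 0⟩, 0⟩, 100000, 0⟩ 0 0) (.pos 91 .pp ⟨⟨0, 0, 0, 0, 0, 0, 0, 0, 0, ⟨0, 0⟩, 0⟩, 238071653, 0⟩ 0 0))) (.pos 90 .pp ⟨⟨0, 0, 0, 0, 0, 0, 0, 0, 0, ⟨0, 0⟩, 0⟩, 46360118, 18244⟩ 0 0)) (.pos 90 .pp ⟨⟨0, 414862994, 0, 0, 0, 0, 0, 0, 0, ⟨0, 0⟩, 0⟩, 0, 19638⟩ 0 0)) (.void 98 ⟨⟨0, 0, 0, 47400, 0, 0, 0, 0, 0, ⟨0, 0⟩, 0⟩, 52307, 0⟩ 0 0)) (.void 117 ⟨⟨0, 0, 0, 0, 0, 0, 0, 0, 0, ⟨0, 0⟩, 0⟩, 100000, 0⟩ 0 0)))),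
    by decide +kernel⟩

def covers26 : cell.Covers Vale.Agent.P237.Petty.Cor.Grid.N15.table row26.1 :=
  ⟨(.cut .d 0 (.cut .v 16777216 (.cut .v 8388608 (.pos 2 .mm ⟨⟨0, 0, 980827487, 0, 0, 4606916162, 0, 0, 0, ⟨0, 0⟩, 0⟩, 0, 0⟩ 0 0) (.cut .d (-8388608) (.void 3 ⟨⟨100000, 0, 0, 0, 0, 0, 0, 0, 0, ⟨0, 0⟩, 0⟩, 0, 0⟩ 0 0) (.cut .d (-4194304) (.void 3 ⟨⟨100000, 0, 0, 0, 0, 0, 0, 0, 0, ⟨0, 0⟩, 0⟩, 0, 0⟩ 0 0) (.cut .d (-2097152) (.void 3 ⟨⟨100000, 0, 0, 0, 0, 0, 0, 0, 0, ⟨0, 0⟩, 0⟩, 0, 0⟩ 0 0) (.cut .d (-1048576) (.void 3 ⟨⟨0, 0, 0, 0, 0, 100000, 0, 0, 0, ⟨0, 0⟩, 0⟩, 0, 0⟩ 0 0) (.cut .d (-524288) (.void 3 ⟨⟨0, 0, 0, 0, 0, 100000, 0, 0, 0, ⟨0,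 0⟩, 0⟩, 0, 0⟩ 0 0) (.cut .d (-262144) (.void 3 ⟨⟨0, 0, 0, 0, 0, 100000, 0, 0, 0, ⟨0, 0⟩, 0⟩, 0, 0⟩ 0 0) (.cut .d (-131072) (.void 3 ⟨⟨0, 0, 0, 0, 0, 100000, 0, 0, 0, ⟨0, 0⟩, 0⟩, 0, 0⟩ 0 0) (.cut .s 14057472 (.pos 3 .mm ⟨⟨0, 0, 0, 0, 0, 2094030256, 0, 0, 0, ⟨0, 0⟩, 0⟩, 0, 0⟩ 0 0) (.pos 3 .mm ⟨⟨0, 0, 0, 0, 0, 2275402316, 0, 0, 0, ⟨0, 0⟩, 0⟩, 0, 0⟩ 0 0)))))))))) (.cut .v 268435456 (.cut .v 67108864 (.cut .v 33554432 (.cut .d (-8388608) (.void 24 ⟨⟨99996, 0, 0, 0, 0, 0, 0, 0, 0, ⟨0, 0⟩, 0⟩, 0, 0⟩ 0 0) (.cut .d (-4194304) (.void 24 ⟨⟨100000, 0, 0, 0, 0, 0, 0, 0, 0, ⟨0, 0⟩, 0⟩, 0, 0⟩ 0 0) (.cut .v 25165824 (.cut .d (-2097152) (.void 25 ⟨⟨100000,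 0, 0, 0, 0, 0, 0, 0, 0, ⟨0, 0⟩, 0⟩, 0, 0⟩ 0 0) (.cut .v 20971520 (.cut .d (-1048576) (.void 27 ⟨⟨100000, 0, 0, 0, 0, 0, 0, 0, 0, ⟨0, 0⟩, 0⟩, 0, 0⟩ 0 0) (.cut .v 18874368 (.cut .d (-524288) (.void 29 ⟨⟨100000, 0, 0, 0, 0, 0, 0, 0, 0, ⟨0, 0⟩, 0⟩, 0, 0⟩ 0 0) (.cut .v 17825792 (.cut .d (-262144) (.void 31 ⟨⟨100000, 0, 0, 0, 0, 0, 0, 0, 0, ⟨0, 0⟩, 0⟩, 0, 0⟩ 0 0) (.cut .d (-131072) (.void 31 ⟨⟨100000, 0, 0, 0, 0, 0, 0, 0, 0, ⟨0, 0⟩, 0⟩, 0, 0⟩ 0 0) (.cut .d (-65536) (.void 31 ⟨⟨100000, 0, 0, 0, 0, 0, 0, 0, 0, ⟨0, 0⟩, 0⟩, 0, 0⟩ 0 0) (.cut .d (-32768) (.void 31 ⟨⟨100000, 0, 0, 0, 0, 0, 0, 0, 0, ⟨0, 0⟩, 0⟩, 0, 0⟩ 0 0) (.cut .d (-16384) (.void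 31 ⟨⟨100000, 0, 0, 0, 0, 0, 0, 0, 0, ⟨0, 0⟩, 0⟩, 0, 0⟩ 0 0) (.cut .d (-8192) (.void 31 ⟨⟨0, 0, 0, 0, 0, 100000, 0, 0, 0, ⟨0, 0⟩, 0⟩, 0, 0⟩ 0 0) (.cut .v 17301504 (.cut .v 17039360 (.cut .v 16908288 (.cut .s 14057472 (.cut .v 16842752 (.cut .s 14008320 (.cut .s 13983744 (.cut .v 16809984 (.cut .s 13971456 (.cut .d (-4096) (.pos 49 .mp ⟨⟨862794132, 0, 0, 0, 0, 468107424, 0, 0, 0, ⟨0, 0⟩, 0⟩, 0, 0⟩ 0 0) (.cut .s 13965312 (.pos 49 .mp ⟨⟨884796034, 0, 0, 0, 0, 408129447, 0, 0, 0, ⟨0, 0⟩, 0⟩, 0, 0⟩ 0 0) (.cut .s 13968384 (.pos 49 .mp ⟨⟨889431206, 0, 0, 0, 0, 407216502, 0, 0, 0, ⟨0, 0⟩, 0⟩, 0, 0⟩ 0 0) (.pos 49 .mp ⟨⟨891096291, 0, 0, 0, 0,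 408746394, 0, 0, 0, ⟨0, 0⟩, 0⟩, 0, 0⟩ 0 0)))) (.cut .d (-4096) (.pos 49 .mp ⟨⟨870826549, 0, 0, 0, 0, 471721891, 0, 0, 0, ⟨0, 0⟩, 0⟩, 0, 0⟩ 0 0) (.cut .l 123033 (.cut .d (-2048) (.pos 49 .mp ⟨⟨885714984, 0, 0, 0, 0, 439029855, 0, 0, 0, ⟨0, 0⟩, 0⟩, 0, 0⟩ 0 0) (.cut .s 13977600 (.pos 49 .mp ⟨⟨887177661, 0, 0, 0, 0, 421789314, 0, 0, 0, ⟨0, 0⟩, 0⟩, 0, 0⟩ 0 0) (.pos 49 .mp ⟨⟨891331272, 0, 0, 0, 0, 423493645, 0, 0, 0, ⟨0, 0⟩, 0⟩, 0, 0⟩ 0 0))) (.pos 49 .mp ⟨⟨888060993, 0, 0, 0, 0, 413565158, 0, 0, 0, ⟨0, 0⟩, 0⟩, 0, 0⟩ 0 0)))) (.pos 50 .mp ⟨⟨1021644755, 0, 0, 0, 0, 186149805, 0, 0, 0, ⟨0, 0⟩, 0⟩, 0, 0⟩ 0 0)) (.cut .v 16809984 (.cut .s 13996032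 (.cut .d (-4096) (.pos 49 .mp ⟨⟨878951876, 0, 0, 0, 0, 475563373, 0, 0, 0, ⟨0, 0⟩, 0⟩, 0, 0⟩ 0 0) (.cut .l 123033 (.cut .d (-2048) (.pos 49 .mp ⟨⟨892891036, 0, 0, 0, 0, 445194718, 0, 0, 0, ⟨0, 0⟩, 0⟩, 0, 0⟩ 0 0) (.cut .s 13989888 (.pos 49 .mp ⟨⟨895469340, 0, 0, 0, 0, 425325030, 0, 0, 0, ⟨0, 0⟩, 0⟩, 0, 0⟩ 0 0) (.pos 49 .mp ⟨⟨899631550, 0, 0, 0, 0, 427198467, 0, 0, 0, ⟨0, 0⟩, 0⟩, 0, 0⟩ 0 0))) (.pos 49 .mp ⟨⟨896362422, 0, 0, 0, 0, 417534696, 0, 0, 0, ⟨0, 0⟩, 0⟩, 0, 0⟩ 0 0))) (.cut .d (-4096) (.pos 49 .mp ⟨⟨887171318, 0, 0, 0, 0, 479635079, 0, 0, 0, ⟨0, 0⟩, 0⟩, 0, 0⟩ 0 0) (.cut .l 123033 (.cut .d (-2048) (.pos 49 .mp ⟨⟨900355040, 0, 0,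 0, 0, 451118697, 0, 0, 0, ⟨0, 0⟩, 0⟩, 0, 0⟩ 0 0) (.cut .s 14002176 (.pos 49 .mp ⟨⟨903818059, 0, 0, 0, 0, 429113976, 0, 0, 0, ⟨0, 0⟩, 0⟩, 0, 0⟩ 0 0) (.cut .s 14005248 (.pos 49 .mp ⟨⟨905969299, 0, 0, 0, 0, 433563779, 0, 0, 0, ⟨0, 0⟩, 0⟩, 0, 0⟩ 0 0) (.pos 49 .mp ⟨⟨907942642, 0, 0, 0, 0, 434797411, 0, 0, 0, ⟨0, 0⟩, 0⟩, 0, 0⟩ 0 0)))) (.pos 49 .mp ⟨⟨904760845, 0, 0, 0, 0, 421577605, 0, 0, 0, ⟨0, 0⟩, 0⟩, 0, 0⟩ 0 0)))) (.cut .s 13996032 (.pos 50 .mp ⟨⟨978301564, 0, 0, 0, 0, 289638382, 0, 0, 0, ⟨0, 0⟩, 0⟩, 0, 0⟩ 0 0) (.pos 50 .mp ⟨⟨985802801, 0, 0, 0, 0, 295142784, 0, 0, 0, ⟨0, 0⟩, 0⟩, 0, 0⟩ 0 0)))) (.cut .s 14032896 (.cut .d (-4096) (.cut .d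 (-6144) (.pos 39 .mp ⟨⟨908634664, 0, 0, 0, 0, 491228184, 0, 0, 0, ⟨0, 0⟩, 0⟩, 0, 0⟩ 0 0) (.cut .v 16809984 (.cut .s 14020608 (.pos 49 .mp ⟨⟨895486100, 0, 0, 0, 0, 483940274, 0, 0, 0, ⟨0, 0⟩, 0⟩, 0, 0⟩ 0 0) (.pos 49 .mp ⟨⟨903897472, 0, 0, 0, 0, 488482281, 0, 0, 0, ⟨0, 0⟩, 0⟩, 0, 0⟩ 0 0)) (.pos 50 .mp ⟨⟨1158333091, 0, 0, 0, 0, 0, 0, 0, 0, ⟨0, 0⟩, 0⟩, 0, 0⟩ 0 0))) (.cut .v 16809984 (.cut .l 123033 (.cut .s 14020608 (.cut .d (-2048) (.pos 49 .mp ⟨⟨908116168, 0, 0, 0, 0, 456784514, 0, 0, 0, ⟨0, 0⟩, 0⟩, 0, 0⟩ 0 0) (.cut .v 16793600 (.cut .l 61516 (.cut .d (-1024) (.pos 55 .mp ⟨⟨910334809, 0, 0, 0, 0, 448948423, 0, 0, 0, ⟨0, 0⟩, 0⟩, 0, 0⟩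 0 0) (.cut .s 14014464 (.pos 55 .mp ⟨⟨907403621, 0, 0, 0, 0, 441863446, 0, 0, 0, ⟨0, 0⟩, 0⟩, 0, 0⟩ 0 0) (.pos 55 .mp ⟨⟨911754710, 0, 0, 0, 0, 443701619, 0, 0, 0, ⟨0, 0⟩, 0⟩, 0, 0⟩ 0 0))) (.pos 55 .mp ⟨⟨910229125, 0, 0, 0, 0, 429683413, 0, 0, 0, ⟨0, 0⟩, 0⟩, 0, 0⟩ 0 0)) (.pos 56 .mp ⟨⟨1143913909, 0, 0, 0, 0, 0, 0, 0, 0, ⟨0, 0⟩, 0⟩, 0, 0⟩ 0 0))) (.cut .v 16793600 (.cut .d (-2048) (.pos 55 .mp ⟨⟨905548086, 0, 0, 0, 0, 482840267, 0, 0, 0, ⟨0, 0⟩, 0⟩, 0, 0⟩ 0 0) (.cut .l 61516 (.cut .d (-1024) (.pos 55 .mp ⟨⟨918418386, 0, 0, 0, 0, 454263436, 0, 0, 0, ⟨0, 0⟩, 0⟩, 0, 0⟩ 0 0) (.cut .s 14026752 (.pos 55 .mp ⟨⟨916109403, 0, 0, 0, 0, 445627736,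 0, 0, 0, ⟨0, 0⟩, 0⟩, 0, 0⟩ 0 0) (.pos 55 .mp ⟨⟨920400249, 0, 0, 0, 0, 447787468, 0, 0, 0, ⟨0, 0⟩, 0⟩, 0, 0⟩ 0 0))) (.pos 55 .mp ⟨⟨918766592, 0, 0, 0, 0, 433951780, 0, 0, 0, ⟨0, 0⟩, 0⟩, 0, 0⟩ 0 0))) (.pos 56 .mp ⟨⟨1011236690, 0, 0, 0, 0, 284715444, 0, 0, 0, ⟨0, 0⟩, 0⟩, 0, 0⟩ 0 0))) (.pos 49 .mp ⟨⟨921853772, 0, 0, 0, 0, 413547076, 0, 0, 0, ⟨0, 0⟩, 0⟩, 0, 0⟩ 0 0)) (.pos 50 .mp ⟨⟨1152409978, 0, 0, 0, 0, 0, 0, 0, 0, ⟨0, 0⟩, 0⟩, 0, 0⟩ 0 0))) (.cut .d (-4096) (.cut .d (-6144) (.pos 39 .mp ⟨⟨925314362, 0, 0, 0, 0, 502371445, 0, 0, 0, ⟨0, 0⟩, 0⟩, 0, 0⟩ 0 0) (.cut .v 16809984 (.cut .s 14045184 (.pos 49 .mp ⟨⟨912406703, 0, 0, 0, 0, 493264480,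 0, 0, 0, ⟨0, 0⟩, 0⟩, 0, 0⟩ 0 0) (.pos 49 .mp ⟨⟨921015086, 0, 0, 0, 0, 498290314, 0, 0, 0, ⟨0, 0⟩, 0⟩, 0, 0⟩ 0 0)) (.pos 50 .mp ⟨⟨1180147921, 0, 0, 0, 0, 0, 0, 0, 0, ⟨0, 0⟩, 0⟩, 0, 0⟩ 0 0))) (.cut .v 16809984 (.cut .l 123033 (.cut .s 14045184 (.cut .v 16793600 (.cut .d (-2048) (.pos 55 .mp ⟨⟨914042054, 0, 0, 0, 0, 487624971, 0, 0, 0, ⟨0, 0⟩, 0⟩, 0, 0⟩ 0 0) (.cut .l 61516 (.cut .d (-1024) (.pos 55 .mp ⟨⟨926817876, 0, 0, 0, 0, 459284165, 0, 0, 0, ⟨0, 0⟩, 0⟩, 0, 0⟩ 0 0) (.cut .s 14039040 (.pos 55 .mp ⟨⟨924706328, 0, 0, 0, 0, 450010901, 0, 0, 0, ⟨0, 0⟩, 0⟩, 0, 0⟩ 0 0) (.pos 55 .mp ⟨⟨929037610, 0, 0, 0, 0, 452276933, 0, 0, 0, ⟨0, 0⟩, 0⟩,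 0, 0⟩ 0 0))) (.pos 55 .mp ⟨⟨927404106, 0, 0, 0, 0, 438285049, 0, 0, 0, ⟨0, 0⟩, 0⟩, 0, 0⟩ 0 0))) (.pos 56 .mp ⟨⟨1020993835, 0, 0, 0, 0, 287089311, 0, 0, 0, ⟨0, 0⟩, 0⟩, 0, 0⟩ 0 0)) (.cut .v 16793600 (.cut .d (-2048) (.pos 55 .mp ⟨⟨922635211, 0, 0, 0, 0, 492652802, 0, 0, 0, ⟨0, 0⟩, 0⟩, 0, 0⟩ 0 0) (.cut .l 61516 (.cut .d (-1024) (.pos 55 .mp ⟨⟨935542849, 0, 0, 0, 0, 463992505, 0, 0, 0, ⟨0, 0⟩, 0⟩, 0, 0⟩ 0 0) (.cut .s 14051328 (.pos 55 .mp ⟨⟨933394262, 0, 0, 0, 0, 454585572, 0, 0, 0, ⟨0, 0⟩, 0⟩, 0, 0⟩ 0 0) (.pos 55 .mp ⟨⟨937776453, 0, 0, 0, 0, 456936826, 0, 0, 0, ⟨0, 0⟩, 0⟩, 0, 0⟩ 0 0))) (.pos 55 .mp ⟨⟨936142996, 0, 0, 0, 0, 442679883, 0,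 0, 0, ⟨0, 0⟩, 0⟩, 0, 0⟩ 0 0))) (.pos 56 .mp ⟨⟨1031521690, 0, 0, 0, 0, 288401123, 0, 0, 0, ⟨0, 0⟩, 0⟩, 0, 0⟩ 0 0))) (.pos 49 .mp ⟨⟨939350202, 0, 0, 0, 0, 421582143, 0, 0, 0, ⟨0, 0⟩, 0⟩, 0, 0⟩ 0 0)) (.pos 50 .mp ⟨⟨1174008146, 0, 0, 0, 0, 0, 0, 0, 0, ⟨0, 0⟩, 0⟩, 0, 0⟩ 0 0))))) (.pos 40 .mp ⟨⟨1171212726, 0, 0, 0, 0, 0, 0, 0, 0, ⟨0, 0⟩, 0⟩, 0, 0⟩ 0 0)) (.cut .v 16842752 (.cut .s 14106624 (.cut .s 14082048 (.cut .d (-4096) (.cut .d (-6144) (.pos 39 .mp ⟨⟨942352842, 0, 0, 0, 0, 514610823, 0, 0, 0, ⟨0, 0⟩, 0⟩, 0, 0⟩ 0 0) (.cut .v 16809984 (.cut .s 14069760 (.pos 49 .mp ⟨⟨929723939, 0, 0, 0, 0, 503563288, 0, 0, 0, ⟨0, 0⟩, 0⟩, 0, 0⟩ 0 0) (.pos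 49 .mp ⟨⟨938534603, 0, 0, 0, 0, 509086969, 0, 0, 0, ⟨0, 0⟩, 0⟩, 0, 0⟩ 0 0)) (.pos 50 .mp ⟨⟨1202853926, 0, 0, 0, 0, 0, 0, 0, 0, ⟨0, 0⟩, 0⟩, 0, 0⟩ 0 0))) (.cut .v 16809984 (.cut .l 123033 (.cut .s 14069760 (.cut .d (-2048) (.pos 49 .mp ⟨⟨942320155, 0, 0, 0, 0, 476510770, 0, 0, 0, ⟨0, 0⟩, 0⟩, 0, 0⟩ 0 0) (.cut .v 16793600 (.cut .l 61516 (.cut .d (-1024) (.pos 55 .mp ⟨⟨944603021, 0, 0, 0, 0, 468370058, 0, 0, 0, ⟨0, 0⟩, 0⟩, 0, 0⟩ 0 0) (.cut .s 14063616 (.pos 55 .mp ⟨⟨942184352, 0, 0, 0, 0, 459330702, 0, 0, 0, ⟨0, 0⟩, 0⟩, 0, 0⟩ 0 0) (.pos 55 .mp ⟨⟨946618132, 0, 0, 0, 0, 461767204, 0, 0, 0, ⟨0, 0⟩, 0⟩, 0, 0⟩ 0 0))) (.pos 55 .mp ⟨⟨944984614,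 0, 0, 0, 0, 447132899, 0, 0, 0, ⟨0, 0⟩, 0⟩, 0, 0⟩ 0 0)) (.pos 56 .mp ⟨⟨1187452198, 0, 0, 0, 0, 0, 0, 0, 0, ⟨0, 0⟩, 0⟩, 0, 0⟩ 0 0))) (.cut .d (-2048) (.pos 49 .mp ⟨⟨951709307, 0, 0, 0, 0, 480616706, 0, 0, 0, ⟨0, 0⟩, 0⟩, 0, 0⟩ 0 0) (.cut .v 16793600 (.cut .l 61516 (.cut .d (-1024) (.pos 55 .mp ⟨⟨954008255, 0, 0, 0, 0, 472398123, 0, 0, 0, ⟨0, 0⟩, 0⟩, 0, 0⟩ 0 0) (.cut .s 14075904 (.pos 55 .mp ⟨⟨951026783, 0, 0, 0, 0, 464356691, 0, 0, 0, ⟨0, 0⟩, 0⟩, 0, 0⟩ 0 0) (.pos 55 .mp ⟨⟨955394920, 0, 0, 0, 0, 467132767, 0, 0, 0, ⟨0, 0⟩, 0⟩, 0, 0⟩ 0 0))) (.pos 55 .mp ⟨⟨953930338, 0, 0, 0, 0, 451640666, 0, 0, 0, ⟨0, 0⟩, 0⟩, 0, 0⟩ 0 0)) (.pos 56 .mp ⟨⟨1198896222,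 0, 0, 0, 0, 0, 0, 0, 0, ⟨0, 0⟩, 0⟩, 0, 0⟩ 0 0)))) (.pos 49 .mp ⟨⟨957260945, 0, 0, 0, 0, 429842388, 0, 0, 0, ⟨0, 0⟩, 0⟩, 0, 0⟩ 0 0)) (.pos 50 .mp ⟨⟨1196494767, 0, 0, 0, 0, 0, 0, 0, 0, ⟨0, 0⟩, 0⟩, 0, 0⟩ 0 0))) (.cut .v 16809984 (.cut .s 14094336 (.cut .d (-4096) (.pos 49 .mp ⟨⟨947448442, 0, 0, 0, 0, 514864988, 0, 0, 0, ⟨0, 0⟩, 0⟩, 0, 0⟩ 0 0) (.cut .l 123033 (.cut .d (-2048) (.pos 49 .mp ⟨⟨961453550, 0, 0, 0, 0, 484354789, 0, 0, 0, ⟨0, 0⟩, 0⟩, 0, 0⟩ 0 0) (.cut .v 16793600 (.cut .s 14088192 (.pos 55 .mp ⟨⟨963378834, 0, 0, 0, 0, 463474149, 0, 0, 0, ⟨0, 0⟩, 0⟩, 0, 0⟩ 0 0) (.pos 55 .mp ⟨⟨967941817, 0, 0, 0, 0, 466037175, 0, 0, 0, ⟨0, 0⟩, 0⟩,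 0, 0⟩ 0 0)) (.pos 56 .mp ⟨⟨1210569847, 0, 0, 0, 0, 0, 0, 0, 0, ⟨0, 0⟩, 0⟩, 0, 0⟩ 0 0))) (.pos 49 .mp ⟨⟨966375170, 0, 0, 0, 0, 451655796, 0, 0, 0, ⟨0, 0⟩, 0⟩, 0, 0⟩ 0 0))) (.cut .d (-4096) (.pos 49 .mp ⟨⟨956466847, 0, 0, 0, 0, 520901044, 0, 0, 0, ⟨0, 0⟩, 0⟩, 0, 0⟩ 0 0) (.cut .l 123033 (.cut .d (-2048) (.pos 49 .mp ⟨⟨971563063, 0, 0, 0, 0, 487705673, 0, 0, 0, ⟨0, 0⟩, 0⟩, 0, 0⟩ 0 0) (.cut .s 14100480 (.pos 49 .mp ⟨⟨974240347, 0, 0, 0, 0, 465492613, 0, 0, 0, ⟨0, 0⟩, 0⟩, 0, 0⟩ 0 0) (.pos 49 .mp ⟨⟨978865338, 0, 0, 0, 0, 468124628, 0, 0, 0, ⟨0, 0⟩, 0⟩, 0, 0⟩ 0 0))) (.pos 49 .mp ⟨⟨975597209, 0, 0, 0, 0, 456165770, 0, 0, 0, ⟨0, 0⟩, 0⟩, 0, 0⟩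 0 0)))) (.cut .s 14094336 (.pos 50 .mp ⟨⟨1059146273, 0, 0, 0, 0, 305319589, 0, 0, 0, ⟨0, 0⟩, 0⟩, 0, 0⟩ 0 0) (.pos 50 .mp ⟨⟨1072925238, 0, 0, 0, 0, 302129465, 0, 0, 0, ⟨0, 0⟩, 0⟩, 0, 0⟩ 0 0)))) (.cut .s 14131200 (.cut .v 16809984 (.cut .s 14118912 (.cut .d (-4096) (.pos 49 .mp ⟨⟨965591234, 0, 0, 0, 0, 527198902, 0, 0, 0, ⟨0, 0⟩, 0⟩, 0, 0⟩ 0 0) (.cut .l 123033 (.cut .d (-2048) (.pos 49 .mp ⟨⟨982048184, 0, 0, 0, 0, 490649692, 0, 0, 0, ⟨0, 0⟩, 0⟩, 0, 0⟩ 0 0) (.cut .s 14112768 (.pos 49 .mp ⟨⟨983517705, 0, 0, 0, 0, 470798779, 0, 0, 0, ⟨0, 0⟩, 0⟩, 0, 0⟩ 0 0) (.pos 49 .mp ⟨⟨988197635, 0, 0, 0, 0, 473515054, 0, 0, 0, ⟨0, 0⟩, 0⟩, 0, 0⟩ 0 0)))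 (.pos 49 .mp ⟨⟨984928528, 0, 0, 0, 0, 460718435, 0, 0, 0, ⟨0, 0⟩, 0⟩, 0, 0⟩ 0 0))) (.cut .d (-4096) (.pos 49 .mp ⟨⟨974823044, 0, 0, 0, 0, 533762397, 0, 0, 0, ⟨0, 0⟩, 0⟩, 0, 0⟩ 0 0) (.cut .l 123033 (.cut .d (-2048) (.pos 49 .mp ⟨⟨992919412, 0, 0, 0, 0, 493166844, 0, 0, 0, ⟨0, 0⟩, 0⟩, 0, 0⟩ 0 0) (.cut .s 14125056 (.pos 49 .mp ⟨⟨992745863, 0, 0, 0, 0, 476617593, 0, 0, 0, ⟨0, 0⟩, 0⟩, 0, 0⟩ 0 0) (.pos 49 .mp ⟨⟨997142168, 0, 0, 0, 0, 480150585, 0, 0, 0, ⟨0, 0⟩, 0⟩, 0, 0⟩ 0 0))) (.pos 49 .mp ⟨⟨994370621, 0, 0, 0, 0, 465310135, 0, 0, 0, ⟨0, 0⟩, 0⟩, 0, 0⟩ 0 0)))) (.pos 50 .mp ⟨⟨1164280303, 0, 0, 0, 0, 172551800, 0, 0, 0, ⟨0, 0⟩, 0⟩, 0, 0⟩ 0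 0)) (.cut .v 16809984 (.cut .s 14143488 (.cut .d (-4096) (.pos 49 .mp ⟨⟨984163747, 0, 0, 0, 0, 540595435, 0, 0, 0, ⟨0, 0⟩, 0⟩, 0, 0⟩ 0 0) (.cut .s 14137344 (.pos 49 .mp ⟨⟨1009413480, 0, 0, 0, 0, 469456881, 0, 0, 0, ⟨0, 0⟩, 0⟩, 0, 0⟩ 0 0) (.pos 49 .mp ⟨⟨1014256804, 0, 0, 0, 0, 472247131, 0, 0, 0, ⟨0, 0⟩, 0⟩, 0, 0⟩ 0 0))) (.cut .d (-4096) (.pos 49 .mp ⟨⟨993614840, 0, 0, 0, 0, 547701993, 0, 0, 0, ⟨0, 0⟩, 0⟩, 0, 0⟩ 0 0) (.cut .s 14149632 (.pos 49 .mp ⟨⟨1019129073, 0, 0, 0, 0, 475078614, 0, 0, 0, ⟨0, 0⟩, 0⟩, 0, 0⟩ 0 0) (.pos 49 .mp ⟨⟨1024030486, 0, 0, 0, 0, 477951298, 0, 0, 0, ⟨0, 0⟩, 0⟩, 0, 0⟩ 0 0)))) (.pos 50 .mp ⟨⟨1200271301, 0, 0, 0,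 0, 152774911, 0, 0, 0, ⟨0, 0⟩, 0⟩, 0, 0⟩ 0 0)))) (.pos 40 .mp ⟨⟨1262891541, 0, 0, 0, 0, 0, 0, 0, 0, ⟨0, 0⟩, 0⟩, 0, 0⟩ 0 0))) (.pos 38 .mp ⟨⟨1257498070, 0, 0, 0, 0, 0, 0, 0, 0, ⟨0, 0⟩, 0⟩, 0, 0⟩ 0 0)) (.void 36 ⟨⟨100000, 0, 0, 0, 0, 0, 0, 0, 0, ⟨0, 0⟩, 0⟩, 0, 0⟩ 0 0)) (.void 34 ⟨⟨100000, 0, 0, 0, 0, 0, 0, 0, 0, ⟨0, 0⟩, 0⟩, 0, 0⟩ 0 0)))))))) (.void 32 ⟨⟨100000, 0, 0, 0, 0, 0, 0, 0, 0, ⟨0, 0⟩, 0⟩, 0, 0⟩ 0 0))) (.void 30 ⟨⟨100000, 0, 0, 0, 0, 0, 0, 0, 0, ⟨0, 0⟩, 0⟩, 0, 0⟩ 0 0))) (.void 28 ⟨⟨100000, 0, 0, 0, 0, 0, 0, 0, 0, ⟨0, 0⟩, 0⟩, 0, 0⟩ 0 0))) (.void 26 ⟨⟨100000, 0, 0, 0, 0, 0, 0, 0, 0, ⟨0, 0⟩, 0⟩, 0, 0⟩ 0 0)))) (.void 91 ⟨⟨100000, 0,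 0, 0, 0, 0, 0, 0, 0, ⟨0, 0⟩, 0⟩, 0, 0⟩ 0 0)) (.void 98 ⟨⟨100000, 0, 0, 0, 0, 0, 0, 0, 0, ⟨0, 0⟩, 0⟩, 0, 0⟩ 0 0)) (.void 117 ⟨⟨94991, 0, 0, 5009, 0, 0, 0, 0, 0, ⟨0, 0⟩, 0⟩, 0, 0⟩ 0 0))) (.cut .v 16777216 (.cut .v 8388608 (.cut .v 4194304 (.cut .d 1693476 (.pos 4 .pm ⟨⟨0, 0, 1258736374, 0, 0, 0, 0, 0, 0, ⟨0, 0⟩, 0⟩, 0, 3852⟩ 0 0) (.cut .v 2097152 (.cut .v 1048576 (.cut .v 524288 (.pos 122 .pm ⟨⟨0, 0, 1250124, 0, 0, 0, 0, 0, 0, ⟨0, 0⟩, 0⟩, 0, 278⟩ 0 0) (.pos 123 .pm ⟨⟨0, 26259184, 0, 0, 0, 0, 0, 0, 0, ⟨0, 0⟩, 0⟩, 0, 1189⟩ 0 0)) (.pos 114 .pm ⟨⟨0, 58066103, 0, 0, 0, 0, 0, 0, 0, ⟨0, 0⟩, 0⟩, 0, 2308⟩ 0 0)) (.pos 7 .pm ⟨⟨0, 106538919, 0, 0,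 0, 0, 0, 0, 0, ⟨0, 0⟩, 0⟩, 0, 3852⟩ 0 0))) (.pos 5 .pm ⟨⟨0, 24922847, 0, 0, 0, 0, 0, 0, 0, ⟨0, 0⟩, 0⟩, 0, 5393⟩ 0 0)) (.pos 3 .pm ⟨⟨0, 0, 0, 0, 0, 0, 0, 0, 0, ⟨0, 0⟩, 0⟩, 0, 0⟩ 0 0)) (.cut .v 268435456 (.cut .v 67108864 (.cut .d 1693476 (.cut .d 846738 (.cut .v 33554432 (.cut .d 423369 (.cut .v 25165824 (.cut .d 211684 (.cut .v 20971520 (.cut .d 105842 (.cut .v 18874368 (.cut .v 17825792 (.cut .s 14057472 (.pos 31 .pp ⟨⟨857820404, 0, 0, 0, 0, 0, 0, 0, 0, ⟨0, 0⟩, 0⟩, 26414341, 0⟩ 0 0) (.pos 31 .pp ⟨⟨930092891, 0, 0, 0, 0, 0, 0, 0, 0, ⟨0, 0⟩, 0⟩, 27697662, 0⟩ 0 0)) (.pos 32 .pp ⟨⟨1257795228, 0, 0, 0, 0, 0, 0, 0, 0, ⟨0, 0⟩, 0⟩, 0, 0⟩ 0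 0)) (.pos 30 .pp ⟨⟨1510169843, 0, 0, 0, 0, 0, 0, 0, 0, ⟨0, 0⟩, 0⟩, 0, 0⟩ 0 0)) (.pos 27 .pp ⟨⟨0, 0, 0, 0, 0, 0, 0, 0, 0, ⟨0, 0⟩, 0⟩, 108214334, 6074⟩ 0 0)) (.cut .d 105842 (.pos 28 .pp ⟨⟨0, 0, 0, 0, 0, 0, 0, 0, 0, ⟨0, 0⟩, 0⟩, 205911788, 0⟩ 0 0) (.pos 28 .pp ⟨⟨0, 0, 0, 0, 0, 0, 0, 0, 0, ⟨0, 0⟩, 0⟩, 164112812, 0⟩ 0 0))) (.pos 25 .pp ⟨⟨0, 0, 0, 0, 0, 0, 0, 0, 0, ⟨0, 0⟩, 0⟩, 97766412, 7382⟩ 0 0)) (.pos 26 .pp ⟨⟨0, 0, 0, 0, 0, 0, 0, 0, 0, ⟨0, 0⟩, 0⟩, 245563825, 0⟩ 0 0)) (.pos 24 .pp ⟨⟨0, 0, 0, 0, 0, 0, 0, 0, 0, ⟨0, 0⟩, 0⟩, 85778933, 8883⟩ 0 0)) (.cut .d 423369 (.void 91 ⟨⟨0, 0, 0, 0, 0, 0, 0, 0, 0, ⟨0, 0⟩, 0⟩, 100000, 0⟩ 0 0) (.pos 91 .pp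 ⟨⟨0, 0, 0, 0, 0, 0, 0, 0, 0, ⟨0, 0⟩, 0⟩, 276818325, 0⟩ 0 0))) (.pos 90 .pp ⟨⟨0, 0, 0, 0, 0, 0, 0, 0, 0, ⟨0, 0⟩, 0⟩, 57422179, 12433⟩ 0 0)) (.pos 90 .pp ⟨⟨0, 403708189, 0, 0, 0, 0, 0, 0, 0, ⟨0, 0⟩, 0⟩, 0, 13483⟩ 0 0)) (.void 98 ⟨⟨0, 0, 0, 47712, 0, 0, 0, 0, 0, ⟨0, 0⟩, 0⟩, 52262, 0⟩ 0 0)) (.void 117 ⟨⟨0, 0, 0, 0, 0, 0, 0, 0, 0, ⟨0, 0⟩, 0⟩, 100000, 0⟩ 0 0)))),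
    by decide +kernel⟩

def covers27 : cell.Covers Vale.Agent.P237.Petty.Cor.Grid.N15.table row27.1 :=
  ⟨(.cut .d 0 (.cut .v 16777216 (.cut .v 8388608 (.pos 2 .mm ⟨⟨0, 0, 1090007971, 0, 0, 5587249131, 0, 0, 0, ⟨0, 0⟩, 0⟩, 0, 0⟩ 0 0) (.cut .d (-8388608) (.void 3 ⟨⟨100001, 0, 0, 0, 0, 0, 0, 0, 0, ⟨0, 0⟩, 0⟩, 0, 0⟩ 0 0) (.cut .d (-4194304) (.void 3 ⟨⟨100000, 0, 0, 0, 0, 0, 0, 0, 0, ⟨0, 0⟩, 0⟩, 0, 0⟩ 0 0) (.cut .d (-2097152) (.void 3 ⟨⟨100000, 0, 0, 0, 0, 0, 0, 0, 0, ⟨0, 0⟩, 0⟩, 0, 0⟩ 0 0) (.cut .d (-1048576) (.void 3 ⟨⟨100000, 0, 0, 0, 0, 0, 0, 0, 0, ⟨0, 0⟩, 0⟩, 0, 0⟩ 0 0) (.cut .d (-524288) (.void 3 ⟨⟨0, 0, 0, 0, 0, 100000, 0, 0, 0,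 ⟨0, 0⟩, 0⟩, 0, 0⟩ 0 0) (.cut .d (-262144) (.void 3 ⟨⟨0, 0, 0, 0, 0, 100000, 0, 0, 0, ⟨0, 0⟩, 0⟩, 0, 0⟩ 0 0) (.cut .d (-131072) (.void 3 ⟨⟨0, 0, 0, 0, 0, 100000, 0, 0, 0, ⟨0, 0⟩, 0⟩, 0, 0⟩ 0 0) (.cut .s 14237696 (.pos 3 .mm ⟨⟨0, 0, 0, 0, 0, 2443347750, 0, 0, 0, ⟨0, 0⟩, 0⟩, 0, 0⟩ 0 0) (.pos 3 .mm ⟨⟨0, 0, 0, 0, 0, 2624331977, 0, 0, 0, ⟨0, 0⟩, 0⟩, 0, 0⟩ 0 0)))))))))) (.cut .v 268435456 (.cut .v 67108864 (.cut .v 33554432 (.cut .d (-8388608) (.void 24 ⟨⟨100000, 0, 0, 0, 0, 0, 0, 0, 0, ⟨0, 0⟩, 0⟩, 0, 0⟩ 0 0) (.cut .d (-4194304) (.void 24 ⟨⟨100000, 0, 0, 0, 0, 0, 0, 0, 0, ⟨0, 0⟩, 0⟩, 0, 0⟩ 0 0) (.cut .v 25165824 (.cut .d (-2097152) (.void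 25 ⟨⟨100000, 0, 0, 0, 0, 0, 0, 0, 0, ⟨0, 0⟩, 0⟩, 0, 0⟩ 0 0) (.cut .v 20971520 (.cut .d (-1048576) (.void 27 ⟨⟨100000, 0, 0, 0, 0, 0, 0, 0, 0, ⟨0, 0⟩, 0⟩, 0, 0⟩ 0 0) (.cut .v 18874368 (.cut .d (-524288) (.void 29 ⟨⟨100000, 0, 0, 0, 0, 0, 0, 0, 0, ⟨0, 0⟩, 0⟩, 0, 0⟩ 0 0) (.cut .v 17825792 (.cut .d (-262144) (.void 31 ⟨⟨100000, 0, 0, 0, 0, 0, 0, 0, 0, ⟨0, 0⟩, 0⟩, 0, 0⟩ 0 0) (.cut .d (-131072) (.void 31 ⟨⟨100000, 0, 0, 0, 0, 0, 0, 0, 0, ⟨0, 0⟩, 0⟩, 0, 0⟩ 0 0) (.cut .d (-65536) (.void 31 ⟨⟨100000, 0, 0, 0, 0, 0, 0, 0, 0, ⟨0, 0⟩, 0⟩, 0, 0⟩ 0 0) (.cut .d (-32768) (.void 31 ⟨⟨100000, 0, 0, 0, 0, 0, 0, 0, 0, ⟨0, 0⟩, 0⟩, 0, 0⟩ 0 0) (.cut .d (-16384)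 (.void 31 ⟨⟨100000, 0, 0, 0, 0, 0, 0, 0, 0, ⟨0, 0⟩, 0⟩, 0, 0⟩ 0 0) (.cut .d (-8192) (.void 31 ⟨⟨0, 0, 0, 0, 0, 100000, 0, 0, 0, ⟨0, 0⟩, 0⟩, 0, 0⟩ 0 0) (.cut .v 17301504 (.cut .v 17039360 (.cut .v 16908288 (.cut .s 14237696 (.cut .v 16842752 (.cut .s 14196736 (.cut .d (-4096) (.cut .v 16809984 (.cut .s 14176256 (.pos 49 .mp ⟨⟨1003174930, 0, 0, 0, 0, 566549872, 0, 0, 0, ⟨0, 0⟩, 0⟩, 0, 0⟩ 0 0) (.pos 49 .mp ⟨⟨1019420171, 0, 0, 0, 0, 573619557, 0, 0, 0, ⟨0, 0⟩, 0⟩, 0, 0⟩ 0 0)) (.pos 50 .mp ⟨⟨1185644081, 0, 0, 0, 0, 257979026, 0, 0, 0, ⟨0, 0⟩, 0⟩, 0, 0⟩ 0 0)) (.cut .v 16809984 (.cut .s 14176256 (.cut .l 123033 (.cut .d (-2048) (.pos 49 .mp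 ⟨⟨1006434209, 0, 0, 0, 0, 564330505, 0, 0, 0, ⟨0, 0⟩, 0⟩, 0, 0⟩ 0 0) (.cut .l 61516 (.cut .d (-1024) (.pos 49 .mp ⟨⟨1027500190, 0, 0, 0, 0, 511398370, 0, 0, 0, ⟨0, 0⟩, 0⟩, 0, 0⟩ 0 0) (.cut .s 14166016 (.pos 49 .mp ⟨⟨1021389097, 0, 0, 0, 0, 496998991, 0, 0, 0, ⟨0, 0⟩, 0⟩, 0, 0⟩ 0 0) (.cut .s 14171136 (.pos 49 .mp ⟨⟨1026244228, 0, 0, 0, 0, 504036042, 0, 0, 0, ⟨0, 0⟩, 0⟩, 0, 0⟩ 0 0) (.pos 49 .mp ⟨⟨1029918734, 0, 0, 0, 0, 506480227, 0, 0, 0, ⟨0, 0⟩, 0⟩, 0, 0⟩ 0 0)))) (.pos 49 .mp ⟨⟨1027949509, 0, 0, 0, 0, 476312312, 0, 0, 0, ⟨0, 0⟩, 0⟩, 0, 0⟩ 0 0))) (.pos 49 .mp ⟨⟨1029992187, 0, 0, 0, 0, 474122590, 0, 0, 0, ⟨0, 0⟩, 0⟩, 0, 0⟩ 0 0)) (.cut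 .l 123033 (.cut .d (-2048) (.pos 49 .mp ⟨⟨1022658990, 0, 0, 0, 0, 571522943, 0, 0, 0, ⟨0, 0⟩, 0⟩, 0, 0⟩ 0 0) (.cut .v 16793600 (.cut .l 61516 (.cut .d (-1024) (.pos 55 .mp ⟨⟨1022480325, 0, 0, 0, 0, 569073987, 0, 0, 0, ⟨0, 0⟩, 0⟩, 0, 0⟩ 0 0) (.cut .v 16785408 (.cut .l 30758 (.cut .d (-512) (.pos 57 .mp ⟨⟨1022392535, 0, 0, 0, 0, 567846287, 0, 0, 0, ⟨0, 0⟩, 0⟩, 0, 0⟩ 0 0) (.cut .v 16781312 (.cut .l 15379 (.cut .s 14186496 (.cut .s 14181376 (.pos 65 .mp ⟨⟨1041382587, 0, 0, 0, 0, 493312762, 0, 0, 0, ⟨0, 0⟩, 0⟩, 0, 0⟩ 0 0) (.pos 65 .mp ⟨⟨1044641555, 0, 0, 0, 0, 496759046, 0, 0, 0, ⟨0, 0⟩, 0⟩, 0, 0⟩ 0 0)) (.cut .s 14191616 (.pos 65 .mp ⟨⟨1047969108,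 0, 0, 0, 0, 500155569, 0, 0, 0, ⟨0, 0⟩, 0⟩, 0, 0⟩ 0 0) (.pos 65 .mp ⟨⟨1051366374, 0, 0, 0, 0, 503500413, 0, 0, 0, ⟨0, 0⟩, 0⟩, 0, 0⟩ 0 0))) (.pos 65 .mp ⟨⟨1039779492, 0, 0, 0, 0, 491396126, 0, 0, 0, ⟨0, 0⟩, 0⟩, 0, 0⟩ 0 0)) (.pos 66 .mp ⟨⟨1309835471, 0, 0, 0, 0, 0, 0, 0, 0, ⟨0, 0⟩, 0⟩, 0, 0⟩ 0 0))) (.pos 57 .mp ⟨⟨1040770585, 0, 0, 0, 0, 490041459, 0, 0, 0, ⟨0, 0⟩, 0⟩, 0, 0⟩ 0 0)) (.pos 58 .mp ⟨⟨1310214013, 0, 0, 0, 0, 0, 0, 0, 0, ⟨0, 0⟩, 0⟩, 0, 0⟩ 0 0))) (.pos 55 .mp ⟨⟨1042755669, 0, 0, 0, 0, 487327373, 0, 0, 0, ⟨0, 0⟩, 0⟩, 0, 0⟩ 0 0)) (.pos 56 .mp ⟨⟨1310956404, 0, 0, 0, 0, 0, 0, 0, 0, ⟨0, 0⟩, 0⟩, 0, 0⟩ 0 0))) (.pos 49 .mp ⟨⟨1046733877,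 0, 0, 0, 0, 481885973, 0, 0, 0, ⟨0, 0⟩, 0⟩, 0, 0⟩ 0 0))) (.pos 50 .mp ⟨⟨1307804623, 0, 0, 0, 0, 0, 0, 0, 0, ⟨0, 0⟩, 0⟩, 0, 0⟩ 0 0))) (.cut .d (-4096) (.cut .d (-6144) (.void 39 ⟨⟨0, 0, 0, 0, 0, 100000, 0, 0, 0, ⟨0, 0⟩, 0⟩, 0, 0⟩ 0 0) (.cut .v 16809984 (.cut .s 14217216 (.pos 49 .mp ⟨⟨1035999584, 0, 0, 0, 0, 581511264, 0, 0, 0, ⟨0, 0⟩, 0⟩, 0, 0⟩ 0 0) (.cut .s 14227456 (.pos 49 .mp ⟨⟨1052921038, 0, 0, 0, 0, 574613128, 0, 0, 0, ⟨0, 0⟩, 0⟩, 0, 0⟩ 0 0) (.pos 49 .mp ⟨⟨1061512558, 0, 0, 0, 0, 579061795, 0, 0, 0, ⟨0, 0⟩, 0⟩, 0, 0⟩ 0 0))) (.pos 50 .mp ⟨⟨1337158765, 0, 0, 0, 0, 43081559, 0, 0, 0, ⟨0, 0⟩, 0⟩, 0, 0⟩ 0 0))) (.cut .v 16809984 (.cut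 .s 14217216 (.cut .l 123033 (.cut .v 16793600 (.cut .d (-2048) (.pos 55 .mp ⟨⟨1037387629, 0, 0, 0, 0, 575936840, 0, 0, 0, ⟨0, 0⟩, 0⟩, 0, 0⟩ 0 0) (.cut .l 61516 (.cut .d (-1024) (.pos 55 .mp ⟨⟨1039001098, 0, 0, 0, 0, 577118898, 0, 0, 0, ⟨0, 0⟩, 0⟩, 0, 0⟩ 0 0) (.cut .v 16785408 (.cut .l 30758 (.cut .d (-512) (.pos 57 .mp ⟨⟨1038894113, 0, 0, 0, 0, 575905469, 0, 0, 0, ⟨0, 0⟩, 0⟩, 0, 0⟩ 0 0) (.cut .v 16781312 (.cut .l 15379 (.cut .s 14206976 (.cut .s 14201856 (.pos 65 .mp ⟨⟨1054834491, 0, 0, 0, 0, 506791640, 0, 0, 0, ⟨0, 0⟩, 0⟩, 0, 0⟩ 0 0) (.pos 65 .mp ⟨⟨1058374605, 0, 0, 0, 0, 510027294, 0, 0, 0, ⟨0, 0⟩, 0⟩, 0, 0⟩ 0 0)) (.cut .s 14212096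 (.pos 65 .mp ⟨⟨1061987875, 0, 0, 0, 0, 513205395, 0, 0, 0, ⟨0, 0⟩, 0⟩, 0, 0⟩ 0 0) (.pos 65 .mp ⟨⟨1065675469, 0, 0, 0, 0, 516323947, 0, 0, 0, ⟨0, 0⟩, 0⟩, 0, 0⟩ 0 0))) (.pos 65 .mp ⟨⟨1056636512, 0, 0, 0, 0, 499758500, 0, 0, 0, ⟨0, 0⟩, 0⟩, 0, 0⟩ 0 0)) (.pos 66 .mp ⟨⟨1330039239, 0, 0, 0, 0, 0, 0, 0, 0, ⟨0, 0⟩, 0⟩, 0, 0⟩ 0 0))) (.pos 57 .mp ⟨⟨1057660775, 0, 0, 0, 0, 498352513, 0, 0, 0, ⟨0, 0⟩, 0⟩, 0, 0⟩ 0 0)) (.pos 58 .mp ⟨⟨1330423758, 0, 0, 0, 0, 0, 0, 0, 0, ⟨0, 0⟩, 0⟩, 0, 0⟩ 0 0))) (.pos 55 .mp ⟨⟨1059712268, 0, 0, 0, 0, 495535669, 0, 0, 0, ⟨0, 0⟩, 0⟩, 0, 0⟩ 0 0))) (.pos 56 .mp ⟨⟨1207850873, 0, 0, 0, 0, 252132699, 0, 0, 0, ⟨0, 0⟩, 0⟩, 0,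 0⟩ 0 0)) (.pos 49 .mp ⟨⟨1063823504, 0, 0, 0, 0, 489888392, 0, 0, 0, ⟨0, 0⟩, 0⟩, 0, 0⟩ 0 0)) (.cut .l 123033 (.cut .v 16793600 (.cut .d (-2048) (.pos 55 .mp ⟨⟨1054260164, 0, 0, 0, 0, 584715052, 0, 0, 0, ⟨0, 0⟩, 0⟩, 0, 0⟩ 0 0) (.cut .l 61516 (.cut .v 16785408 (.cut .d (-1024) (.pos 57 .mp ⟨⟨1054934560, 0, 0, 0, 0, 581940020, 0, 0, 0, ⟨0, 0⟩, 0⟩, 0, 0⟩ 0 0) (.cut .l 30758 (.cut .d (-512) (.pos 57 .mp ⟨⟨1055737356, 0, 0, 0, 0, 584808482, 0, 0, 0, ⟨0, 0⟩, 0⟩, 0, 0⟩ 0 0) (.cut .v 16781312 (.cut .l 15379 (.cut .s 14227456 (.cut .s 14222336 (.pos 65 .mp ⟨⟨1069438564, 0, 0, 0, 0, 519380930, 0, 0, 0, ⟨0, 0⟩, 0⟩, 0, 0⟩ 0 0) (.pos 65 .mp ⟨⟨1073278350,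 0, 0, 0, 0, 522374307, 0, 0, 0, ⟨0, 0⟩, 0⟩, 0, 0⟩ 0 0)) (.cut .s 14232576 (.pos 65 .mp ⟨⟨1077196028, 0, 0, 0, 0, 525302018, 0, 0, 0, ⟨0, 0⟩, 0⟩, 0, 0⟩ 0 0) (.pos 65 .mp ⟨⟨1081192807, 0, 0, 0, 0, 528161982, 0, 0, 0, ⟨0, 0⟩, 0⟩, 0, 0⟩ 0 0))) (.pos 65 .mp ⟨⟨1073843912, 0, 0, 0, 0, 508349170, 0, 0, 0, ⟨0, 0⟩, 0⟩, 0, 0⟩ 0 0)) (.pos 66 .mp ⟨⟨1351003879, 0, 0, 0, 0, 0, 0, 0, 0, ⟨0, 0⟩, 0⟩, 0, 0⟩ 0 0))) (.pos 57 .mp ⟨⟨1074902175, 0, 0, 0, 0, 506890477, 0, 0, 0, ⟨0, 0⟩, 0⟩, 0, 0⟩ 0 0))) (.pos 58 .mp ⟨⟨1230056934, 0, 0, 0, 0, 249168853, 0, 0, 0, ⟨0, 0⟩, 0⟩, 0, 0⟩ 0 0)) (.pos 55 .mp ⟨⟨1077021735, 0, 0, 0, 0, 503968102, 0, 0, 0, ⟨0, 0⟩, 0⟩, 0,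 0⟩ 0 0))) (.pos 56 .mp ⟨⟨1224967182, 0, 0, 0, 0, 260643915, 0, 0, 0, ⟨0, 0⟩, 0⟩, 0, 0⟩ 0 0)) (.cut .s 14227456 (.pos 49 .mp ⟨⟨1072501364, 0, 0, 0, 0, 508913649, 0, 0, 0, ⟨0, 0⟩, 0⟩, 0, 0⟩ 0 0) (.pos 49 .mp ⟨⟨1081269326, 0, 0, 0, 0, 513261679, 0, 0, 0, ⟨0, 0⟩, 0⟩, 0, 0⟩ 0 0)))) (.pos 50 .mp ⟨⟨1348469614, 0, 0, 0, 0, 0, 0, 0, 0, ⟨0, 0⟩, 0⟩, 0, 0⟩ 0 0)))) (.pos 40 .mp ⟨⟨1355109794, 0, 0, 0, 0, 0, 0, 0, 0, ⟨0, 0⟩, 0⟩, 0, 0⟩ 0 0)) (.cut .v 16842752 (.cut .s 14278656 (.cut .d (-4096) (.cut .d (-6144) (.void 39 ⟨⟨0, 0, 0, 0, 0, 100000, 0, 0, 0, ⟨0, 0⟩, 0⟩, 0, 0⟩ 0 0) (.cut .v 16809984 (.cut .l 123033 (.void 49 ⟨⟨100000, 0, 0, 0, 0, 0, 0, 0,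 0, ⟨0, 0⟩, 0⟩, 0, 0⟩ 0 0) (.cut .s 14258176 (.pos 49 .mp ⟨⟨1070192654, 0, 0, 0, 0, 591737745, 0, 0, 0, ⟨0, 0⟩, 0⟩, 0, 0⟩ 0 0) (.pos 49 .mp ⟨⟨1087822818, 0, 0, 0, 0, 601924685, 0, 0, 0, ⟨0, 0⟩, 0⟩, 0, 0⟩ 0 0))) (.pos 50 .mp ⟨⟨1395328306, 0, 0, 0, 0, 17272512, 0, 0, 0, ⟨0, 0⟩, 0⟩, 0, 0⟩ 0 0))) (.cut .v 16809984 (.cut .s 14258176 (.cut .l 123033 (.cut .d (-2048) (.cut .s 14247936 (.pos 49 .mp ⟨⟨1073371791, 0, 0, 0, 0, 579742492, 0, 0, 0, ⟨0, 0⟩, 0⟩, 0, 0⟩ 0 0) (.pos 49 .mp ⟨⟨1082131828, 0, 0, 0, 0, 584668006, 0, 0, 0, ⟨0, 0⟩, 0⟩, 0, 0⟩ 0 0)) (.cut .v 16793600 (.cut .l 61516 (.cut .s 14247936 (.cut .s 14242816 (.pos 55 .mp ⟨⟨1086972396,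 0, 0, 0, 0, 528082237, 0, 0, 0, ⟨0, 0⟩, 0⟩, 0, 0⟩ 0 0) (.pos 55 .mp ⟨⟨1091401065, 0, 0, 0, 0, 530332285, 0, 0, 0, ⟨0, 0⟩, 0⟩, 0, 0⟩ 0 0)) (.cut .s 14253056 (.pos 55 .mp ⟨⟨1095852780, 0, 0, 0, 0, 532611820, 0, 0, 0, ⟨0, 0⟩, 0⟩, 0, 0⟩ 0 0) (.pos 55 .mp ⟨⟨1100327680, 0, 0, 0, 0, 534920709, 0, 0, 0, ⟨0, 0⟩, 0⟩, 0, 0⟩ 0 0))) (.pos 55 .mp ⟨⟨1094692518, 0, 0, 0, 0, 512603855, 0, 0, 0, ⟨0, 0⟩, 0⟩, 0, 0⟩ 0 0)) (.pos 56 .mp ⟨⟨1373922550, 0, 0, 0, 0, 0, 0, 0, 0, ⟨0, 0⟩, 0⟩, 0, 0⟩ 0 0))) (.cut .s 14247936 (.pos 49 .mp ⟨⟨1090128464, 0, 0, 0, 0, 517659495, 0, 0, 0, ⟨0, 0⟩, 0⟩, 0, 0⟩ 0 0) (.pos 49 .mp ⟨⟨1099079870, 0, 0, 0, 0, 522104422, 0, 0, 0,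 ⟨0, 0⟩, 0⟩, 0, 0⟩ 0 0))) (.cut .l 123033 (.cut .d (-2048) (.cut .s 14268416 (.pos 49 .mp ⟨⟨1090982646, 0, 0, 0, 0, 589816339, 0, 0, 0, ⟨0, 0⟩, 0⟩, 0, 0⟩ 0 0) (.pos 49 .mp ⟨⟨1099925338, 0, 0, 0, 0, 595190375, 0, 0, 0, ⟨0, 0⟩, 0⟩, 0, 0⟩ 0 0)) (.cut .v 16793600 (.cut .l 61516 (.cut .s 14268416 (.cut .s 14263296 (.pos 55 .mp ⟨⟨1104825904, 0, 0, 0, 0, 537258823, 0, 0, 0, ⟨0, 0⟩, 0⟩, 0, 0⟩ 0 0) (.pos 55 .mp ⟨⟨1109347592, 0, 0, 0, 0, 539626027, 0, 0, 0, ⟨0, 0⟩, 0⟩, 0, 0⟩ 0 0)) (.cut .s 14273536 (.pos 55 .mp ⟨⟨1113892886, 0, 0, 0, 0, 542022184, 0, 0, 0, ⟨0, 0⟩, 0⟩, 0, 0⟩ 0 0) (.pos 55 .mp ⟨⟨1118461928, 0, 0, 0, 0, 544447158, 0, 0, 0, ⟨0, 0⟩,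 0⟩, 0, 0⟩ 0 0))) (.pos 55 .mp ⟨⟨1112733344, 0, 0, 0, 0, 521421577, 0, 0, 0, ⟨0, 0⟩, 0⟩, 0, 0⟩ 0 0)) (.pos 56 .mp ⟨⟨1396481655, 0, 0, 0, 0, 0, 0, 0, 0, ⟨0, 0⟩, 0⟩, 0, 0⟩ 0 0))) (.cut .s 14268416 (.pos 49 .mp ⟨⟨1108124653, 0, 0, 0, 0, 526593751, 0, 0, 0, ⟨0, 0⟩, 0⟩, 0, 0⟩ 0 0) (.pos 49 .mp ⟨⟨1117263942, 0, 0, 0, 0, 531124738, 0, 0, 0, ⟨0, 0⟩, 0⟩, 0, 0⟩ 0 0)))) (.pos 50 .mp ⟨⟨1392210110, 0, 0, 0, 0, 0, 0, 0, 0, ⟨0, 0⟩, 0⟩, 0, 0⟩ 0 0))) (.cut .d (-4096) (.cut .d (-6144) (.void 39 ⟨⟨0, 0, 0, 0, 0, 100000, 0, 0, 0, ⟨0, 0⟩, 0⟩, 0, 0⟩ 0 0) (.cut .v 16809984 (.cut .l 123033 (.void 49 ⟨⟨100000, 0, 0, 0, 0, 0, 0, 0, 0, ⟨0, 0⟩, 0⟩, 0, 0⟩ 0 0) (.cut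 .s 14299136 (.pos 49 .mp ⟨⟨1105820193, 0, 0, 0, 0, 612713152, 0, 0, 0, ⟨0, 0⟩, 0⟩, 0, 0⟩ 0 0) (.pos 49 .mp ⟨⟨1124193726, 0, 0, 0, 0, 624102310, 0, 0, 0, ⟨0, 0⟩, 0⟩, 0, 0⟩ 0 0))) (.pos 50 .mp ⟨⟨1451871494, 0, 0, 0, 0, 0, 0, 0, 0, ⟨0, 0⟩, 0⟩, 0, 0⟩ 0 0))) (.cut .v 16809984 (.cut .s 14299136 (.cut .s 14288896 (.cut .l 123033 (.cut .d (-2048) (.pos 49 .mp ⟨⟨1108961014, 0, 0, 0, 0, 600793040, 0, 0, 0, ⟨0, 0⟩, 0⟩, 0, 0⟩ 0 0) (.cut .s 14283776 (.pos 49 .mp ⟨⟨1125020840, 0, 0, 0, 0, 543481782, 0, 0, 0, ⟨0, 0⟩, 0⟩, 0, 0⟩ 0 0) (.pos 49 .mp ⟨⟨1129645701, 0, 0, 0, 0, 545978992, 0, 0, 0, ⟨0, 0⟩, 0⟩, 0, 0⟩ 0 0))) (.pos 49 .mp ⟨⟨1126498882, 0, 0,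 0, 0, 535694604, 0, 0, 0, ⟨0, 0⟩, 0⟩, 0, 0⟩ 0 0)) (.cut .l 123033 (.cut .d (-2048) (.pos 49 .mp ⟨⟨1118090802, 0, 0, 0, 0, 606627311, 0, 0, 0, ⟨0, 0⟩, 0⟩, 0, 0⟩ 0 0) (.cut .s 14294016 (.pos 49 .mp ⟨⟨1134294785, 0, 0, 0, 0, 548512618, 0, 0, 0, ⟨0, 0⟩, 0⟩, 0, 0⟩ 0 0) (.pos 49 .mp ⟨⟨1138968241, 0, 0, 0, 0, 551082638, 0, 0, 0, ⟨0, 0⟩, 0⟩, 0, 0⟩ 0 0))) (.pos 49 .mp ⟨⟨1135830641, 0, 0, 0, 0, 540300532, 0, 0, 0, ⟨0, 0⟩, 0⟩, 0, 0⟩ 0 0))) (.cut .s 14309376 (.cut .l 123033 (.cut .d (-2048) (.pos 49 .mp ⟨⟨1127315849, 0, 0, 0, 0, 612696213, 0, 0, 0, ⟨0, 0⟩, 0⟩, 0, 0⟩ 0 0) (.cut .s 14304256 (.pos 49 .mp ⟨⟨1143666218, 0, 0, 0, 0, 553689027, 0, 0,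 0, ⟨0, 0⟩, 0⟩, 0, 0⟩ 0 0) (.pos 49 .mp ⟨⟨1148388865, 0, 0, 0, 0, 556331759, 0, 0, 0, ⟨0, 0⟩, 0⟩, 0, 0⟩ 0 0))) (.pos 49 .mp ⟨⟨1145260401, 0, 0, 0, 0, 544939668, 0, 0, 0, ⟨0, 0⟩, 0⟩, 0, 0⟩ 0 0)) (.cut .l 123033 (.cut .d (-2048) (.pos 49 .mp ⟨⟨1136637322, 0, 0, 0, 0, 619002822, 0, 0, 0, ⟨0, 0⟩, 0⟩, 0, 0⟩ 0 0) (.cut .s 14314496 (.pos 49 .mp ⟨⟨1153083133, 0, 0, 0, 0, 559126083, 0, 0, 0, ⟨0, 0⟩, 0⟩, 0, 0⟩ 0 0) (.pos 49 .mp ⟨⟨1157590024, 0, 0, 0, 0, 562416889, 0, 0, 0, ⟨0, 0⟩, 0⟩, 0, 0⟩ 0 0))) (.pos 49 .mp ⟨⟨1154789369, 0, 0, 0, 0, 549609121, 0, 0, 0, ⟨0, 0⟩, 0⟩, 0, 0⟩ 0 0)))) (.pos 50 .mp ⟨⟨1439170016, 0, 0, 0, 0, 0, 0, 0, 0, ⟨0, 0⟩, 0⟩,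 0, 0⟩ 0 0)))) (.pos 40 .mp ⟨⟨1445298918, 0, 0, 0, 0, 0, 0, 0, 0, ⟨0, 0⟩, 0⟩, 0, 0⟩ 0 0))) (.pos 38 .mp ⟨⟨1442333635, 0, 0, 0, 0, 0, 0, 0, 0, ⟨0, 0⟩, 0⟩, 0, 0⟩ 0 0)) (.void 36 ⟨⟨100000, 0, 0, 0, 0, 0, 0, 0, 0, ⟨0, 0⟩, 0⟩, 0, 0⟩ 0 0)) (.void 34 ⟨⟨100000, 0, 0, 0, 0, 0, 0, 0, 0, ⟨0, 0⟩, 0⟩, 0, 0⟩ 0 0)))))))) (.void 32 ⟨⟨100000, 0, 0, 0, 0, 0, 0, 0, 0, ⟨0, 0⟩, 0⟩, 0, 0⟩ 0 0))) (.void 30 ⟨⟨100000, 0, 0, 0, 0, 0, 0, 0, 0, ⟨0, 0⟩, 0⟩, 0, 0⟩ 0 0))) (.void 28 ⟨⟨100000, 0, 0, 0, 0, 0, 0, 0, 0, ⟨0, 0⟩, 0⟩, 0, 0⟩ 0 0))) (.void 26 ⟨⟨100000, 0, 0, 0, 0, 0, 0, 0, 0, ⟨0, 0⟩, 0⟩, 0, 0⟩ 0 0)))) (.void 91 ⟨⟨100000, 0, 0, 0, 0, 0, 0, 0, 0, ⟨0, 0⟩, 0⟩,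 0, 0⟩ 0 0)) (.void 98 ⟨⟨100000, 0, 0, 0, 0, 0, 0, 0, 0, ⟨0, 0⟩, 0⟩, 0, 0⟩ 0 0)) (.void 117 ⟨⟨94930, 0, 0, 5064, 0, 0, 0, 0, 0, ⟨0, 0⟩, 0⟩, 0, 0⟩ 0 0))) (.cut .v 16777216 (.cut .v 8388608 (.cut .v 4194304 (.cut .v 2097152 (.cut .v 1048576 (.cut .v 524288 (.pos 122 .pm ⟨⟨0, 0, 16143967, 0, 0, 0, 0, 0, 0, ⟨0, 0⟩, 0⟩, 0, 389⟩ 0 0) (.pos 123 .pm ⟨⟨0, 0, 8191880, 0, 0, 0, 0, 0, 0, ⟨0, 0⟩, 0⟩, 0, 763⟩ 0 0)) (.pos 114 .pm ⟨⟨0, 0, 3702397, 0, 0, 0, 0, 0, 0, ⟨0, 0⟩, 0⟩, 0, 1122⟩ 0 0)) (.pos 7 .pm ⟨⟨0, 1735348, 0, 0, 0, 0, 0, 0, 0, ⟨0, 0⟩, 0⟩, 0, 2119⟩ 0 0)) (.pos 5 .pm ⟨⟨0, 1989414, 0, 0, 0, 0, 0, 0, 0, ⟨0, 0⟩, 0⟩, 0, 3815⟩ 0 0)) (.pos 3 .pm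 ⟨⟨0, 0, 0, 0, 0, 0, 0, 0, 0, ⟨0, 0⟩, 0⟩, 0, 0⟩ 0 0)) (.cut .v 268435456 (.cut .v 67108864 (.cut .d 1553447 (.cut .d 776723 (.cut .v 33554432 (.cut .d 388361 (.cut .v 25165824 (.cut .d 194180 (.cut .v 20971520 (.cut .d 97090 (.cut .v 18874368 (.cut .v 17825792 (.cut .s 14237696 (.pos 31 .pp ⟨⟨928652511, 0, 0, 0, 0, 0, 0, 0, 0, ⟨0, 0⟩, 0⟩, 38565125, 0⟩ 0 0) (.pos 31 .pp ⟨⟨990845824, 0, 0, 0, 0, 0, 0, 0, 0, ⟨0, 0⟩, 0⟩, 41055572, 0⟩ 0 0)) (.pos 32 .pp ⟨⟨1448021704, 0, 0, 0, 0, 0, 0, 0, 0, ⟨0, 0⟩, 0⟩, 0, 0⟩ 0 0)) (.pos 30 .pp ⟨⟨1726777343, 0, 0, 0, 0, 0, 0, 0, 0, ⟨0, 0⟩, 0⟩, 0, 0⟩ 0 0)) (.pos 27 .pp ⟨⟨0, 0, 0, 0, 0, 0, 0, 0, 0, ⟨0, 0⟩, 0⟩,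 125774732, 4186⟩ 0 0)) (.cut .d 97090 (.pos 28 .pp ⟨⟨0, 0, 0, 0, 0, 0, 0, 0, 0, ⟨0, 0⟩, 0⟩, 234077537, 0⟩ 0 0) (.pos 28 .pp ⟨⟨0, 0, 0, 0, 0, 0, 0, 0, 0, ⟨0, 0⟩, 0⟩, 188988288, 0⟩ 0 0))) (.pos 25 .pp ⟨⟨0, 0, 0, 0, 0, 0, 0, 0, 0, ⟨0, 0⟩, 0⟩, 113719456, 5077⟩ 0 0)) (.pos 26 .pp ⟨⟨0, 0, 0, 0, 0, 0, 0, 0, 0, ⟨0, 0⟩, 0⟩, 279749972, 0⟩ 0 0)) (.pos 24 .pp ⟨⟨0, 0, 0, 0, 0, 0, 0, 0, 0, ⟨0, 0⟩, 0⟩, 99955304, 6094⟩ 0 0)) (.cut .d 388361 (.void 91 ⟨⟨0, 0, 0, 0, 0, 0, 0, 0, 0, ⟨0, 0⟩, 0⟩, 100000, 0⟩ 0 0) (.pos 91 .pp ⟨⟨0, 0, 0, 0, 0, 0, 0, 0, 0, ⟨0, 0⟩, 0⟩, 320026518, 0⟩ 0 0))) (.pos 90 .pp ⟨⟨0, 0, 0, 0, 0, 0, 0, 0, 0, ⟨0, 0⟩, 0⟩, 71980165, 8161⟩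 0 0)) (.pos 90 .pp ⟨⟨0, 387126537, 0, 0, 0, 0, 0, 0, 0, ⟨0, 0⟩, 0⟩, 0, 13481⟩ 0 0)) (.pos 98 .pp ⟨⟨0, 0, 0, 806278682145912, 0, 0, 0, 0, 0, ⟨0, 0⟩, 0⟩, 871442917854088, 0⟩ 0 0)) (.void 117 ⟨⟨0, 0, 0, 0, 0, 0, 0, 0, 0, ⟨0, 0⟩, 0⟩, 100000, 0⟩ 0 0)))),
    by decide +kernel⟩

def covers28 : cell.Covers Vale.Agent.P237.Petty.Cor.Grid.N15.table row28.1 :=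
  ⟨(.cut .d 0 (.cut .v 16777216 (.cut .v 8388608 (.void 2 ⟨⟨0, 0, 100000, 0, 0, 0, 0, 0, 0, ⟨0, 0⟩, 0⟩, 0, 0⟩ 0 0) (.cut .d (-8388608) (.void 3 ⟨⟨100000, 0, 0, 0, 0, 0, 0, 0, 0, ⟨0, 0⟩, 0⟩, 0, 0⟩ 0 0) (.cut .d (-4194304) (.void 3 ⟨⟨100000, 0, 0, 0, 0, 0, 0, 0, 0, ⟨0, 0⟩, 0⟩, 0, 0⟩ 0 0) (.cut .d (-2097152) (.void 3 ⟨⟨100000, 0, 0, 0, 0, 0, 0, 0, 0, ⟨0, 0⟩, 0⟩, 0, 0⟩ 0 0) (.cut .d (-1048576) (.void 3 ⟨⟨100000, 0, 0, 0, 0, 0, 0, 0, 0, ⟨0, 0⟩, 0⟩, 0, 0⟩ 0 0) (.cut .d (-524288) (.void 3 ⟨⟨0, 0, 0, 0, 0, 100000, 0, 0, 0, ⟨0, 0⟩, 0⟩, 0, 0⟩ 0 0) (.cut .d (-262144) (.void 3 ⟨⟨0, 0, 0, 0, 0, 100000, 0, 0, 0, ⟨0, 0⟩, 0⟩, 0, 0⟩ 0 0) (.cut .d (-131072)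 (.void 3 ⟨⟨0, 0, 0, 0, 0, 100000, 0, 0, 0, ⟨0, 0⟩, 0⟩, 0, 0⟩ 0 0) (.cut .s 14401536 (.pos 3 .mm ⟨⟨0, 0, 0, 0, 0, 2822807396, 0, 0, 0, ⟨0, 0⟩, 0⟩, 0, 0⟩ 0 0) (.pos 3 .mm ⟨⟨0, 0, 0, 0, 0, 3040120997, 0, 0, 0, ⟨0, 0⟩, 0⟩, 0, 0⟩ 0 0)))))))))) (.cut .v 268435456 (.cut .v 67108864 (.cut .v 33554432 (.cut .d (-8388608) (.void 24 ⟨⟨100000, 0, 0, 0, 0, 0, 0, 0, 0, ⟨0, 0⟩, 0⟩, 0, 0⟩ 0 0) (.cut .d (-4194304) (.void 24 ⟨⟨100000, 0, 0, 0, 0, 0, 0, 0, 0, ⟨0, 0⟩, 0⟩, 0, 0⟩ 0 0) (.cut .v 25165824 (.cut .d (-2097152) (.void 25 ⟨⟨100000, 0, 0, 0, 0, 0, 0, 0, 0, ⟨0, 0⟩, 0⟩, 0, 0⟩ 0 0) (.cut .v 20971520 (.cut .d (-1048576) (.void 27 ⟨⟨100000, 0, 0, 0,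 0, 0, 0, 0, 0, ⟨0, 0⟩, 0⟩, 0, 0⟩ 0 0) (.cut .v 18874368 (.cut .d (-524288) (.void 29 ⟨⟨100000, 0, 0, 0, 0, 0, 0, 0, 0, ⟨0, 0⟩, 0⟩, 0, 0⟩ 0 0) (.cut .v 17825792 (.cut .d (-262144) (.void 31 ⟨⟨100000, 0, 0, 0, 0, 0, 0, 0, 0, ⟨0, 0⟩, 0⟩, 0, 0⟩ 0 0) (.cut .v 17301504 (.cut .d (-131072) (.void 33 ⟨⟨100000, 0, 0, 0, 0, 0, 0, 0, 0, ⟨0, 0⟩, 0⟩, 0, 0⟩ 0 0) (.cut .d (-65536) (.void 33 ⟨⟨100000, 0, 0, 0, 0, 0, 0, 0, 0, ⟨0, 0⟩, 0⟩, 0, 0⟩ 0 0) (.cut .d (-32768) (.void 33 ⟨⟨100000, 0, 0, 0, 0, 0, 0, 0, 0, ⟨0, 0⟩, 0⟩, 0, 0⟩ 0 0) (.cut .d (-16384) (.void 33 ⟨⟨100000, 0, 0, 0, 0, 0, 0, 0, 0, ⟨0, 0⟩, 0⟩, 0, 0⟩ 0 0) (.cut .d (-8192) (.void 33 ⟨⟨100000,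 0, 0, 0, 0, 0, 0, 0, 0, ⟨0, 0⟩, 0⟩, 0, 0⟩ 0 0) (.cut .v 17039360 (.cut .v 16908288 (.cut .s 14401536 (.cut .v 16842752 (.cut .s 14360576 (.cut .d (-4096) (.cut .d (-6144) (.void 39 ⟨⟨0, 0, 0, 0, 0, 100000, 0, 0, 0, ⟨0, 0⟩, 0⟩, 0, 0⟩ 0 0) (.cut .v 16809984 (.cut .s 14340096 (.pos 49 .mp ⟨⟨1142955065, 0, 0, 0, 0, 647384136, 0, 0, 0, ⟨0, 0⟩, 0⟩, 0, 0⟩ 0 0) (.pos 49 .mp ⟨⟨1162147387, 0, 0, 0, 0, 657340135, 0, 0, 0, ⟨0, 0⟩, 0⟩, 0, 0⟩ 0 0)) (.pos 50 .mp ⟨⟨1431137180, 0, 0, 0, 0, 135924453, 0, 0, 0, ⟨0, 0⟩, 0⟩, 0, 0⟩ 0 0))) (.cut .v 16809984 (.cut .s 14340096 (.cut .s 14329856 (.cut .l 123033 (.cut .d (-2048) (.pos 49 .mp ⟨⟨1146058602, 0,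 0, 0, 0, 625531540, 0, 0, 0, ⟨0, 0⟩, 0⟩, 0, 0⟩ 0 0) (.cut .s 14324736 (.pos 49 .mp ⟨⟨1162132409, 0, 0, 0, 0, 565725615, 0, 0, 0, ⟨0, 0⟩, 0⟩, 0, 0⟩ 0 0) (.pos 49 .mp ⟨⟨1167293709, 0, 0, 0, 0, 567138598, 0, 0, 0, ⟨0, 0⟩, 0⟩, 0, 0⟩ 0 0))) (.pos 49 .mp ⟨⟨1164430309, 0, 0, 0, 0, 555873286, 0, 0, 0, ⟨0, 0⟩, 0⟩, 0, 0⟩ 0 0)) (.cut .l 123033 (.cut .d (-2048) (.pos 49 .mp ⟨⟨1155585689, 0, 0, 0, 0, 630122425, 0, 0, 0, ⟨0, 0⟩, 0⟩, 0, 0⟩ 0 0) (.cut .s 14334976 (.pos 49 .mp ⟨⟨1172382265, 0, 0, 0, 0, 568812650, 0, 0, 0, ⟨0, 0⟩, 0⟩, 0, 0⟩ 0 0) (.pos 49 .mp ⟨⟨1177258773, 0, 0, 0, 0, 571050167, 0, 0, 0, ⟨0, 0⟩, 0⟩, 0, 0⟩ 0 0))) (.pos 49 .mp ⟨⟨1174174155,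 0, 0, 0, 0, 560623318, 0, 0, 0, ⟨0, 0⟩, 0⟩, 0, 0⟩ 0 0))) (.cut .s 14350336 (.cut .l 123033 (.cut .d (-2048) (.pos 49 .mp ⟨⟨1165216173, 0, 0, 0, 0, 634977741, 0, 0, 0, ⟨0, 0⟩, 0⟩, 0, 0⟩ 0 0) (.cut .s 14345216 (.pos 49 .mp ⟨⟨1182161911, 0, 0, 0, 0, 573334181, 0, 0, 0, ⟨0, 0⟩, 0⟩, 0, 0⟩ 0 0) (.pos 49 .mp ⟨⟨1187091846, 0, 0, 0, 0, 575664684, 0, 0, 0, ⟨0, 0⟩, 0⟩, 0, 0⟩ 0 0))) (.pos 49 .mp ⟨⟨1184024530, 0, 0, 0, 0, 565456186, 0, 0, 0, ⟨0, 0⟩, 0⟩, 0, 0⟩ 0 0)) (.cut .l 123033 (.cut .d (-2048) (.pos 49 .mp ⟨⟨1174951340, 0, 0, 0, 0, 640101026, 0, 0, 0, ⟨0, 0⟩, 0⟩, 0, 0⟩ 0 0) (.cut .s 14355456 (.pos 49 .mp ⟨⟨1192048744, 0, 0, 0, 0, 578041669,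 0, 0, 0, ⟨0, 0⟩, 0⟩, 0, 0⟩ 0 0) (.pos 49 .mp ⟨⟨1197032772, 0, 0, 0, 0, 580465125, 0, 0, 0, ⟨0, 0⟩, 0⟩, 0, 0⟩ 0 0))) (.pos 49 .mp ⟨⟨1193982764, 0, 0, 0, 0, 570368606, 0, 0, 0, ⟨0, 0⟩, 0⟩, 0, 0⟩ 0 0)))) (.pos 50 .mp ⟨⟨1489663441, 0, 0, 0, 0, 0, 0, 0, 0, ⟨0, 0⟩, 0⟩, 0, 0⟩ 0 0))) (.cut .d (-4096) (.cut .d (-6144) (.void 39 ⟨⟨0, 0, 0, 0, 0, 100000, 0, 0, 0, ⟨0, 0⟩, 0⟩, 0, 0⟩ 0 0) (.cut .d (-5120) (.pos 39 .mp ⟨⟨1195342045, 0, 0, 0, 0, 712625705, 0, 0, 0, ⟨0, 0⟩, 0⟩, 0, 0⟩ 0 0) (.cut .v 16809984 (.cut .l 123033 (.void 49 ⟨⟨100000, 0, 0, 0, 0, 0, 0, 0, 0, ⟨0, 0⟩, 0⟩, 0, 0⟩ 0 0) (.cut .s 14381056 (.pos 49 .mp ⟨⟨1181758491, 0, 0, 0, 0, 658616596,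 0, 0, 0, ⟨0, 0⟩, 0⟩, 0, 0⟩ 0 0) (.pos 49 .mp ⟨⟨1201798930, 0, 0, 0, 0, 670268402, 0, 0, 0, ⟨0, 0⟩, 0⟩, 0, 0⟩ 0 0))) (.pos 50 .mp ⟨⟨1547265180, 0, 0, 0, 0, 0, 0, 0, 0, ⟨0, 0⟩, 0⟩, 0, 0⟩ 0 0)))) (.cut .v 16809984 (.cut .s 14381056 (.cut .s 14370816 (.cut .l 123033 (.cut .d (-2048) (.pos 49 .mp ⟨⟨1184792498, 0, 0, 0, 0, 645495875, 0, 0, 0, ⟨0, 0⟩, 0⟩, 0, 0⟩ 0 0) (.cut .s 14365696 (.pos 49 .mp ⟨⟨1202044102, 0, 0, 0, 0, 582935041, 0, 0, 0, ⟨0, 0⟩, 0⟩, 0, 0⟩ 0 0) (.pos 49 .mp ⟨⟨1207082905, 0, 0, 0, 0, 585451405, 0, 0, 0, ⟨0, 0⟩, 0⟩, 0, 0⟩ 0 0))) (.pos 49 .mp ⟨⟨1204050209, 0, 0, 0, 0, 575357253, 0, 0, 0, ⟨0, 0⟩, 0⟩, 0, 0⟩ 0 0)) (.cut .l 123033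 (.cut .d (-2048) (.pos 49 .mp ⟨⟨1194740975, 0, 0, 0, 0, 651165945, 0, 0, 0, ⟨0, 0⟩, 0⟩, 0, 0⟩ 0 0) (.cut .v 16793600 (.cut .s 14375936 (.pos 55 .mp ⟨⟨1210034775, 0, 0, 0, 0, 591963173, 0, 0, 0, ⟨0, 0⟩, 0⟩, 0, 0⟩ 0 0) (.pos 55 .mp ⟨⟨1215120356, 0, 0, 0, 0, 594589531, 0, 0, 0, ⟨0, 0⟩, 0⟩, 0, 0⟩ 0 0)) (.pos 56 .mp ⟨⟨1520438477, 0, 0, 0, 0, 0, 0, 0, 0, ⟨0, 0⟩, 0⟩, 0, 0⟩ 0 0))) (.pos 49 .mp ⟨⟨1214228242, 0, 0, 0, 0, 580418755, 0, 0, 0, ⟨0, 0⟩, 0⟩, 0, 0⟩ 0 0))) (.cut .s 14391296 (.cut .l 123033 (.cut .d (-2048) (.pos 49 .mp ⟨⟨1204798125, 0, 0, 0, 0, 657114956, 0, 0, 0, ⟨0, 0⟩, 0⟩, 0, 0⟩ 0 0) (.cut .v 16793600 (.cut .s 14386176 (.pos 55 .mp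 ⟨⟨1220233885, 0, 0, 0, 0, 597262383, 0, 0, 0, ⟨0, 0⟩, 0⟩, 0, 0⟩ 0 0) (.pos 55 .mp ⟨⟨1225375537, 0, 0, 0, 0, 599981711, 0, 0, 0, ⟨0, 0⟩, 0⟩, 0, 0⟩ 0 0)) (.pos 56 .mp ⟨⟨1533267280, 0, 0, 0, 0, 0, 0, 0, 0, ⟨0, 0⟩, 0⟩, 0, 0⟩ 0 0))) (.pos 49 .mp ⟨⟨1224518262, 0, 0, 0, 0, 585549697, 0, 0, 0, ⟨0, 0⟩, 0⟩, 0, 0⟩ 0 0)) (.cut .l 123033 (.cut .d (-2048) (.pos 49 .mp ⟨⟨1214965324, 0, 0, 0, 0, 663346692, 0, 0, 0, ⟨0, 0⟩, 0⟩, 0, 0⟩ 0 0) (.cut .v 16793600 (.cut .s 14396416 (.pos 55 .mp ⟨⟨1230545492, 0, 0, 0, 0, 602747493, 0, 0, 0, ⟨0, 0⟩, 0⟩, 0, 0⟩ 0 0) (.pos 55 .mp ⟨⟨1235743930, 0, 0, 0, 0, 605559707, 0, 0, 0, ⟨0, 0⟩, 0⟩, 0, 0⟩ 0 0)) (.pos 56 .mp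 ⟨⟨1546344746, 0, 0, 0, 0, 0, 0, 0, 0, ⟨0, 0⟩, 0⟩, 0, 0⟩ 0 0))) (.pos 49 .mp ⟨⟨1234921693, 0, 0, 0, 0, 590746616, 0, 0, 0, ⟨0, 0⟩, 0⟩, 0, 0⟩ 0 0)))) (.pos 50 .mp ⟨⟨1539513206, 0, 0, 0, 0, 0, 0, 0, 0, ⟨0, 0⟩, 0⟩, 0, 0⟩ 0 0)))) (.pos 40 .mp ⟨⟨1546191282, 0, 0, 0, 0, 0, 0, 0, 0, ⟨0, 0⟩, 0⟩, 0, 0⟩ 0 0)) (.cut .v 16842752 (.cut .s 14442496 (.cut .d (-4096) (.cut .d (-6144) (.void 39 ⟨⟨0, 0, 0, 0, 0, 100000, 0, 0, 0, ⟨0, 0⟩, 0⟩, 0, 0⟩ 0 0) (.cut .v 16809984 (.cut .s 14422016 (.pos 49 .mp ⟨⟨1222279620, 0, 0, 0, 0, 693808624, 0, 0, 0, ⟨0, 0⟩, 0⟩, 0, 0⟩ 0 0) (.pos 49 .mp ⟨⟨1243211858, 0, 0, 0, 0, 708265655, 0, 0, 0, ⟨0, 0⟩, 0⟩, 0, 0⟩ 0 0)) (.pos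 50 .mp ⟨⟨1575858640, 0, 0, 0, 0, 60635265, 0, 0, 0, ⟨0, 0⟩, 0⟩, 0, 0⟩ 0 0))) (.cut .v 16809984 (.cut .s 14422016 (.cut .s 14411776 (.cut .l 123033 (.cut .d (-2048) (.pos 49 .mp ⟨⟨1225243971, 0, 0, 0, 0, 669865000, 0, 0, 0, ⟨0, 0⟩, 0⟩, 0, 0⟩ 0 0) (.cut .s 14406656 (.pos 49 .mp ⟨⟨1243138438, 0, 0, 0, 0, 604365042, 0, 0, 0, ⟨0, 0⟩, 0⟩, 0, 0⟩ 0 0) (.pos 49 .mp ⟨⟨1248403362, 0, 0, 0, 0, 607252318, 0, 0, 0, ⟨0, 0⟩, 0⟩, 0, 0⟩ 0 0))) (.pos 49 .mp ⟨⟨1245439983, 0, 0, 0, 0, 596006002, 0, 0, 0, ⟨0, 0⟩, 0⟩, 0, 0⟩ 0 0)) (.cut .l 123033 (.cut .d (-2048) (.pos 49 .mp ⟨⟨1235635489, 0, 0, 0, 0, 676673796, 0, 0, 0, ⟨0, 0⟩, 0⟩, 0, 0⟩ 0 0) (.cut .s 14416896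 (.pos 49 .mp ⟨⟨1253697366, 0, 0, 0, 0, 610185850, 0, 0, 0, ⟨0, 0⟩, 0⟩, 0, 0⟩ 0 0) (.pos 49 .mp ⟨⟨1259020639, 0, 0, 0, 0, 613165607, 0, 0, 0, ⟨0, 0⟩, 0⟩, 0, 0⟩ 0 0))) (.pos 49 .mp ⟨⟨1256074607, 0, 0, 0, 0, 601324295, 0, 0, 0, ⟨0, 0⟩, 0⟩, 0, 0⟩ 0 0))) (.cut .s 14432256 (.cut .l 123033 (.cut .d (-2048) (.pos 49 .mp ⟨⟨1246141328, 0, 0, 0, 0, 683777063, 0, 0, 0, ⟨0, 0⟩, 0⟩, 0, 0⟩ 0 0) (.cut .s 14427136 (.pos 49 .mp ⟨⟨1264373367, 0, 0, 0, 0, 616191556, 0, 0, 0, ⟨0, 0⟩, 0⟩, 0, 0⟩ 0 0) (.pos 49 .mp ⟨⟨1269755741, 0, 0, 0, 0, 619263664, 0, 0, 0, ⟨0, 0⟩, 0⟩, 0, 0⟩ 0 0))) (.pos 49 .mp ⟨⟨1266827062, 0, 0, 0, 0, 606697887, 0, 0, 0, ⟨0, 0⟩, 0⟩, 0,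 0⟩ 0 0)) (.cut .l 123033 (.cut .d (-2048) (.pos 49 .mp ⟨⟨1256762962, 0, 0, 0, 0, 691178852, 0, 0, 0, ⟨0, 0⟩, 0⟩, 0, 0⟩ 0 0) (.cut .s 14437376 (.pos 49 .mp ⟨⟨1275167952, 0, 0, 0, 0, 622381894, 0, 0, 0, ⟨0, 0⟩, 0⟩, 0, 0⟩ 0 0) (.pos 49 .mp ⟨⟨1280610193, 0, 0, 0, 0, 625546208, 0, 0, 0, ⟨0, 0⟩, 0⟩, 0, 0⟩ 0 0))) (.pos 49 .mp ⟨⟨1277698876, 0, 0, 0, 0, 612123117, 0, 0, 0, ⟨0, 0⟩, 0⟩, 0, 0⟩ 0 0)))) (.pos 50 .mp ⟨⟨1593278388, 0, 0, 0, 0, 0, 0, 0, 0, ⟨0, 0⟩, 0⟩, 0, 0⟩ 0 0))) (.cut .d (-4096) (.cut .s 14462976 (.cut .s 14452736 (.pos 39 .mp ⟨⟨1269055875, 0, 0, 0, 0, 702790309, 0, 0, 0, ⟨0, 0⟩, 0⟩, 0, 0⟩ 0 0) (.pos 39 .mp ⟨⟨1279968428, 0, 0, 0,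 0, 710758146, 0, 0, 0, ⟨0, 0⟩, 0⟩, 0, 0⟩ 0 0)) (.pos 39 .mp ⟨⟨1291001778, 0, 0, 0, 0, 744827129, 0, 0, 0, ⟨0, 0⟩, 0⟩, 0, 0⟩ 0 0)) (.cut .v 16809984 (.cut .s 14462976 (.cut .s 14452736 (.cut .l 123033 (.cut .d (-2048) (.pos 49 .mp ⟨⟨1267501890, 0, 0, 0, 0, 698883288, 0, 0, 0, ⟨0, 0⟩, 0⟩, 0, 0⟩ 0 0) (.cut .s 14447616 (.pos 49 .mp ⟨⟨1285847275, 0, 0, 0, 0, 629267760, 0, 0, 0, ⟨0, 0⟩, 0⟩, 0, 0⟩ 0 0) (.pos 49 .mp ⟨⟨1290941504, 0, 0, 0, 0, 633411727, 0, 0, 0, ⟨0, 0⟩, 0⟩, 0, 0⟩ 0 0))) (.pos 49 .mp ⟨⟨1288691600, 0, 0, 0, 0, 617596274, 0, 0, 0, ⟨0, 0⟩, 0⟩, 0, 0⟩ 0 0)) (.cut .s 14457856 (.pos 49 .mp ⟨⟨1307530207, 0, 0, 0, 0, 616557738, 0, 0,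 0, ⟨0, 0⟩, 0⟩, 0, 0⟩ 0 0) (.pos 49 .mp ⟨⟨1313163421, 0, 0, 0, 0, 619777851, 0, 0, 0, ⟨0, 0⟩, 0⟩, 0, 0⟩ 0 0))) (.cut .l 123033 (.cut .d (-2048) (.pos 49 .mp ⟨⟨1289337762, 0, 0, 0, 0, 740937504, 0, 0, 0, ⟨0, 0⟩, 0⟩, 0, 0⟩ 0 0) (.cut .v 16793600 (.cut .l 61516 (.cut .d (-1024) (.pos 55 .mp ⟨⟨1288512981, 0, 0, 0, 0, 738978892, 0, 0, 0, ⟨0, 0⟩, 0⟩, 0, 0⟩ 0 0) (.cut .v 16785408 (.cut .l 30758 (.cut .d (-512) (.pos 57 .mp ⟨⟨1288102734, 0, 0, 0, 0, 737995151, 0, 0, 0, ⟨0, 0⟩, 0⟩, 0, 0⟩ 0 0) (.cut .v 16781312 (.cut .l 15379 (.cut .s 14473216 (.cut .s 14468096 (.pos 65 .mp ⟨⟨1311699765, 0, 0, 0, 0, 634873872, 0, 0, 0, ⟨0, 0⟩, 0⟩, 0, 0⟩ 0 0) (.pos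 65 .mp ⟨⟨1318711886, 0, 0, 0, 0, 635707751, 0, 0, 0, ⟨0, 0⟩, 0⟩, 0, 0⟩ 0 0)) (.cut .s 14478336 (.pos 65 .mp ⟨⟨1325858054, 0, 0, 0, 0, 636393632, 0, 0, 0, ⟨0, 0⟩, 0⟩, 0, 0⟩ 0 0) (.pos 65 .mp ⟨⟨1333140234, 0, 0, 0, 0, 636928030, 0, 0, 0, ⟨0, 0⟩, 0⟩, 0, 0⟩ 0 0))) (.pos 65 .mp ⟨⟨1311466653, 0, 0, 0, 0, 630793999, 0, 0, 0, ⟨0, 0⟩, 0⟩, 0, 0⟩ 0 0)) (.pos 66 .mp ⟨⟨1655173188, 0, 0, 0, 0, 0, 0, 0, 0, ⟨0, 0⟩, 0⟩, 0, 0⟩ 0 0))) (.pos 57 .mp ⟨⟨1313026749, 0, 0, 0, 0, 628543565, 0, 0, 0, ⟨0, 0⟩, 0⟩, 0, 0⟩ 0 0)) (.pos 58 .mp ⟨⟨1655654114, 0, 0, 0, 0, 0, 0, 0, 0, ⟨0, 0⟩, 0⟩, 0, 0⟩ 0 0))) (.pos 55 .mp ⟨⟨1316150990, 0, 0, 0, 0, 624035951, 0, 0, 0, ⟨0,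 0⟩, 0⟩, 0, 0⟩ 0 0)) (.pos 56 .mp ⟨⟨1656594812, 0, 0, 0, 0, 0, 0, 0, 0, ⟨0, 0⟩, 0⟩, 0, 0⟩ 0 0))) (.pos 49 .mp ⟨⟨1322411182, 0, 0, 0, 0, 615001176, 0, 0, 0, ⟨0, 0⟩, 0⟩, 0, 0⟩ 0 0))) (.pos 50 .mp ⟨⟨1649999019, 0, 0, 0, 0, 0, 0, 0, 0, ⟨0, 0⟩, 0⟩, 0, 0⟩ 0 0)))) (.pos 40 .mp ⟨⟨1655027841, 0, 0, 0, 0, 0, 0, 0, 0, ⟨0, 0⟩, 0⟩, 0, 0⟩ 0 0))) (.pos 38 .mp ⟨⟨1650388557, 0, 0, 0, 0, 0, 0, 0, 0, ⟨0, 0⟩, 0⟩, 0, 0⟩ 0 0)) (.void 36 ⟨⟨100000, 0, 0, 0, 0, 0, 0, 0, 0, ⟨0, 0⟩, 0⟩, 0, 0⟩ 0 0))))))) (.void 34 ⟨⟨100000, 0, 0, 0, 0, 0, 0, 0, 0, ⟨0, 0⟩, 0⟩, 0, 0⟩ 0 0))) (.void 32 ⟨⟨100000, 0, 0, 0, 0, 0, 0, 0, 0, ⟨0, 0⟩, 0⟩, 0, 0⟩ 0 0))) (.void 30 ⟨⟨100000, 0,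 0, 0, 0, 0, 0, 0, 0, ⟨0, 0⟩, 0⟩, 0, 0⟩ 0 0))) (.void 28 ⟨⟨100000, 0, 0, 0, 0, 0, 0, 0, 0, ⟨0, 0⟩, 0⟩, 0, 0⟩ 0 0))) (.void 26 ⟨⟨100000, 0, 0, 0, 0, 0, 0, 0, 0, ⟨0, 0⟩, 0⟩, 0, 0⟩ 0 0)))) (.void 91 ⟨⟨100000, 0, 0, 0, 0, 0, 0, 0, 0, ⟨0, 0⟩, 0⟩, 0, 0⟩ 0 0)) (.void 98 ⟨⟨100000, 0, 0, 0, 0, 0, 0, 0, 0, ⟨0, 0⟩, 0⟩, 0, 0⟩ 0 0)) (.void 117 ⟨⟨94909, 0, 0, 5120, 0, 0, 0, 0, 0, ⟨0, 0⟩, 0⟩, 0, 0⟩ 0 0))) (.cut .v 16777216 (.cut .v 8388608 (.cut .v 4194304 (.cut .v 2097152 (.cut .v 1048576 (.cut .v 524288 (.pos 122 .pm ⟨⟨0, 0, 18094204, 0, 0, 0, 0, 0, 0, ⟨0, 0⟩, 0⟩, 0, 268⟩ 0 0) (.pos 123 .pm ⟨⟨0, 0, 14586653, 0, 0, 0, 0, 0, 0, ⟨0, 0⟩, 0⟩, 0, 525⟩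 0 0)) (.pos 114 .pm ⟨⟨0, 0, 12478639, 0, 0, 0, 0, 0, 0, ⟨0, 0⟩, 0⟩, 0, 773⟩ 0 0)) (.pos 7 .pm ⟨⟨0, 0, 10720006, 0, 0, 0, 0, 0, 0, ⟨0, 0⟩, 0⟩, 0, 1460⟩ 0 0)) (.pos 5 .pm ⟨⟨0, 0, 25353186, 0, 0, 0, 0, 0, 0, ⟨0, 0⟩, 0⟩, 0, 2627⟩ 0 0)) (.pos 3 .pm ⟨⟨0, 0, 0, 0, 0, 0, 0, 0, 0, ⟨0, 0⟩, 0⟩, 0, 0⟩ 0 0)) (.cut .v 268435456 (.cut .v 67108864 (.cut .d 1439693 (.cut .d 719846 (.cut .v 33554432 (.cut .d 359923 (.cut .v 25165824 (.cut .d 179961 (.cut .v 20971520 (.cut .d 89980 (.cut .v 18874368 (.cut .v 17825792 (.cut .s 14401536 (.pos 31 .pp ⟨⟨1054514480, 0, 0, 0, 0, 0, 0, 0, 0, ⟨0, 0⟩, 0⟩, 44464009, 0⟩ 0 0) (.pos 31 .pp ⟨⟨1133859321, 0, 0, 0, 0,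 0, 0, 0, 0, ⟨0, 0⟩, 0⟩, 46759405, 0⟩ 0 0)) (.pos 32 .pp ⟨⟨1650699759, 0, 0, 0, 0, 0, 0, 0, 0, ⟨0, 0⟩, 0⟩, 0, 0⟩ 0 0)) (.pos 30 .pp ⟨⟨1968588112, 0, 0, 0, 0, 0, 0, 0, 0, ⟨0, 0⟩, 0⟩, 0, 0⟩ 0 0)) (.pos 27 .pp ⟨⟨0, 0, 0, 0, 0, 0, 0, 0, 0, ⟨0, 0⟩, 0⟩, 143293802, 2941⟩ 0 0)) (.cut .d 89980 (.pos 28 .pp ⟨⟨0, 0, 0, 0, 0, 0, 0, 0, 0, ⟨0, 0⟩, 0⟩, 267080062, 0⟩ 0 0) (.pos 28 .pp ⟨⟨0, 0, 0, 0, 0, 0, 0, 0, 0, ⟨0, 0⟩, 0⟩, 215512561, 0⟩ 0 0))) (.pos 25 .pp ⟨⟨0, 0, 0, 0, 0, 0, 0, 0, 0, ⟨0, 0⟩, 0⟩, 129726607, 3565⟩ 0 0)) (.pos 26 .pp ⟨⟨0, 0, 0, 0, 0, 0, 0, 0, 0, ⟨0, 0⟩, 0⟩, 318373677, 0⟩ 0 0)) (.pos 24 .pp ⟨⟨0, 0, 0, 0, 0, 0, 0, 0, 0, ⟨0, 0⟩, 0⟩, 114405783,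 4270⟩ 0 0)) (.cut .d 359923 (.void 91 ⟨⟨0, 0, 0, 0, 0, 0, 0, 0, 0, ⟨0, 0⟩, 0⟩, 100000, 0⟩ 0 0) (.pos 91 .pp ⟨⟨0, 0, 0, 0, 0, 0, 0, 0, 0, ⟨0, 0⟩, 0⟩, 367589357, 0⟩ 0 0))) (.pos 90 .pp ⟨⟨0, 0, 0, 0, 0, 0, 0, 0, 0, ⟨0, 0⟩, 0⟩, 87643562, 5500⟩ 0 0)) (.pos 90 .pp ⟨⟨0, 346944276, 0, 0, 0, 0, 0, 0, 0, ⟨0, 0⟩, 0⟩, 0, 9531⟩ 0 0)) (.void 98 ⟨⟨0, 0, 0, 48110, 0, 0, 0, 0, 0, ⟨0, 0⟩, 0⟩, 51643, 0⟩ 0 0)) (.void 117 ⟨⟨0, 0, 0, 0, 0, 0, 0, 0, 0, ⟨0, 0⟩, 0⟩, 100807, 0⟩ 0 0)))),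
    by decide +kernel⟩

def covers29 : cell.Covers Vale.Agent.P237.Petty.Cor.Grid.N15.table row29.1 :=
  ⟨(.cut .d 0 (.cut .v 16777216 (.cut .v 8388608 (.void 2 ⟨⟨0, 0, 100000, 0, 0, 0, 0, 0, 0, ⟨0, 0⟩, 0⟩, 0, 0⟩ 0 0) (.cut .d (-8388608) (.void 3 ⟨⟨100000, 0, 0, 0, 0, 0, 0, 0, 0, ⟨0, 0⟩, 0⟩, 0, 0⟩ 0 0) (.cut .d (-4194304) (.void 3 ⟨⟨100000, 0, 0, 0, 0, 0, 0, 0, 0, ⟨0, 0⟩, 0⟩, 0, 0⟩ 0 0) (.cut .d (-2097152) (.void 3 ⟨⟨100000, 0, 0, 0, 0, 0, 0, 0, 0, ⟨0, 0⟩, 0⟩, 0, 0⟩ 0 0) (.cut .d (-1048576) (.void 3 ⟨⟨100000, 0, 0, 0, 0, 0, 0, 0, 0, ⟨0, 0⟩, 0⟩, 0, 0⟩ 0 0) (.cut .d (-524288) (.void 3 ⟨⟨0, 0, 0, 0, 0, 100000, 0, 0, 0, ⟨0, 0⟩, 0⟩, 0, 0⟩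 0 0) (.cut .d (-262144) (.void 3 ⟨⟨0, 0, 0, 0, 0, 100000, 0, 0, 0, ⟨0, 0⟩, 0⟩, 0, 0⟩ 0 0) (.cut .d (-131072) (.void 3 ⟨⟨0, 0, 0, 0, 0, 100000, 0, 0, 0, ⟨0, 0⟩, 0⟩, 0, 0⟩ 0 0) (.cut .s 14565376 (.pos 3 .mm ⟨⟨0, 0, 0, 0, 0, 3279642236, 0, 0, 0, ⟨0, 0⟩, 0⟩, 0, 0⟩ 0 0) (.pos 3 .mm ⟨⟨0, 0, 0, 0, 0, 3542786252, 0, 0, 0, ⟨0, 0⟩, 0⟩, 0, 0⟩ 0 0)))))))))) (.cut .v 268435456 (.cut .v 67108864 (.cut .v 33554432 (.cut .d (-8388608) (.void 24 ⟨⟨99998, 0, 0, 0, 0, 0, 0, 0, 0, ⟨0, 0⟩, 0⟩, 0, 0⟩ 0 0) (.cut .d (-4194304) (.void 24 ⟨⟨100000, 0, 0, 0, 0, 0, 0, 0, 0, ⟨0, 0⟩, 0⟩, 0, 0⟩ 0 0) (.cut .v 25165824 (.cut .d (-2097152) (.void 25 ⟨⟨100000, 0, 0,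 0, 0, 0, 0, 0, 0, ⟨0, 0⟩, 0⟩, 0, 0⟩ 0 0) (.cut .v 20971520 (.cut .d (-1048576) (.void 27 ⟨⟨100000, 0, 0, 0, 0, 0, 0, 0, 0, ⟨0, 0⟩, 0⟩, 0, 0⟩ 0 0) (.cut .v 18874368 (.cut .d (-524288) (.void 29 ⟨⟨100000, 0, 0, 0, 0, 0, 0, 0, 0, ⟨0, 0⟩, 0⟩, 0, 0⟩ 0 0) (.cut .v 17825792 (.cut .d (-262144) (.void 31 ⟨⟨100000, 0, 0, 0, 0, 0, 0, 0, 0, ⟨0, 0⟩, 0⟩, 0, 0⟩ 0 0) (.cut .v 17301504 (.cut .d (-131072) (.void 33 ⟨⟨100000, 0, 0, 0, 0, 0, 0, 0, 0, ⟨0, 0⟩, 0⟩, 0, 0⟩ 0 0) (.cut .d (-65536) (.void 33 ⟨⟨100000, 0, 0, 0, 0, 0, 0, 0, 0, ⟨0, 0⟩, 0⟩, 0, 0⟩ 0 0) (.cut .d (-32768) (.void 33 ⟨⟨100000, 0, 0, 0, 0, 0, 0, 0, 0, ⟨0, 0⟩, 0⟩, 0, 0⟩ 0 0) (.cut .d (-16384)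 (.void 33 ⟨⟨100000, 0, 0, 0, 0, 0, 0, 0, 0, ⟨0, 0⟩, 0⟩, 0, 0⟩ 0 0) (.cut .d (-8192) (.void 33 ⟨⟨100000, 0, 0, 0, 0, 0, 0, 0, 0, ⟨0, 0⟩, 0⟩, 0, 0⟩ 0 0) (.cut .v 17039360 (.cut .v 16908288 (.cut .s 14565376 (.cut .v 16842752 (.cut .d (-4096) (.cut .l 123033 (.void 39 ⟨⟨100000, 0, 0, 0, 0, 0, 0, 0, 0, ⟨0, 0⟩, 0⟩, 0, 0⟩ 0 0) (.cut .d (-6144) (.void 39 ⟨⟨0, 0, 0, 0, 0, 100000, 0, 0, 0, ⟨0, 0⟩, 0⟩, 0, 0⟩ 0 0) (.cut .d (-5120) (.pos 39 .mp ⟨⟨1318821724, 0, 0, 0, 0, 1606727066, 0, 0, 0, ⟨0, 0⟩, 0⟩, 0, 0⟩ 0 0) (.cut .l 184549 (.void 39 ⟨⟨0, 0, 0, 0, 0, 100000, 0, 0, 0, ⟨0, 0⟩, 0⟩, 0, 0⟩ 0 0) (.cut .v 16809984 (.cut .s 14524416 (.pos 49 .mp ⟨⟨1308840244,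 0, 0, 0, 0, 776372399, 0, 0, 0, ⟨0, 0⟩, 0⟩, 0, 0⟩ 0 0) (.pos 49 .mp ⟨⟨1355245794, 0, 0, 0, 0, 799557780, 0, 0, 0, ⟨0, 0⟩, 0⟩, 0, 0⟩ 0 0)) (.pos 50 .mp ⟨⟨1763781101, 0, 0, 0, 0, 0, 0, 0, 0, ⟨0, 0⟩, 0⟩, 0, 0⟩ 0 0)))))) (.cut .s 14524416 (.cut .v 16809984 (.cut .s 14503936 (.cut .s 14493696 (.cut .s 14488576 (.pos 49 .mp ⟨⟨1343849818, 0, 0, 0, 0, 632723218, 0, 0, 0, ⟨0, 0⟩, 0⟩, 0, 0⟩ 0 0) (.pos 49 .mp ⟨⟨1347637072, 0, 0, 0, 0, 638733700, 0, 0, 0, ⟨0, 0⟩, 0⟩, 0, 0⟩ 0 0)) (.cut .s 14498816 (.pos 49 .mp ⟨⟨1353498085, 0, 0, 0, 0, 640973198, 0, 0, 0, ⟨0, 0⟩, 0⟩, 0, 0⟩ 0 0) (.pos 49 .mp ⟨⟨1359393403, 0, 0, 0, 0, 643270093, 0, 0, 0, ⟨0, 0⟩, 0⟩,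 0, 0⟩ 0 0))) (.cut .s 14514176 (.cut .s 14509056 (.pos 49 .mp ⟨⟨1365323255, 0, 0, 0, 0, 645624350, 0, 0, 0, ⟨0, 0⟩, 0⟩, 0, 0⟩ 0 0) (.pos 49 .mp ⟨⟨1371287873, 0, 0, 0, 0, 648035933, 0, 0, 0, ⟨0, 0⟩, 0⟩, 0, 0⟩ 0 0)) (.cut .l 123033 (.cut .d (-2048) (.pos 49 .mp ⟨⟨1346162587, 0, 0, 0, 0, 747654847, 0, 0, 0, ⟨0, 0⟩, 0⟩, 0, 0⟩ 0 0) (.cut .s 14519296 (.pos 49 .mp ⟨⟨1365250033, 0, 0, 0, 0, 672527852, 0, 0, 0, ⟨0, 0⟩, 0⟩, 0, 0⟩ 0 0) (.pos 49 .mp ⟨⟨1371739407, 0, 0, 0, 0, 674042230, 0, 0, 0, ⟨0, 0⟩, 0⟩, 0, 0⟩ 0 0))) (.pos 49 .mp ⟨⟨1369269357, 0, 0, 0, 0, 660257150, 0, 0, 0, ⟨0, 0⟩, 0⟩, 0, 0⟩ 0 0)))) (.pos 50 .mp ⟨⟨1710370101, 0, 0, 0, 0, 0,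 0, 0, 0, ⟨0, 0⟩, 0⟩, 0, 0⟩ 0 0)) (.cut .v 16809984 (.cut .s 14544896 (.cut .s 14534656 (.cut .l 123033 (.cut .d (-2048) (.pos 49 .mp ⟨⟨1357929685, 0, 0, 0, 0, 753293572, 0, 0, 0, ⟨0, 0⟩, 0⟩, 0, 0⟩ 0 0) (.cut .s 14529536 (.pos 49 .mp ⟨⟨1377964397, 0, 0, 0, 0, 676265437, 0, 0, 0, ⟨0, 0⟩, 0⟩, 0, 0⟩ 0 0) (.pos 49 .mp ⟨⟨1383993077, 0, 0, 0, 0, 679050057, 0, 0, 0, ⟨0, 0⟩, 0⟩, 0, 0⟩ 0 0))) (.pos 49 .mp ⟨⟨1381327205, 0, 0, 0, 0, 666248033, 0, 0, 0, ⟨0, 0⟩, 0⟩, 0, 0⟩ 0 0)) (.cut .l 123033 (.cut .d (-2048) (.pos 49 .mp ⟨⟨1369833664, 0, 0, 0, 0, 759281793, 0, 0, 0, ⟨0, 0⟩, 0⟩, 0, 0⟩ 0 0) (.cut .s 14539776 (.pos 49 .mp ⟨⟨1390057046, 0, 0, 0, 0,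 681893031, 0, 0, 0, ⟨0, 0⟩, 0⟩, 0, 0⟩ 0 0) (.pos 49 .mp ⟨⟨1396156543, 0, 0, 0, 0, 684794315, 0, 0, 0, ⟨0, 0⟩, 0⟩, 0, 0⟩ 0 0))) (.pos 49 .mp ⟨⟨1393526427, 0, 0, 0, 0, 672332449, 0, 0, 0, ⟨0, 0⟩, 0⟩, 0, 0⟩ 0 0))) (.cut .s 14555136 (.cut .l 123033 (.cut .d (-2048) (.pos 49 .mp ⟨⟨1381876378, 0, 0, 0, 0, 765624562, 0, 0, 0, ⟨0, 0⟩, 0⟩, 0, 0⟩ 0 0) (.cut .s 14550016 (.pos 49 .mp ⟨⟨1402291809, 0, 0, 0, 0, 687753862, 0, 0, 0, ⟨0, 0⟩, 0⟩, 0, 0⟩ 0 0) (.pos 49 .mp ⟨⟨1408463088, 0, 0, 0, 0, 690771623, 0, 0, 0, ⟨0, 0⟩, 0⟩, 0, 0⟩ 0 0))) (.pos 49 .mp ⟨⟨1405868946, 0, 0, 0, 0, 678505767, 0, 0, 0, ⟨0, 0⟩, 0⟩, 0, 0⟩ 0 0)) (.cut .l 123033 (.cut .d (-2048)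 (.pos 49 .mp ⟨⟨1394059718, 0, 0, 0, 0, 772327027, 0, 0, 0, ⟨0, 0⟩, 0⟩, 0, 0⟩ 0 0) (.cut .v 16793600 (.cut .s 14560256 (.pos 55 .mp ⟨⟨1412210975, 0, 0, 0, 0, 698479003, 0, 0, 0, ⟨0, 0⟩, 0⟩, 0, 0⟩ 0 0) (.pos 55 .mp ⟨⟨1418444387, 0, 0, 0, 0, 701634100, 0, 0, 0, ⟨0, 0⟩, 0⟩, 0, 0⟩ 0 0)) (.pos 56 .mp ⟨⟨1776091233, 0, 0, 0, 0, 0, 0, 0, 0, ⟨0, 0⟩, 0⟩, 0, 0⟩ 0 0))) (.pos 49 .mp ⟨⟨1418356722, 0, 0, 0, 0, 684763290, 0, 0, 0, ⟨0, 0⟩, 0⟩, 0, 0⟩ 0 0)))) (.pos 50 .mp ⟨⟨1769158433, 0, 0, 0, 0, 0, 0, 0, 0, ⟨0, 0⟩, 0⟩, 0, 0⟩ 0 0)))) (.pos 40 .mp ⟨⟨1777342325, 0, 0, 0, 0, 0, 0, 0, 0, ⟨0, 0⟩, 0⟩, 0, 0⟩ 0 0)) (.cut .v 16842752 (.cut .d (-4096) (.cut .d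 (-6144) (.void 39 ⟨⟨0, 0, 0, 0, 0, 100000, 0, 0, 0, ⟨0, 0⟩, 0⟩, 0, 0⟩ 0 0) (.cut .d (-5120) (.void 39 ⟨⟨0, 0, 0, 0, 0, 100000, 0, 0, 0, ⟨0, 0⟩, 0⟩, 0, 0⟩ 0 0) (.cut .l 123033 (.void 39 ⟨⟨100000, 0, 0, 0, 0, 0, 0, 0, 0, ⟨0, 0⟩, 0⟩, 0, 0⟩ 0 0) (.cut .l 184549 (.void 39 ⟨⟨0, 0, 0, 0, 0, 100000, 0, 0, 0, ⟨0, 0⟩, 0⟩, 0, 0⟩ 0 0) (.cut .s 14606336 (.cut .s 14585856 (.pos 39 .mp ⟨⟨1410046731, 0, 0, 0, 0, 796511184, 0, 0, 0, ⟨0, 0⟩, 0⟩, 0, 0⟩ 0 0) (.pos 39 .mp ⟨⟨1434659550, 0, 0, 0, 0, 813076392, 0, 0, 0, ⟨0, 0⟩, 0⟩, 0, 0⟩ 0 0)) (.cut .s 14626816 (.pos 39 .mp ⟨⟨1460356018, 0, 0, 0, 0, 829094512, 0, 0, 0, ⟨0, 0⟩, 0⟩, 0, 0⟩ 0 0) (.pos 39 .mp ⟨⟨1487186461,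 0, 0, 0, 0, 844463628, 0, 0, 0, ⟨0, 0⟩, 0⟩, 0, 0⟩ 0 0))))))) (.cut .s 14606336 (.cut .v 16809984 (.cut .s 14585856 (.cut .s 14575616 (.cut .l 123033 (.cut .d (-2048) (.pos 49 .mp ⟨⟨1406385606, 0, 0, 0, 0, 779394428, 0, 0, 0, ⟨0, 0⟩, 0⟩, 0, 0⟩ 0 0) (.cut .v 16793600 (.cut .l 61516 (.cut .d (-1024) (.pos 55 .mp ⟨⟨1405200981, 0, 0, 0, 0, 777858165, 0, 0, 0, ⟨0, 0⟩, 0⟩, 0, 0⟩ 0 0) (.cut .s 14570496 (.pos 55 .mp ⟨⟨1418290441, 0, 0, 0, 0, 716621517, 0, 0, 0, ⟨0, 0⟩, 0⟩, 0, 0⟩ 0 0) (.pos 55 .mp ⟨⟨1424664912, 0, 0, 0, 0, 719733486, 0, 0, 0, ⟨0, 0⟩, 0⟩, 0, 0⟩ 0 0))) (.pos 55 .mp ⟨⟨1423694100, 0, 0, 0, 0, 701805325, 0, 0, 0, ⟨0, 0⟩, 0⟩, 0, 0⟩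 0 0)) (.pos 56 .mp ⟨⟨1791674177, 0, 0, 0, 0, 0, 0, 0, 0, ⟨0, 0⟩, 0⟩, 0, 0⟩ 0 0))) (.pos 49 .mp ⟨⟨1430991752, 0, 0, 0, 0, 691100245, 0, 0, 0, ⟨0, 0⟩, 0⟩, 0, 0⟩ 0 0)) (.cut .l 123033 (.cut .d (-2048) (.pos 49 .mp ⟨⟨1418856003, 0, 0, 0, 0, 786832105, 0, 0, 0, ⟨0, 0⟩, 0⟩, 0, 0⟩ 0 0) (.cut .v 16793600 (.cut .l 61516 (.cut .d (-1024) (.pos 55 .mp ⟨⟨1417631810, 0, 0, 0, 0, 785339407, 0, 0, 0, ⟨0, 0⟩, 0⟩, 0, 0⟩ 0 0) (.cut .s 14580736 (.pos 55 .mp ⟨⟨1431030894, 0, 0, 0, 0, 723002802, 0, 0, 0, ⟨0, 0⟩, 0⟩, 0, 0⟩ 0 0) (.pos 55 .mp ⟨⟨1437387550, 0, 0, 0, 0, 726431799, 0, 0, 0, ⟨0, 0⟩, 0⟩, 0, 0⟩ 0 0))) (.pos 55 .mp ⟨⟨1436354692, 0, 0, 0, 0, 708417728,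 0, 0, 0, ⟨0, 0⟩, 0⟩, 0, 0⟩ 0 0)) (.pos 56 .mp ⟨⟨1807581666, 0, 0, 0, 0, 0, 0, 0, 0, ⟨0, 0⟩, 0⟩, 0, 0⟩ 0 0))) (.pos 49 .mp ⟨⟨1443776070, 0, 0, 0, 0, 697511791, 0, 0, 0, ⟨0, 0⟩, 0⟩, 0, 0⟩ 0 0))) (.cut .s 14596096 (.cut .l 123033 (.cut .d (-2048) (.pos 49 .mp ⟨⟨1431472906, 0, 0, 0, 0, 794645494, 0, 0, 0, ⟨0, 0⟩, 0⟩, 0, 0⟩ 0 0) (.cut .v 16793600 (.cut .l 61516 (.cut .d (-1024) (.pos 55 .mp ⟨⟨1430208781, 0, 0, 0, 0, 793196460, 0, 0, 0, ⟨0, 0⟩, 0⟩, 0, 0⟩ 0 0) (.cut .s 14590976 (.pos 55 .mp ⟨⟨1443734032, 0, 0, 0, 0, 730022839, 0, 0, 0, ⟨0, 0⟩, 0⟩, 0, 0⟩ 0 0) (.pos 55 .mp ⟨⟨1450069475, 0, 0, 0, 0, 733778319, 0, 0, 0, ⟨0, 0⟩, 0⟩, 0, 0⟩ 0 0)))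 (.pos 55 .mp ⟨⟨1449164862, 0, 0, 0, 0, 715102914, 0, 0, 0, ⟨0, 0⟩, 0⟩, 0, 0⟩ 0 0)) (.pos 56 .mp ⟨⟨1823818071, 0, 0, 0, 0, 0, 0, 0, 0, ⟨0, 0⟩, 0⟩, 0, 0⟩ 0 0))) (.pos 49 .mp ⟨⟨1456711747, 0, 0, 0, 0, 703993011, 0, 0, 0, ⟨0, 0⟩, 0⟩, 0, 0⟩ 0 0)) (.cut .l 123033 (.cut .d (-2048) (.pos 49 .mp ⟨⟨1444238347, 0, 0, 0, 0, 802840136, 0, 0, 0, ⟨0, 0⟩, 0⟩, 0, 0⟩ 0 0) (.cut .v 16793600 (.cut .s 14601216 (.cut .s 14598656 (.pos 55 .mp ⟨⟨1470145670, 0, 0, 0, 0, 708988721, 0, 0, 0, ⟨0, 0⟩, 0⟩, 0, 0⟩ 0 0) (.pos 55 .mp ⟨⟨1473658366, 0, 0, 0, 0, 710315257, 0, 0, 0, ⟨0, 0⟩, 0⟩, 0, 0⟩ 0 0)) (.pos 55 .mp ⟨⟨1469654166, 0, 0, 0, 0, 728963847, 0, 0, 0, ⟨0, 0⟩,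 0⟩, 0, 0⟩ 0 0)) (.pos 56 .mp ⟨⟨1840387843, 0, 0, 0, 0, 0, 0, 0, 0, ⟨0, 0⟩, 0⟩, 0, 0⟩ 0 0))) (.pos 49 .mp ⟨⟨1469800894, 0, 0, 0, 0, 710538911, 0, 0, 0, ⟨0, 0⟩, 0⟩, 0, 0⟩ 0 0)))) (.pos 50 .mp ⟨⟨1832174113, 0, 0, 0, 0, 0, 0, 0, 0, ⟨0, 0⟩, 0⟩, 0, 0⟩ 0 0)) (.cut .v 16809984 (.cut .s 14626816 (.cut .s 14616576 (.cut .l 123033 (.cut .d (-2048) (.pos 49 .mp ⟨⟨1457154400, 0, 0, 0, 0, 811421674, 0, 0, 0, ⟨0, 0⟩, 0⟩, 0, 0⟩ 0 0) (.cut .s 14611456 (.cut .s 14608896 (.pos 49 .mp ⟨⟨1476008116, 0, 0, 0, 0, 730317002, 0, 0, 0, ⟨0, 0⟩, 0⟩, 0, 0⟩ 0 0) (.pos 49 .mp ⟨⟨1479548248, 0, 0, 0, 0, 731737267, 0, 0, 0, ⟨0, 0⟩, 0⟩, 0, 0⟩ 0 0)) (.pos 49 .mp ⟨⟨1485419207,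 0, 0, 0, 0, 731503751, 0, 0, 0, ⟨0, 0⟩, 0⟩, 0, 0⟩ 0 0))) (.pos 49 .mp ⟨⟨1483045663, 0, 0, 0, 0, 717144420, 0, 0, 0, ⟨0, 0⟩, 0⟩, 0, 0⟩ 0 0)) (.cut .l 123033 (.cut .d (-2048) (.pos 49 .mp ⟨⟨1470223176, 0, 0, 0, 0, 820395859, 0, 0, 0, ⟨0, 0⟩, 0⟩, 0, 0⟩ 0 0) (.cut .s 14621696 (.pos 49 .mp ⟨⟨1492081868, 0, 0, 0, 0, 735272532, 0, 0, 0, ⟨0, 0⟩, 0⟩, 0, 0⟩ 0 0) (.pos 49 .mp ⟨⟨1498784200, 0, 0, 0, 0, 739098535, 0, 0, 0, ⟨0, 0⟩, 0⟩, 0, 0⟩ 0 0))) (.pos 49 .mp ⟨⟨1496448245, 0, 0, 0, 0, 723804387, 0, 0, 0, ⟨0, 0⟩, 0⟩, 0, 0⟩ 0 0))) (.cut .s 14637056 (.cut .l 123033 (.cut .d (-2048) (.pos 49 .mp ⟨⟨1483446827, 0, 0, 0, 0, 829768550, 0, 0, 0, ⟨0, 0⟩,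 0⟩, 0, 0⟩ 0 0) (.cut .s 14631936 (.pos 49 .mp ⟨⟨1505526481, 0, 0, 0, 0, 742981664, 0, 0, 0, ⟨0, 0⟩, 0⟩, 0, 0⟩ 0 0) (.pos 49 .mp ⟨⟨1512308995, 0, 0, 0, 0, 746921822, 0, 0, 0, ⟨0, 0⟩, 0⟩, 0, 0⟩ 0 0))) (.pos 49 .mp ⟨⟨1510010876, 0, 0, 0, 0, 730513580, 0, 0, 0, ⟨0, 0⟩, 0⟩, 0, 0⟩ 0 0)) (.cut .l 123033 (.cut .d (-2048) (.pos 49 .mp ⟨⟨1496827546, 0, 0, 0, 0, 839545718, 0, 0, 0, ⟨0, 0⟩, 0⟩, 0, 0⟩ 0 0) (.cut .s 14642176 (.pos 49 .mp ⟨⟨1519132027, 0, 0, 0, 0, 750918906, 0, 0, 0, ⟨0, 0⟩, 0⟩, 0, 0⟩ 0 0) (.pos 49 .mp ⟨⟨1525636139, 0, 0, 0, 0, 755756086, 0, 0, 0, ⟨0, 0⟩, 0⟩, 0, 0⟩ 0 0))) (.pos 49 .mp ⟨⟨1523735831, 0, 0, 0, 0, 737266681, 0, 0, 0,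 ⟨0, 0⟩, 0⟩, 0, 0⟩ 0 0)))) (.pos 50 .mp ⟨⟨1899519535, 0, 0, 0, 0, 0, 0, 0, 0, ⟨0, 0⟩, 0⟩, 0, 0⟩ 0 0)))) (.pos 40 .mp ⟨⟨1906850310, 0, 0, 0, 0, 0, 0, 0, 0, ⟨0, 0⟩, 0⟩, 0, 0⟩ 0 0))) (.pos 38 .mp ⟨⟨1903237524, 0, 0, 0, 0, 0, 0, 0, 0, ⟨0, 0⟩, 0⟩, 0, 0⟩ 0 0)) (.void 36 ⟨⟨100000, 0, 0, 0, 0, 0, 0, 0, 0, ⟨0, 0⟩, 0⟩, 0, 0⟩ 0 0))))))) (.void 34 ⟨⟨100000, 0, 0, 0, 0, 0, 0, 0, 0, ⟨0, 0⟩, 0⟩, 0, 0⟩ 0 0))) (.void 32 ⟨⟨100000, 0, 0, 0, 0, 0, 0, 0, 0, ⟨0, 0⟩, 0⟩, 0, 0⟩ 0 0))) (.void 30 ⟨⟨100000, 0, 0, 0, 0, 0, 0, 0, 0, ⟨0, 0⟩, 0⟩, 0, 0⟩ 0 0))) (.void 28 ⟨⟨100000, 0, 0, 0, 0, 0, 0, 0, 0, ⟨0, 0⟩, 0⟩, 0, 0⟩ 0 0))) (.void 26 ⟨⟨100000, 0, 0, 0, 0, 0, 0,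 0, 0, ⟨0, 0⟩, 0⟩, 0, 0⟩ 0 0)))) (.void 91 ⟨⟨100000, 0, 0, 0, 0, 0, 0, 0, 0, ⟨0, 0⟩, 0⟩, 0, 0⟩ 0 0)) (.void 98 ⟨⟨100000, 0, 0, 0, 0, 0, 0, 0, 0, ⟨0, 0⟩, 0⟩, 0, 0⟩ 0 0)) (.void 117 ⟨⟨94821, 0, 0, 5174, 0, 0, 0, 0, 0, ⟨0, 0⟩, 0⟩, 0, 0⟩ 0 0))) (.cut .v 16777216 (.cut .v 8388608 (.cut .v 4194304 (.cut .v 2097152 (.cut .v 1048576 (.cut .v 524288 (.pos 122 .pm ⟨⟨0, 0, 21162114, 0, 0, 0, 0, 0, 0, ⟨0, 0⟩, 0⟩, 0, 178⟩ 0 0) (.pos 123 .pm ⟨⟨0, 0, 21331460, 0, 0, 0, 0, 0, 0, ⟨0, 0⟩, 0⟩, 0, 264⟩ 0 0)) (.pos 114 .pm ⟨⟨0, 0, 22488009, 0, 0, 0, 0, 0, 0, ⟨0, 0⟩, 0⟩, 0, 512⟩ 0 0)) (.pos 7 .pm ⟨⟨0, 0, 29911338, 0, 0, 0, 0, 0, 0, ⟨0, 0⟩, 0⟩, 0, 967⟩ 0 0))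 (.pos 5 .pm ⟨⟨0, 0, 74231849, 0, 0, 0, 0, 0, 0, ⟨0, 0⟩, 0⟩, 0, 1741⟩ 0 0)) (.pos 3 .pm ⟨⟨0, 0, 0, 0, 0, 0, 0, 0, 0, ⟨0, 0⟩, 0⟩, 0, 0⟩ 0 0)) (.cut .v 268435456 (.cut .v 67108864 (.cut .d 1328514 (.cut .d 664257 (.cut .v 33554432 (.cut .d 332128 (.cut .v 25165824 (.cut .d 166064 (.cut .v 20971520 (.cut .d 83032 (.cut .v 18874368 (.cut .v 17825792 (.cut .s 14565376 (.pos 31 .pp ⟨⟨1217228952, 0, 0, 0, 0, 0, 0, 0, 0, ⟨0, 0⟩, 0⟩, 49932301, 0⟩ 0 0) (.pos 31 .pp ⟨⟨1307394557, 0, 0, 0, 0, 0, 0, 0, 0, ⟨0, 0⟩, 0⟩, 53280403, 0⟩ 0 0)) (.pos 32 .pp ⟨⟨1892675890, 0, 0, 0, 0, 0, 0, 0, 0, ⟨0, 0⟩, 0⟩, 0, 0⟩ 0 0)) (.pos 30 .pp ⟨⟨2257656611, 0, 0, 0, 0,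 0, 0, 0, 0, ⟨0, 0⟩, 0⟩, 0, 0⟩ 0 0)) (.pos 27 .pp ⟨⟨0, 0, 0, 0, 0, 0, 0, 0, 0, ⟨0, 0⟩, 0⟩, 164139509, 2031⟩ 0 0)) (.cut .d 83032 (.pos 28 .pp ⟨⟨0, 0, 0, 0, 0, 0, 0, 0, 0, ⟨0, 0⟩, 0⟩, 306613932, 0⟩ 0 0) (.pos 28 .pp ⟨⟨0, 0, 0, 0, 0, 0, 0, 0, 0, ⟨0, 0⟩, 0⟩, 247212026, 0⟩ 0 0))) (.pos 25 .pp ⟨⟨0, 0, 0, 0, 0, 0, 0, 0, 0, ⟨0, 0⟩, 0⟩, 148873395, 2452⟩ 0 0)) (.pos 26 .pp ⟨⟨0, 0, 0, 0, 0, 0, 0, 0, 0, ⟨0, 0⟩, 0⟩, 364522834, 0⟩ 0 0)) (.pos 24 .pp ⟨⟨0, 0, 0, 0, 0, 0, 0, 0, 0, ⟨0, 0⟩, 0⟩, 131933114, 2920⟩ 0 0)) (.cut .d 332128 (.void 91 ⟨⟨0, 0, 0, 0, 0, 0, 0, 0, 0, ⟨0, 0⟩, 0⟩, 100000, 0⟩ 0 0) (.pos 91 .pp ⟨⟨0, 0, 0, 0, 0, 0, 0, 0, 0, ⟨0, 0⟩, 0⟩,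 425302225, 0⟩ 0 0))) (.pos 90 .pp ⟨⟨0, 0, 0, 0, 0, 0, 0, 0, 0, ⟨0, 0⟩, 0⟩, 107515413, 3594⟩ 0 0)) (.pos 90 .pp ⟨⟨0, 268746152, 0, 0, 0, 0, 0, 0, 0, ⟨0, 0⟩, 0⟩, 0, 6563⟩ 0 0)) (.void 98 ⟨⟨0, 0, 0, 50098, 0, 0, 0, 0, 0, ⟨0, 0⟩, 0⟩, 52974, 0⟩ 0 0)) (.void 117 ⟨⟨0, 0, 0, 0, 0, 0, 0, 0, 0, ⟨0, 0⟩, 0⟩, 100000, 0⟩ 0 0)))),
    by decide +kernel⟩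

def covers30 : cell.Covers Vale.Agent.P237.Petty.Cor.Grid.N15.table row30.1 :=
  ⟨(.cut .d 0 (.cut .v 16777216 (.cut .v 8388608 (.void 2 ⟨⟨0, 0, 100000, 0, 0, 0, 0, 0, 0, ⟨0, 0⟩, 0⟩, 0, 0⟩ 0 0) (.cut .d (-8388608) (.void 3 ⟨⟨100000, 0, 0, 0, 0, 0, 0, 0, 0, ⟨0, 0⟩, 0⟩, 0, 0⟩ 0 0) (.cut .d (-4194304) (.void 3 ⟨⟨100000, 0, 0, 0, 0, 0, 0, 0, 0, ⟨0, 0⟩, 0⟩, 0, 0⟩ 0 0) (.cut .d (-2097152) (.void 3 ⟨⟨100000, 0, 0, 0, 0, 0, 0, 0, 0, ⟨0, 0⟩, 0⟩, 0, 0⟩ 0 0) (.cut .d (-1048576) (.void 3 ⟨⟨100000, 0, 0, 0, 0, 0, 0, 0, 0, ⟨0, 0⟩, 0⟩, 0, 0⟩ 0 0) (.cut .d (-524288) (.void 3 ⟨⟨0, 0, 0, 0, 0, 100000, 0, 0, 0, ⟨0, 0⟩, 0⟩, 0, 0⟩ 0 0) (.cut .d (-262144)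 (.void 3 ⟨⟨0, 0, 0, 0, 0, 100000, 0, 0, 0, ⟨0, 0⟩, 0⟩, 0, 0⟩ 0 0) (.cut .d (-131072) (.void 3 ⟨⟨0, 0, 0, 0, 0, 100000, 0, 0, 0, ⟨0, 0⟩, 0⟩, 0, 0⟩ 0 0) (.cut .s 14729216 (.pos 3 .mm ⟨⟨0, 0, 0, 0, 0, 3834627715, 0, 0, 0, ⟨0, 0⟩, 0⟩, 0, 0⟩ 0 0) (.cut .s 14770176 (.pos 3 .mm ⟨⟨0, 0, 0, 0, 0, 3997525254, 0, 0, 0, ⟨0, 0⟩, 0⟩, 0, 0⟩ 0 0) (.pos 3 .mm ⟨⟨0, 0, 0, 0, 0, 4163625426, 0, 0, 0, ⟨0, 0⟩, 0⟩, 0, 0⟩ 0 0))))))))))) (.cut .v 268435456 (.cut .v 67108864 (.cut .v 33554432 (.cut .d (-8388608) (.void 24 ⟨⟨100000, 0, 0, 0, 0, 0, 0, 0, 0, ⟨0, 0⟩, 0⟩, 0, 0⟩ 0 0) (.cut .d (-4194304) (.void 24 ⟨⟨100000, 0, 0, 0, 0, 0, 0, 0, 0, ⟨0, 0⟩, 0⟩, 0, 0⟩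 0 0) (.cut .v 25165824 (.cut .d (-2097152) (.void 25 ⟨⟨100000, 0, 0, 0, 0, 0, 0, 0, 0, ⟨0, 0⟩, 0⟩, 0, 0⟩ 0 0) (.cut .v 20971520 (.cut .d (-1048576) (.void 27 ⟨⟨100000, 0, 0, 0, 0, 0, 0, 0, 0, ⟨0, 0⟩, 0⟩, 0, 0⟩ 0 0) (.cut .v 18874368 (.cut .d (-524288) (.void 29 ⟨⟨100000, 0, 0, 0, 0, 0, 0, 0, 0, ⟨0, 0⟩, 0⟩, 0, 0⟩ 0 0) (.cut .v 17825792 (.cut .d (-262144) (.void 31 ⟨⟨100000, 0, 0, 0, 0, 0, 0, 0, 0, ⟨0, 0⟩, 0⟩, 0, 0⟩ 0 0) (.cut .v 17301504 (.cut .d (-131072) (.void 33 ⟨⟨100000, 0, 0, 0, 0, 0, 0, 0, 0, ⟨0, 0⟩, 0⟩, 0, 0⟩ 0 0) (.cut .v 17039360 (.cut .d (-65536) (.void 35 ⟨⟨100000, 0, 0, 0, 0, 0, 0, 0, 0, ⟨0, 0⟩, 0⟩, 0, 0⟩ 0 0) (.cut .d (-32768)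 (.void 35 ⟨⟨100000, 0, 0, 0, 0, 0, 0, 0, 0, ⟨0, 0⟩, 0⟩, 0, 0⟩ 0 0) (.cut .d (-16384) (.void 35 ⟨⟨100000, 0, 0, 0, 0, 0, 0, 0, 0, ⟨0, 0⟩, 0⟩, 0, 0⟩ 0 0) (.cut .d (-8192) (.void 35 ⟨⟨100000, 0, 0, 0, 0, 0, 0, 0, 0, ⟨0, 0⟩, 0⟩, 0, 0⟩ 0 0) (.cut .v 16908288 (.cut .d (-4096) (.cut .v 16842752 (.cut .l 123033 (.void 39 ⟨⟨100000, 0, 0, 0, 0, 0, 0, 0, 0, ⟨0, 0⟩, 0⟩, 0, 0⟩ 0 0) (.cut .d (-6144) (.void 39 ⟨⟨0, 0, 0, 0, 0, 100000, 0, 0, 0, ⟨0, 0⟩, 0⟩, 0, 0⟩ 0 0) (.cut .d (-5120) (.void 39 ⟨⟨0, 0, 0, 0, 0, 100000, 0, 0, 0, ⟨0, 0⟩, 0⟩, 0, 0⟩ 0 0) (.cut .l 184549 (.void 39 ⟨⟨0, 0, 0, 0, 0, 100000, 0, 0, 0, ⟨0, 0⟩, 0⟩, 0, 0⟩ 0 0) (.cut .l 215307 (.pos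 39 .mp ⟨⟨1517319097, 0, 0, 0, 0, 1966055765, 0, 0, 0, ⟨0, 0⟩, 0⟩, 0, 0⟩ 0 0) (.cut .s 14729216 (.cut .s 14688256 (.pos 39 .mp ⟨⟨1523260437, 0, 0, 0, 0, 910873944, 0, 0, 0, ⟨0, 0⟩, 0⟩, 0, 0⟩ 0 0) (.cut .s 14708736 (.pos 39 .mp ⟨⟨1574980489, 0, 0, 0, 0, 887775228, 0, 0, 0, ⟨0, 0⟩, 0⟩, 0, 0⟩ 0 0) (.pos 39 .mp ⟨⟨1603136512, 0, 0, 0, 0, 907723442, 0, 0, 0, ⟨0, 0⟩, 0⟩, 0, 0⟩ 0 0))) (.cut .s 14770176 (.pos 39 .mp ⟨⟨1630208075, 0, 0, 0, 0, 1004453079, 0, 0, 0, ⟨0, 0⟩, 0⟩, 0, 0⟩ 0 0) (.pos 39 .mp ⟨⟨1691133555, 0, 0, 0, 0, 1046544084, 0, 0, 0, ⟨0, 0⟩, 0⟩, 0, 0⟩ 0 0)))))))) (.void 40 ⟨⟨100000, 0, 0, 0, 0, 0, 0, 0, 0, ⟨0, 0⟩, 0⟩, 0, 0⟩ 0 0)) (.cut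 .s 14729216 (.cut .v 16842752 (.cut .s 14688256 (.cut .v 16809984 (.cut .s 14667776 (.cut .s 14657536 (.cut .l 123033 (.cut .d (-2048) (.pos 49 .mp ⟨⟨1512086853, 0, 0, 0, 0, 845318717, 0, 0, 0, ⟨0, 0⟩, 0⟩, 0, 0⟩ 0 0) (.cut .s 14652416 (.pos 49 .mp ⟨⟨1531978078, 0, 0, 0, 0, 761105700, 0, 0, 0, ⟨0, 0⟩, 0⟩, 0, 0⟩ 0 0) (.pos 49 .mp ⟨⟨1539632335, 0, 0, 0, 0, 762602870, 0, 0, 0, ⟨0, 0⟩, 0⟩, 0, 0⟩ 0 0))) (.pos 49 .mp ⟨⟨1537647378, 0, 0, 0, 0, 746575629, 0, 0, 0, ⟨0, 0⟩, 0⟩, 0, 0⟩ 0 0)) (.cut .l 123033 (.cut .d (-2048) (.pos 49 .mp ⟨⟨1525532471, 0, 0, 0, 0, 852446818, 0, 0, 0, ⟨0, 0⟩, 0⟩, 0, 0⟩ 0 0) (.cut .s 14662656 (.pos 49 .mp ⟨⟨1546844318,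 0, 0, 0, 0, 765233885, 0, 0, 0, ⟨0, 0⟩, 0⟩, 0, 0⟩ 0 0) (.pos 49 .mp ⟨⟨1553879209, 0, 0, 0, 0, 768422005, 0, 0, 0, ⟨0, 0⟩, 0⟩, 0, 0⟩ 0 0))) (.pos 49 .mp ⟨⟨1551727844, 0, 0, 0, 0, 753454647, 0, 0, 0, ⟨0, 0⟩, 0⟩, 0, 0⟩ 0 0))) (.cut .s 14678016 (.cut .l 123033 (.cut .d (-2048) (.pos 49 .mp ⟨⟨1539138006, 0, 0, 0, 0, 860053714, 0, 0, 0, ⟨0, 0⟩, 0⟩, 0, 0⟩ 0 0) (.cut .s 14672896 (.pos 49 .mp ⟨⟨1560958071, 0, 0, 0, 0, 771686452, 0, 0, 0, ⟨0, 0⟩, 0⟩, 0, 0⟩ 0 0) (.pos 49 .mp ⟨⟨1568081221, 0, 0, 0, 0, 775027163, 0, 0, 0, ⟨0, 0⟩, 0⟩, 0, 0⟩ 0 0))) (.pos 49 .mp ⟨⟨1565984699, 0, 0, 0, 0, 760474868, 0, 0, 0, ⟨0, 0⟩, 0⟩, 0, 0⟩ 0 0)) (.cut .l 123033 (.cut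 .d (-2048) (.pos 49 .mp ⟨⟨1552905653, 0, 0, 0, 0, 868147040, 0, 0, 0, ⟨0, 0⟩, 0⟩, 0, 0⟩ 0 0) (.cut .s 14683136 (.pos 49 .mp ⟨⟨1575248979, 0, 0, 0, 0, 778444067, 0, 0, 0, ⟨0, 0⟩, 0⟩, 0, 0⟩ 0 0) (.cut .s 14685696 (.pos 49 .mp ⟨⟨1579633039, 0, 0, 0, 0, 784169707, 0, 0, 0, ⟨0, 0⟩, 0⟩, 0, 0⟩ 0 0) (.pos 49 .mp ⟨⟨1582951192, 0, 0, 0, 0, 786479252, 0, 0, 0, ⟨0, 0⟩, 0⟩, 0, 0⟩ 0 0)))) (.pos 49 .mp ⟨⟨1580420496, 0, 0, 0, 0, 767630160, 0, 0, 0, ⟨0, 0⟩, 0⟩, 0, 0⟩ 0 0)))) (.pos 50 .mp ⟨⟨1971518063, 0, 0, 0, 0, 0, 0, 0, 0, ⟨0, 0⟩, 0⟩, 0, 0⟩ 0 0)) (.cut .v 16809984 (.cut .s 14708736 (.cut .s 14698496 (.cut .s 14693376 (.cut .s 14690816 (.pos 49 .mp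 ⟨⟨1600292200, 0, 0, 0, 0, 762661365, 0, 0, 0, ⟨0, 0⟩, 0⟩, 0, 0⟩ 0 0) (.pos 49 .mp ⟨⟨1603977394, 0, 0, 0, 0, 764385394, 0, 0, 0, ⟨0, 0⟩, 0⟩, 0, 0⟩ 0 0)) (.cut .s 14695936 (.pos 49 .mp ⟨⟨1607674217, 0, 0, 0, 0, 766128031, 0, 0, 0, ⟨0, 0⟩, 0⟩, 0, 0⟩ 0 0) (.pos 49 .mp ⟨⟨1611382709, 0, 0, 0, 0, 767889264, 0, 0, 0, ⟨0, 0⟩, 0⟩, 0, 0⟩ 0 0))) (.cut .s 14703616 (.cut .s 14701056 (.pos 49 .mp ⟨⟨1615102915, 0, 0, 0, 0, 769669081, 0, 0, 0, ⟨0, 0⟩, 0⟩, 0, 0⟩ 0 0) (.pos 49 .mp ⟨⟨1618834876, 0, 0, 0, 0, 771467469, 0, 0, 0, ⟨0, 0⟩, 0⟩, 0, 0⟩ 0 0)) (.cut .s 14706176 (.pos 49 .mp ⟨⟨1622578635, 0, 0, 0, 0, 773284416, 0, 0, 0, ⟨0, 0⟩, 0⟩, 0, 0⟩ 0 0) (.pos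 49 .mp ⟨⟨1626334236, 0, 0, 0, 0, 775119909, 0, 0, 0, ⟨0, 0⟩, 0⟩, 0, 0⟩ 0 0)))) (.cut .s 14718976 (.cut .s 14713856 (.cut .s 14711296 (.pos 49 .mp ⟨⟨1630101722, 0, 0, 0, 0, 776973933, 0, 0, 0, ⟨0, 0⟩, 0⟩, 0, 0⟩ 0 0) (.pos 49 .mp ⟨⟨1633881137, 0, 0, 0, 0, 778846476, 0, 0, 0, ⟨0, 0⟩, 0⟩, 0, 0⟩ 0 0)) (.cut .s 14716416 (.pos 49 .mp ⟨⟨1637672525, 0, 0, 0, 0, 780737524, 0, 0, 0, ⟨0, 0⟩, 0⟩, 0, 0⟩ 0 0) (.pos 49 .mp ⟨⟨1641475928, 0, 0, 0, 0, 782647061, 0, 0, 0, ⟨0, 0⟩, 0⟩, 0, 0⟩ 0 0))) (.cut .s 14724096 (.cut .s 14721536 (.pos 49 .mp ⟨⟨1645291393, 0, 0, 0, 0, 784575075, 0, 0, 0, ⟨0, 0⟩, 0⟩, 0, 0⟩ 0 0) (.pos 49 .mp ⟨⟨1649118963, 0, 0, 0, 0, 786521549,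 0, 0, 0, ⟨0, 0⟩, 0⟩, 0, 0⟩ 0 0)) (.cut .s 14726656 (.pos 49 .mp ⟨⟨1652958683, 0, 0, 0, 0, 788486469, 0, 0, 0, ⟨0, 0⟩, 0⟩, 0, 0⟩ 0 0) (.pos 49 .mp ⟨⟨1656810598, 0, 0, 0, 0, 790469820, 0, 0, 0, ⟨0, 0⟩, 0⟩, 0, 0⟩ 0 0))))) (.pos 50 .mp ⟨⟨2043862645, 0, 0, 0, 0, 0, 0, 0, 0, ⟨0, 0⟩, 0⟩, 0, 0⟩ 0 0))) (.pos 40 .mp ⟨⟨2023833607, 0, 0, 0, 0, 0, 0, 0, 0, ⟨0, 0⟩, 0⟩, 0, 0⟩ 0 0)) (.cut .v 16842752 (.cut .s 14770176 (.cut .v 16809984 (.cut .s 14749696 (.cut .s 14739456 (.cut .s 14734336 (.cut .s 14731776 (.pos 49 .mp ⟨⟨1660674753, 0, 0, 0, 0, 792471586, 0, 0, 0, ⟨0, 0⟩, 0⟩, 0, 0⟩ 0 0) (.pos 49 .mp ⟨⟨1664551193, 0, 0, 0, 0, 794491750, 0, 0, 0, ⟨0,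 0⟩, 0⟩, 0, 0⟩ 0 0)) (.cut .s 14736896 (.pos 49 .mp ⟨⟨1668439965, 0, 0, 0, 0, 796530297, 0, 0, 0, ⟨0, 0⟩, 0⟩, 0, 0⟩ 0 0) (.pos 49 .mp ⟨⟨1672341113, 0, 0, 0, 0, 798587211, 0, 0, 0, ⟨0, 0⟩, 0⟩, 0, 0⟩ 0 0))) (.cut .s 14744576 (.cut .s 14742016 (.pos 49 .mp ⟨⟨1676254684, 0, 0, 0, 0, 800662473, 0, 0, 0, ⟨0, 0⟩, 0⟩, 0, 0⟩ 0 0) (.pos 49 .mp ⟨⟨1680180725, 0, 0, 0, 0, 802756068, 0, 0, 0, ⟨0, 0⟩, 0⟩, 0, 0⟩ 0 0)) (.cut .s 14747136 (.pos 49 .mp ⟨⟨1684119281, 0, 0, 0, 0, 804867977, 0, 0, 0, ⟨0, 0⟩, 0⟩, 0, 0⟩ 0 0) (.pos 49 .mp ⟨⟨1688070400, 0, 0, 0, 0, 806998184, 0, 0, 0, ⟨0, 0⟩, 0⟩, 0, 0⟩ 0 0)))) (.cut .s 14759936 (.cut .l 123033 (.cut .d (-2048)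 (.pos 49 .mp ⟨⟨1655529202, 0, 0, 0, 0, 935205380, 0, 0, 0, ⟨0, 0⟩, 0⟩, 0, 0⟩ 0 0) (.cut .s 14754816 (.cut .s 14752256 (.pos 49 .mp ⟨⟨1678034055, 0, 0, 0, 0, 835377921, 0, 0, 0, ⟨0, 0⟩, 0⟩, 0, 0⟩ 0 0) (.pos 49 .mp ⟨⟨1682363602, 0, 0, 0, 0, 836911494, 0, 0, 0, ⟨0, 0⟩, 0⟩, 0, 0⟩ 0 0)) (.pos 49 .mp ⟨⟨1688345954, 0, 0, 0, 0, 838781279, 0, 0, 0, ⟨0, 0⟩, 0⟩, 0, 0⟩ 0 0))) (.pos 49 .mp ⟨⟨1686707078, 0, 0, 0, 0, 820963134, 0, 0, 0, ⟨0, 0⟩, 0⟩, 0, 0⟩ 0 0)) (.cut .l 123033 (.cut .d (-2048) (.pos 49 .mp ⟨⟨1671067987, 0, 0, 0, 0, 946481752, 0, 0, 0, ⟨0, 0⟩, 0⟩, 0, 0⟩ 0 0) (.cut .s 14765056 (.pos 49 .mp ⟨⟨1696273661, 0, 0, 0, 0, 843404482, 0, 0, 0,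 ⟨0, 0⟩, 0⟩, 0, 0⟩ 0 0) (.pos 49 .mp ⟨⟨1704251932, 0, 0, 0, 0, 848102050, 0, 0, 0, ⟨0, 0⟩, 0⟩, 0, 0⟩ 0 0))) (.pos 49 .mp ⟨⟨1702672748, 0, 0, 0, 0, 828966038, 0, 0, 0, ⟨0, 0⟩, 0⟩, 0, 0⟩ 0 0)))) (.pos 50 .mp ⟨⟨2121690979, 0, 0, 0, 0, 0, 0, 0, 0, ⟨0, 0⟩, 0⟩, 0, 0⟩ 0 0)) (.cut .v 16809984 (.cut .s 14790656 (.cut .s 14780416 (.cut .l 123033 (.cut .d (-2048) (.pos 49 .mp ⟨⟨1686804025, 0, 0, 0, 0, 958285146, 0, 0, 0, ⟨0, 0⟩, 0⟩, 0, 0⟩ 0 0) (.cut .s 14775296 (.pos 49 .mp ⟨⟨1712281150, 0, 0, 0, 0, 852873834, 0, 0, 0, ⟨0, 0⟩, 0⟩, 0, 0⟩ 0 0) (.pos 49 .mp ⟨⟨1720361701, 0, 0, 0, 0, 857719679, 0, 0, 0, ⟨0, 0⟩, 0⟩, 0, 0⟩ 0 0))) (.pos 49 .mp ⟨⟨1718842788,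 0, 0, 0, 0, 837044120, 0, 0, 0, ⟨0, 0⟩, 0⟩, 0, 0⟩ 0 0)) (.cut .s 14785536 (.cut .s 14782976 (.pos 49 .mp ⟨⟨1745990070, 0, 0, 0, 0, 826100386, 0, 0, 0, ⟨0, 0⟩, 0⟩, 0, 0⟩ 0 0) (.pos 49 .mp ⟨⟨1751547506, 0, 0, 0, 0, 825773637, 0, 0, 0, ⟨0, 0⟩, 0⟩, 0, 0⟩ 0 0)) (.pos 49 .mp ⟨⟨1753035916, 0, 0, 0, 0, 837753950, 0, 0, 0, ⟨0, 0⟩, 0⟩, 0, 0⟩ 0 0))) (.cut .s 14800896 (.cut .s 14795776 (.pos 49 .mp ⟨⟨1761393511, 0, 0, 0, 0, 842594172, 0, 0, 0, ⟨0, 0⟩, 0⟩, 0, 0⟩ 0 0) (.pos 49 .mp ⟨⟨1769805098, 0, 0, 0, 0, 847505727, 0, 0, 0, ⟨0, 0⟩, 0⟩, 0, 0⟩ 0 0)) (.cut .s 14806016 (.pos 49 .mp ⟨⟨1778271092, 0, 0, 0, 0, 852488415, 0, 0, 0, ⟨0, 0⟩, 0⟩, 0, 0⟩ 0 0)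 (.pos 49 .mp ⟨⟨1786791914, 0, 0, 0, 0, 857542033, 0, 0, 0, ⟨0, 0⟩, 0⟩, 0, 0⟩ 0 0)))) (.pos 50 .mp ⟨⟨2205141404, 0, 0, 0, 0, 0, 0, 0, 0, ⟨0, 0⟩, 0⟩, 0, 0⟩ 0 0))) (.pos 40 .mp ⟨⟨2179960307, 0, 0, 0, 0, 0, 0, 0, 0, ⟨0, 0⟩, 0⟩, 0, 0⟩ 0 0)))) (.pos 38 .mp ⟨⟨2207655102, 0, 0, 0, 0, 0, 0, 0, 0, ⟨0, 0⟩, 0⟩, 0, 0⟩ 0 0)))))) (.void 36 ⟨⟨100000, 0, 0, 0, 0, 0, 0, 0, 0, ⟨0, 0⟩, 0⟩, 0, 0⟩ 0 0))) (.void 34 ⟨⟨100000, 0, 0, 0, 0, 0, 0, 0, 0, ⟨0, 0⟩, 0⟩, 0, 0⟩ 0 0))) (.void 32 ⟨⟨100000, 0, 0, 0, 0, 0, 0, 0, 0, ⟨0, 0⟩, 0⟩, 0, 0⟩ 0 0))) (.void 30 ⟨⟨100000, 0, 0, 0, 0, 0, 0, 0, 0, ⟨0, 0⟩, 0⟩, 0, 0⟩ 0 0))) (.void 28 ⟨⟨100000, 0, 0, 0, 0, 0, 0, 0, 0, ⟨0,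 0⟩, 0⟩, 0, 0⟩ 0 0))) (.void 26 ⟨⟨100000, 0, 0, 0, 0, 0, 0, 0, 0, ⟨0, 0⟩, 0⟩, 0, 0⟩ 0 0)))) (.void 91 ⟨⟨100000, 0, 0, 0, 0, 0, 0, 0, 0, ⟨0, 0⟩, 0⟩, 0, 0⟩ 0 0)) (.void 98 ⟨⟨100468, 0, 0, 0, 0, 0, 0, 0, 0, ⟨0, 0⟩, 0⟩, 0, 0⟩ 0 0)) (.void 117 ⟨⟨98389, 0, 0, 5283, 0, 0, 0, 0, 0, ⟨0, 0⟩, 0⟩, 0, 0⟩ 0 0))) (.cut .v 16777216 (.cut .v 8388608 (.cut .v 4194304 (.cut .v 2097152 (.cut .v 1048576 (.cut .v 524288 (.pos 122 .pm ⟨⟨0, 0, 24908534, 0, 0, 0, 0, 0, 0, ⟨0, 0⟩, 0⟩, 0, 57⟩ 0 0) (.pos 123 .pm ⟨⟨0, 0, 28302603, 0, 0, 0, 0, 0, 0, ⟨0, 0⟩, 0⟩, 0, 168⟩ 0 0)) (.pos 114 .pm ⟨⟨0, 0, 36737711, 0, 0, 0, 0, 0, 0, ⟨0, 0⟩, 0⟩, 0, 327⟩ 0 0)) (.pos 7 .pm ⟨⟨0,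 0, 57801601, 0, 0, 0, 0, 0, 0, ⟨0, 0⟩, 0⟩, 0, 618⟩ 0 0)) (.pos 5 .pm ⟨⟨0, 0, 167171383, 0, 0, 0, 0, 0, 0, ⟨0, 0⟩, 0⟩, 0, 1738⟩ 0 0)) (.pos 3 .pm ⟨⟨0, 0, 0, 0, 0, 0, 0, 0, 0, ⟨0, 0⟩, 0⟩, 0, 0⟩ 0 0)) (.cut .v 268435456 (.cut .v 67108864 (.cut .d 1219821 (.cut .d 609910 (.cut .v 33554432 (.cut .d 304955 (.cut .v 25165824 (.cut .d 152477 (.cut .v 20971520 (.cut .d 76238 (.cut .v 18874368 (.cut .v 17825792 (.cut .s 14729216 (.pos 31 .pp ⟨⟨1404738312, 0, 0, 0, 0, 0, 0, 0, 0, ⟨0, 0⟩, 0⟩, 57484439, 0⟩ 0 0) (.pos 31 .pp ⟨⟨1522009924, 0, 0, 0, 0, 0, 0, 0, 0, ⟨0, 0⟩, 0⟩, 60621964, 0⟩ 0 0)) (.pos 32 .pp ⟨⟨2184054207, 0, 0, 0, 0, 0, 0, 0, 0, ⟨0,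 0⟩, 0⟩, 0, 0⟩ 0 0)) (.pos 30 .pp ⟨⟨2606623255, 0, 0, 0, 0, 0, 0, 0, 0, ⟨0, 0⟩, 0⟩, 0, 0⟩ 0 0)) (.pos 27 .pp ⟨⟨0, 0, 0, 0, 0, 0, 0, 0, 0, ⟨0, 0⟩, 0⟩, 189218474, 1337⟩ 0 0)) (.cut .d 76238 (.pos 28 .pp ⟨⟨0, 0, 0, 0, 0, 0, 0, 0, 0, ⟨0, 0⟩, 0⟩, 354488705, 0⟩ 0 0) (.pos 28 .pp ⟨⟨0, 0, 0, 0, 0, 0, 0, 0, 0, ⟨0, 0⟩, 0⟩, 285468433, 0⟩ 0 0))) (.pos 25 .pp ⟨⟨0, 0, 0, 0, 0, 0, 0, 0, 0, ⟨0, 0⟩, 0⟩, 172028145, 1610⟩ 0 0)) (.pos 26 .pp ⟨⟨0, 0, 0, 0, 0, 0, 0, 0, 0, ⟨0, 0⟩, 0⟩, 420285604, 0⟩ 0 0)) (.pos 24 .pp ⟨⟨0, 0, 0, 0, 0, 0, 0, 0, 0, ⟨0, 0⟩, 0⟩, 153416662, 1906⟩ 0 0)) (.cut .d 304955 (.void 91 ⟨⟨0, 0, 0, 0, 0, 0, 0, 0, 0, ⟨0, 0⟩, 0⟩, 100000, 0⟩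 0 0) (.pos 91 .pp ⟨⟨0, 0, 0, 0, 0, 0, 0, 0, 0, ⟨0, 0⟩, 0⟩, 496137414, 0⟩ 0 0))) (.pos 90 .pp ⟨⟨0, 0, 0, 0, 0, 0, 0, 0, 0, ⟨0, 0⟩, 0⟩, 132892631, 2233⟩ 0 0)) (.pos 90 .pp ⟨⟨0, 136780647, 0, 0, 0, 0, 0, 0, 0, ⟨0, 0⟩, 0⟩, 0, 4346⟩ 0 0)) (.void 98 ⟨⟨0, 0, 0, 50581, 0, 0, 0, 0, 0, ⟨0, 0⟩, 0⟩, 53611, 0⟩ 0 0)) (.void 117 ⟨⟨0, 0, 0, 0, 0, 0, 0, 0, 0, ⟨0, 0⟩, 0⟩, 101675, 0⟩ 0 0)))),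
    by decide +kernel⟩

def covers31 : cell.Covers Vale.Agent.P237.Petty.Cor.Grid.N15.table row31.1 :=
  ⟨(.cut .d 0 (.cut .v 16777216 (.cut .v 8388608 (.void 2 ⟨⟨0, 0, 100000, 0, 0, 0, 0, 0, 0, ⟨0, 0⟩, 0⟩, 0, 0⟩ 0 0) (.cut .d (-8388608) (.void 3 ⟨⟨100000, 0, 0, 0, 0, 0, 0, 0, 0, ⟨0, 0⟩, 0⟩, 0, 0⟩ 0 0) (.cut .d (-4194304) (.void 3 ⟨⟨100000, 0, 0, 0, 0, 0, 0, 0, 0, ⟨0, 0⟩, 0⟩, 0, 0⟩ 0 0) (.cut .d (-2097152) (.void 3 ⟨⟨100000, 0, 0, 0, 0, 0, 0, 0, 0, ⟨0, 0⟩, 0⟩, 0, 0⟩ 0 0) (.cut .d (-1048576) (.void 3 ⟨⟨100000, 0, 0, 0, 0, 0, 0, 0, 0, ⟨0, 0⟩, 0⟩, 0, 0⟩ 0 0) (.cut .d (-524288) (.void 3 ⟨⟨0, 0, 0, 0, 0, 100000, 0, 0, 0, ⟨0, 0⟩, 0⟩, 0, 0⟩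 0 0) (.cut .d (-262144) (.void 3 ⟨⟨0, 0, 0, 0, 0, 100000, 0, 0, 0, ⟨0, 0⟩, 0⟩, 0, 0⟩ 0 0) (.cut .d (-131072) (.void 3 ⟨⟨0, 0, 0, 0, 0, 100000, 0, 0, 0, ⟨0, 0⟩, 0⟩, 0, 0⟩ 0 0) (.cut .s 14876672 (.pos 3 .mm ⟨⟨0, 0, 0, 0, 0, 4445866910, 0, 0, 0, ⟨0, 0⟩, 0⟩, 0, 0⟩ 0 0) (.pos 3 .mm ⟨⟨0, 0, 0, 0, 0, 4757185465, 0, 0, 0, ⟨0, 0⟩, 0⟩, 0, 0⟩ 0 0)))))))))) (.cut .v 268435456 (.cut .v 67108864 (.cut .v 33554432 (.cut .d (-8388608) (.void 24 ⟨⟨100113, 0, 0, 0, 0, 0, 0, 0, 0, ⟨0, 0⟩, 0⟩, 0, 0⟩ 0 0) (.cut .d (-4194304) (.void 24 ⟨⟨100000, 0, 0, 0, 0, 0, 0, 0, 0, ⟨0, 0⟩, 0⟩, 0, 0⟩ 0 0) (.cut .v 25165824 (.cut .d (-2097152) (.void 25 ⟨⟨100000, 0, 0,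 0, 0, 0, 0, 0, 0, ⟨0, 0⟩, 0⟩, 0, 0⟩ 0 0) (.cut .v 20971520 (.cut .d (-1048576) (.void 27 ⟨⟨100000, 0, 0, 0, 0, 0, 0, 0, 0, ⟨0, 0⟩, 0⟩, 0, 0⟩ 0 0) (.cut .v 18874368 (.cut .d (-524288) (.void 29 ⟨⟨100000, 0, 0, 0, 0, 0, 0, 0, 0, ⟨0, 0⟩, 0⟩, 0, 0⟩ 0 0) (.cut .v 17825792 (.cut .d (-262144) (.void 31 ⟨⟨100000, 0, 0, 0, 0, 0, 0, 0, 0, ⟨0, 0⟩, 0⟩, 0, 0⟩ 0 0) (.cut .v 17301504 (.cut .d (-131072) (.void 33 ⟨⟨100000, 0, 0, 0, 0, 0, 0, 0, 0, ⟨0, 0⟩, 0⟩, 0, 0⟩ 0 0) (.cut .v 17039360 (.cut .d (-65536) (.void 35 ⟨⟨100000, 0, 0, 0, 0, 0, 0, 0, 0, ⟨0, 0⟩, 0⟩, 0, 0⟩ 0 0) (.cut .v 16908288 (.cut .d (-32768) (.void 37 ⟨⟨100000, 0, 0, 0, 0, 0, 0, 0, 0,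 ⟨0, 0⟩, 0⟩, 0, 0⟩ 0 0) (.cut .d (-16384) (.void 37 ⟨⟨100000, 0, 0, 0, 0, 0, 0, 0, 0, ⟨0, 0⟩, 0⟩, 0, 0⟩ 0 0) (.cut .d (-8192) (.void 37 ⟨⟨100000, 0, 0, 0, 0, 0, 0, 0, 0, ⟨0, 0⟩, 0⟩, 0, 0⟩ 0 0) (.cut .d (-4096) (.cut .v 16842752 (.cut .s 14876672 (.pos 39 .mp ⟨⟨1811206725, 0, 0, 0, 0, 1130288941, 0, 0, 0, ⟨0, 0⟩, 0⟩, 0, 0⟩ 0 0) (.pos 39 .mp ⟨⟨1869068038, 0, 0, 0, 0, 1855021792, 0, 0, 0, ⟨0, 0⟩, 0⟩, 0, 0⟩ 0 0)) (.void 40 ⟨⟨100000, 0, 0, 0, 0, 0, 0, 0, 0, ⟨0, 0⟩, 0⟩, 0, 0⟩ 0 0)) (.cut .s 14876672 (.cut .v 16842752 (.cut .s 14843904 (.cut .v 16809984 (.cut .s 14827520 (.cut .s 14819328 (.cut .s 14815232 (.pos 49 .mp ⟨⟨1806488405, 0, 0, 0,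 0, 839624087, 0, 0, 0, ⟨0, 0⟩, 0⟩, 0, 0⟩ 0 0) (.pos 49 .mp ⟨⟨1809935043, 0, 0, 0, 0, 848768408, 0, 0, 0, ⟨0, 0⟩, 0⟩, 0, 0⟩ 0 0)) (.cut .s 14823424 (.pos 49 .mp ⟨⟨1813546594, 0, 0, 0, 0, 857732092, 0, 0, 0, ⟨0, 0⟩, 0⟩, 0, 0⟩ 0 0) (.pos 49 .mp ⟨⟨1817325932, 0, 0, 0, 0, 866509904, 0, 0, 0, ⟨0, 0⟩, 0⟩, 0, 0⟩ 0 0))) (.cut .s 14835712 (.cut .s 14831616 (.pos 49 .mp ⟨⟨1821447921, 0, 0, 0, 0, 874768996, 0, 0, 0, ⟨0, 0⟩, 0⟩, 0, 0⟩ 0 0) (.pos 49 .mp ⟨⟨1828493469, 0, 0, 0, 0, 877592506, 0, 0, 0, ⟨0, 0⟩, 0⟩, 0, 0⟩ 0 0)) (.cut .s 14839808 (.pos 49 .mp ⟨⟨1835577203, 0, 0, 0, 0, 880475924, 0, 0, 0, ⟨0, 0⟩, 0⟩, 0, 0⟩ 0 0) (.pos 49 .mp ⟨⟨1842699363,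 0, 0, 0, 0, 883419160, 0, 0, 0, ⟨0, 0⟩, 0⟩, 0, 0⟩ 0 0)))) (.pos 50 .mp ⟨⟨2285328224, 0, 0, 0, 0, 0, 0, 0, 0, ⟨0, 0⟩, 0⟩, 0, 0⟩ 0 0)) (.cut .v 16809984 (.cut .s 14860288 (.cut .s 14852096 (.cut .s 14848000 (.pos 49 .mp ⟨⟨1849860190, 0, 0, 0, 0, 886422122, 0, 0, 0, ⟨0, 0⟩, 0⟩, 0, 0⟩ 0 0) (.pos 49 .mp ⟨⟨1857059929, 0, 0, 0, 0, 889484716, 0, 0, 0, ⟨0, 0⟩, 0⟩, 0, 0⟩ 0 0)) (.cut .s 14856192 (.pos 49 .mp ⟨⟨1864298824, 0, 0, 0, 0, 892606843, 0, 0, 0, ⟨0, 0⟩, 0⟩, 0, 0⟩ 0 0) (.cut .s 14858240 (.pos 49 .mp ⟨⟨1870859364, 0, 0, 0, 0, 893076251, 0, 0, 0, ⟨0, 0⟩, 0⟩, 0, 0⟩ 0 0) (.pos 49 .mp ⟨⟨1873600994, 0, 0, 0, 0, 896414896, 0, 0, 0, ⟨0, 0⟩, 0⟩,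 0, 0⟩ 0 0)))) (.cut .s 14868480 (.cut .d (-2048) (.pos 49 .mp ⟨⟨1846055627, 0, 0, 0, 0, 987526106, 0, 0, 0, ⟨0, 0⟩, 0⟩, 0, 0⟩ 0 0) (.cut .s 14864384 (.pos 49 .mp ⟨⟨1858853182, 0, 0, 0, 0, 937372912, 0, 0, 0, ⟨0, 0⟩, 0⟩, 0, 0⟩ 0 0) (.pos 49 .mp ⟨⟨1866601571, 0, 0, 0, 0, 939675220, 0, 0, 0, ⟨0, 0⟩, 0⟩, 0, 0⟩ 0 0))) (.cut .d (-2048) (.pos 49 .mp ⟨⟨1858072774, 0, 0, 0, 0, 1000080625, 0, 0, 0, ⟨0, 0⟩, 0⟩, 0, 0⟩ 0 0) (.cut .s 14872576 (.pos 49 .mp ⟨⟨1874472524, 0, 0, 0, 0, 941894001, 0, 0, 0, ⟨0, 0⟩, 0⟩, 0, 0⟩ 0 0) (.pos 49 .mp ⟨⟨1882317903, 0, 0, 0, 0, 944324531, 0, 0, 0, ⟨0, 0⟩, 0⟩, 0, 0⟩ 0 0))))) (.pos 50 .mp ⟨⟨2354601234, 0, 0, 0, 0,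 0, 0, 0, 0, ⟨0, 0⟩, 0⟩, 0, 0⟩ 0 0))) (.pos 40 .mp ⟨⟨2338073416, 0, 0, 0, 0, 0, 0, 0, 0, ⟨0, 0⟩, 0⟩, 0, 0⟩ 0 0)) (.cut .v 16842752 (.cut .s 14909440 (.cut .v 16809984 (.cut .s 14893056 (.cut .s 14884864 (.cut .d (-2048) (.pos 49 .mp ⟨⟨1870808713, 0, 0, 0, 0, 1011735007, 0, 0, 0, ⟨0, 0⟩, 0⟩, 0, 0⟩ 0 0) (.cut .s 14880768 (.pos 49 .mp ⟨⟨1889910528, 0, 0, 0, 0, 947452440, 0, 0, 0, ⟨0, 0⟩, 0⟩, 0, 0⟩ 0 0) (.pos 49 .mp ⟨⟨1897316383, 0, 0, 0, 0, 951137730, 0, 0, 0, ⟨0, 0⟩, 0⟩, 0, 0⟩ 0 0))) (.cut .d (-2048) (.pos 49 .mp ⟨⟨1884283689, 0, 0, 0, 0, 1022450552, 0, 0, 0, ⟨0, 0⟩, 0⟩, 0, 0⟩ 0 0) (.cut .s 14888960 (.pos 49 .mp ⟨⟨1904762556, 0, 0, 0,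 0, 954896391, 0, 0, 0, ⟨0, 0⟩, 0⟩, 0, 0⟩ 0 0) (.pos 49 .mp ⟨⟨1912249306, 0, 0, 0, 0, 958728539, 0, 0, 0, ⟨0, 0⟩, 0⟩, 0, 0⟩ 0 0)))) (.cut .s 14901248 (.cut .d (-2048) (.pos 49 .mp ⟨⟨1898518264, 0, 0, 0, 0, 1032187921, 0, 0, 0, ⟨0, 0⟩, 0⟩, 0, 0⟩ 0 0) (.cut .s 14897152 (.pos 49 .mp ⟨⟨1919776895, 0, 0, 0, 0, 962634289, 0, 0, 0, ⟨0, 0⟩, 0⟩, 0, 0⟩ 0 0) (.pos 49 .mp ⟨⟨1927345587, 0, 0, 0, 0, 966613755, 0, 0, 0, ⟨0, 0⟩, 0⟩, 0, 0⟩ 0 0))) (.cut .d (-2048) (.pos 49 .mp ⟨⟨1913533323, 0, 0, 0, 0, 1040907121, 0, 0, 0, ⟨0, 0⟩, 0⟩, 0, 0⟩ 0 0) (.cut .s 14905344 (.pos 49 .mp ⟨⟨1934955650, 0, 0, 0, 0, 970667049, 0, 0, 0, ⟨0, 0⟩, 0⟩, 0, 0⟩ 0 0) (.pos 49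 .mp ⟨⟨1942607352, 0, 0, 0, 0, 974794282, 0, 0, 0, ⟨0, 0⟩, 0⟩, 0, 0⟩ 0 0))))) (.pos 50 .mp ⟨⟨2428369887, 0, 0, 0, 0, 0, 0, 0, 0, ⟨0, 0⟩, 0⟩, 0, 0⟩ 0 0)) (.cut .v 16809984 (.cut .s 14925824 (.cut .s 14917632 (.cut .d (-2048) (.pos 49 .mp ⟨⟨1902907693, 0, 0, 0, 0, 1109824061, 0, 0, 0, ⟨0, 0⟩, 0⟩, 0, 0⟩ 0 0) (.cut .s 14913536 (.pos 49 .mp ⟨⟨1950300965, 0, 0, 0, 0, 978995565, 0, 0, 0, ⟨0, 0⟩, 0⟩, 0, 0⟩ 0 0) (.pos 49 .mp ⟨⟨1958036761, 0, 0, 0, 0, 983271005, 0, 0, 0, ⟨0, 0⟩, 0⟩, 0, 0⟩ 0 0))) (.cut .d (-2048) (.pos 49 .mp ⟨⟨1918017244, 0, 0, 0, 0, 1119960449, 0, 0, 0, ⟨0, 0⟩, 0⟩, 0, 0⟩ 0 0) (.cut .s 14921728 (.pos 49 .mp ⟨⟨1965815018, 0, 0,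 0, 0, 987620709, 0, 0, 0, ⟨0, 0⟩, 0⟩, 0, 0⟩ 0 0) (.pos 49 .mp ⟨⟨1973636014, 0, 0, 0, 0, 992044784, 0, 0, 0, ⟨0, 0⟩, 0⟩, 0, 0⟩ 0 0)))) (.cut .s 14934016 (.cut .d (-2048) (.pos 49 .mp ⟨⟨1933290818, 0, 0, 0, 0, 1130537396, 0, 0, 0, ⟨0, 0⟩, 0⟩, 0, 0⟩ 0 0) (.cut .s 14929920 (.pos 49 .mp ⟨⟨1981353670, 0, 0, 0, 0, 996856136, 0, 0, 0, ⟨0, 0⟩, 0⟩, 0, 0⟩ 0 0) (.pos 49 .mp ⟨⟨1988693232, 0, 0, 0, 0, 1002642829, 0, 0, 0, ⟨0, 0⟩, 0⟩, 0, 0⟩ 0 0))) (.cut .d (-2048) (.pos 49 .mp ⟨⟨1948730577, 0, 0, 0, 0, 1141560996, 0, 0, 0, ⟨0, 0⟩, 0⟩, 0, 0⟩ 0 0) (.cut .s 14938112 (.pos 49 .mp ⟨⟨1995985197, 0, 0, 0, 0, 1008699372, 0, 0, 0, ⟨0, 0⟩, 0⟩, 0, 0⟩ 0 0) (.pos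 49 .mp ⟨⟨2003499714, 0, 0, 0, 0, 1014487996, 0, 0, 0, ⟨0, 0⟩, 0⟩, 0, 0⟩ 0 0))))) (.pos 50 .mp ⟨⟨2506728187, 0, 0, 0, 0, 0, 0, 0, 0, ⟨0, 0⟩, 0⟩, 0, 0⟩ 0 0))) (.pos 40 .mp ⟨⟨2486180227, 0, 0, 0, 0, 0, 0, 0, 0, ⟨0, 0⟩, 0⟩, 0, 0⟩ 0 0))))))) (.pos 38 .mp ⟨⟨2639618654, 0, 0, 0, 0, 0, 0, 0, 0, ⟨0, 0⟩, 0⟩, 0, 0⟩ 0 0))) (.void 36 ⟨⟨100000, 0, 0, 0, 0, 0, 0, 0, 0, ⟨0, 0⟩, 0⟩, 0, 0⟩ 0 0))) (.void 34 ⟨⟨100000, 0, 0, 0, 0, 0, 0, 0, 0, ⟨0, 0⟩, 0⟩, 0, 0⟩ 0 0))) (.void 32 ⟨⟨100000, 0, 0, 0, 0, 0, 0, 0, 0, ⟨0, 0⟩, 0⟩, 0, 0⟩ 0 0))) (.void 30 ⟨⟨100000, 0, 0, 0, 0, 0, 0, 0, 0, ⟨0, 0⟩, 0⟩, 0, 0⟩ 0 0))) (.void 28 ⟨⟨100000, 0, 0, 0, 0, 0, 0, 0, 0, ⟨0, 0⟩,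 0⟩, 0, 0⟩ 0 0))) (.void 26 ⟨⟨100000, 0, 0, 0, 0, 0, 0, 0, 0, ⟨0, 0⟩, 0⟩, 0, 0⟩ 0 0)))) (.void 91 ⟨⟨100000, 0, 0, 0, 0, 0, 0, 0, 0, ⟨0, 0⟩, 0⟩, 0, 0⟩ 0 0)) (.void 98 ⟨⟨100308, 0, 0, 0, 0, 0, 0, 0, 0, ⟨0, 0⟩, 0⟩, 0, 0⟩ 0 0)) (.void 117 ⟨⟨94986, 0, 0, 5273, 0, 0, 0, 0, 0, ⟨0, 0⟩, 0⟩, 0, 0⟩ 0 0))) (.cut .v 16777216 (.cut .v 8388608 (.cut .v 4194304 (.cut .v 2097152 (.cut .v 1048576 (.cut .v 524288 (.pos 122 .pm ⟨⟨0, 0, 28051836, 0, 0, 0, 0, 0, 0, ⟨0, 0⟩, 0⟩, 0, 39⟩ 0 0) (.pos 123 .pm ⟨⟨0, 0, 38007907, 0, 0, 0, 0, 0, 0, ⟨0, 0⟩, 0⟩, 0, 113⟩ 0 0)) (.pos 114 .pm ⟨⟨0, 0, 55172336, 0, 0, 0, 0, 0, 0, ⟨0, 0⟩, 0⟩, 0, 220⟩ 0 0)) (.pos 7 .pm ⟨⟨0,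 0, 93266674, 0, 0, 0, 0, 0, 0, ⟨0, 0⟩, 0⟩, 0, 416⟩ 0 0)) (.pos 5 .pm ⟨⟨0, 0, 294280917, 0, 0, 0, 0, 0, 0, ⟨0, 0⟩, 0⟩, 0, 1112⟩ 0 0)) (.pos 3 .pm ⟨⟨0, 0, 0, 0, 0, 0, 0, 0, 0, ⟨0, 0⟩, 0⟩, 0, 0⟩ 0 0)) (.cut .v 268435456 (.cut .v 67108864 (.cut .d 1113533 (.cut .d 556766 (.cut .v 33554432 (.cut .d 278383 (.cut .v 25165824 (.cut .d 139191 (.cut .v 20971520 (.cut .d 69595 (.cut .v 18874368 (.cut .v 17825792 (.pos 31 .pp ⟨⟨2168364680, 0, 0, 0, 0, 0, 0, 0, 0, ⟨0, 0⟩, 0⟩, 5433748, 0⟩ 0 0) (.pos 32 .pp ⟨⟨2508497955, 0, 0, 0, 0, 0, 0, 0, 0, ⟨0, 0⟩, 0⟩, 0, 0⟩ 0 0)) (.pos 30 .pp ⟨⟨2971558150, 0, 0, 0, 0, 0, 0, 0, 0, ⟨0, 0⟩, 0⟩, 0, 0⟩ 0 0)) (.pos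 27 .pp ⟨⟨0, 0, 0, 0, 0, 0, 0, 0, 0, ⟨0, 0⟩, 0⟩, 219772047, 857⟩ 0 0)) (.cut .d 69595 (.pos 28 .pp ⟨⟨0, 0, 0, 0, 0, 0, 0, 0, 0, ⟨0, 0⟩, 0⟩, 401324978, 0⟩ 0 0) (.pos 28 .pp ⟨⟨0, 0, 0, 0, 0, 0, 0, 0, 0, ⟨0, 0⟩, 0⟩, 328224878, 0⟩ 0 0))) (.pos 25 .pp ⟨⟨0, 0, 0, 0, 0, 0, 0, 0, 0, ⟨0, 0⟩, 0⟩, 200378711, 1026⟩ 0 0)) (.pos 26 .pp ⟨⟨0, 0, 0, 0, 0, 0, 0, 0, 0, ⟨0, 0⟩, 0⟩, 477567629, 0⟩ 0 0)) (.pos 24 .pp ⟨⟨0, 0, 0, 0, 0, 0, 0, 0, 0, ⟨0, 0⟩, 0⟩, 180057728, 1204⟩ 0 0)) (.cut .d 278383 (.void 91 ⟨⟨0, 0, 0, 0, 0, 0, 0, 0, 0, ⟨0, 0⟩, 0⟩, 100000, 0⟩ 0 0) (.pos 91 .pp ⟨⟨0, 0, 0, 0, 0, 0, 0, 0, 0, ⟨0, 0⟩, 0⟩, 573350952, 0⟩ 0 0))) (.pos 90 .pp ⟨⟨0, 0,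 0, 0, 0, 0, 0, 0, 0, ⟨0, 0⟩, 0⟩, 165561639, 1331⟩ 0 0)) (.pos 90 .pp ⟨⟨0, 0, 0, 0, 0, 0, 0, 0, 0, ⟨0, 0⟩, 0⟩, 0, 2779⟩ 0 0)) (.void 98 ⟨⟨0, 0, 0, 49859, 0, 0, 0, 0, 0, ⟨0, 0⟩, 0⟩, 50114, 0⟩ 0 0)) (.void 117 ⟨⟨0, 0, 0, 0, 0, 0, 0, 0, 0, ⟨0, 0⟩, 0⟩, 100000, 0⟩ 0 0)))),
    by decide +kernel⟩

def covers32 : cell.Covers Vale.Agent.P237.Petty.Cor.Grid.N15.table row32.1 :=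
  ⟨(.cut .d 0 (.cut .v 16777216 (.cut .v 8388608 (.void 2 ⟨⟨0, 0, 100000, 0, 0, 0, 0, 0, 0, ⟨0, 0⟩, 0⟩, 0, 0⟩ 0 0) (.cut .d (-8388608) (.void 3 ⟨⟨100000, 0, 0, 0, 0, 0, 0, 0, 0, ⟨0, 0⟩, 0⟩, 0, 0⟩ 0 0) (.cut .d (-4194304) (.void 3 ⟨⟨100000, 0, 0, 0, 0, 0, 0, 0, 0, ⟨0, 0⟩, 0⟩, 0, 0⟩ 0 0) (.cut .d (-2097152) (.void 3 ⟨⟨100000, 0, 0, 0, 0, 0, 0, 0, 0, ⟨0, 0⟩, 0⟩, 0, 0⟩ 0 0) (.cut .d (-1048576) (.void 3 ⟨⟨100000, 0, 0, 0, 0, 0, 0, 0, 0, ⟨0, 0⟩, 0⟩, 0, 0⟩ 0 0) (.cut .d (-524288) (.void 3 ⟨⟨0, 0, 0, 0, 0, 100000, 0, 0, 0, ⟨0, 0⟩, 0⟩, 0, 0⟩ 0 0) (.cut .d (-262144) (.void 3 ⟨⟨0, 0, 0, 0, 0, 100000, 0, 0, 0, ⟨0, 0⟩, 0⟩, 0, 0⟩ 0 0) (.cut .d (-131072)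 (.void 3 ⟨⟨0, 0, 0, 0, 0, 100000, 0, 0, 0, ⟨0, 0⟩, 0⟩, 0, 0⟩ 0 0) (.cut .s 15007744 (.pos 3 .mm ⟨⟨0, 0, 0, 0, 0, 5099213704, 0, 0, 0, ⟨0, 0⟩, 0⟩, 0, 0⟩ 0 0) (.pos 3 .mm ⟨⟨0, 0, 0, 0, 0, 5474913078, 0, 0, 0, ⟨0, 0⟩, 0⟩, 0, 0⟩ 0 0)))))))))) (.cut .v 268435456 (.cut .v 67108864 (.cut .v 33554432 (.cut .d (-8388608) (.void 24 ⟨⟨100086, 0, 0, 0, 0, 0, 0, 0, 0, ⟨0, 0⟩, 0⟩, 0, 0⟩ 0 0) (.cut .d (-4194304) (.void 24 ⟨⟨100000, 0, 0, 0, 0, 0, 0, 0, 0, ⟨0, 0⟩, 0⟩, 0, 0⟩ 0 0) (.cut .v 25165824 (.cut .d (-2097152) (.void 25 ⟨⟨100000, 0, 0, 0, 0, 0, 0, 0, 0, ⟨0, 0⟩, 0⟩, 0, 0⟩ 0 0) (.cut .v 20971520 (.cut .d (-1048576) (.void 27 ⟨⟨100000, 0, 0, 0,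 0, 0, 0, 0, 0, ⟨0, 0⟩, 0⟩, 0, 0⟩ 0 0) (.cut .v 18874368 (.cut .d (-524288) (.void 29 ⟨⟨100000, 0, 0, 0, 0, 0, 0, 0, 0, ⟨0, 0⟩, 0⟩, 0, 0⟩ 0 0) (.cut .v 17825792 (.cut .d (-262144) (.void 31 ⟨⟨100000, 0, 0, 0, 0, 0, 0, 0, 0, ⟨0, 0⟩, 0⟩, 0, 0⟩ 0 0) (.cut .v 17301504 (.cut .d (-131072) (.void 33 ⟨⟨100000, 0, 0, 0, 0, 0, 0, 0, 0, ⟨0, 0⟩, 0⟩, 0, 0⟩ 0 0) (.cut .v 17039360 (.cut .d (-65536) (.void 35 ⟨⟨100000, 0, 0, 0, 0, 0, 0, 0, 0, ⟨0, 0⟩, 0⟩, 0, 0⟩ 0 0) (.cut .v 16908288 (.cut .d (-32768) (.void 37 ⟨⟨100000, 0, 0, 0, 0, 0, 0, 0, 0, ⟨0, 0⟩, 0⟩, 0, 0⟩ 0 0) (.cut .d (-16384) (.void 37 ⟨⟨100000, 0, 0, 0, 0, 0, 0, 0, 0, ⟨0, 0⟩, 0⟩, 0, 0⟩ 0 0)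 (.cut .d (-8192) (.void 37 ⟨⟨100000, 0, 0, 0, 0, 0, 0, 0, 0, ⟨0, 0⟩, 0⟩, 0, 0⟩ 0 0) (.cut .d (-4096) (.void 37 ⟨⟨0, 0, 0, 0, 0, 100000, 0, 0, 0, ⟨0, 0⟩, 0⟩, 0, 0⟩ 0 0) (.cut .s 15007744 (.cut .v 16842752 (.cut .s 14974976 (.cut .v 16809984 (.cut .s 14958592 (.cut .s 14950400 (.cut .d (-2048) (.pos 49 .mp ⟨⟨1964343125, 0, 0, 0, 0, 1152991915, 0, 0, 0, ⟨0, 0⟩, 0⟩, 0, 0⟩ 0 0) (.cut .s 14946304 (.pos 49 .mp ⟨⟨2012610971, 0, 0, 0, 0, 1017246440, 0, 0, 0, ⟨0, 0⟩, 0⟩, 0, 0⟩ 0 0) (.pos 49 .mp ⟨⟨2019655778, 0, 0, 0, 0, 1022695805, 0, 0, 0, ⟨0, 0⟩, 0⟩, 0, 0⟩ 0 0))) (.cut .d (-2048) (.pos 49 .mp ⟨⟨1980152855, 0, 0, 0, 0, 1160820303, 0, 0, 0, ⟨0,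 0⟩, 0⟩, 0, 0⟩ 0 0) (.cut .s 14954496 (.pos 49 .mp ⟨⟨2028740397, 0, 0, 0, 0, 1024270906, 0, 0, 0, ⟨0, 0⟩, 0⟩, 0, 0⟩ 0 0) (.pos 49 .mp ⟨⟨2037790846, 0, 0, 0, 0, 1026111059, 0, 0, 0, ⟨0, 0⟩, 0⟩, 0, 0⟩ 0 0)))) (.cut .s 14966784 (.cut .d (-2048) (.pos 49 .mp ⟨⟨1996141853, 0, 0, 0, 0, 1169147370, 0, 0, 0, ⟨0, 0⟩, 0⟩, 0, 0⟩ 0 0) (.cut .s 14962688 (.pos 49 .mp ⟨⟨2046016161, 0, 0, 0, 0, 1029908945, 0, 0, 0, ⟨0, 0⟩, 0⟩, 0, 0⟩ 0 0) (.pos 49 .mp ⟨⟨2054288855, 0, 0, 0, 0, 1033799541, 0, 0, 0, ⟨0, 0⟩, 0⟩, 0, 0⟩ 0 0))) (.cut .d (-2048) (.pos 49 .mp ⟨⟨2012312526, 0, 0, 0, 0, 1177980159, 0, 0, 0, ⟨0, 0⟩, 0⟩, 0, 0⟩ 0 0) (.cut .s 14970880 (.pos 49 .mp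 ⟨⟨2062609246, 0, 0, 0, 0, 1037783004, 0, 0, 0, ⟨0, 0⟩, 0⟩, 0, 0⟩ 0 0) (.pos 49 .mp ⟨⟨2070977656, 0, 0, 0, 0, 1041859491, 0, 0, 0, ⟨0, 0⟩, 0⟩, 0, 0⟩ 0 0))))) (.pos 50 .mp ⟨⟨2590007688, 0, 0, 0, 0, 0, 0, 0, 0, ⟨0, 0⟩, 0⟩, 0, 0⟩ 0 0)) (.cut .v 16809984 (.cut .s 14991360 (.cut .s 14983168 (.cut .d (-2048) (.pos 49 .mp ⟨⟨2028667320, 0, 0, 0, 0, 1187325839, 0, 0, 0, ⟨0, 0⟩, 0⟩, 0, 0⟩ 0 0) (.cut .s 14979072 (.pos 49 .mp ⟨⟨2079394409, 0, 0, 0, 0, 1046029155, 0, 0, 0, ⟨0, 0⟩, 0⟩, 0, 0⟩ 0 0) (.pos 49 .mp ⟨⟨2087859831, 0, 0, 0, 0, 1050292150, 0, 0, 0, ⟨0, 0⟩, 0⟩, 0, 0⟩ 0 0))) (.cut .d (-2048) (.pos 49 .mp ⟨⟨2045208731, 0, 0, 0, 0, 1197191712,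 0, 0, 0, ⟨0, 0⟩, 0⟩, 0, 0⟩ 0 0) (.cut .s 14987264 (.pos 49 .mp ⟨⟨2096374254, 0, 0, 0, 0, 1054648626, 0, 0, 0, ⟨0, 0⟩, 0⟩, 0, 0⟩ 0 0) (.pos 49 .mp ⟨⟨2104938010, 0, 0, 0, 0, 1059098733, 0, 0, 0, ⟨0, 0⟩, 0⟩, 0, 0⟩ 0 0)))) (.cut .s 14999552 (.cut .d (-2048) (.pos 49 .mp ⟨⟨2061939296, 0, 0, 0, 0, 1207585210, 0, 0, 0, ⟨0, 0⟩, 0⟩, 0, 0⟩ 0 0) (.cut .s 14995456 (.pos 49 .mp ⟨⟨2113551436, 0, 0, 0, 0, 1063642619, 0, 0, 0, ⟨0, 0⟩, 0⟩, 0, 0⟩ 0 0) (.pos 49 .mp ⟨⟨2122214870, 0, 0, 0, 0, 1068280429, 0, 0, 0, ⟨0, 0⟩, 0⟩, 0, 0⟩ 0 0))) (.cut .d (-2048) (.pos 49 .mp ⟨⟨2078861602, 0, 0, 0, 0, 1218513907, 0, 0, 0, ⟨0, 0⟩, 0⟩, 0, 0⟩ 0 0) (.cut .s 15003648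 (.pos 49 .mp ⟨⟨2130928656, 0, 0, 0, 0, 1073012308, 0, 0, 0, ⟨0, 0⟩, 0⟩, 0, 0⟩ 0 0) (.pos 49 .mp ⟨⟨2139693138, 0, 0, 0, 0, 1077838398, 0, 0, 0, ⟨0, 0⟩, 0⟩, 0, 0⟩ 0 0))))) (.pos 50 .mp ⟨⟨2674487534, 0, 0, 0, 0, 0, 0, 0, 0, ⟨0, 0⟩, 0⟩, 0, 0⟩ 0 0))) (.pos 40 .mp ⟨⟨2653858137, 0, 0, 0, 0, 0, 0, 0, 0, ⟨0, 0⟩, 0⟩, 0, 0⟩ 0 0)) (.cut .v 16842752 (.cut .s 15040512 (.cut .v 16809984 (.cut .s 15024128 (.cut .s 15015936 (.cut .d (-2048) (.pos 49 .mp ⟨⟨2095978283, 0, 0, 0, 0, 1229985512, 0, 0, 0, ⟨0, 0⟩, 0⟩, 0, 0⟩ 0 0) (.cut .s 15011840 (.pos 49 .mp ⟨⟨2148508667, 0, 0, 0, 0, 1082758840, 0, 0, 0, ⟨0, 0⟩, 0⟩, 0, 0⟩ 0 0) (.pos 49 .mp ⟨⟨2157375594, 0,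 0, 0, 0, 1087773772, 0, 0, 0, ⟨0, 0⟩, 0⟩, 0, 0⟩ 0 0))) (.cut .d (-2048) (.pos 49 .mp ⟨⟨2113292022, 0, 0, 0, 0, 1242007879, 0, 0, 0, ⟨0, 0⟩, 0⟩, 0, 0⟩ 0 0) (.cut .s 15020032 (.pos 49 .mp ⟨⟨2166294274, 0, 0, 0, 0, 1092883331, 0, 0, 0, ⟨0, 0⟩, 0⟩, 0, 0⟩ 0 0) (.pos 49 .mp ⟨⟨2175265066, 0, 0, 0, 0, 1098087651, 0, 0, 0, ⟨0, 0⟩, 0⟩, 0, 0⟩ 0 0)))) (.cut .s 15032320 (.cut .d (-2048) (.pos 49 .mp ⟨⟨2130805551, 0, 0, 0, 0, 1254589008, 0, 0, 0, ⟨0, 0⟩, 0⟩, 0, 0⟩ 0 0) (.cut .s 15028224 (.pos 49 .mp ⟨⟨2184288332, 0, 0, 0, 0, 1103386865, 0, 0, 0, ⟨0, 0⟩, 0⟩, 0, 0⟩ 0 0) (.pos 49 .mp ⟨⟨2193364438, 0, 0, 0, 0, 1108781104, 0, 0, 0, ⟨0, 0⟩, 0⟩, 0, 0⟩ 0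 0))) (.cut .d (-2048) (.pos 49 .mp ⟨⟨2148521656, 0, 0, 0, 0, 1267737050, 0, 0, 0, ⟨0, 0⟩, 0⟩, 0, 0⟩ 0 0) (.cut .s 15036416 (.pos 49 .mp ⟨⟨2202493753, 0, 0, 0, 0, 1114270496, 0, 0, 0, ⟨0, 0⟩, 0⟩, 0, 0⟩ 0 0) (.pos 49 .mp ⟨⟨2210668149, 0, 0, 0, 0, 1122016074, 0, 0, 0, ⟨0, 0⟩, 0⟩, 0, 0⟩ 0 0))))) (.pos 50 .mp ⟨⟨2764694706, 0, 0, 0, 0, 0, 0, 0, 0, ⟨0, 0⟩, 0⟩, 0, 0⟩ 0 0)) (.cut .v 16809984 (.cut .s 15056896 (.cut .s 15048704 (.cut .d (-2048) (.pos 49 .mp ⟨⟨2166443173, 0, 0, 0, 0, 1281460309, 0, 0, 0, ⟨0, 0⟩, 0⟩, 0, 0⟩ 0 0) (.cut .s 15044608 (.pos 49 .mp ⟨⟨2218800660, 0, 0, 0, 0, 1130071059, 0, 0, 0, ⟨0, 0⟩, 0⟩, 0, 0⟩ 0 0) (.pos 49 .mp ⟨⟨2229945095,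 0, 0, 0, 0, 1132312522, 0, 0, 0, ⟨0, 0⟩, 0⟩, 0, 0⟩ 0 0))) (.cut .s 15052800 (.pos 49 .mp ⟨⟨2217520301, 0, 0, 0, 0, 1185636645, 0, 0, 0, ⟨0, 0⟩, 0⟩, 0, 0⟩ 0 0) (.pos 49 .mp ⟨⟨2233912987, 0, 0, 0, 0, 1177025006, 0, 0, 0, ⟨0, 0⟩, 0⟩, 0, 0⟩ 0 0))) (.cut .s 15065088 (.cut .s 15060992 (.pos 49 .mp ⟨⟨2251716767, 0, 0, 0, 0, 1165704320, 0, 0, 0, ⟨0, 0⟩, 0⟩, 0, 0⟩ 0 0) (.pos 49 .mp ⟨⟨2270189189, 0, 0, 0, 0, 1153198229, 0, 0, 0, ⟨0, 0⟩, 0⟩, 0, 0⟩ 0 0)) (.cut .s 15069184 (.pos 49 .mp ⟨⟨2289336613, 0, 0, 0, 0, 1139494017, 0, 0, 0, ⟨0, 0⟩, 0⟩, 0, 0⟩ 0 0) (.pos 49 .mp ⟨⟨2309165440, 0, 0, 0, 0, 1124578878, 0, 0, 0, ⟨0, 0⟩, 0⟩, 0, 0⟩ 0 0)))) (.pos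 50 .mp ⟨⟨2860753177, 0, 0, 0, 0, 0, 0, 0, 0, ⟨0, 0⟩, 0⟩, 0, 0⟩ 0 0))) (.pos 40 .mp ⟨⟨2835125580, 0, 0, 0, 0, 0, 0, 0, 0, ⟨0, 0⟩, 0⟩, 0, 0⟩ 0 0))))))) (.pos 38 .mp ⟨⟨3011611806, 0, 0, 0, 0, 0, 0, 0, 0, ⟨0, 0⟩, 0⟩, 0, 0⟩ 0 0))) (.void 36 ⟨⟨100000, 0, 0, 0, 0, 0, 0, 0, 0, ⟨0, 0⟩, 0⟩, 0, 0⟩ 0 0))) (.void 34 ⟨⟨100000, 0, 0, 0, 0, 0, 0, 0, 0, ⟨0, 0⟩, 0⟩, 0, 0⟩ 0 0))) (.void 32 ⟨⟨100000, 0, 0, 0, 0, 0, 0, 0, 0, ⟨0, 0⟩, 0⟩, 0, 0⟩ 0 0))) (.void 30 ⟨⟨100000, 0, 0, 0, 0, 0, 0, 0, 0, ⟨0, 0⟩, 0⟩, 0, 0⟩ 0 0))) (.void 28 ⟨⟨100000, 0, 0, 0, 0, 0, 0, 0, 0, ⟨0, 0⟩, 0⟩, 0, 0⟩ 0 0))) (.void 26 ⟨⟨100000, 0, 0, 0, 0, 0, 0, 0, 0, ⟨0, 0⟩, 0⟩, 0, 0⟩ 0 0))))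 (.void 91 ⟨⟨100000, 0, 0, 0, 0, 0, 0, 0, 0, ⟨0, 0⟩, 0⟩, 0, 0⟩ 0 0)) (.void 98 ⟨⟨100321, 0, 0, 0, 0, 0, 0, 0, 0, ⟨0, 0⟩, 0⟩, 0, 0⟩ 0 0)) (.void 117 ⟨⟨94685, 0, 0, 5317, 0, 0, 0, 0, 0, ⟨0, 0⟩, 0⟩, 0, 0⟩ 0 0))) (.cut .v 16777216 (.cut .v 8388608 (.cut .v 4194304 (.cut .v 2097152 (.cut .v 1048576 (.cut .v 524288 (.pos 122 .pm ⟨⟨0, 0, 31647847, 0, 0, 0, 0, 0, 0, ⟨0, 0⟩, 0⟩, 0, 25⟩ 0 0) (.pos 123 .pm ⟨⟨0, 0, 48595698, 0, 0, 0, 0, 0, 0, ⟨0, 0⟩, 0⟩, 0, 74⟩ 0 0)) (.pos 114 .pm ⟨⟨0, 0, 74997964, 0, 0, 0, 0, 0, 0, ⟨0, 0⟩, 0⟩, 0, 144⟩ 0 0)) (.pos 7 .pm ⟨⟨0, 0, 132819774, 0, 0, 0, 0, 0, 0, ⟨0, 0⟩, 0⟩, 0, 271⟩ 0 0)) (.pos 5 .pm ⟨⟨0, 0, 433270255,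 0, 0, 0, 0, 0, 0, ⟨0, 0⟩, 0⟩, 0, 747⟩ 0 0)) (.pos 3 .pm ⟨⟨0, 0, 0, 0, 0, 0, 0, 0, 0, ⟨0, 0⟩, 0⟩, 0, 0⟩ 0 0)) (.cut .v 268435456 (.cut .v 67108864 (.cut .d 1030181 (.cut .d 515090 (.cut .v 33554432 (.cut .d 257545 (.cut .v 25165824 (.cut .d 128772 (.cut .v 20971520 (.cut .d 64386 (.cut .v 18874368 (.cut .v 17825792 (.cut .s 15007744 (.pos 31 .pp ⟨⟨1679706133, 0, 0, 0, 0, 0, 0, 0, 0, ⟨0, 0⟩, 0⟩, 95441075, 0⟩ 0 0) (.pos 31 .pp ⟨⟨1803662685, 0, 0, 0, 0, 0, 0, 0, 0, ⟨0, 0⟩, 0⟩, 100553853, 0⟩ 0 0)) (.pos 32 .pp ⟨⟨2847885151, 0, 0, 0, 0, 0, 0, 0, 0, ⟨0, 0⟩, 0⟩, 0, 0⟩ 0 0)) (.pos 30 .pp ⟨⟨3375628645, 0, 0, 0, 0, 0, 0, 0, 0, ⟨0, 0⟩, 0⟩, 0, 0⟩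 0 0)) (.pos 27 .pp ⟨⟨0, 0, 0, 0, 0, 0, 0, 0, 0, ⟨0, 0⟩, 0⟩, 249327445, 571⟩ 0 0)) (.cut .d 64386 (.pos 28 .pp ⟨⟨0, 0, 0, 0, 0, 0, 0, 0, 0, ⟨0, 0⟩, 0⟩, 456492502, 0⟩ 0 0) (.pos 28 .pp ⟨⟨0, 0, 0, 0, 0, 0, 0, 0, 0, ⟨0, 0⟩, 0⟩, 372983992, 0⟩ 0 0))) (.pos 25 .pp ⟨⟨0, 0, 0, 0, 0, 0, 0, 0, 0, ⟨0, 0⟩, 0⟩, 227929718, 682⟩ 0 0)) (.pos 26 .pp ⟨⟨0, 0, 0, 0, 0, 0, 0, 0, 0, ⟨0, 0⟩, 0⟩, 542041904, 0⟩ 0 0)) (.pos 24 .pp ⟨⟨0, 0, 0, 0, 0, 0, 0, 0, 0, ⟨0, 0⟩, 0⟩, 206241056, 795⟩ 0 0)) (.cut .d 257545 (.void 91 ⟨⟨0, 0, 0, 0, 0, 0, 0, 0, 0, ⟨0, 0⟩, 0⟩, 100000, 0⟩ 0 0) (.pos 91 .pp ⟨⟨0, 0, 0, 0, 0, 0, 0, 0, 0, ⟨0, 0⟩, 0⟩, 657872867, 0⟩ 0 0))) (.pos 90 .pp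 ⟨⟨0, 0, 0, 0, 0, 0, 0, 0, 0, ⟨0, 0⟩, 0⟩, 198650162, 834⟩ 0 0)) (.pos 90 .pp ⟨⟨0, 0, 0, 0, 0, 0, 0, 0, 0, ⟨0, 0⟩, 0⟩, 0, 1868⟩ 0 0)) (.void 98 ⟨⟨0, 0, 0, 49187, 0, 0, 0, 0, 0, ⟨0, 0⟩, 0⟩, 50813, 0⟩ 0 0)) (.void 117 ⟨⟨0, 0, 0, 0, 0, 0, 0, 0, 0, ⟨0, 0⟩, 0⟩, 100000, 0⟩ 0 0)))),
    by decide +kernel⟩

def covers33 : cell.Covers Vale.Agent.P237.Petty.Cor.Grid.N15.table row33.1 :=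
  ⟨(.cut .d 0 (.cut .v 16777216 (.cut .v 8388608 (.void 2 ⟨⟨0, 0, 100000, 0, 0, 0, 0, 0, 0, ⟨0, 0⟩, 0⟩, 0, 0⟩ 0 0) (.cut .d (-8388608) (.void 3 ⟨⟨100000, 0, 0, 0, 0, 0, 0, 0, 0, ⟨0, 0⟩, 0⟩, 0, 0⟩ 0 0) (.cut .d (-4194304) (.void 3 ⟨⟨100000, 0, 0, 0, 0, 0, 0, 0, 0, ⟨0, 0⟩, 0⟩, 0, 0⟩ 0 0) (.cut .d (-2097152) (.void 3 ⟨⟨100000, 0, 0, 0, 0, 0, 0, 0, 0, ⟨0, 0⟩, 0⟩, 0, 0⟩ 0 0) (.cut .d (-1048576) (.void 3 ⟨⟨100000, 0, 0, 0, 0, 0, 0, 0, 0, ⟨0, 0⟩, 0⟩, 0, 0⟩ 0 0) (.cut .d (-524288) (.void 3 ⟨⟨83173, 0, 16827, 0, 0, 0, 0, 0, 0, ⟨0, 0⟩, 0⟩, 0, 0⟩ 0 0) (.cut .d (-262144) (.void 3 ⟨⟨0, 0, 0, 0, 0, 100000, 0, 0, 0, ⟨0, 0⟩, 0⟩, 0, 0⟩ 0 0) (.cut .s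 15122432 (.cut .d (-131072) (.void 3 ⟨⟨0, 0, 0, 0, 0, 100000, 0, 0, 0, ⟨0, 0⟩, 0⟩, 0, 0⟩ 0 0) (.pos 3 .mm ⟨⟨0, 0, 0, 0, 0, 5785232301, 0, 0, 0, ⟨0, 0⟩, 0⟩, 0, 0⟩ 0 0)) (.pos 3 .mm ⟨⟨0, 0, 0, 0, 0, 6406020948, 0, 0, 0, ⟨0, 0⟩, 0⟩, 0, 0⟩ 0 0))))))))) (.cut .v 268435456 (.cut .v 67108864 (.cut .v 33554432 (.cut .d (-8388608) (.void 24 ⟨⟨100021, 0, 0, 0, 0, 0, 0, 0, 0, ⟨0, 0⟩, 0⟩, 0, 0⟩ 0 0) (.cut .d (-4194304) (.void 24 ⟨⟨100000, 0, 0, 0, 0, 0, 0, 0, 0, ⟨0, 0⟩, 0⟩, 0, 0⟩ 0 0) (.cut .v 25165824 (.cut .d (-2097152) (.void 25 ⟨⟨100000, 0, 0, 0, 0, 0, 0, 0, 0, ⟨0, 0⟩, 0⟩, 0, 0⟩ 0 0) (.cut .v 20971520 (.cut .d (-1048576) (.void 27 ⟨⟨100000,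 0, 0, 0, 0, 0, 0, 0, 0, ⟨0, 0⟩, 0⟩, 0, 0⟩ 0 0) (.cut .v 18874368 (.cut .d (-524288) (.void 29 ⟨⟨100000, 0, 0, 0, 0, 0, 0, 0, 0, ⟨0, 0⟩, 0⟩, 0, 0⟩ 0 0) (.cut .v 17825792 (.cut .d (-262144) (.void 31 ⟨⟨100000, 0, 0, 0, 0, 0, 0, 0, 0, ⟨0, 0⟩, 0⟩, 0, 0⟩ 0 0) (.cut .s 15122432 (.cut .v 17301504 (.cut .d (-131072) (.void 33 ⟨⟨100000, 0, 0, 0, 0, 0, 0, 0, 0, ⟨0, 0⟩, 0⟩, 0, 0⟩ 0 0) (.cut .s 15097856 (.cut .v 17039360 (.cut .d (-65536) (.void 35 ⟨⟨100000, 0, 0, 0, 0, 0, 0, 0, 0, ⟨0, 0⟩, 0⟩, 0, 0⟩ 0 0) (.cut .s 15085568 (.cut .d (-32768) (.void 35 ⟨⟨100000, 0, 0, 0, 0, 0, 0, 0, 0, ⟨0, 0⟩, 0⟩, 0, 0⟩ 0 0) (.cut .d (-16384) (.void 35 ⟨⟨100000, 0,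 0, 0, 0, 0, 0, 0, 0, ⟨0, 0⟩, 0⟩, 0, 0⟩ 0 0) (.cut .d (-8192) (.void 35 ⟨⟨100000, 0, 0, 0, 0, 0, 0, 0, 0, ⟨0, 0⟩, 0⟩, 0, 0⟩ 0 0) (.cut .s 15079424 (.cut .s 15076352 (.cut .d (-4096) (.void 35 ⟨⟨0, 0, 0, 0, 0, 100000, 0, 0, 0, ⟨0, 0⟩, 0⟩, 0, 0⟩ 0 0) (.pos 35 .mp ⟨⟨2375621821, 0, 0, 0, 0, 1018082121, 0, 0, 0, ⟨0, 0⟩, 0⟩, 0, 0⟩ 0 0)) (.pos 35 .mp ⟨⟨2458991739, 0, 0, 0, 0, 987581975, 0, 0, 0, ⟨0, 0⟩, 0⟩, 0, 0⟩ 0 0)) (.pos 35 .mp ⟨⟨2613264384, 0, 0, 0, 0, 833705583, 0, 0, 0, ⟨0, 0⟩, 0⟩, 0, 0⟩ 0 0))))) (.pos 35 .mp ⟨⟨3111933570, 0, 0, 0, 0, 0, 0, 0, 0, ⟨0, 0⟩, 0⟩, 0, 0⟩ 0 0))) (.void 36 ⟨⟨100000, 0, 0, 0, 0, 0, 0, 0, 0, ⟨0, 0⟩, 0⟩, 0, 0⟩ 0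 0)) (.pos 33 .mp ⟨⟨3287906522, 0, 0, 0, 0, 34847250, 0, 0, 0, ⟨0, 0⟩, 0⟩, 0, 0⟩ 0 0))) (.void 34 ⟨⟨100000, 0, 0, 0, 0, 0, 0, 0, 0, ⟨0, 0⟩, 0⟩, 0, 0⟩ 0 0)) (.pos 31 .mp ⟨⟨3509151562, 0, 0, 0, 0, 479480456, 0, 0, 0, ⟨0, 0⟩, 0⟩, 0, 0⟩ 0 0))) (.void 32 ⟨⟨100000, 0, 0, 0, 0, 0, 0, 0, 0, ⟨0, 0⟩, 0⟩, 0, 0⟩ 0 0))) (.void 30 ⟨⟨100000, 0, 0, 0, 0, 0, 0, 0, 0, ⟨0, 0⟩, 0⟩, 0, 0⟩ 0 0))) (.void 28 ⟨⟨100000, 0, 0, 0, 0, 0, 0, 0, 0, ⟨0, 0⟩, 0⟩, 0, 0⟩ 0 0))) (.void 26 ⟨⟨100000, 0, 0, 0, 0, 0, 0, 0, 0, ⟨0, 0⟩, 0⟩, 0, 0⟩ 0 0)))) (.void 91 ⟨⟨100000, 0, 0, 0, 0, 0, 0, 0, 0, ⟨0, 0⟩, 0⟩, 0, 0⟩ 0 0)) (.void 98 ⟨⟨99951, 0, 0, 0, 0, 0, 0, 0, 0, ⟨0, 0⟩, 0⟩, 0,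 0⟩ 0 0)) (.void 117 ⟨⟨94974, 0, 0, 5367, 0, 0, 0, 0, 0, ⟨0, 0⟩, 0⟩, 0, 0⟩ 0 0))) (.cut .v 16777216 (.cut .v 8388608 (.cut .v 4194304 (.cut .v 2097152 (.cut .v 1048576 (.cut .v 524288 (.pos 122 .pm ⟨⟨0, 0, 35928607, 0, 0, 0, 0, 0, 0, ⟨0, 0⟩, 0⟩, 0, 40⟩ 0 0) (.pos 123 .pm ⟨⟨0, 0, 60793419, 0, 0, 0, 0, 0, 0, ⟨0, 0⟩, 0⟩, 0, 74⟩ 0 0)) (.pos 114 .pm ⟨⟨0, 0, 99861823, 0, 0, 0, 0, 0, 0, ⟨0, 0⟩, 0⟩, 0, 144⟩ 0 0)) (.pos 7 .pm ⟨⟨0, 0, 183826609, 0, 0, 0, 0, 0, 0, ⟨0, 0⟩, 0⟩, 0, 271⟩ 0 0)) (.pos 5 .pm ⟨⟨0, 0, 617303365, 0, 0, 0, 0, 0, 0, ⟨0, 0⟩, 0⟩, 0, 488⟩ 0 0)) (.pos 3 .pm ⟨⟨0, 0, 0, 0, 0, 0, 0, 0, 0, ⟨0, 0⟩, 0⟩, 0, 0⟩ 0 0)) (.cut .v 268435456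 (.cut .v 67108864 (.cut .d 948278 (.cut .d 474139 (.cut .v 33554432 (.cut .d 237069 (.cut .v 25165824 (.cut .d 118534 (.cut .v 20971520 (.cut .d 59267 (.cut .v 18874368 (.cut .v 17825792 (.pos 31 .pp ⟨⟨2434423023, 0, 0, 0, 0, 0, 0, 0, 0, ⟨0, 0⟩, 0⟩, 49843092, 0⟩ 0 0) (.pos 32 .pp ⟨⟨3211522814, 0, 0, 0, 0, 0, 0, 0, 0, ⟨0, 0⟩, 0⟩, 0, 0⟩ 0 0)) (.pos 30 .pp ⟨⟨3775047947, 0, 0, 0, 0, 0, 0, 0, 0, ⟨0, 0⟩, 0⟩, 0, 0⟩ 0 0)) (.pos 27 .pp ⟨⟨0, 0, 0, 0, 0, 0, 0, 0, 0, ⟨0, 0⟩, 0⟩, 284759490, 374⟩ 0 0)) (.cut .d 59267 (.pos 28 .pp ⟨⟨0, 0, 0, 0, 0, 0, 0, 0, 0, ⟨0, 0⟩, 0⟩, 1050300913, 0⟩ 0 0) (.pos 28 .pp ⟨⟨0, 0, 0, 0, 0, 0, 0, 0, 0, ⟨0, 0⟩, 0⟩, 422269161,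 0⟩ 0 0))) (.pos 25 .pp ⟨⟨0, 0, 0, 0, 0, 0, 0, 0, 0, ⟨0, 0⟩, 0⟩, 261082944, 444⟩ 0 0)) (.pos 26 .pp ⟨⟨0, 0, 0, 0, 0, 0, 0, 0, 0, ⟨0, 0⟩, 0⟩, 601873257, 0⟩ 0 0)) (.pos 24 .pp ⟨⟨0, 0, 0, 0, 0, 0, 0, 0, 0, ⟨0, 0⟩, 0⟩, 238039952, 513⟩ 0 0)) (.cut .d 237069 (.void 91 ⟨⟨0, 0, 0, 0, 0, 0, 0, 0, 0, ⟨0, 0⟩, 0⟩, 100000, 0⟩ 0 0) (.pos 91 .pp ⟨⟨0, 0, 0, 0, 0, 0, 0, 0, 0, ⟨0, 0⟩, 0⟩, 741004488, 0⟩ 0 0))) (.pos 90 .pp ⟨⟨0, 0, 0, 0, 0, 0, 0, 0, 0, ⟨0, 0⟩, 0⟩, 239849255, 507⟩ 0 0)) (.pos 90 .pp ⟨⟨0, 0, 0, 0, 0, 0, 0, 0, 0, ⟨0, 0⟩, 0⟩, 0, 1221⟩ 0 0)) (.void 98 ⟨⟨0, 0, 0, 49326, 0, 0, 0, 0, 0, ⟨0, 0⟩, 0⟩, 50674, 0⟩ 0 0)) (.void 117 ⟨⟨0, 0, 0, 49326, 0,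 0, 0, 0, 0, ⟨0, 0⟩, 0⟩, 50674, 0⟩ 0 0)))),
    by decide +kernel⟩

def covers34 : cell.Covers Vale.Agent.P237.Petty.Cor.Grid.N15.table row34.1 :=
  ⟨(.cut .d 0 (.cut .v 16777216 (.cut .v 8388608 (.void 2 ⟨⟨0, 0, 100000, 0, 0, 0, 0, 0, 0, ⟨0, 0⟩, 0⟩, 0, 0⟩ 0 0) (.cut .d (-8388608) (.void 3 ⟨⟨100000, 0, 0, 0, 0, 0, 0, 0, 0, ⟨0, 0⟩, 0⟩, 0, 0⟩ 0 0) (.cut .d (-4194304) (.void 3 ⟨⟨100000, 0, 0, 0, 0, 0, 0, 0, 0, ⟨0, 0⟩, 0⟩, 0, 0⟩ 0 0) (.cut .d (-2097152) (.void 3 ⟨⟨100000, 0, 0, 0, 0, 0, 0, 0, 0, ⟨0, 0⟩, 0⟩, 0, 0⟩ 0 0) (.pos 3 .mm ⟨⟨0, 0, 0, 0, 0, 10967810935, 0, 0, 0, ⟨0, 0⟩, 0⟩, 0, 0⟩ 0 0))))) (.cut .v 268435456 (.cut .v 67108864 (.cut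 .v 33554432 (.cut .d (-8388608) (.void 24 ⟨⟨100000, 0, 0, 0, 0, 0, 0, 0, 0, ⟨0, 0⟩, 0⟩, 0, 0⟩ 0 0) (.cut .d (-4194304) (.void 24 ⟨⟨100000, 0, 0, 0, 0, 0, 0, 0, 0, ⟨0, 0⟩, 0⟩, 0, 0⟩ 0 0) (.cut .v 25165824 (.cut .d (-2097152) (.void 25 ⟨⟨100000, 0, 0, 0, 0, 0, 0, 0, 0, ⟨0, 0⟩, 0⟩, 0, 0⟩ 0 0) (.cut .v 20971520 (.cut .d (-1048576) (.void 27 ⟨⟨100000, 0, 0, 0, 0, 0, 0, 0, 0, ⟨0, 0⟩, 0⟩, 0, 0⟩ 0 0) (.pos 27 .mp ⟨⟨4246910894, 0, 0, 0, 0, 3834436696, 0, 0, 0, ⟨0, 0⟩, 0⟩, 0, 0⟩ 0 0)) (.void 28 ⟨⟨100000, 0, 0, 0, 0, 0, 0, 0, 0, ⟨0, 0⟩, 0⟩, 0, 0⟩ 0 0))) (.void 26 ⟨⟨100000, 0, 0, 0, 0, 0, 0, 0, 0, ⟨0, 0⟩, 0⟩, 0, 0⟩ 0 0)))) (.void 91 ⟨⟨100000, 0,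 0, 0, 0, 0, 0, 0, 0, ⟨0, 0⟩, 0⟩, 0, 0⟩ 0 0)) (.void 98 ⟨⟨100282, 0, 0, 0, 0, 0, 0, 0, 0, ⟨0, 0⟩, 0⟩, 0, 0⟩ 0 0)) (.void 117 ⟨⟨94618, 0, 0, 5382, 0, 0, 0, 0, 0, ⟨0, 0⟩, 0⟩, 0, 0⟩ 0 0))) (.cut .v 16777216 (.cut .v 8388608 (.cut .v 4194304 (.cut .v 2097152 (.cut .v 1048576 (.cut .v 524288 (.pos 122 .pm ⟨⟨0, 0, 40453222, 0, 0, 0, 0, 0, 0, ⟨0, 0⟩, 0⟩, 0, 28⟩ 0 0) (.pos 123 .pm ⟨⟨0, 0, 73454095, 0, 0, 0, 0, 0, 0, ⟨0, 0⟩, 0⟩, 0, 84⟩ 0 0)) (.pos 114 .pm ⟨⟨0, 0, 125034240, 0, 0, 0, 0, 0, 0, ⟨0, 0⟩, 0⟩, 0, 162⟩ 0 0)) (.pos 7 .pm ⟨⟨0, 0, 238884712, 0, 0, 0, 0, 0, 0, ⟨0, 0⟩, 0⟩, 0, 435⟩ 0 0)) (.pos 5 .pm ⟨⟨0, 0, 793539435, 0, 0, 0, 0, 0, 0, ⟨0,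 0⟩, 0⟩, 0, 783⟩ 0 0)) (.pos 3 .pm ⟨⟨0, 0, 0, 0, 0, 0, 0, 0, 0, ⟨0, 0⟩, 0⟩, 0, 0⟩ 0 0)) (.cut .v 268435456 (.cut .v 67108864 (.cut .d 887780 (.cut .d 443890 (.cut .v 33554432 (.cut .d 221945 (.cut .v 25165824 (.cut .d 110972 (.cut .v 20971520 (.cut .d 55486 (.cut .v 18874368 (.cut .v 17825792 (.pos 31 .pp ⟨⟨3167098113, 0, 0, 0, 0, 0, 0, 0, 0, ⟨0, 0⟩, 0⟩, 0, 804⟩ 0 0) (.pos 32 .pp ⟨⟨3576954557, 0, 0, 0, 0, 0, 0, 0, 0, ⟨0, 0⟩, 0⟩, 0, 907⟩ 0 0)) (.pos 30 .pp ⟨⟨4222827668, 0, 0, 0, 0, 0, 2080, 0, 0, ⟨0, 0⟩, 0⟩, 0, 0⟩ 0 0)) (.pos 27 .pp ⟨⟨0, 0, 0, 0, 0, 0, 0, 0, 0, ⟨0, 0⟩, 0⟩, 316218357, 1359⟩ 0 0)) (.cut .d 55486 (.pos 28 .pp ⟨⟨0, 0, 0,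 0, 0, 0, 1776, 0, 0, ⟨0, 0⟩, 0⟩, 571533049, 0⟩ 0 0) (.pos 28 .pp ⟨⟨0, 0, 0, 0, 0, 0, 2245, 0, 0, ⟨0, 0⟩, 0⟩, 468675866, 0⟩ 0 0))) (.pos 25 .pp ⟨⟨0, 0, 0, 0, 0, 0, 0, 0, 0, ⟨0, 0⟩, 0⟩, 290617452, 1407⟩ 0 0)) (.pos 26 .pp ⟨⟨0, 0, 0, 0, 0, 0, 2056, 0, 0, ⟨0, 0⟩, 0⟩, 671366182, 0⟩ 0 0)) (.pos 24 .pp ⟨⟨0, 0, 0, 0, 0, 0, 0, 0, 0, ⟨0, 0⟩, 0⟩, 266594028, 1453⟩ 0 0)) (.cut .d 221945 (.void 91 ⟨⟨0, 0, 0, 0, 0, 0, 0, 0, 0, ⟨0, 0⟩, 0⟩, 100000, 0⟩ 0 0) (.pos 91 .pp ⟨⟨0, 0, 0, 0, 0, 0, 1517, 0, 0, ⟨0, 0⟩, 0⟩, 832851224, 0⟩ 0 0))) (.cut .v 33554432 (.pos 24 .pp ⟨⟨0, 0, 0, 0, 0, 0, 0, 0, 0, ⟨0, 0⟩, 0⟩, 0, 1958⟩ 0 0) (.pos 91 .pp ⟨⟨0, 0, 0, 0, 0, 0,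 4470, 0, 0, ⟨0, 0⟩, 0⟩, 443341223, 0⟩ 0 0))) (.pos 90 .pp ⟨⟨0, 0, 0, 0, 0, 0, 0, 0, 0, ⟨0, 0⟩, 0⟩, 0, 1958⟩ 0 0)) (.void 98 ⟨⟨0, 0, 0, 49465, 0, 0, 0, 0, 0, ⟨0, 0⟩, 0⟩, 50535, 0⟩ 0 0)) (.void 117 ⟨⟨0, 0, 0, 0, 0, 0, 0, 0, 0, ⟨0, 0⟩, 0⟩, 100000, 0⟩ 0 0)))),
    by decide +kernel⟩

def covers35 : cell.Covers Vale.Agent.P237.Petty.Cor.Grid.N15.table row35.1 :=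
  ⟨(.cut .d 0 (.cut .v 16777216 (.cut .v 8388608 (.void 2 ⟨⟨0, 0, 100000, 0, 0, 0, 0, 0, 0, ⟨0, 0⟩, 0⟩, 0, 0⟩ 0 0) (.cut .d (-8388608) (.void 3 ⟨⟨100000, 0, 0, 0, 0, 0, 0, 0, 0, ⟨0, 0⟩, 0⟩, 0, 0⟩ 0 0) (.cut .d (-4194304) (.void 3 ⟨⟨100000, 0, 0, 0, 0, 0, 0, 0, 0, ⟨0, 0⟩, 0⟩, 0, 0⟩ 0 0) (.cut .d (-2097152) (.void 3 ⟨⟨100000, 0, 0, 0, 0, 0, 0, 0, 0, ⟨0, 0⟩, 0⟩, 0, 0⟩ 0 0) (.pos 3 .mm ⟨⟨0, 0, 0, 0, 0, 12969494768, 0, 0, 0, ⟨0, 0⟩, 0⟩, 0, 0⟩ 0 0))))) (.cut .v 268435456 (.cut .v 67108864 (.cut .v 33554432 (.cut .d (-8388608) (.void 24 ⟨⟨100000, 0, 0, 0, 0, 0, 0, 0, 0, ⟨0, 0⟩, 0⟩, 0, 0⟩ 0 0) (.cut .d (-4194304) (.void 24 ⟨⟨100000, 0, 0, 0,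 0, 0, 0, 0, 0, ⟨0, 0⟩, 0⟩, 0, 0⟩ 0 0) (.cut .v 25165824 (.cut .d (-2097152) (.void 25 ⟨⟨100000, 0, 0, 0, 0, 0, 0, 0, 0, ⟨0, 0⟩, 0⟩, 0, 0⟩ 0 0) (.cut .v 20971520 (.cut .d (-1048576) (.void 27 ⟨⟨100000, 0, 0, 0, 0, 0, 0, 0, 0, ⟨0, 0⟩, 0⟩, 0, 0⟩ 0 0) (.pos 27 .mp ⟨⟨4933687677, 0, 0, 0, 0, 4546504040, 0, 0, 0, ⟨0, 0⟩, 0⟩, 0, 0⟩ 0 0)) (.void 28 ⟨⟨100000, 0, 0, 0, 0, 0, 0, 0, 0, ⟨0, 0⟩, 0⟩, 0, 0⟩ 0 0))) (.void 26 ⟨⟨100000, 0, 0, 0, 0, 0, 0, 0, 0, ⟨0, 0⟩, 0⟩, 0, 0⟩ 0 0)))) (.void 91 ⟨⟨100000, 0, 0, 0, 0, 0, 0, 0, 0, ⟨0, 0⟩, 0⟩, 0, 0⟩ 0 0)) (.void 98 ⟨⟨100000, 0, 0, 0, 0, 0, 0, 0, 0, ⟨0, 0⟩, 0⟩, 0, 0⟩ 0 0)) (.void 117 ⟨⟨94454, 0, 0, 5425, 0,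 0, 0, 0, 0, ⟨0, 0⟩, 0⟩, 0, 0⟩ 0 0))) (.cut .v 16777216 (.cut .v 8388608 (.cut .v 4194304 (.cut .v 2097152 (.cut .v 1048576 (.cut .v 524288 (.pos 122 .pm ⟨⟨0, 0, 47351019, 0, 0, 0, 0, 0, 0, ⟨0, 0⟩, 0⟩, 0, 17⟩ 0 0) (.pos 123 .pm ⟨⟨0, 0, 91414814, 0, 0, 0, 0, 0, 0, ⟨0, 0⟩, 0⟩, 0, 50⟩ 0 0)) (.pos 114 .pm ⟨⟨0, 0, 159559315, 0, 0, 0, 0, 0, 0, ⟨0, 0⟩, 0⟩, 0, 97⟩ 0 0)) (.pos 7 .pm ⟨⟨0, 0, 314046795, 0, 0, 0, 0, 0, 0, ⟨0, 0⟩, 0⟩, 0, 306⟩ 0 0)) (.pos 5 .pm ⟨⟨0, 0, 1011659489, 0, 0, 0, 0, 0, 0, ⟨0, 0⟩, 0⟩, 0, 551⟩ 0 0)) (.pos 3 .pm ⟨⟨0, 0, 0, 0, 0, 0, 0, 0, 0, ⟨0, 0⟩, 0⟩, 0, 0⟩ 0 0)) (.cut .v 268435456 (.cut .v 67108864 (.cut .d 828061 (.cut .d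 414030 (.cut .v 33554432 (.cut .d 207015 (.cut .v 25165824 (.cut .d 103507 (.cut .v 20971520 (.cut .d 51753 (.cut .v 18874368 (.cut .v 17825792 (.cut .s 15335424 (.pos 31 .pp ⟨⟨3514433710, 0, 0, 0, 0, 0, 0, 0, 0, ⟨0, 0⟩, 0⟩, 0, 588⟩ 0 0) (.pos 31 .pp ⟨⟨3791524947, 0, 0, 0, 0, 0, 0, 0, 0, ⟨0, 0⟩, 0⟩, 0, 461⟩ 0 0)) (.pos 32 .pp ⟨⟨4061106095, 0, 0, 0, 0, 0, 0, 0, 0, ⟨0, 0⟩, 0⟩, 0, 563⟩ 0 0)) (.pos 30 .pp ⟨⟨4847985803, 0, 0, 0, 0, 0, 1286, 0, 0, ⟨0, 0⟩, 0⟩, 0, 0⟩ 0 0)) (.pos 27 .pp ⟨⟨0, 0, 0, 0, 0, 0, 356, 0, 0, ⟨0, 0⟩, 0⟩, 352946907, 786⟩ 0 0)) (.cut .d 51753 (.pos 28 .pp ⟨⟨0, 0, 0, 0, 0, 0, 1061, 0, 0, ⟨0, 0⟩, 0⟩, 691481638, 0⟩ 0 0) (.pos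 28 .pp ⟨⟨0, 0, 0, 0, 0, 0, 1552, 0, 0, ⟨0, 0⟩, 0⟩, 532282227, 0⟩ 0 0))) (.pos 25 .pp ⟨⟨0, 0, 0, 0, 0, 0, 0, 0, 0, ⟨0, 0⟩, 0⟩, 325200331, 996⟩ 0 0)) (.pos 26 .pp ⟨⟨0, 0, 0, 0, 0, 0, 1422, 0, 0, ⟨0, 0⟩, 0⟩, 771907376, 0⟩ 0 0)) (.pos 24 .pp ⟨⟨0, 0, 0, 0, 0, 0, 0, 0, 0, ⟨0, 0⟩, 0⟩, 300257225, 1025⟩ 0 0)) (.cut .d 207015 (.void 91 ⟨⟨0, 0, 0, 0, 0, 0, 0, 0, 0, ⟨0, 0⟩, 0⟩, 100000, 0⟩ 0 0) (.pos 91 .pp ⟨⟨0, 0, 0, 0, 0, 0, 1004, 0, 0, ⟨0, 0⟩, 0⟩, 962837246, 0⟩ 0 0))) (.cut .v 33554432 (.pos 24 .pp ⟨⟨0, 0, 0, 0, 0, 0, 0, 0, 0, ⟨0, 0⟩, 0⟩, 0, 1376⟩ 0 0) (.pos 91 .pp ⟨⟨0, 0, 0, 0, 0, 0, 3113, 0, 0, ⟨0, 0⟩, 0⟩, 511770029, 0⟩ 0 0))) (.pos 90 .pp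 ⟨⟨0, 0, 0, 0, 0, 0, 0, 0, 0, ⟨0, 0⟩, 0⟩, 0, 1376⟩ 0 0)) (.void 98 ⟨⟨0, 0, 0, 49649, 0, 0, 0, 0, 0, ⟨0, 0⟩, 0⟩, 50351, 0⟩ 0 0)) (.void 117 ⟨⟨0, 0, 0, 0, 0, 0, 0, 0, 0, ⟨0, 0⟩, 0⟩, 100000, 0⟩ 0 0)))),
    by decide +kernel⟩

def covers36 : cell.Covers Vale.Agent.P237.Petty.Cor.Grid.N15.table row36.1 :=
  ⟨(.cut .d 0 (.cut .v 16777216 (.cut .v 8388608 (.pos 2 .mm ⟨⟨0, 0, 1677721600000000, 0, 0, 0, 0, 0, 0, ⟨0, 0⟩, 0⟩, 0, 0⟩ 0 0) (.cut .d (-8388608) (.void 3 ⟨⟨100000, 0, 0, 0, 0, 0, 0, 0, 0, ⟨0, 0⟩, 0⟩, 0, 0⟩ 0 0) (.cut .d (-4194304) (.void 3 ⟨⟨100000, 0, 0, 0, 0, 0, 0, 0, 0, ⟨0, 0⟩, 0⟩, 0, 0⟩ 0 0) (.cut .d (-2097152) (.void 3 ⟨⟨100000,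 0, 0, 0, 0, 0, 0, 0, 0, ⟨0, 0⟩, 0⟩, 0, 0⟩ 0 0) (.pos 3 .mm ⟨⟨0, 0, 0, 0, 0, 15501587692, 0, 0, 0, ⟨0, 0⟩, 0⟩, 0, 0⟩ 0 0))))) (.cut .v 268435456 (.cut .v 67108864 (.cut .v 33554432 (.cut .d (-8388608) (.void 24 ⟨⟨100754, 0, 0, 0, 0, 0, 0, 0, 0, ⟨0, 0⟩, 0⟩, 0, 0⟩ 0 0) (.cut .d (-4194304) (.void 24 ⟨⟨100000, 0, 0, 0, 0, 0, 0, 0, 0, ⟨0, 0⟩, 0⟩, 0, 0⟩ 0 0) (.cut .v 25165824 (.cut .d (-2097152) (.void 25 ⟨⟨100000, 0, 0, 0, 0, 0, 0, 0, 0, ⟨0, 0⟩, 0⟩, 0, 0⟩ 0 0) (.cut .v 20971520 (.cut .d (-1048576) (.void 27 ⟨⟨100000, 0, 0, 0, 0, 0, 0, 0, 0, ⟨0, 0⟩, 0⟩, 0, 0⟩ 0 0) (.pos 27 .mp ⟨⟨5831928212, 0, 0, 0, 0, 5388141174, 0, 0, 0, ⟨0, 0⟩, 0⟩, 0, 0⟩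 0 0)) (.void 28 ⟨⟨100000, 0, 0, 0, 0, 0, 0, 0, 0, ⟨0, 0⟩, 0⟩, 0, 0⟩ 0 0))) (.void 26 ⟨⟨100000, 0, 0, 0, 0, 0, 0, 0, 0, ⟨0, 0⟩, 0⟩, 0, 0⟩ 0 0)))) (.void 91 ⟨⟨100000, 0, 0, 0, 0, 0, 0, 0, 0, ⟨0, 0⟩, 0⟩, 0, 0⟩ 0 0)) (.void 98 ⟨⟨100000, 0, 0, 0, 0, 0, 0, 0, 0, ⟨0, 0⟩, 0⟩, 0, 0⟩ 0 0)) (.void 117 ⟨⟨94562, 0, 0, 5468, 0, 0, 0, 0, 0, ⟨0, 0⟩, 0⟩, 0, 0⟩ 0 0))) (.cut .v 16777216 (.cut .v 8388608 (.cut .v 4194304 (.cut .v 2097152 (.cut .v 1048576 (.cut .v 524288 (.pos 122 .pm ⟨⟨0, 0, 58042379, 0, 0, 0, 0, 0, 0, ⟨0, 0⟩, 0⟩, 0, 10⟩ 0 0) (.pos 123 .pm ⟨⟨0, 0, 120004477, 0, 0, 0, 0, 0, 0, ⟨0, 0⟩, 0⟩, 0, 28⟩ 0 0)) (.pos 114 .pm ⟨⟨0, 0, 216041827, 0,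 0, 0, 0, 0, 0, ⟨0, 0⟩, 0⟩, 0, 55⟩ 0 0)) (.pos 7 .pm ⟨⟨0, 0, 443987936, 0, 0, 0, 0, 0, 0, ⟨0, 0⟩, 0⟩, 0, 183⟩ 0 0)) (.pos 5 .pm ⟨⟨0, 0, 1388830457, 0, 0, 0, 0, 0, 0, ⟨0, 0⟩, 0⟩, 0, 330⟩ 0 0)) (.pos 3 .pm ⟨⟨0, 0, 0, 0, 0, 0, 0, 0, 0, ⟨0, 0⟩, 0⟩, 0, 0⟩ 0 0)) (.cut .v 268435456 (.cut .v 67108864 (.cut .d 749621 (.cut .d 374810 (.cut .v 33554432 (.cut .d 187405 (.cut .v 25165824 (.cut .d 93702 (.cut .v 20971520 (.cut .d 46851 (.cut .v 18874368 (.cut .v 17825792 (.cut .s 15466496 (.pos 31 .pp ⟨⟨4104611151, 0, 0, 0, 0, 0, 0, 0, 0, ⟨0, 0⟩, 0⟩, 0, 355⟩ 0 0) (.pos 31 .pp ⟨⟨4454807317, 0, 0, 0, 0, 0, 0, 0, 0, ⟨0, 0⟩, 0⟩, 0, 270⟩ 0 0)) (.pos 32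 .pp ⟨⟨4758348718, 0, 0, 0, 0, 0, 0, 0, 0, ⟨0, 0⟩, 0⟩, 0, 326⟩ 0 0)) (.pos 30 .pp ⟨⟨5692248284, 0, 0, 0, 0, 0, 745, 0, 0, ⟨0, 0⟩, 0⟩, 0, 0⟩ 0 0)) (.pos 27 .pp ⟨⟨0, 0, 0, 0, 0, 0, 615, 0, 0, ⟨0, 0⟩, 0⟩, 412388388, 278⟩ 0 0)) (.cut .d 46851 (.pos 28 .pp ⟨⟨0, 0, 0, 0, 0, 0, 613, 0, 0, ⟨0, 0⟩, 0⟩, 825936147, 0⟩ 0 0) (.pos 28 .pp ⟨⟨0, 0, 0, 0, 0, 0, 900, 0, 0, ⟨0, 0⟩, 0⟩, 624380846, 0⟩ 0 0))) (.pos 25 .pp ⟨⟨0, 0, 0, 0, 0, 0, 0, 0, 0, ⟨0, 0⟩, 0⟩, 381335280, 603⟩ 0 0)) (.cut .d 93702 (.pos 26 .pp ⟨⟨0, 0, 0, 0, 0, 0, 0, 0, 0, ⟨0, 0⟩, 0⟩, 1731622252, 0⟩ 0 0) (.pos 26 .pp ⟨⟨0, 0, 0, 0, 0, 0, 1066, 0, 0, ⟨0, 0⟩, 0⟩, 732788992, 0⟩ 0 0))) (.pos 24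 .pp ⟨⟨0, 0, 0, 0, 0, 0, 0, 0, 0, ⟨0, 0⟩, 0⟩, 355274364, 619⟩ 0 0)) (.cut .d 187405 (.void 91 ⟨⟨0, 0, 0, 0, 0, 0, 0, 0, 0, ⟨0, 0⟩, 0⟩, 100000, 0⟩ 0 0) (.pos 91 .pp ⟨⟨0, 0, 0, 0, 0, 0, 636, 0, 0, ⟨0, 0⟩, 0⟩, 1144460822, 0⟩ 0 0))) (.cut .v 33554432 (.pos 24 .pp ⟨⟨0, 0, 0, 0, 0, 0, 0, 0, 0, ⟨0, 0⟩, 0⟩, 0, 826⟩ 0 0) (.pos 91 .pp ⟨⟨0, 0, 0, 0, 0, 0, 1844, 0, 0, ⟨0, 0⟩, 0⟩, 625991949, 0⟩ 0 0))) (.pos 90 .pp ⟨⟨0, 0, 0, 0, 0, 0, 0, 0, 0, ⟨0, 0⟩, 0⟩, 0, 826⟩ 0 0)) (.void 98 ⟨⟨0, 0, 0, 49832, 0, 0, 0, 0, 0, ⟨0, 0⟩, 0⟩, 50168, 0⟩ 0 0)) (.void 117 ⟨⟨0, 0, 0, 0, 0, 0, 0, 0, 0, ⟨0, 0⟩, 0⟩, 110034, 0⟩ 0 0)))),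
    by decide +kernel⟩

def covers37 : cell.Covers Vale.Agent.P237.Petty.Cor.Grid.N15.table row37.1 :=
  ⟨(.cut .d 0 (.cut .v 16777216 (.cut .v 8388608 (.pos 2 .mm ⟨⟨0, 0, 1677721600000000, 0, 0, 0, 0, 0, 0, ⟨0, 0⟩, 0⟩, 0, 0⟩ 0 0) (.cut .d (-8388608) (.void 3 ⟨⟨0, 0, 0, 353, 0, 42005, 0, 57370, 0, ⟨(-1), 10758818⟩, 0⟩, 0, 0⟩ 0 121) (.cut .d (-4194304) (.void 3 ⟨⟨100000, 0, 0, 0, 0, 0, 0, 0, 0, ⟨0, 0⟩, 0⟩, 0, 0⟩ 0 0) (.cut .d (-2097152) (.void 3 ⟨⟨100000, 0, 0, 0, 0, 0, 0, 0, 0, ⟨0, 0⟩, 0⟩, 0, 0⟩ 0 0) (.pos 3 .mm ⟨⟨0, 0, 0, 0, 0, 22521545353, 0, 0, 0, ⟨0, 0⟩, 0⟩, 0, 0⟩ 0 0))))) (.cut .v 268435456 (.cut .v 67108864 (.cut .v 33554432 (.cut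 .d (-8388608) (.void 24 ⟨⟨100000, 0, 0, 0, 0, 0, 0, 0, 0, ⟨0, 0⟩, 0⟩, 0, 0⟩ 0 0) (.cut .d (-4194304) (.void 24 ⟨⟨100000, 0, 0, 0, 0, 0, 0, 0, 0, ⟨0, 0⟩, 0⟩, 0, 0⟩ 0 0) (.cut .v 25165824 (.cut .d (-2097152) (.void 25 ⟨⟨100000, 0, 0, 0, 0, 0, 0, 0, 0, ⟨0, 0⟩, 0⟩, 0, 0⟩ 0 0) (.cut .d (-1048576) (.void 25 ⟨⟨100000, 0, 0, 0, 0, 0, 0, 0, 0, ⟨0, 0⟩, 0⟩, 0, 0⟩ 0 0) (.cut .v 20971520 (.pos 27 .mp ⟨⟨8160748121, 0, 0, 0, 0, 8016012011, 0, 0, 0, ⟨0, 0⟩, 0⟩, 0, 0⟩ 0 0) (.void 28 ⟨⟨100000, 0, 0, 0, 0, 0, 0, 0, 0, ⟨0, 0⟩, 0⟩, 0, 0⟩ 0 0)))) (.void 26 ⟨⟨100000, 0, 0, 0, 0, 0, 0, 0, 0, ⟨0, 0⟩, 0⟩, 0, 0⟩ 0 0)))) (.void 91 ⟨⟨100000, 0, 0, 0, 0, 0, 0, 0,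 0, ⟨0, 0⟩, 0⟩, 0, 0⟩ 0 0)) (.void 98 ⟨⟨100000, 0, 0, 0, 0, 0, 0, 0, 0, ⟨0, 0⟩, 0⟩, 0, 0⟩ 0 0)) (.void 117 ⟨⟨94467, 0, 0, 5552, 0, 0, 0, 0, 0, ⟨0, 0⟩, 0⟩, 0, 0⟩ 0 0))) (.cut .v 16777216 (.cut .v 8388608 (.cut .v 4194304 (.cut .v 2097152 (.cut .v 1048576 (.cut .v 524288 (.pos 122 .pm ⟨⟨0, 0, 82486976, 0, 0, 0, 0, 0, 0, ⟨0, 0⟩, 0⟩, 0, 4⟩ 0 0) (.pos 123 .pm ⟨⟨0, 0, 176373916, 0, 0, 0, 0, 0, 0, ⟨0, 0⟩, 0⟩, 0, 8⟩ 0 0)) (.pos 114 .pm ⟨⟨0, 0, 320150612, 0, 0, 0, 0, 0, 0, ⟨0, 0⟩, 0⟩, 0, 15⟩ 0 0)) (.pos 7 .pm ⟨⟨0, 0, 648088798, 0, 0, 0, 0, 0, 0, ⟨0, 0⟩, 0⟩, 0, 52⟩ 0 0)) (.pos 5 .pm ⟨⟨0, 0, 1891043485, 0, 0, 0, 0, 0, 0, ⟨0, 0⟩, 0⟩, 0, 174⟩ 0 0))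 (.pos 3 .pm ⟨⟨0, 0, 0, 0, 0, 0, 0, 0, 0, ⟨0, 0⟩, 0⟩, 0, 0⟩ 0 0)) (.cut .v 268435456 (.cut .v 67108864 (.cut .d 672505 (.cut .d 336252 (.cut .v 33554432 (.cut .d 168126 (.cut .v 25165824 (.cut .d 84063 (.cut .v 20971520 (.cut .d 42031 (.cut .v 18874368 (.cut .d 21015 (.cut .v 17825792 (.cut .d 10507 (.cut .v 17301504 (.cut .s 15654912 (.pos 33 .pp ⟨⟨4874456264, 0, 0, 0, 0, 0, 0, 0, 0, ⟨0, 0⟩, 0⟩, 0, 164⟩ 0 0) (.pos 33 .pp ⟨⟨5826652543, 0, 0, 0, 0, 0, 0, 0, 0, ⟨0, 0⟩, 0⟩, 0, 88⟩ 0 0)) (.pos 34 .pp ⟨⟨6251700998, 0, 0, 0, 0, 0, 0, 0, 0, ⟨0, 0⟩, 0⟩, 0, 91⟩ 0 0)) (.pos 31 .pp ⟨⟨3953106601, 0, 0, 0, 0, 0, 0, 0, 0, ⟨0, 0⟩, 0⟩, 0, 130⟩ 0 0))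 (.cut .d 10507 (.pos 32 .pp ⟨⟨9232559153, 0, 0, 0, 0, 0, 0, 0, 0, ⟨0, 0⟩, 0⟩, 0, 71⟩ 0 0) (.pos 32 .pp ⟨⟨5835128663, 0, 0, 0, 0, 0, 0, 0, 0, ⟨0, 0⟩, 0⟩, 0, 99⟩ 0 0))) (.pos 29 .pp ⟨⟨4080258617, 0, 0, 0, 0, 0, 0, 0, 0, ⟨0, 0⟩, 0⟩, 0, 160⟩ 0 0)) (.cut .d 21015 (.pos 30 .pp ⟨⟨8641893853, 0, 0, 0, 0, 0, 0, 0, 0, ⟨0, 0⟩, 0⟩, 0, 91⟩ 0 0) (.pos 30 .pp ⟨⟨6665559048, 0, 0, 0, 0, 0, 234, 0, 0, ⟨0, 0⟩, 0⟩, 0, 0⟩ 0 0))) (.pos 27 .pp ⟨⟨0, 0, 0, 0, 0, 0, 519, 0, 0, ⟨0, 0⟩, 0⟩, 488276228, 0⟩ 0 0)) (.cut .d 42031 (.pos 28 .pp ⟨⟨0, 0, 0, 0, 0, 0, 230, 0, 0, ⟨0, 0⟩, 0⟩, 1079932416, 0⟩ 0 0) (.pos 28 .pp ⟨⟨0, 0, 0, 0, 0, 0, 274, 0, 0, ⟨0, 0⟩, 0⟩, 783125634,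 0⟩ 0 0))) (.pos 25 .pp ⟨⟨0, 0, 0, 0, 0, 0, 0, 0, 0, ⟨0, 0⟩, 0⟩, 453460383, 321⟩ 0 0)) (.cut .d 84063 (.pos 26 .pp ⟨⟨0, 0, 0, 0, 0, 0, 171, 0, 0, ⟨0, 0⟩, 0⟩, 1485074586, 0⟩ 0 0) (.pos 26 .pp ⟨⟨0, 0, 0, 0, 0, 0, 337, 0, 0, ⟨0, 0⟩, 0⟩, 925421883, 0⟩ 0 0))) (.pos 24 .pp ⟨⟨0, 0, 0, 0, 0, 0, 0, 0, 0, ⟨0, 0⟩, 0⟩, 426873327, 327⟩ 0 0)) (.cut .d 168126 (.pos 91 .pp ⟨⟨0, 0, 0, 0, 0, 0, 68, 0, 0, ⟨0, 0⟩, 0⟩, 2305112257, 0⟩ 0 0) (.cut .d 252189 (.pos 91 .pp ⟨⟨0, 0, 0, 0, 0, 0, 350, 0, 0, ⟨0, 0⟩, 0⟩, 1602029123, 0⟩ 0 0) (.pos 91 .pp ⟨⟨0, 0, 0, 0, 0, 0, 575, 0, 0, ⟨0, 0⟩, 0⟩, 1158861194, 0⟩ 0 0)))) (.cut .v 33554432 (.pos 24 .pp ⟨⟨0, 0, 0, 0, 0,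 0, 0, 0, 0, ⟨0, 0⟩, 0⟩, 0, 435⟩ 0 0) (.pos 91 .pp ⟨⟨0, 0, 0, 0, 0, 0, 944, 0, 0, ⟨0, 0⟩, 0⟩, 791378971, 0⟩ 0 0))) (.pos 90 .pp ⟨⟨0, 0, 0, 0, 0, 0, 0, 0, 0, ⟨0, 0⟩, 0⟩, 0, 435⟩ 0 0)) (.void 98 ⟨⟨0, 0, 0, 50172, 0, 0, 0, 0, 0, ⟨0, 0⟩, 0⟩, 49828, 0⟩ 0 0)) (.void 117 ⟨⟨0, 0, 0, 0, 0, 0, 0, 0, 0, ⟨0, 0⟩, 0⟩, 100000, 0⟩ 0 0)))),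
    by decide +kernel⟩

def covers38 : cell.Covers Vale.Agent.P237.Petty.Cor.Grid.N15.table row38.1 :=
  ⟨(.cut .d 0 (.cut .v 16777216 (.cut .v 8388608 (.pos 2 .mm ⟨⟨0, 0, 1677721600000000, 0, 0, 0, 0, 0, 0, ⟨0, 0⟩, 0⟩, 0, 0⟩ 0 0) (.cut .d (-8388608) (.pos 3 .mm ⟨⟨1677721600000000, 0, 0, 0, 0, 0, 0, 0, 0, ⟨0, 0⟩, 0⟩, 0, 0⟩ 0 0) (.cut .d (-4194304) (.void 3 ⟨⟨100000, 0, 0, 0, 0, 0, 0, 0, 0, ⟨0, 0⟩, 0⟩, 0, 0⟩ 0 0) (.cut .d (-2097152) (.void 3 ⟨⟨100000, 0, 0, 0, 0, 0, 0, 0, 0, ⟨0, 0⟩, 0⟩, 0, 0⟩ 0 0) (.pos 3 .mm ⟨⟨0, 0, 0, 0, 0, 31996555691, 0, 0, 0, ⟨0, 0⟩, 0⟩, 0, 0⟩ 0 0))))) (.cut .v 268435456 (.cut .v 67108864 (.cut .v 33554432 (.cut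 .d (-8388608) (.void 24 ⟨⟨99297, 0, 0, 0, 0, 0, 0, 0, 0, ⟨0, 0⟩, 0⟩, 0, 0⟩ 0 0) (.cut .d (-4194304) (.void 24 ⟨⟨100000, 0, 0, 0, 0, 0, 0, 0, 0, ⟨0, 0⟩, 0⟩, 0, 0⟩ 0 0) (.cut .v 25165824 (.cut .d (-2097152) (.void 25 ⟨⟨100000, 0, 0, 0, 0, 0, 0, 0, 0, ⟨0, 0⟩, 0⟩, 0, 0⟩ 0 0) (.cut .d (-1048576) (.void 25 ⟨⟨100000, 0, 0, 0, 0, 0, 0, 0, 0, ⟨0, 0⟩, 0⟩, 0, 0⟩ 0 0) (.cut .v 20971520 (.pos 27 .mp ⟨⟨11644601317, 0, 0, 0, 0, 10963480678, 0, 0, 0, ⟨0, 0⟩, 0⟩, 0, 0⟩ 0 0) (.void 28 ⟨⟨100000, 0, 0, 0, 0, 0, 0, 0, 0, ⟨0, 0⟩, 0⟩, 0, 0⟩ 0 0)))) (.void 26 ⟨⟨100000, 0, 0, 0, 0, 0, 0, 0, 0, ⟨0, 0⟩, 0⟩, 0, 0⟩ 0 0)))) (.void 91 ⟨⟨100000, 0, 0, 0, 0, 0, 0,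 0, 0, ⟨0, 0⟩, 0⟩, 0, 0⟩ 0 0)) (.void 98 ⟨⟨100000, 0, 0, 0, 0, 0, 0, 0, 0, ⟨0, 0⟩, 0⟩, 0, 0⟩ 0 0)) (.void 117 ⟨⟨94359, 0, 0, 5617, 0, 0, 0, 0, 0, ⟨0, 0⟩, 0⟩, 0, 0⟩ 0 0))) (.cut .v 16777216 (.cut .v 8388608 (.cut .v 4194304 (.cut .v 2097152 (.cut .d 531367 (.void 6 ⟨⟨0, 0, 100000, 0, 0, 0, 0, 0, 0, ⟨0, 0⟩, 0⟩, 0, 0⟩ 0 0) (.cut .v 1048576 (.pos 113 .pm ⟨⟨0, 0, 89647607, 0, 0, 0, 0, 0, 0, ⟨0, 0⟩, 0⟩, 0, 0⟩ 0 0) (.pos 114 .pm ⟨⟨0, 0, 334150969, 0, 0, 0, 0, 0, 0, ⟨0, 0⟩, 0⟩, 0, 14⟩ 0 0))) (.pos 7 .pm ⟨⟨0, 0, 1229624148, 0, 0, 0, 0, 0, 0, ⟨0, 0⟩, 0⟩, 0, 14⟩ 0 0)) (.pos 5 .pm ⟨⟨0, 0, 3450593598, 0, 0, 0, 0, 0, 0, ⟨0, 0⟩, 0⟩, 0, 41⟩ 0 0)) (.pos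 3 .pm ⟨⟨0, 0, 0, 0, 0, 0, 0, 0, 0, ⟨0, 0⟩, 0⟩, 0, 0⟩ 0 0)) (.cut .v 268435456 (.cut .v 67108864 (.cut .d 531367 (.cut .d 265683 (.cut .v 33554432 (.cut .d 132841 (.cut .v 25165824 (.cut .d 66420 (.cut .v 20971520 (.cut .d 33210 (.cut .v 18874368 (.cut .d 16605 (.cut .d 8302 (.cut .v 17825792 (.cut .v 17301504 (.cut .s 15876096 (.pos 33 .pp ⟨⟨6946906052, 0, 0, 0, 0, 0, 0, 0, 0, ⟨0, 0⟩, 0⟩, 0, 47⟩ 0 0) (.pos 33 .pp ⟨⟨8250727880, 0, 0, 0, 0, 0, 0, 0, 0, ⟨0, 0⟩, 0⟩, 0, 25⟩ 0 0)) (.pos 34 .pp ⟨⟨8849758174, 0, 0, 0, 0, 0, 0, 0, 0, ⟨0, 0⟩, 0⟩, 0, 26⟩ 0 0)) (.pos 32 .pp ⟨⟨13042720761, 0, 0, 0, 0, 0, 0, 0, 0, ⟨0, 0⟩, 0⟩, 0, 21⟩ 0 0)) (.pos 29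 .pp ⟨⟨7028762612, 0, 0, 0, 0, 0, 0, 0, 0, ⟨0, 0⟩, 0⟩, 0, 29⟩ 0 0)) (.pos 29 .pp ⟨⟨5832630840, 0, 0, 0, 0, 0, 0, 0, 0, ⟨0, 0⟩, 0⟩, 0, 43⟩ 0 0)) (.cut .d 16605 (.pos 30 .pp ⟨⟨12192092495, 0, 0, 0, 0, 0, 0, 0, 0, ⟨0, 0⟩, 0⟩, 0, 26⟩ 0 0) (.pos 30 .pp ⟨⟨9474499784, 0, 0, 0, 0, 0, 66, 0, 0, ⟨0, 0⟩, 0⟩, 0, 0⟩ 0 0))) (.pos 27 .pp ⟨⟨0, 0, 0, 0, 0, 0, 137, 0, 0, ⟨0, 0⟩, 0⟩, 700197543, 0⟩ 0 0)) (.cut .d 33210 (.pos 28 .pp ⟨⟨0, 0, 0, 0, 0, 0, 66, 0, 0, ⟨0, 0⟩, 0⟩, 1523316554, 0⟩ 0 0) (.pos 28 .pp ⟨⟨0, 0, 0, 0, 0, 0, 77, 0, 0, ⟨0, 0⟩, 0⟩, 1118041551, 0⟩ 0 0))) (.pos 25 .pp ⟨⟨0, 0, 0, 0, 0, 0, 0, 0, 0, ⟨0, 0⟩, 0⟩, 655186506, 92⟩ 0 0)) (.cut .d 66420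 (.pos 26 .pp ⟨⟨0, 0, 0, 0, 0, 0, 51, 0, 0, ⟨0, 0⟩, 0⟩, 2097789549, 0⟩ 0 0) (.pos 26 .pp ⟨⟨0, 0, 0, 0, 0, 0, 95, 0, 0, ⟨0, 0⟩, 0⟩, 1328935473, 0⟩ 0 0))) (.pos 24 .pp ⟨⟨0, 0, 0, 0, 0, 0, 0, 0, 0, ⟨0, 0⟩, 0⟩, 628124668, 93⟩ 0 0)) (.cut .v 50331648 (.cut .d 132841 (.pos 92 .pp ⟨⟨0, 0, 0, 0, 0, 0, 0, 0, 0, ⟨0, 0⟩, 0⟩, 4002038387, 0⟩ 0 0) (.pos 92 .pp ⟨⟨0, 0, 0, 0, 0, 0, 121, 0, 0, ⟨0, 0⟩, 0⟩, 1731174719, 0⟩ 0 0)) (.void 93 ⟨⟨0, 0, 0, 0, 0, 0, 0, 0, 0, ⟨0, 0⟩, 0⟩, 100000, 0⟩ 0 0))) (.cut .v 33554432 (.pos 24 .pp ⟨⟨0, 0, 0, 0, 0, 0, 0, 0, 0, ⟨0, 0⟩, 0⟩, 0, 122⟩ 0 0) (.pos 91 .pp ⟨⟨0, 0, 0, 0, 0, 0, 258, 0, 0, ⟨0, 0⟩, 0⟩, 1246218971, 0⟩ 0 0)))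 (.pos 90 .pp ⟨⟨0, 0, 0, 0, 0, 0, 0, 0, 0, ⟨0, 0⟩, 0⟩, 0, 122⟩ 0 0)) (.void 98 ⟨⟨0, 0, 0, 50441, 0, 0, 0, 0, 0, ⟨0, 0⟩, 0⟩, 49559, 0⟩ 0 0)) (.void 117 ⟨⟨0, 0, 0, 0, 0, 0, 0, 0, 0, ⟨0, 0⟩, 0⟩, 100000, 0⟩ 0 0)))),
    by decide +kernel⟩

def covers39 : cell.Covers Vale.Agent.P237.Petty.Cor.Grid.N15.table row39.1 :=
  ⟨(.cut .d 0 (.cut .v 16777216 (.cut .v 8388608 (.pos 2 .mm ⟨⟨0, 0, 1677721600000000, 0, 0, 0, 0, 0, 0, ⟨0, 0⟩, 0⟩, 0, 0⟩ 0 0) (.cut .d (-8388608) (.void 3 ⟨⟨100000, 0, 0, 0, 0, 0, 0, 0, 0, ⟨0, 0⟩, 0⟩, 0, 0⟩ 0 0) (.cut .d (-4194304) (.void 3 ⟨⟨100000, 0, 0, 0, 0, 0, 0, 0, 0, ⟨0, 0⟩, 0⟩, 0, 0⟩ 0 0) (.cut .d (-2097152) (.void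 3 ⟨⟨100000, 0, 0, 0, 0, 0, 0, 0, 0, ⟨0, 0⟩, 0⟩, 0, 0⟩ 0 0) (.pos 3 .mm ⟨⟨0, 0, 0, 0, 0, 45409902666, 0, 0, 0, ⟨0, 0⟩, 0⟩, 0, 0⟩ 0 0))))) (.cut .v 268435456 (.cut .v 67108864 (.cut .v 33554432 (.cut .d (-8388608) (.void 24 ⟨⟨100002, 0, 0, 0, 0, 0, 0, 0, 0, ⟨0, 0⟩, 0⟩, 0, 0⟩ 0 0) (.cut .d (-4194304) (.void 24 ⟨⟨100000, 0, 0, 0, 0, 0, 0, 0, 0, ⟨0, 0⟩, 0⟩, 0, 0⟩ 0 0) (.cut .v 25165824 (.cut .d (-2097152) (.void 25 ⟨⟨100000, 0, 0, 0, 0, 0, 0, 0, 0, ⟨0, 0⟩, 0⟩, 0, 0⟩ 0 0) (.cut .d (-1048576) (.void 25 ⟨⟨100000, 0, 0, 0, 0, 0, 0, 0, 0, ⟨0, 0⟩, 0⟩, 0, 0⟩ 0 0) (.cut .v 20971520 (.pos 27 .mp ⟨⟨16728680911, 0, 0, 0, 0, 14942520917, 0, 0, 0, ⟨0,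 0⟩, 0⟩, 0, 0⟩ 0 0) (.void 28 ⟨⟨100000, 0, 0, 0, 0, 0, 0, 0, 0, ⟨0, 0⟩, 0⟩, 0, 0⟩ 0 0)))) (.void 26 ⟨⟨100000, 0, 0, 0, 0, 0, 0, 0, 0, ⟨0, 0⟩, 0⟩, 0, 0⟩ 0 0)))) (.pos 91 .mp ⟨⟨1677721600000000, 0, 0, 0, 0, 0, 0, 0, 0, ⟨0, 0⟩, 0⟩, 0, 0⟩ 0 0)) (.pos 98 .mp ⟨⟨1677721600000000, 0, 0, 0, 0, 0, 0, 0, 0, ⟨0, 0⟩, 0⟩, 0, 0⟩ 0 0)) (.void 117 ⟨⟨25765, 0, 24, 0, 0, 0, 0, 74238, 0, ⟨(-1), 5550782⟩, 0⟩, 0, 0⟩ 0 313))) (.cut .v 16777216 (.cut .v 8388608 (.cut .d 421582 (.pos 2 .pm ⟨⟨0, 0, 6360360731, 0, 0, 0, 0, 0, 0, ⟨0, 0⟩, 0⟩, 0, 5⟩ 0 0) (.cut .v 4194304 (.cut .d 632373 (.pos 4 .pm ⟨⟨0, 0, 2865519467, 0, 0, 0, 0, 0, 0, ⟨0, 0⟩, 0⟩, 0, 0⟩ 0 0) (.pos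 4 .pm ⟨⟨0, 0, 21747885, 0, 2, 0, 0, 0, 0, ⟨0, 0⟩, 0⟩, 0, 0⟩ 0 0)) (.pos 5 .pm ⟨⟨0, 0, 2547015317, 0, 0, 0, 0, 0, 0, ⟨0, 0⟩, 0⟩, 0, 13⟩ 0 0))) (.pos 3 .pm ⟨⟨0, 0, 0, 0, 0, 0, 0, 0, 0, ⟨0, 0⟩, 0⟩, 0, 0⟩ 0 0)) (.cut .v 268435456 (.cut .v 67108864 (.cut .d 421582 (.cut .v 33554432 (.cut .d 210791 (.cut .d 105395 (.cut .v 25165824 (.cut .d 52697 (.cut .v 20971520 (.cut .d 26348 (.cut .v 18874368 (.cut .d 13174 (.cut .v 17825792 (.cut .d 6587 (.cut .d 3293 (.cut .v 17301504 (.cut .s 16056320 (.cut .s 16015360 (.pos 33 .pp ⟨⟨9374747900, 0, 0, 0, 0, 0, 0, 0, 0, ⟨0, 0⟩, 0⟩, 0, 18⟩ 0 0) (.pos 33 .pp ⟨⟨10204290148, 0, 0, 0, 0, 0, 0, 0, 0, ⟨0,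 0⟩, 0⟩, 0, 12⟩ 0 0)) (.pos 33 .pp ⟨⟨11676795484, 0, 0, 0, 0, 0, 0, 0, 0, ⟨0, 0⟩, 0⟩, 0, 6⟩ 0 0)) (.pos 34 .pp ⟨⟨17984759509, 0, 0, 0, 0, 0, 0, 0, 0, ⟨0, 0⟩, 0⟩, 0, 5⟩ 0 0)) (.pos 31 .pp ⟨⟨9268721732, 0, 0, 0, 0, 0, 0, 0, 0, ⟨0, 0⟩, 0⟩, 0, 7⟩ 0 0)) (.pos 31 .pp ⟨⟨7976418318, 0, 0, 0, 0, 0, 0, 0, 0, ⟨0, 0⟩, 0⟩, 0, 9⟩ 0 0)) (.cut .d 6587 (.pos 32 .pp ⟨⟨18780146707, 0, 0, 0, 0, 0, 0, 0, 0, ⟨0, 0⟩, 0⟩, 0, 5⟩ 0 0) (.pos 32 .pp ⟨⟨11728445012, 0, 0, 0, 0, 0, 0, 0, 0, ⟨0, 0⟩, 0⟩, 0, 7⟩ 0 0))) (.pos 29 .pp ⟨⟨8254842557, 0, 0, 0, 0, 0, 0, 0, 0, ⟨0, 0⟩, 0⟩, 0, 11⟩ 0 0)) (.cut .d 13174 (.pos 30 .pp ⟨⟨17317537426, 0, 0, 0, 0, 0, 0, 0, 0, ⟨0, 0⟩,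 0⟩, 0, 7⟩ 0 0) (.pos 30 .pp ⟨⟨13406631934, 0, 0, 0, 0, 0, 17, 0, 0, ⟨0, 0⟩, 0⟩, 0, 0⟩ 0 0))) (.pos 27 .pp ⟨⟨0, 0, 0, 0, 0, 0, 35, 0, 0, ⟨0, 0⟩, 0⟩, 993691451, 0⟩ 0 0)) (.cut .d 26348 (.pos 28 .pp ⟨⟨0, 0, 0, 0, 0, 0, 17, 0, 0, ⟨0, 0⟩, 0⟩, 2163867926, 0⟩ 0 0) (.pos 28 .pp ⟨⟨0, 0, 0, 0, 0, 0, 20, 0, 0, ⟨0, 0⟩, 0⟩, 1587030447, 0⟩ 0 0))) (.pos 25 .pp ⟨⟨0, 0, 0, 0, 0, 0, 0, 0, 0, ⟨0, 0⟩, 0⟩, 935762611, 25⟩ 0 0)) (.cut .d 52697 (.pos 26 .pp ⟨⟨0, 0, 0, 0, 0, 0, 14, 0, 0, ⟨0, 0⟩, 0⟩, 3022899524, 0⟩ 0 0) (.pos 26 .pp ⟨⟨0, 0, 0, 0, 0, 0, 25, 0, 0, ⟨0, 0⟩, 0⟩, 1896189679, 0⟩ 0 0))) (.pos 24 .pp ⟨⟨0, 0, 0, 0, 0, 0, 0, 0, 0, ⟨0, 0⟩, 0⟩, 910687041,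 25⟩ 0 0)) (.pos 24 .pp ⟨⟨0, 0, 0, 0, 0, 0, 0, 0, 0, ⟨0, 0⟩, 0⟩, 0, 33⟩ 0 0)) (.cut .d 210791 (.cut .v 50331648 (.cut .d 105395 (.pos 92 .pp ⟨⟨0, 0, 0, 0, 0, 0, 0, 0, 0, ⟨0, 0⟩, 0⟩, 6064561918, 0⟩ 0 0) (.pos 92 .pp ⟨⟨0, 0, 0, 0, 0, 0, 32, 0, 0, ⟨0, 0⟩, 0⟩, 2499724013, 0⟩ 0 0)) (.void 93 ⟨⟨0, 0, 0, 0, 0, 0, 0, 0, 0, ⟨0, 0⟩, 0⟩, 100000, 0⟩ 0 0)) (.pos 91 .pp ⟨⟨0, 0, 0, 0, 0, 0, 69, 0, 0, ⟨0, 0⟩, 0⟩, 1899447420, 0⟩ 0 0))) (.pos 90 .pp ⟨⟨0, 0, 0, 0, 0, 0, 0, 0, 0, ⟨0, 0⟩, 0⟩, 0, 33⟩ 0 0)) (.void 98 ⟨⟨0, 0, 0, 50663, 0, 0, 0, 0, 0, ⟨0, 0⟩, 0⟩, 49337, 0⟩ 0 0)) (.void 117 ⟨⟨0, 0, 0, 0, 0, 0, 0, 0, 0, ⟨0, 0⟩, 0⟩, 100000, 0⟩ 0 0)))),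
    by decide +kernel⟩

def covers40 : cell.Covers Vale.Agent.P237.Petty.Cor.Grid.N15.table row40.1 :=
  ⟨(.cut .d 0 (.cut .v 16777216 (.cut .v 8388608 (.pos 2 .mm ⟨⟨0, 0, 1677721600000000, 0, 0, 0, 0, 0, 0, ⟨0, 0⟩, 0⟩, 0, 0⟩ 0 0) (.cut .d (-8388608) (.void 3 ⟨⟨0, 0, 0, 0, 0, 1394720517, 0, 0, 0, ⟨0, 0⟩, 0⟩, 0, 0⟩ 0 0) (.cut .d (-4194304) (.void 3 ⟨⟨100000, 0, 0, 0, 0, 0, 0, 0, 0, ⟨0, 0⟩, 0⟩, 0, 0⟩ 0 0) (.pos 3 .mm ⟨⟨0, 0, 0, 0, 0, 88110379925, 0, 0, 0, ⟨0, 0⟩, 0⟩, 0, 0⟩ 0 0)))) (.cut .v 4294967296 (.cut .v 268435456 (.cut .v 67108864 (.cut .v 33554432 (.cut .d (-8388608) (.void 24 ⟨⟨89230, 0, 7522, 3157, 0, 0, 0, 0, 0, ⟨0, 0⟩, 0⟩,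 0, 0⟩ 0 0) (.cut .d (-4194304) (.void 24 ⟨⟨100000, 0, 0, 0, 0, 0, 0, 0, 0, ⟨0, 0⟩, 0⟩, 0, 0⟩ 0 0) (.cut .v 25165824 (.cut .d (-2097152) (.void 25 ⟨⟨100000, 0, 0, 0, 0, 0, 0, 0, 0, ⟨0, 0⟩, 0⟩, 0, 0⟩ 0 0) (.cut .d (-1048576) (.void 25 ⟨⟨100000, 0, 0, 0, 0, 0, 0, 0, 0, ⟨0, 0⟩, 0⟩, 0, 0⟩ 0 0) (.pos 25 .mp ⟨⟨32624007399, 0, 0, 0, 0, 17513611518, 0, 0, 0, ⟨0, 0⟩, 0⟩, 0, 0⟩ 0 0))) (.void 26 ⟨⟨100000, 0, 0, 0, 0, 0, 0, 0, 0, ⟨0, 0⟩, 0⟩, 0, 0⟩ 0 0)))) (.pos 91 .mp ⟨⟨1677721600000000, 0, 0, 0, 0, 0, 0, 0, 0, ⟨0, 0⟩, 0⟩, 0, 0⟩ 0 0)) (.pos 98 .mp ⟨⟨1677721600000000, 0, 0, 0, 0, 0, 0, 0, 0, ⟨0, 0⟩, 0⟩, 0, 0⟩ 0 0)) (.pos 117 .mp ⟨⟨1582095390891089,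 0, 0, 95626209108911, 0, 0, 0, 0, 0, ⟨0, 0⟩, 0⟩, 0, 0⟩ 0 0)) (.void 132 ⟨⟨94286, 0, 0, 5714, 0, 0, 0, 0, 0, ⟨0, 0⟩, 0⟩, 0, 0⟩ 0 0))) (.cut .v 16777216 (.cut .v 8388608 (.cut .d 332139 (.pos 2 .pm ⟨⟨0, 0, 9693418585, 0, 0, 0, 0, 0, 0, ⟨0, 0⟩, 0⟩, 0, 1⟩ 0 0) (.cut .d 498208 (.pos 2 .pm ⟨⟨0, 0, 3463070789, 0, 0, 0, 0, 0, 0, ⟨0, 0⟩, 0⟩, 0, 0⟩ 0 0) (.cut .s 16203776 (.pos 2 .pm ⟨⟨0, 0, 21938344, 0, 3, 0, 0, 0, 0, ⟨0, 0⟩, 0⟩, 0, 0⟩ 0 0) (.cut .s 16236544 (.pos 2 .pm ⟨⟨0, 0, 21449967, 0, 3, 0, 0, 0, 0, ⟨0, 0⟩, 0⟩, 0, 0⟩ 0 0) (.cut .d 581243 (.cut .d 539725 (.cut .s 16252928 (.pos 2 .pm ⟨⟨0, 0, 5497495121, 0, 0, 0, 0, 0, 0, ⟨0, 0⟩, 0⟩, 0, 0⟩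 0 0) (.cut .d 518966 (.pos 2 .pm ⟨⟨0, 0, 5889676354, 0, 0, 0, 0, 0, 0, ⟨0, 0⟩, 0⟩, 0, 0⟩ 0 0) (.cut .v 4194304 (.pos 4 .pm ⟨⟨0, 0, 21559981, 0, 3, 0, 0, 0, 0, ⟨0, 0⟩, 0⟩, 0, 0⟩ 0 0) (.pos 5 .pm ⟨⟨0, 0, 0, 0, 0, 0, 0, 0, 0, ⟨0, 0⟩, 0⟩, 0, 1⟩ 0 0)))) (.pos 2 .pm ⟨⟨0, 0, 0, 774868, 3, 0, 0, 0, 0, ⟨0, 0⟩, 0⟩, 0, 0⟩ 0 0)) (.void 2 ⟨⟨0, 0, 0, 100000, 0, 0, 0, 0, 0, ⟨0, 0⟩, 0⟩, 0, 0⟩ 0 0)))))) (.pos 3 .pm ⟨⟨0, 0, 0, 0, 0, 0, 0, 0, 0, ⟨0, 0⟩, 0⟩, 0, 0⟩ 0 0)) (.cut .v 4294967296 (.cut .v 268435456 (.cut .v 67108864 (.cut .d 332139 (.cut .v 33554432 (.cut .d 166069 (.cut .d 83034 (.cut .v 25165824 (.cut .d 41517 (.cut .v 20971520 (.cut .d 20758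 (.cut .v 18874368 (.cut .d 10379 (.cut .l 123033 (.cut .v 17825792 (.cut .d 5189 (.cut .d 2594 (.cut .v 17301504 (.cut .s 16203776 (.pos 33 .pp ⟨⟨13871509120, 0, 0, 0, 0, 0, 0, 0, 0, ⟨0, 0⟩, 0⟩, 0, 3⟩ 0 0) (.cut .s 16236544 (.pos 33 .pp ⟨⟨15901152154, 0, 0, 0, 0, 0, 0, 0, 0, ⟨0, 0⟩, 0⟩, 0, 2⟩ 0 0) (.cut .l 61516 (.pos 33 .pp ⟨⟨17489431659, 0, 0, 0, 0, 0, 0, 0, 0, ⟨0, 0⟩, 0⟩, 0, 1⟩ 0 0) (.pos 33 .pp ⟨⟨1013805755, 0, 0, 0, 0, 0, 0, 0, 0, ⟨0, 0⟩, 0⟩, 2044467675, 0⟩ 0 0)))) (.pos 34 .pp ⟨⟨25633527801, 0, 0, 0, 0, 0, 0, 0, 0, ⟨0, 0⟩, 0⟩, 0, 1⟩ 0 0)) (.pos 31 .pp ⟨⟨13190036964, 0, 0, 0, 0, 0, 0, 0, 0, ⟨0, 0⟩, 0⟩, 0, 2⟩ 0 0)) (.pos 31 .pp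 ⟨⟨11370711976, 0, 0, 0, 0, 0, 0, 0, 0, ⟨0, 0⟩, 0⟩, 0, 3⟩ 0 0)) (.cut .d 5189 (.pos 32 .pp ⟨⟨26780222383, 0, 0, 0, 0, 0, 0, 0, 0, ⟨0, 0⟩, 0⟩, 0, 1⟩ 0 0) (.pos 32 .pp ⟨⟨16692092492, 0, 0, 0, 0, 0, 0, 0, 0, ⟨0, 0⟩, 0⟩, 0, 2⟩ 0 0))) (.pos 29 .pp ⟨⟨15879762299, 0, 0, 0, 0, 0, 0, 0, 0, ⟨0, 0⟩, 0⟩, 0, 0⟩ 0 0)) (.pos 29 .pp ⟨⟨11779711810, 0, 0, 0, 0, 0, 0, 0, 0, ⟨0, 0⟩, 0⟩, 0, 3⟩ 0 0)) (.cut .d 10379 (.pos 30 .pp ⟨⟨24593270350, 0, 0, 0, 0, 0, 0, 0, 0, ⟨0, 0⟩, 0⟩, 0, 2⟩ 0 0) (.pos 30 .pp ⟨⟨19086166578, 0, 0, 0, 0, 0, 4, 0, 0, ⟨0, 0⟩, 0⟩, 0, 0⟩ 0 0))) (.pos 27 .pp ⟨⟨0, 0, 0, 0, 0, 0, 8, 0, 0, ⟨0, 0⟩, 0⟩, 1421249978, 0⟩ 0 0)) (.cut .d 20758 (.pos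 28 .pp ⟨⟨0, 0, 0, 0, 0, 0, 4, 0, 0, ⟨0, 0⟩, 0⟩, 3072947179, 0⟩ 0 0) (.pos 28 .pp ⟨⟨0, 0, 0, 0, 0, 0, 5, 0, 0, ⟨0, 0⟩, 0⟩, 2265853246, 0⟩ 0 0))) (.pos 25 .pp ⟨⟨0, 0, 0, 0, 0, 0, 3, 0, 0, ⟨0, 0⟩, 0⟩, 1345510401, 5⟩ 0 0)) (.cut .d 41517 (.pos 26 .pp ⟨⟨0, 0, 0, 0, 0, 0, 4, 0, 0, ⟨0, 0⟩, 0⟩, 4315347665, 0⟩ 0 0) (.pos 26 .pp ⟨⟨0, 0, 0, 0, 0, 0, 6, 0, 0, ⟨0, 0⟩, 0⟩, 2717950227, 0⟩ 0 0))) (.pos 24 .pp ⟨⟨0, 0, 0, 0, 0, 0, 0, 0, 0, ⟨0, 0⟩, 0⟩, 1325598210, 7⟩ 0 0)) (.pos 24 .pp ⟨⟨0, 0, 0, 0, 0, 0, 0, 0, 0, ⟨0, 0⟩, 0⟩, 0, 8⟩ 0 0)) (.cut .d 166069 (.cut .v 50331648 (.cut .d 83034 (.pos 92 .pp ⟨⟨0, 0, 0, 0, 0, 0, 0, 0, 0, ⟨0, 0⟩, 0⟩, 9114897504,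 0⟩ 0 0) (.pos 92 .pp ⟨⟨0, 0, 0, 0, 0, 0, 8, 0, 0, ⟨0, 0⟩, 0⟩, 3615688579, 0⟩ 0 0)) (.void 93 ⟨⟨0, 0, 0, 0, 0, 0, 0, 0, 0, ⟨0, 0⟩, 0⟩, 100000, 0⟩ 0 0)) (.pos 91 .pp ⟨⟨0, 0, 0, 0, 0, 0, 18, 0, 0, ⟨0, 0⟩, 0⟩, 2864187573, 0⟩ 0 0))) (.pos 90 .pp ⟨⟨0, 0, 0, 0, 0, 0, 0, 0, 0, ⟨0, 0⟩, 0⟩, 0, 8⟩ 0 0)) (.void 98 ⟨⟨0, 0, 0, 50840, 0, 0, 0, 0, 0, ⟨0, 0⟩, 0⟩, 49160, 0⟩ 0 0)) (.void 117 ⟨⟨0, 0, 0, 0, 0, 0, 0, 0, 0, ⟨0, 0⟩, 0⟩, 100000, 0⟩ 0 0)) (.void 132 ⟨⟨0, 0, 0, 0, 0, 0, 0, 0, 0, ⟨0, 0⟩, 0⟩, 100000, 0⟩ 0 0)))),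
    by decide +kernel⟩

def covers41 : cell.Covers Vale.Agent.P237.Petty.Cor.Grid.N15.table row41.1 :=
  ⟨(.cut .d 0 (.cut .v 16777216 (.cut .v 8388608 (.pos 2 .mm ⟨⟨0, 0, 1677721600000000, 0, 0, 0, 0, 0, 0, ⟨0, 0⟩, 0⟩, 0, 0⟩ 0 0) (.cut .d (-8388608) (.void 3 ⟨⟨1155, 0, 0, 0, 0, 37719, 0, 60467, 0, ⟨(-1), 10500071⟩, 0⟩, 0, 0⟩ 0 125) (.cut .d (-4194304) (.void 3 ⟨⟨100000, 0, 0, 0, 0, 0, 0, 0, 0, ⟨0, 0⟩, 0⟩, 0, 0⟩ 0 0) (.pos 3 .mm ⟨⟨0, 0, 0, 0, 0, 119041487089, 0, 0, 0, ⟨0, 0⟩, 0⟩, 0, 0⟩ 0 0)))) (.cut .v 4294967296 (.cut .v 268435456 (.cut .v 67108864 (.cut .v 33554432 (.cut .d (-8388608) (.void 24 ⟨⟨100000, 0, 0, 0, 0, 0, 0, 0, 0, ⟨0,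 0⟩, 0⟩, 0, 0⟩ 0 0) (.cut .d (-4194304) (.void 24 ⟨⟨100000, 0, 0, 0, 0, 0, 0, 0, 0, ⟨0, 0⟩, 0⟩, 0, 0⟩ 0 0) (.cut .v 25165824 (.cut .d (-2097152) (.void 25 ⟨⟨100000, 0, 0, 0, 0, 0, 0, 0, 0, ⟨0, 0⟩, 0⟩, 0, 0⟩ 0 0) (.cut .v 20971520 (.pos 27 .mp ⟨⟨32949268533, 0, 0, 0, 0, 49144080352, 0, 0, 0, ⟨0, 0⟩, 0⟩, 0, 0⟩ 0 0) (.void 28 ⟨⟨100000, 0, 0, 0, 0, 0, 0, 0, 0, ⟨0, 0⟩, 0⟩, 0, 0⟩ 0 0))) (.void 26 ⟨⟨100000, 0, 0, 0, 0, 0, 0, 0, 0, ⟨0, 0⟩, 0⟩, 0, 0⟩ 0 0)))) (.void 91 ⟨⟨99999, 0, 0, 0, 0, 0, 0, 0, 0, ⟨0, 0⟩, 0⟩, 0, 0⟩ 0 0)) (.void 98 ⟨⟨100185, 0, 0, 0, 0, 0, 0, 0, 0, ⟨0, 0⟩, 0⟩, 0, 0⟩ 0 0)) (.void 117 ⟨⟨94246, 0, 0, 5745, 0, 0, 0, 0, 0, ⟨0, 0⟩,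 0⟩, 0, 0⟩ 0 0)) (.cut .v 68719476736 (.void 133 ⟨⟨94253, 0, 0, 5747, 0, 0, 0, 0, 0, ⟨0, 0⟩, 0⟩, 0, 0⟩ 0 0) (.void 134 ⟨⟨0, 0, 0, 100000, 0, 0, 0, 0, 0, ⟨0, 0⟩, 0⟩, 0, 0⟩ 0 0)))) (.cut .v 16777216 (.cut .v 8388608 (.cut .d 261881 (.pos 2 .pm ⟨⟨0, 0, 14304267521, 0, 0, 0, 0, 0, 0, ⟨0, 0⟩, 0⟩, 0, 0⟩ 0 0) (.cut .d 392822 (.pos 2 .pm ⟨⟨0, 0, 7344229813, 0, 0, 0, 0, 0, 0, ⟨0, 0⟩, 0⟩, 0, 0⟩ 0 0) (.cut .s 16318464 (.pos 2 .pm ⟨⟨0, 0, 21640581, 0, 1, 0, 0, 0, 0, ⟨0, 0⟩, 0⟩, 0, 0⟩ 0 0) (.cut .d 458292 (.cut .v 4194304 (.cut .v 2097152 (.cut .v 1048576 (.cut .s 16343040 (.pos 113 .pm ⟨⟨0, 0, 21461768, 0, 1, 0, 0, 0, 0, ⟨0, 0⟩, 0⟩, 0, 0⟩ 0 0) (.cut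 .d 425557 (.cut .s 16355328 (.pos 113 .pm ⟨⟨0, 0, 9469065198, 0, 0, 0, 0, 0, 0, ⟨0, 0⟩, 0⟩, 0, 0⟩ 0 0) (.cut .s 16361472 (.pos 113 .pm ⟨⟨0, 0, 10083739243, 0, 0, 0, 0, 0, 0, ⟨0, 0⟩, 0⟩, 0, 0⟩ 0 0) (.cut .d 409189 (.pos 113 .pm ⟨⟨0, 0, 9902383607, 0, 0, 0, 0, 0, 0, ⟨0, 0⟩, 0⟩, 0, 0⟩ 0 0) (.cut .v 524288 (.pos 122 .pm ⟨⟨0, 0, 21388181, 0, 1, 0, 0, 0, 0, ⟨0, 0⟩, 0⟩, 0, 0⟩ 0 0) (.pos 123 .pm ⟨⟨0, 0, 0, 0, 0, 0, 0, 0, 0, ⟨0, 0⟩, 0⟩, 0, 0⟩ 0 0))))) (.pos 113 .pm ⟨⟨0, 0, 0, 802808, 1, 0, 0, 0, 0, ⟨0, 0⟩, 0⟩, 0, 0⟩ 0 0))) (.pos 114 .pm ⟨⟨0, 0, 2090731369, 0, 0, 0, 0, 0, 0, ⟨0, 0⟩, 0⟩, 0, 0⟩ 0 0)) (.pos 7 .pm ⟨⟨0, 0, 0, 0, 0, 0, 0, 0, 0, ⟨0,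 0⟩, 0⟩, 0, 0⟩ 0 0)) (.pos 5 .pm ⟨⟨0, 0, 0, 0, 0, 0, 0, 0, 0, ⟨0, 0⟩, 0⟩, 0, 0⟩ 0 0)) (.pos 2 .pm ⟨⟨0, 0, 0, 795598, 1, 0, 0, 0, 0, ⟨0, 0⟩, 0⟩, 0, 0⟩ 0 0))))) (.pos 3 .pm ⟨⟨0, 0, 0, 0, 0, 0, 0, 0, 0, ⟨0, 0⟩, 0⟩, 0, 0⟩ 0 0)) (.cut .v 4294967296 (.cut .v 268435456 (.cut .v 67108864 (.cut .d 261881 (.cut .v 33554432 (.cut .d 130940 (.cut .d 65470 (.cut .v 25165824 (.cut .d 32735 (.cut .v 20971520 (.cut .d 16367 (.cut .v 18874368 (.cut .l 123033 (.cut .d 8183 (.cut .v 17825792 (.cut .l 61516 (.cut .d 4091 (.cut .v 17301504 (.cut .s 16318464 (.cut .s 16293888 (.pos 33 .pp ⟨⟨19447812429, 0, 0, 0, 0, 0, 0, 0, 0, ⟨0, 0⟩, 0⟩, 0, 1⟩ 0 0) (.cut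 .s 16306176 (.pos 33 .pp ⟨⟨20807060736, 0, 0, 0, 0, 0, 0, 0, 0, ⟨0, 0⟩, 0⟩, 0, 1⟩ 0 0) (.cut .l 30758 (.cut .l 15379 (.pos 33 .pp ⟨⟨21675264812, 0, 0, 0, 0, 0, 0, 0, 0, ⟨0, 0⟩, 0⟩, 0, 0⟩ 0 0) (.pos 33 .pp ⟨⟨0, 0, 0, 0, 0, 0, 0, 0, 0, ⟨0, 0⟩, 0⟩, 2641745305, 0⟩ 0 0)) (.pos 33 .pp ⟨⟨0, 0, 0, 0, 0, 0, 0, 0, 0, ⟨0, 0⟩, 0⟩, 2626030391, 0⟩ 0 0)))) (.pos 33 .pp ⟨⟨23308162136, 0, 0, 0, 0, 0, 0, 0, 0, ⟨0, 0⟩, 0⟩, 0, 0⟩ 0 0)) (.pos 34 .pp ⟨⟨24969807851, 0, 0, 0, 0, 0, 0, 0, 0, ⟨0, 0⟩, 0⟩, 0, 0⟩ 0 0)) (.pos 31 .pp ⟨⟨16174676025, 0, 0, 0, 0, 0, 0, 0, 0, ⟨0, 0⟩, 0⟩, 0, 1⟩ 0 0)) (.pos 31 .pp ⟨⟨20972428069, 0, 0, 0, 0, 0, 0, 0, 0, ⟨0, 0⟩, 0⟩, 0, 0⟩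 0 0)) (.pos 32 .pp ⟨⟨26729729650, 0, 0, 0, 0, 0, 0, 0, 0, ⟨0, 0⟩, 0⟩, 0, 0⟩ 0 0)) (.pos 29 .pp ⟨⟨16769734219, 0, 0, 0, 0, 0, 0, 0, 0, ⟨0, 0⟩, 0⟩, 0, 1⟩ 0 0)) (.pos 29 .pp ⟨⟨21573557193, 0, 0, 0, 0, 0, 0, 0, 0, ⟨0, 0⟩, 0⟩, 0, 0⟩ 0 0)) (.cut .d 8183 (.pos 30 .pp ⟨⟨34191698803, 0, 0, 0, 0, 0, 0, 0, 0, ⟨0, 0⟩, 0⟩, 0, 0⟩ 0 0) (.pos 30 .pp ⟨⟨26965194773, 0, 0, 0, 0, 0, 1, 0, 0, ⟨0, 0⟩, 0⟩, 0, 0⟩ 0 0))) (.pos 27 .pp ⟨⟨0, 0, 0, 0, 0, 0, 2, 0, 0, ⟨0, 0⟩, 0⟩, 2026820159, 0⟩ 0 0)) (.cut .d 16367 (.pos 28 .pp ⟨⟨0, 0, 0, 0, 0, 0, 1, 0, 0, ⟨0, 0⟩, 0⟩, 4271062834, 0⟩ 0 0) (.pos 28 .pp ⟨⟨0, 0, 0, 0, 0, 0, 1, 0, 0, ⟨0, 0⟩, 0⟩, 3209844588, 0⟩ 0 0)))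 (.pos 25 .pp ⟨⟨0, 0, 0, 0, 0, 0, 2, 0, 0, ⟨0, 0⟩, 0⟩, 1926562379, 1⟩ 0 0)) (.cut .d 32735 (.pos 26 .pp ⟨⟨0, 0, 0, 0, 0, 0, 1, 0, 0, ⟨0, 0⟩, 0⟩, 5914896194, 0⟩ 0 0) (.pos 26 .pp ⟨⟨0, 0, 0, 0, 0, 0, 2, 0, 0, ⟨0, 0⟩, 0⟩, 3858492462, 0⟩ 0 0))) (.pos 24 .pp ⟨⟨0, 0, 0, 0, 0, 0, 0, 0, 0, ⟨0, 0⟩, 0⟩, 1915646292, 2⟩ 0 0)) (.pos 24 .pp ⟨⟨0, 0, 0, 0, 0, 0, 0, 0, 0, ⟨0, 0⟩, 0⟩, 0, 3⟩ 0 0)) (.cut .d 130940 (.cut .v 50331648 (.cut .d 65470 (.pos 92 .pp ⟨⟨0, 0, 0, 0, 0, 0, 0, 0, 0, ⟨0, 0⟩, 0⟩, 13245977882, 0⟩ 0 0) (.pos 92 .pp ⟨⟨0, 0, 0, 0, 0, 0, 2, 0, 0, ⟨0, 0⟩, 0⟩, 5160866960, 0⟩ 0 0)) (.void 93 ⟨⟨0, 0, 0, 0, 0, 0, 0, 0, 0, ⟨0, 0⟩, 0⟩, 100000, 0⟩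 0 0)) (.pos 91 .pp ⟨⟨0, 0, 0, 0, 0, 0, 5, 0, 0, ⟨0, 0⟩, 0⟩, 4223508085, 0⟩ 0 0))) (.pos 90 .pp ⟨⟨0, 0, 0, 0, 0, 0, 0, 0, 0, ⟨0, 0⟩, 0⟩, 0, 2⟩ 0 0)) (.void 98 ⟨⟨0, 0, 0, 50972, 0, 0, 0, 0, 0, ⟨0, 0⟩, 0⟩, 49028, 0⟩ 0 0)) (.void 117 ⟨⟨0, 0, 0, 0, 0, 0, 0, 0, 0, ⟨0, 0⟩, 0⟩, 100000, 0⟩ 0 0)) (.void 132 ⟨⟨0, 0, 0, 0, 0, 0, 0, 0, 0, ⟨0, 0⟩, 0⟩, 100000, 0⟩ 0 0)))),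
    by decide +kernel⟩

def covers42 : cell.Covers Vale.Agent.P237.Petty.Cor.Grid.N15.table row42.1 :=
  ⟨(.cut .d 0 (.cut .v 16777216 (.cut .v 8388608 (.pos 2 .mm ⟨⟨0, 0, 1677721600000000, 0, 0, 0, 0, 0, 0, ⟨0, 0⟩, 0⟩, 0, 0⟩ 0 0) (.cut .d (-8388608) (.void 3 ⟨⟨100000, 0, 0, 0, 0, 0, 0, 0, 0, ⟨0, 0⟩, 0⟩, 0, 0⟩ 0 0) (.cut .d (-4194304) (.void 3 ⟨⟨100000, 0, 0, 0, 0, 0, 0, 0, 0, ⟨0, 0⟩, 0⟩, 0, 0⟩ 0 0) (.pos 3 .mm ⟨⟨0, 0, 0, 0, 0, 161569326698, 0, 0, 0, ⟨0, 0⟩, 0⟩, 0, 0⟩ 0 0)))) (.cut .v 4294967296 (.cut .v 268435456 (.cut .v 67108864 (.cut .v 33554432 (.cut .d (-8388608) (.void 24 ⟨⟨86583, 0, 9788, 3293, 0, 0, 0, 0, 0, ⟨0, 0⟩, 0⟩, 0,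 0⟩ 0 0) (.cut .d (-4194304) (.void 24 ⟨⟨100000, 0, 0, 0, 0, 0, 0, 0, 0, ⟨0, 0⟩, 0⟩, 0, 0⟩ 0 0) (.cut .v 25165824 (.cut .d (-2097152) (.void 25 ⟨⟨100000, 0, 0, 0, 0, 0, 0, 0, 0, ⟨0, 0⟩, 0⟩, 0, 0⟩ 0 0) (.pos 25 .mp ⟨⟨63239777968, 0, 0, 0, 0, 64599697281, 0, 0, 0, ⟨0, 0⟩, 0⟩, 0, 0⟩ 0 0)) (.void 26 ⟨⟨100000, 0, 0, 0, 0, 0, 0, 0, 0, ⟨0, 0⟩, 0⟩, 0, 0⟩ 0 0)))) (.pos 91 .mp ⟨⟨1677721600000000, 0, 0, 0, 0, 0, 0, 0, 0, ⟨0, 0⟩, 0⟩, 0, 0⟩ 0 0)) (.pos 98 .mp ⟨⟨1677721600000000, 0, 0, 0, 0, 0, 0, 0, 0, ⟨0, 0⟩, 0⟩, 0, 0⟩ 0 0)) (.void 117 ⟨⟨94199, 0, 0, 5772, 0, 0, 0, 0, 0, ⟨0, 0⟩, 0⟩, 0, 0⟩ 0 0)) (.void 132 ⟨⟨98268, 0, 0, 5790, 0, 0, 0, 0, 0, ⟨0,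 0⟩, 0⟩, 0, 0⟩ 0 0))) (.cut .v 16777216 (.cut .v 8388608 (.cut .d 209926 (.pos 2 .pm ⟨⟨0, 0, 20715350700, 0, 0, 0, 0, 0, 0, ⟨0, 0⟩, 0⟩, 0, 0⟩ 0 0) (.cut .d 314889 (.pos 2 .pm ⟨⟨0, 0, 12590121538, 0, 0, 0, 0, 0, 0, ⟨0, 0⟩, 0⟩, 0, 0⟩ 0 0) (.pos 2 .pm ⟨⟨0, 0, 21135555, 0, 0, 0, 0, 0, 0, ⟨0, 0⟩, 0⟩, 0, 0⟩ 0 0))) (.pos 3 .pm ⟨⟨0, 0, 0, 0, 0, 0, 0, 0, 0, ⟨0, 0⟩, 0⟩, 0, 0⟩ 0 0)) (.cut .v 4294967296 (.cut .v 268435456 (.cut .v 67108864 (.cut .d 209926 (.cut .v 33554432 (.cut .d 104963 (.cut .d 52481 (.cut .v 25165824 (.cut .d 26240 (.cut .v 20971520 (.cut .d 13120 (.cut .v 18874368 (.cut .d 6560 (.cut .v 17825792 (.cut .d 3280 (.cut .v 17301504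 (.cut .s 16408576 (.pos 33 .pp ⟨⟨27556418550, 0, 0, 0, 0, 0, 0, 0, 0, ⟨0, 0⟩, 0⟩, 0, 0⟩ 0 0) (.pos 33 .pp ⟨⟨32555252580, 0, 0, 0, 0, 0, 0, 0, 0, ⟨0, 0⟩, 0⟩, 0, 0⟩ 0 0)) (.pos 34 .pp ⟨⟨34869530251, 0, 0, 0, 0, 0, 0, 0, 0, ⟨0, 0⟩, 0⟩, 0, 0⟩ 0 0)) (.pos 31 .pp ⟨⟨22449322060, 0, 0, 0, 0, 0, 0, 0, 0, ⟨0, 0⟩, 0⟩, 0, 0⟩ 0 0)) (.pos 32 .pp ⟨⟨37320251663, 0, 0, 0, 0, 0, 0, 0, 0, ⟨0, 0⟩, 0⟩, 0, 0⟩ 0 0)) (.pos 29 .pp ⟨⟨23289357588, 0, 0, 0, 0, 0, 0, 0, 0, ⟨0, 0⟩, 0⟩, 0, 0⟩ 0 0)) (.cut .d 6560 (.pos 30 .pp ⟨⟨47840429104, 0, 0, 0, 0, 0, 0, 0, 0, ⟨0, 0⟩, 0⟩, 0, 0⟩ 0 0) (.pos 30 .pp ⟨⟨0, 0, 0, 0, 0, 0, 0, 0, 0, ⟨0, 0⟩, 0⟩, 4019417522, 0⟩ 0 0))) (.cut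 .s 16408576 (.pos 27 .pp ⟨⟨0, 0, 0, 0, 0, 0, 1, 0, 0, ⟨0, 0⟩, 0⟩, 2818539894, 0⟩ 0 0) (.pos 27 .pp ⟨⟨0, 0, 0, 0, 0, 0, 0, 0, 0, ⟨0, 0⟩, 0⟩, 0, 0⟩ 0 0))) (.cut .d 13120 (.pos 28 .pp ⟨⟨0, 0, 0, 0, 0, 0, 0, 0, 0, ⟨0, 0⟩, 0⟩, 5977096699, 0⟩ 0 0) (.pos 28 .pp ⟨⟨0, 0, 0, 0, 0, 0, 0, 0, 0, ⟨0, 0⟩, 0⟩, 4471783948, 0⟩ 0 0))) (.pos 25 .pp ⟨⟨0, 0, 0, 0, 0, 0, 1, 0, 0, ⟨0, 0⟩, 0⟩, 2687253016, 0⟩ 0 0)) (.cut .d 26240 (.pos 26 .pp ⟨⟨0, 0, 0, 0, 0, 0, 0, 0, 0, ⟨0, 0⟩, 0⟩, 8382076641, 0⟩ 0 0) (.pos 26 .pp ⟨⟨0, 0, 0, 0, 0, 0, 0, 0, 0, ⟨0, 0⟩, 0⟩, 5389373412, 0⟩ 0 0))) (.pos 24 .pp ⟨⟨0, 0, 0, 0, 0, 0, 0, 0, 0, ⟨0, 0⟩, 0⟩, 2690056637, 0⟩ 0 0)) (.pos 24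 .pp ⟨⟨0, 0, 0, 0, 0, 0, 0, 0, 0, ⟨0, 0⟩, 0⟩, 0, 1⟩ 0 0)) (.cut .d 104963 (.cut .v 50331648 (.cut .d 52481 (.pos 92 .pp ⟨⟨0, 0, 0, 0, 0, 0, 0, 0, 0, ⟨0, 0⟩, 0⟩, 19383773432, 0⟩ 0 0) (.pos 92 .pp ⟨⟨0, 0, 0, 0, 0, 0, 1, 0, 0, ⟨0, 0⟩, 0⟩, 7247702316, 0⟩ 0 0)) (.void 93 ⟨⟨0, 0, 0, 0, 0, 0, 0, 0, 0, ⟨0, 0⟩, 0⟩, 100000, 0⟩ 0 0)) (.pos 91 .pp ⟨⟨0, 0, 0, 0, 0, 0, 1, 0, 0, ⟨0, 0⟩, 0⟩, 6045093596, 0⟩ 0 0))) (.pos 90 .pp ⟨⟨0, 0, 0, 0, 0, 0, 0, 0, 0, ⟨0, 0⟩, 0⟩, 0, 1⟩ 0 0)) (.void 98 ⟨⟨0, 0, 0, 51081, 0, 0, 0, 0, 0, ⟨0, 0⟩, 0⟩, 48919, 0⟩ 0 0)) (.void 117 ⟨⟨0, 0, 0, 0, 0, 0, 0, 0, 0, ⟨0, 0⟩, 0⟩, 100000, 0⟩ 0 0)) (.void 132 ⟨⟨0, 0, 0, 0, 0, 0, 0,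 0, 0, ⟨0, 0⟩, 0⟩, 100000, 0⟩ 0 0)))),
    by decide +kernel⟩

def covers43 : cell.Covers Vale.Agent.P237.Petty.Cor.Grid.N15.table row43.1 :=
  ⟨(.cut .d 0 (.cut .v 16777216 (.cut .v 8388608 (.pos 2 .mm ⟨⟨0, 0, 1677721600000000, 0, 0, 0, 0, 0, 0, ⟨0, 0⟩, 0⟩, 0, 0⟩ 0 0) (.cut .d (-8388608) (.void 3 ⟨⟨100000, 0, 0, 0, 0, 0, 0, 0, 0, ⟨0, 0⟩, 0⟩, 0, 0⟩ 0 0) (.cut .d (-4194304) (.void 3 ⟨⟨100000, 0, 0, 0, 0, 0, 0, 0, 0, ⟨0, 0⟩, 0⟩, 0, 0⟩ 0 0) (.pos 3 .mm ⟨⟨0, 0, 0, 0, 0, 218228144941, 0, 0, 0, ⟨0, 0⟩, 0⟩, 0, 0⟩ 0 0)))) (.cut .v 4294967296 (.cut .v 268435456 (.cut .v 67108864 (.cut .v 33554432 (.cut .d (-8388608) (.void 24 ⟨⟨100000, 0, 0,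 0, 0, 0, 0, 0, 0, ⟨0, 0⟩, 0⟩, 0, 0⟩ 0 0) (.cut .d (-4194304) (.void 24 ⟨⟨100000, 0, 0, 0, 0, 0, 0, 0, 0, ⟨0, 0⟩, 0⟩, 0, 0⟩ 0 0) (.cut .v 25165824 (.cut .d (-2097152) (.void 25 ⟨⟨100000, 0, 0, 0, 0, 0, 0, 0, 0, ⟨0, 0⟩, 0⟩, 0, 0⟩ 0 0) (.pos 25 .mp ⟨⟨88970165952, 0, 0, 0, 0, 82822550262, 0, 0, 0, ⟨0, 0⟩, 0⟩, 0, 0⟩ 0 0)) (.void 26 ⟨⟨100000, 0, 0, 0, 0, 0, 0, 0, 0, ⟨0, 0⟩, 0⟩, 0, 0⟩ 0 0)))) (.void 91 ⟨⟨99941, 0, 0, 0, 0, 0, 0, 0, 0, ⟨0, 0⟩, 0⟩, 0, 0⟩ 0 0)) (.void 98 ⟨⟨99953, 0, 0, 0, 0, 0, 0, 0, 0, ⟨0, 0⟩, 0⟩, 0, 0⟩ 0 0)) (.pos 117 .mp ⟨⟨1581027178079733, 0, 0, 96694421920268, 0, 0, 0, 0, 0, ⟨0, 0⟩, 0⟩, 0, 0⟩ 0 0)) (.void 132 ⟨⟨91117, 0,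 0, 5770, 0, 0, 0, 0, 0, ⟨0, 0⟩, 0⟩, 0, 0⟩ 0 0))) (.cut .v 16777216 (.cut .v 8388608 (.cut .d 167105 (.pos 2 .pm ⟨⟨0, 0, 29870332206, 0, 0, 0, 0, 0, 0, ⟨0, 0⟩, 0⟩, 0, 0⟩ 0 0) (.cut .d 250657 (.pos 2 .pm ⟨⟨0, 0, 19933476261, 0, 0, 0, 0, 0, 0, ⟨0, 0⟩, 0⟩, 0, 0⟩ 0 0) (.pos 2 .pm ⟨⟨0, 0, 21010174, 0, 0, 0, 0, 0, 0, ⟨0, 0⟩, 0⟩, 0, 0⟩ 0 0))) (.pos 3 .pm ⟨⟨0, 0, 0, 0, 0, 0, 0, 0, 0, ⟨0, 0⟩, 0⟩, 0, 0⟩ 0 0)) (.cut .v 4294967296 (.cut .v 268435456 (.cut .v 67108864 (.cut .d 167105 (.cut .v 33554432 (.cut .d 83552 (.cut .d 41776 (.cut .v 25165824 (.cut .d 20888 (.cut .v 20971520 (.cut .d 10444 (.cut .v 18874368 (.cut .d 5222 (.cut .v 17825792 (.cut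 .d 2611 (.cut .v 17301504 (.cut .s 16482304 (.pos 33 .pp ⟨⟨38632725487, 0, 0, 0, 0, 0, 0, 0, 0, ⟨0, 0⟩, 0⟩, 0, 0⟩ 0 0) (.pos 33 .pp ⟨⟨45609640349, 0, 0, 0, 0, 0, 0, 0, 0, ⟨0, 0⟩, 0⟩, 0, 0⟩ 0 0)) (.pos 34 .pp ⟨⟨48840731923, 0, 0, 0, 0, 0, 0, 0, 0, ⟨0, 0⟩, 0⟩, 0, 0⟩ 0 0)) (.pos 31 .pp ⟨⟨31488805851, 0, 0, 0, 0, 0, 0, 0, 0, ⟨0, 0⟩, 0⟩, 0, 0⟩ 0 0)) (.pos 32 .pp ⟨⟨52267504441, 0, 0, 0, 0, 0, 0, 0, 0, ⟨0, 0⟩, 0⟩, 0, 0⟩ 0 0)) (.pos 29 .pp ⟨⟨32682132321, 0, 0, 0, 0, 0, 0, 0, 0, ⟨0, 0⟩, 0⟩, 0, 0⟩ 0 0)) (.cut .d 5222 (.pos 30 .pp ⟨⟨66978501489, 0, 0, 0, 0, 0, 0, 0, 0, ⟨0, 0⟩, 0⟩, 0, 0⟩ 0 0) (.pos 30 .pp ⟨⟨0, 0, 0, 0, 0, 0, 0, 0, 0, ⟨0, 0⟩, 0⟩,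 5637529349, 0⟩ 0 0))) (.pos 27 .pp ⟨⟨0, 0, 0, 0, 0, 0, 0, 0, 0, ⟨0, 0⟩, 0⟩, 3959276609, 0⟩ 0 0)) (.cut .d 10444 (.pos 28 .pp ⟨⟨0, 0, 0, 0, 0, 0, 0, 0, 0, ⟨0, 0⟩, 0⟩, 8368505036, 0⟩ 0 0) (.pos 28 .pp ⟨⟨0, 0, 0, 0, 0, 0, 0, 0, 0, ⟨0, 0⟩, 0⟩, 6276592626, 0⟩ 0 0))) (.pos 25 .pp ⟨⟨0, 0, 0, 0, 0, 0, 0, 0, 0, ⟨0, 0⟩, 0⟩, 3783571528, 0⟩ 0 0)) (.cut .d 20888 (.pos 26 .pp ⟨⟨0, 0, 0, 0, 0, 0, 0, 0, 0, ⟨0, 0⟩, 0⟩, 11766331250, 0⟩ 0 0) (.pos 26 .pp ⟨⟨0, 0, 0, 0, 0, 0, 0, 0, 0, ⟨0, 0⟩, 0⟩, 7576997167, 0⟩ 0 0))) (.pos 24 .pp ⟨⟨0, 0, 0, 0, 0, 0, 0, 0, 0, ⟨0, 0⟩, 0⟩, 3807093113, 0⟩ 0 0)) (.pos 24 .pp ⟨⟨0, 0, 0, 0, 0, 0, 0, 0, 0, ⟨0, 0⟩, 0⟩, 0, 0⟩ 0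 0)) (.cut .d 83552 (.cut .v 50331648 (.cut .d 41776 (.pos 92 .pp ⟨⟨0, 0, 0, 0, 0, 0, 0, 0, 0, ⟨0, 0⟩, 0⟩, 28197639822, 0⟩ 0 0) (.pos 92 .pp ⟨⟨0, 0, 0, 0, 0, 0, 0, 0, 0, ⟨0, 0⟩, 0⟩, 10226887554, 0⟩ 0 0)) (.void 93 ⟨⟨0, 0, 0, 0, 0, 0, 0, 0, 0, ⟨0, 0⟩, 0⟩, 100000, 0⟩ 0 0)) (.pos 91 .pp ⟨⟨0, 0, 0, 0, 0, 0, 0, 0, 0, ⟨0, 0⟩, 0⟩, 8662581859, 0⟩ 0 0))) (.pos 90 .pp ⟨⟨0, 0, 0, 0, 0, 0, 0, 0, 0, ⟨0, 0⟩, 0⟩, 169783632, 0⟩ 0 0)) (.void 98 ⟨⟨0, 0, 0, 51169, 0, 0, 0, 0, 0, ⟨0, 0⟩, 0⟩, 48831, 0⟩ 0 0)) (.void 117 ⟨⟨0, 0, 0, 0, 0, 0, 0, 0, 0, ⟨0, 0⟩, 0⟩, 100000, 0⟩ 0 0)) (.void 132 ⟨⟨0, 0, 0, 0, 0, 0, 0, 0, 0, ⟨0, 0⟩, 0⟩, 100000, 0⟩ 0 0)))),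
    by decide +kernel⟩

def covers44 : cell.Covers Vale.Agent.P237.Petty.Cor.Grid.N15.table row44.1 :=
  ⟨(.cut .d 0 (.cut .v 16777216 (.cut .v 8388608 (.pos 2 .mm ⟨⟨0, 0, 1677721600000000, 0, 0, 0, 0, 0, 0, ⟨0, 0⟩, 0⟩, 0, 0⟩ 0 0) (.cut .d (-8388608) (.void 3 ⟨⟨100112, 0, 0, 0, 0, 0, 0, 0, 0, ⟨0, 0⟩, 0⟩, 0, 0⟩ 0 0) (.pos 3 .mm ⟨⟨0, 0, 0, 0, 0, 425979708282, 0, 0, 0, ⟨0, 0⟩, 0⟩, 0, 0⟩ 0 0))) (.cut .d (-8388608) (.void 131 ⟨⟨100000, 0, 0, 0, 0, 0, 0, 0, 0, ⟨0, 0⟩, 0⟩, 0, 0⟩ 0 0) (.cut .v 4294967296 (.cut .v 268435456 (.cut .v 67108864 (.cut .v 33554432 (.cut .d (-4194304) (.void 24 ⟨⟨100000, 0, 0, 0, 0, 0, 0, 0, 0, ⟨0, 0⟩, 0⟩, 0, 0⟩ 0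 0) (.cut .v 25165824 (.cut .d (-2097152) (.void 25 ⟨⟨100000, 0, 0, 0, 0, 0, 0, 0, 0, ⟨0, 0⟩, 0⟩, 0, 0⟩ 0 0) (.pos 25 .mp ⟨⟨122347841920, 0, 0, 0, 0, 103155008263, 0, 0, 0, ⟨0, 0⟩, 0⟩, 0, 0⟩ 0 0)) (.void 26 ⟨⟨100000, 0, 0, 0, 0, 0, 0, 0, 0, ⟨0, 0⟩, 0⟩, 0, 0⟩ 0 0))) (.void 91 ⟨⟨100000, 0, 0, 0, 0, 0, 0, 0, 0, ⟨0, 0⟩, 0⟩, 0, 0⟩ 0 0)) (.void 98 ⟨⟨100000, 0, 0, 0, 0, 0, 0, 0, 0, ⟨0, 0⟩, 0⟩, 0, 0⟩ 0 0)) (.void 117 ⟨⟨91674, 0, 0, 8466, 0, 0, 0, 0, 0, ⟨0, 0⟩, 0⟩, 0, 0⟩ 0 0)) (.cut .d (-4194304) (.void 132 ⟨⟨87277, 0, 6502, 6193, 0, 0, 0, 0, 0, ⟨0, 0⟩, 0⟩, 0, 0⟩ 0 0) (.void 132 ⟨⟨0, 0, 0, 100000, 0, 0, 0, 0, 0, ⟨0, 0⟩, 0⟩, 0, 0⟩ 0 0))))) (.cut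 .v 16777216 (.cut .v 8388608 (.cut .d 133154 (.pos 2 .pm ⟨⟨0, 0, 42129009088, 0, 0, 0, 0, 0, 0, ⟨0, 0⟩, 0⟩, 0, 0⟩ 0 0) (.cut .d 199731 (.pos 2 .pm ⟨⟨0, 0, 28597711707, 0, 0, 0, 0, 0, 0, ⟨0, 0⟩, 0⟩, 0, 0⟩ 0 0) (.pos 2 .pm ⟨⟨0, 0, 20906039, 0, 0, 0, 0, 0, 0, ⟨0, 0⟩, 0⟩, 0, 0⟩ 0 0))) (.pos 3 .pm ⟨⟨0, 0, 0, 0, 0, 0, 0, 0, 0, ⟨0, 0⟩, 0⟩, 0, 0⟩ 0 0)) (.cut .v 4294967296 (.cut .v 268435456 (.cut .v 67108864 (.cut .d 133154 (.cut .v 33554432 (.cut .d 66577 (.cut .d 33288 (.cut .v 25165824 (.cut .d 16644 (.cut .v 20971520 (.cut .d 8322 (.cut .v 18874368 (.cut .d 4161 (.cut .v 17825792 (.cut .s 16539648 (.pos 31 .pp ⟨⟨55077247329, 0, 0, 0, 0,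 0, 0, 0, 0, ⟨0, 0⟩, 0⟩, 0, 0⟩ 0 0) (.cut .s 16551936 (.pos 31 .pp ⟨⟨61988650069, 0, 0, 0, 0, 0, 0, 0, 0, ⟨0, 0⟩, 0⟩, 0, 0⟩ 0 0) (.pos 31 .pp ⟨⟨67366510701, 0, 0, 0, 0, 0, 0, 0, 0, ⟨0, 0⟩, 0⟩, 0, 0⟩ 0 0))) (.pos 32 .pp ⟨⟨72043301587, 0, 0, 0, 0, 0, 0, 0, 0, ⟨0, 0⟩, 0⟩, 0, 0⟩ 0 0)) (.pos 29 .pp ⟨⟨45802572474, 0, 0, 0, 0, 0, 0, 0, 0, ⟨0, 0⟩, 0⟩, 0, 0⟩ 0 0)) (.cut .d 4161 (.pos 30 .pp ⟨⟨91822936233, 0, 0, 0, 0, 0, 0, 0, 0, ⟨0, 0⟩, 0⟩, 0, 0⟩ 0 0) (.pos 30 .pp ⟨⟨0, 0, 0, 0, 0, 0, 0, 0, 0, ⟨0, 0⟩, 0⟩, 7856677777, 0⟩ 0 0))) (.pos 27 .pp ⟨⟨0, 0, 0, 0, 0, 0, 0, 0, 0, ⟨0, 0⟩, 0⟩, 5552629299, 0⟩ 0 0)) (.cut .d 8322 (.pos 28 .pp ⟨⟨0, 0, 0, 0, 0,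 0, 0, 0, 0, ⟨0, 0⟩, 0⟩, 11469764828, 0⟩ 0 0) (.pos 28 .pp ⟨⟨0, 0, 0, 0, 0, 0, 0, 0, 0, ⟨0, 0⟩, 0⟩, 8747499009, 0⟩ 0 0))) (.pos 25 .pp ⟨⟨0, 0, 0, 0, 0, 0, 0, 0, 0, ⟨0, 0⟩, 0⟩, 5314767173, 0⟩ 0 0)) (.cut .d 16644 (.pos 26 .pp ⟨⟨0, 0, 0, 0, 0, 0, 0, 0, 0, ⟨0, 0⟩, 0⟩, 15861305413, 0⟩ 0 0) (.pos 26 .pp ⟨⟨0, 0, 0, 0, 0, 0, 0, 0, 0, ⟨0, 0⟩, 0⟩, 10562741296, 0⟩ 0 0))) (.pos 24 .pp ⟨⟨0, 0, 0, 0, 0, 0, 0, 0, 0, ⟨0, 0⟩, 0⟩, 5367219178, 0⟩ 0 0)) (.pos 24 .pp ⟨⟨0, 0, 0, 0, 0, 0, 0, 0, 0, ⟨0, 0⟩, 0⟩, 0, 0⟩ 0 0)) (.cut .d 66577 (.cut .v 50331648 (.cut .v 41943040 (.pos 94 .pp ⟨⟨0, 0, 0, 0, 0, 0, 0, 0, 0, ⟨0, 0⟩, 0⟩, 16753485518, 0⟩ 0 0) (.pos 95 .pp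 ⟨⟨0, 0, 0, 0, 0, 0, 0, 0, 0, ⟨0, 0⟩, 0⟩, 22217602646, 0⟩ 0 0)) (.void 93 ⟨⟨0, 0, 0, 0, 0, 0, 0, 0, 0, ⟨0, 0⟩, 0⟩, 100000, 0⟩ 0 0)) (.pos 91 .pp ⟨⟨0, 0, 0, 0, 0, 0, 0, 0, 0, ⟨0, 0⟩, 0⟩, 12261311095, 0⟩ 0 0))) (.pos 90 .pp ⟨⟨0, 0, 0, 0, 0, 0, 0, 0, 0, ⟨0, 0⟩, 0⟩, 437407229, 0⟩ 0 0)) (.void 98 ⟨⟨0, 0, 0, 51234, 0, 0, 0, 0, 0, ⟨0, 0⟩, 0⟩, 48766, 0⟩ 0 0)) (.void 117 ⟨⟨0, 0, 0, 0, 0, 0, 0, 0, 0, ⟨0, 0⟩, 0⟩, 100000, 0⟩ 0 0)) (.void 132 ⟨⟨0, 0, 0, 0, 0, 0, 0, 0, 0, ⟨0, 0⟩, 0⟩, 100000, 0⟩ 0 0)))),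
    by decide +kernel⟩

def covers45 : cell.Covers Vale.Agent.P237.Petty.Cor.Grid.N15.table row45.1 :=
  ⟨(.cut .d 0 (.cut .v 16777216 (.cut .v 8388608 (.void 2 ⟨⟨0, 0, 100000, 0, 0, 0, 0, 0, 0, ⟨0, 0⟩, 0⟩, 0, 0⟩ 0 0) (.cut .d (-8388608) (.void 3 ⟨⟨0, 0, 0, 1397, 0, 51980, 0, 46678, 0, ⟨(-1), 10372620⟩, 0⟩, 0, 0⟩ 0 127) (.pos 3 .mm ⟨⟨0, 0, 0, 0, 0, 592809410266, 0, 0, 0, ⟨0, 0⟩, 0⟩, 0, 0⟩ 0 0))) (.cut .d (-8388608) (.void 131 ⟨⟨2518, 0, 0, 0, 0, 36454, 0, 61006, 0, ⟨(-1), 10372620⟩, 0⟩, 0, 0⟩ 0 127) (.cut .v 4294967296 (.cut .v 268435456 (.cut .v 67108864 (.cut .v 33554432 (.cut .d (-4194304) (.void 24 ⟨⟨1773796413, 0, 0, 0, 0, 4457272589,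 0, 0, 0, ⟨0, 0⟩, 0⟩, 0, 0⟩ 0 0) (.cut .v 25165824 (.cut .v 20971520 (.pos 27 .mp ⟨⟨130274664349, 0, 0, 0, 0, 284730620142, 0, 0, 0, ⟨0, 0⟩, 0⟩, 0, 0⟩ 0 0) (.void 28 ⟨⟨100000, 0, 0, 0, 0, 0, 0, 0, 0, ⟨0, 0⟩, 0⟩, 0, 0⟩ 0 0)) (.void 26 ⟨⟨100000, 0, 0, 0, 0, 0, 0, 0, 0, ⟨0, 0⟩, 0⟩, 0, 0⟩ 0 0))) (.void 91 ⟨⟨100000, 0, 0, 0, 0, 0, 0, 0, 0, ⟨0, 0⟩, 0⟩, 0, 0⟩ 0 0)) (.void 98 ⟨⟨100000, 0, 0, 0, 0, 0, 0, 0, 0, ⟨0, 0⟩, 0⟩, 0, 0⟩ 0 0)) (.void 117 ⟨⟨91505, 0, 0, 8493, 0, 0, 0, 0, 0, ⟨0, 0⟩, 0⟩, 0, 0⟩ 0 0)) (.void 132 ⟨⟨91505, 0, 0, 8495, 0, 0, 0, 0, 0, ⟨0, 0⟩, 0⟩, 0, 0⟩ 0 0)))) (.cut .v 16777216 (.cut .v 8388608 (.cut .d 107866 (.pos 2 .pm ⟨⟨0,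 0, 61404079459, 0, 0, 0, 0, 0, 0, ⟨0, 0⟩, 0⟩, 0, 0⟩ 0 0) (.pos 2 .pm ⟨⟨0, 0, 21020600, 0, 0, 0, 0, 0, 0, ⟨0, 0⟩, 0⟩, 0, 0⟩ 0 0)) (.pos 3 .pm ⟨⟨0, 0, 0, 0, 0, 0, 0, 0, 0, ⟨0, 0⟩, 0⟩, 0, 0⟩ 0 0)) (.cut .v 4294967296 (.cut .v 268435456 (.cut .v 67108864 (.cut .d 107866 (.cut .v 33554432 (.cut .d 53933 (.cut .d 26966 (.cut .v 25165824 (.cut .d 13483 (.cut .v 20971520 (.cut .d 6741 (.cut .v 18874368 (.cut .d 3370 (.cut .d 1685 (.cut .v 17825792 (.cut .v 17301504 (.cut .s 16588800 (.pos 33 .pp ⟨⟨74640932662, 0, 0, 0, 0, 0, 0, 0, 0, ⟨0, 0⟩, 0⟩, 0, 0⟩ 0 0) (.cut .s 16601088 (.pos 33 .pp ⟨⟨87956788244, 0, 0, 0, 0, 0, 0, 0, 0, ⟨0, 0⟩, 0⟩, 0,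 0⟩ 0 0) (.pos 33 .pp ⟨⟨97824199915, 0, 0, 0, 0, 0, 0, 0, 0, ⟨0, 0⟩, 0⟩, 0, 0⟩ 0 0))) (.pos 34 .pp ⟨⟨97091167799, 0, 0, 0, 0, 0, 0, 0, 0, ⟨0, 0⟩, 0⟩, 0, 0⟩ 0 0)) (.pos 32 .pp ⟨⟨115395512646, 0, 0, 0, 0, 0, 0, 0, 0, ⟨0, 0⟩, 0⟩, 0, 0⟩ 0 0)) (.pos 29 .pp ⟨⟨75406719750, 0, 0, 0, 0, 0, 0, 0, 0, ⟨0, 0⟩, 0⟩, 0, 0⟩ 0 0)) (.pos 29 .pp ⟨⟨62686569479, 0, 0, 0, 0, 0, 0, 0, 0, ⟨0, 0⟩, 0⟩, 0, 0⟩ 0 0)) (.cut .d 3370 (.pos 30 .pp ⟨⟨134730347060, 0, 0, 0, 0, 0, 0, 0, 0, ⟨0, 0⟩, 0⟩, 0, 0⟩ 0 0) (.cut .v 19922944 (.pos 59 .pp ⟨⟨90577822374, 0, 0, 0, 0, 0, 0, 0, 0, ⟨0, 0⟩, 0⟩, 0, 0⟩ 0 0) (.pos 60 .pp ⟨⟨0, 0, 0, 0, 0, 0, 0, 0, 0, ⟨0, 0⟩, 0⟩, 12468083494,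 0⟩ 0 0)))) (.pos 27 .pp ⟨⟨0, 0, 0, 0, 0, 0, 0, 0, 0, ⟨0, 0⟩, 0⟩, 7604960175, 0⟩ 0 0)) (.cut .d 6741 (.pos 28 .pp ⟨⟨0, 0, 0, 0, 0, 0, 0, 0, 0, ⟨0, 0⟩, 0⟩, 16848777586, 0⟩ 0 0) (.pos 28 .pp ⟨⟨0, 0, 0, 0, 0, 0, 0, 0, 0, ⟨0, 0⟩, 0⟩, 12189003557, 0⟩ 0 0))) (.pos 25 .pp ⟨⟨0, 0, 0, 0, 0, 0, 0, 0, 0, ⟨0, 0⟩, 0⟩, 7290505916, 0⟩ 0 0)) (.cut .d 13483 (.pos 26 .pp ⟨⟨0, 0, 0, 0, 0, 0, 0, 0, 0, ⟨0, 0⟩, 0⟩, 21239351244, 0⟩ 0 0) (.pos 26 .pp ⟨⟨0, 0, 0, 0, 0, 0, 0, 0, 0, ⟨0, 0⟩, 0⟩, 14781427785, 0⟩ 0 0))) (.pos 24 .pp ⟨⟨0, 0, 0, 0, 0, 0, 0, 0, 0, ⟨0, 0⟩, 0⟩, 7386115989, 0⟩ 0 0)) (.pos 24 .pp ⟨⟨0, 0, 0, 0, 0, 0, 0, 0, 0, ⟨0, 0⟩, 0⟩, 0, 0⟩ 0 0)) (.cut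 .d 53933 (.cut .v 50331648 (.cut .d 26966 (.pos 92 .pp ⟨⟨0, 0, 0, 0, 0, 0, 0, 0, 0, ⟨0, 0⟩, 0⟩, 29878328788, 0⟩ 0 0) (.pos 92 .pp ⟨⟨0, 0, 0, 0, 0, 0, 0, 0, 0, ⟨0, 0⟩, 0⟩, 20120645585, 0⟩ 0 0)) (.void 93 ⟨⟨0, 0, 0, 0, 0, 0, 0, 0, 0, ⟨0, 0⟩, 0⟩, 100000, 0⟩ 0 0)) (.pos 91 .pp ⟨⟨0, 0, 0, 0, 0, 0, 0, 0, 0, ⟨0, 0⟩, 0⟩, 17296044889, 0⟩ 0 0))) (.pos 90 .pp ⟨⟨0, 0, 0, 0, 0, 0, 0, 0, 0, ⟨0, 0⟩, 0⟩, 826615687, 0⟩ 0 0)) (.pos 98 .pp ⟨⟨0, 0, 0, 860629665057947, 0, 0, 0, 0, 0, ⟨0, 0⟩, 0⟩, 817091934942045, 0⟩ 0 0)) (.void 117 ⟨⟨0, 0, 0, 0, 0, 0, 0, 0, 0, ⟨0, 0⟩, 0⟩, 100000, 0⟩ 0 0)) (.void 132 ⟨⟨0, 0, 0, 0, 0, 0, 0, 0, 0, ⟨0, 0⟩, 0⟩, 100000, 0⟩ 0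 0)))),
    by decide +kernel⟩

def covers46 : cell.Covers Vale.Agent.P237.Petty.Cor.Grid.N15.table row46.1 :=
  ⟨(.cut .d 0 (.cut .v 16777216 (.cut .v 8388608 (.pos 2 .mm ⟨⟨0, 0, 1677721600000000, 0, 0, 0, 0, 0, 0, ⟨0, 0⟩, 0⟩, 0, 0⟩ 0 0) (.cut .d (-8388608) (.void 3 ⟨⟨159, 0, 0, 4858, 0, 84279, 0, 10731, 0, ⟨(-1), 10372620⟩, 0⟩, 0, 0⟩ 0 127) (.pos 3 .mm ⟨⟨0, 0, 0, 0, 0, 783351841800, 0, 0, 0, ⟨0, 0⟩, 0⟩, 0, 0⟩ 0 0))) (.cut .v 4294967296 (.cut .v 268435456 (.cut .v 67108864 (.cut .v 33554432 (.cut .d (-8388608) (.cut .d (-12582912) (.void 24 ⟨⟨84998, 0, 0, 0, 0, 0, 0, 0, 0, ⟨0, 0⟩, 0⟩, 0, 0⟩ 0 0) (.void 24 ⟨⟨99900, 0, 0, 0, 0, 0, 0,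 0, 0, ⟨0, 0⟩, 0⟩, 0, 0⟩ 0 0)) (.cut .d (-4194304) (.void 24 ⟨⟨2491848337, 0, 0, 0, 0, 5655155707, 0, 0, 0, ⟨0, 0⟩, 0⟩, 0, 0⟩ 0 0) (.cut .v 25165824 (.pos 25 .mp ⟨⟨251376428407, 0, 0, 0, 0, 386773811798, 0, 0, 0, ⟨0, 0⟩, 0⟩, 0, 0⟩ 0 0) (.void 26 ⟨⟨100000, 0, 0, 0, 0, 0, 0, 0, 0, ⟨0, 0⟩, 0⟩, 0, 0⟩ 0 0)))) (.void 91 ⟨⟨100000, 0, 0, 0, 0, 0, 0, 0, 0, ⟨0, 0⟩, 0⟩, 0, 0⟩ 0 0)) (.pos 98 .mp ⟨⟨1677721599996947, 0, 0, 0, 0, 0, 85, 0, 0, ⟨0, 0⟩, 0⟩, 0, 0⟩ 0 0)) (.void 117 ⟨⟨95931, 0, 0, 4069, 0, 0, 0, 0, 0, ⟨0, 0⟩, 0⟩, 0, 0⟩ 0 0)) (.cut .v 68719476736 (.void 133 ⟨⟨94161, 0, 0, 5839, 0, 0, 0, 0, 0, ⟨0, 0⟩, 0⟩, 0, 0⟩ 0 0) (.void 134 ⟨⟨0, 0, 0, 100000,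 0, 0, 0, 0, 0, ⟨0, 0⟩, 0⟩, 0, 0⟩ 0 0)))) (.cut .v 16777216 (.cut .v 8388608 (.cut .d 82729 (.pos 2 .pm ⟨⟨0, 0, 89204891086, 0, 0, 0, 0, 0, 0, ⟨0, 0⟩, 0⟩, 0, 0⟩ 0 0) (.pos 2 .pm ⟨⟨0, 0, 20896713, 0, 0, 0, 0, 0, 0, ⟨0, 0⟩, 0⟩, 0, 0⟩ 0 0)) (.pos 3 .pm ⟨⟨0, 0, 0, 0, 0, 0, 0, 0, 0, ⟨0, 0⟩, 0⟩, 0, 0⟩ 0 0)) (.cut .v 4294967296 (.cut .v 268435456 (.cut .v 67108864 (.cut .d 82729 (.cut .v 33554432 (.cut .d 41364 (.cut .d 20682 (.cut .v 25165824 (.cut .d 10341 (.cut .v 20971520 (.cut .d 5170 (.cut .v 18874368 (.cut .d 2585 (.cut .d 1292 (.cut .v 17825792 (.cut .v 17301504 (.cut .s 16629760 (.pos 33 .pp ⟨⟨109786410933, 0, 0, 0, 0, 0, 0, 0, 0,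 ⟨0, 0⟩, 0⟩, 0, 0⟩ 0 0) (.pos 33 .pp ⟨⟨129502133481, 0, 0, 0, 0, 0, 0, 0, 0, ⟨0, 0⟩, 0⟩, 0, 0⟩ 0 0)) (.pos 34 .pp ⟨⟨138610286098, 0, 0, 0, 0, 0, 0, 0, 0, ⟨0, 0⟩, 0⟩, 0, 0⟩ 0 0)) (.pos 32 .pp ⟨⟨162566707334, 0, 0, 0, 0, 0, 0, 0, 0, ⟨0, 0⟩, 0⟩, 0, 0⟩ 0 0)) (.pos 29 .pp ⟨⟨110927218716, 0, 0, 0, 0, 0, 0, 0, 0, ⟨0, 0⟩, 0⟩, 0, 0⟩ 0 0)) (.pos 29 .pp ⟨⟨93051178630, 0, 0, 0, 0, 0, 0, 0, 0, ⟨0, 0⟩, 0⟩, 0, 0⟩ 0 0)) (.cut .d 2585 (.cut .s 16629760 (.pos 30 .pp ⟨⟨171716663652, 0, 0, 0, 0, 0, 0, 0, 0, ⟨0, 0⟩, 0⟩, 0, 0⟩ 0 0) (.pos 30 .pp ⟨⟨191122614413, 0, 0, 0, 0, 0, 0, 0, 0, ⟨0, 0⟩, 0⟩, 0, 0⟩ 0 0)) (.pos 30 .pp ⟨⟨0, 0, 0, 0, 0, 0, 0, 0, 0, ⟨0, 0⟩,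 0⟩, 16037259872, 0⟩ 0 0))) (.pos 27 .pp ⟨⟨0, 0, 0, 0, 0, 0, 0, 0, 0, ⟨0, 0⟩, 0⟩, 11292214373, 0⟩ 0 0)) (.cut .d 5170 (.pos 28 .pp ⟨⟨0, 0, 0, 0, 0, 0, 0, 0, 0, ⟨0, 0⟩, 0⟩, 23738012502, 0⟩ 0 0) (.pos 28 .pp ⟨⟨0, 0, 0, 0, 0, 0, 0, 0, 0, ⟨0, 0⟩, 0⟩, 17877782376, 0⟩ 0 0))) (.pos 25 .pp ⟨⟨0, 0, 0, 0, 0, 0, 0, 0, 0, ⟨0, 0⟩, 0⟩, 10833033198, 0⟩ 0 0)) (.cut .d 10341 (.pos 26 .pp ⟨⟨0, 0, 0, 0, 0, 0, 0, 0, 0, ⟨0, 0⟩, 0⟩, 33555450935, 0⟩ 0 0) (.pos 26 .pp ⟨⟨0, 0, 0, 0, 0, 0, 0, 0, 0, ⟨0, 0⟩, 0⟩, 21642261789, 0⟩ 0 0))) (.pos 24 .pp ⟨⟨0, 0, 0, 0, 0, 0, 0, 0, 0, ⟨0, 0⟩, 0⟩, 10994748017, 0⟩ 0 0)) (.pos 24 .pp ⟨⟨0, 0, 0, 0, 0, 0, 0, 0, 0, ⟨0, 0⟩, 0⟩,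 0, 0⟩ 0 0)) (.cut .d 41364 (.cut .v 50331648 (.cut .d 20682 (.pos 92 .pp ⟨⟨0, 0, 0, 0, 0, 0, 0, 0, 0, ⟨0, 0⟩, 0⟩, 87723497562, 0⟩ 0 0) (.pos 92 .pp ⟨⟨0, 0, 0, 0, 0, 0, 0, 0, 0, ⟨0, 0⟩, 0⟩, 29392545912, 0⟩ 0 0)) (.void 93 ⟨⟨0, 0, 0, 0, 0, 0, 0, 0, 0, ⟨0, 0⟩, 0⟩, 100000, 0⟩ 0 0)) (.pos 91 .pp ⟨⟨0, 0, 0, 0, 0, 0, 0, 0, 0, ⟨0, 0⟩, 0⟩, 25538160140, 0⟩ 0 0))) (.pos 90 .pp ⟨⟨0, 0, 0, 0, 0, 0, 0, 0, 0, ⟨0, 0⟩, 0⟩, 1446014465, 0⟩ 0 0)) (.pos 98 .pp ⟨⟨0, 0, 0, 861345878030911, 0, 0, 0, 0, 0, ⟨0, 0⟩, 0⟩, 816375721969088, 0⟩ 0 0)) (.void 117 ⟨⟨0, 0, 0, 0, 0, 0, 0, 0, 0, ⟨0, 0⟩, 0⟩, 100000, 0⟩ 0 0)) (.void 132 ⟨⟨0, 0, 0, 0, 0, 0, 0, 0, 0, ⟨0, 0⟩,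 0⟩, 100000, 0⟩ 0 0)))),
    by decide +kernel⟩

def covers47 : cell.Covers Vale.Agent.P237.Petty.Cor.Grid.N15.table row47.1 :=
  ⟨(.cut .d 0 (.cut .v 16777216 (.cut .v 8388608 (.void 2 ⟨⟨0, 0, 100000, 0, 0, 0, 0, 0, 0, ⟨0, 0⟩, 0⟩, 0, 0⟩ 0 0) (.cut .s 16654336 (.pos 3 .mm ⟨⟨0, 0, 0, 0, 0, 1353436196367, 0, 0, 0, ⟨0, 0⟩, 0⟩, 0, 0⟩ 0 0) (.pos 3 .mm ⟨⟨0, 0, 0, 0, 0, 1468462204757, 0, 0, 0, ⟨0, 0⟩, 0⟩, 0, 0⟩ 0 0))) (.cut .d (-8388608) (.void 131 ⟨⟨16527, 0, 525, 496, 0, 29856, 0, 52268, 0, ⟨(-1), 10309400⟩, 0⟩, 0, 0⟩ 0 128) (.cut .v 4294967296 (.cut .v 268435456 (.cut .v 67108864 (.cut .v 33554432 (.cut .d (-4194304) (.cut .s 16654336 (.void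 24 ⟨⟨100000, 0, 0, 0, 0, 0, 0, 0, 0, ⟨0, 0⟩, 0⟩, 0, 0⟩ 0 0) (.void 24 ⟨⟨100000, 0, 0, 0, 0, 0, 0, 0, 0, ⟨0, 0⟩, 0⟩, 0, 0⟩ 0 0)) (.cut .v 25165824 (.pos 25 .mp ⟨⟨311501969992, 0, 0, 0, 0, 440189106178, 0, 0, 0, ⟨0, 0⟩, 0⟩, 0, 0⟩ 0 0) (.void 26 ⟨⟨100000, 0, 0, 0, 0, 0, 0, 0, 0, ⟨0, 0⟩, 0⟩, 0, 0⟩ 0 0))) (.void 91 ⟨⟨100000, 0, 0, 0, 0, 0, 0, 0, 0, ⟨0, 0⟩, 0⟩, 0, 0⟩ 0 0)) (.void 98 ⟨⟨100000, 0, 0, 0, 0, 0, 0, 0, 0, ⟨0, 0⟩, 0⟩, 0, 0⟩ 0 0)) (.void 117 ⟨⟨91482, 0, 0, 8518, 0, 0, 0, 0, 0, ⟨0, 0⟩, 0⟩, 0, 0⟩ 0 0)) (.void 132 ⟨⟨89966, 0, 0, 8493, 0, 0, 0, 0, 0, ⟨0, 0⟩, 0⟩, 0, 0⟩ 0 0)))) (.cut .v 16777216 (.cut .v 8388608 (.cut .d 66053 (.pos 2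 .pm ⟨⟨0, 0, 118499671740, 0, 0, 0, 0, 0, 0, ⟨0, 0⟩, 0⟩, 0, 0⟩ 0 0) (.pos 2 .pm ⟨⟨0, 0, 20807486, 0, 0, 0, 0, 0, 0, ⟨0, 0⟩, 0⟩, 0, 0⟩ 0 0)) (.pos 3 .pm ⟨⟨0, 0, 0, 0, 0, 0, 0, 0, 0, ⟨0, 0⟩, 0⟩, 0, 0⟩ 0 0)) (.cut .v 4294967296 (.cut .v 268435456 (.cut .v 67108864 (.cut .d 66053 (.cut .v 33554432 (.cut .d 33026 (.cut .d 16513 (.cut .v 25165824 (.cut .d 8256 (.cut .v 20971520 (.cut .d 4128 (.cut .v 18874368 (.cut .d 2064 (.cut .v 17825792 (.cut .s 16654336 (.pos 31 .pp ⟨⟨152404920297, 0, 0, 0, 0, 0, 0, 0, 0, ⟨0, 0⟩, 0⟩, 0, 0⟩ 0 0) (.pos 31 .pp ⟨⟨168645619543, 0, 0, 0, 0, 0, 0, 0, 0, ⟨0, 0⟩, 0⟩, 0, 0⟩ 0 0)) (.pos 32 .pp ⟨⟨189789952848, 0,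 0, 0, 0, 0, 0, 0, 0, ⟨0, 0⟩, 0⟩, 0, 0⟩ 0 0)) (.pos 29 .pp ⟨⟨130140778594, 0, 0, 0, 0, 0, 0, 0, 0, ⟨0, 0⟩, 0⟩, 0, 0⟩ 0 0)) (.cut .d 2064 (.pos 30 .pp ⟨⟨251326989950, 0, 0, 0, 0, 0, 0, 0, 0, ⟨0, 0⟩, 0⟩, 0, 0⟩ 0 0) (.pos 30 .pp ⟨⟨200397875009, 0, 0, 0, 0, 0, 0, 0, 0, ⟨0, 0⟩, 0⟩, 0, 0⟩ 0 0))) (.pos 27 .pp ⟨⟨0, 0, 0, 0, 0, 0, 0, 0, 0, ⟨0, 0⟩, 0⟩, 15794230397, 0⟩ 0 0)) (.cut .d 4128 (.pos 28 .pp ⟨⟨0, 0, 0, 0, 0, 0, 0, 0, 0, ⟨0, 0⟩, 0⟩, 29373749095, 0⟩ 0 0) (.pos 28 .pp ⟨⟨0, 0, 0, 0, 0, 0, 0, 0, 0, ⟨0, 0⟩, 0⟩, 24030357761, 0⟩ 0 0))) (.pos 25 .pp ⟨⟨0, 0, 0, 0, 0, 0, 0, 0, 0, ⟨0, 0⟩, 0⟩, 15156247625, 0⟩ 0 0)) (.cut .d 8256 (.pos 26 .pp ⟨⟨0,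 0, 0, 0, 0, 0, 0, 0, 0, ⟨0, 0⟩, 0⟩, 37199100010, 0⟩ 0 0) (.pos 26 .pp ⟨⟨0, 0, 0, 0, 0, 0, 0, 0, 0, ⟨0, 0⟩, 0⟩, 28950632166, 0⟩ 0 0))) (.pos 24 .pp ⟨⟨0, 0, 0, 0, 0, 0, 0, 0, 0, ⟨0, 0⟩, 0⟩, 15393731039, 0⟩ 0 0)) (.pos 24 .pp ⟨⟨0, 0, 0, 0, 0, 0, 0, 0, 0, ⟨0, 0⟩, 0⟩, 0, 0⟩ 0 0)) (.cut .v 50331648 (.cut .d 33026 (.pos 92 .pp ⟨⟨0, 0, 0, 0, 0, 0, 0, 0, 0, ⟨0, 0⟩, 0⟩, 47780341419, 0⟩ 0 0) (.pos 92 .pp ⟨⟨0, 0, 0, 0, 0, 0, 0, 0, 0, ⟨0, 0⟩, 0⟩, 23479832852, 0⟩ 0 0)) (.pos 93 .pp ⟨⟨0, 0, 0, 0, 0, 0, 0, 0, 0, ⟨0, 0⟩, 0⟩, 67620123869, 0⟩ 0 0))) (.pos 90 .pp ⟨⟨0, 0, 0, 0, 0, 0, 0, 0, 0, ⟨0, 0⟩, 0⟩, 2172874823, 0⟩ 0 0)) (.pos 98 .pp ⟨⟨0, 0, 0, 861523662138881,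 0, 0, 0, 0, 0, ⟨0, 0⟩, 0⟩, 816197937861084, 0⟩ 0 0)) (.void 117 ⟨⟨0, 0, 0, 0, 0, 0, 0, 0, 0, ⟨0, 0⟩, 0⟩, 100000, 0⟩ 0 0)) (.void 132 ⟨⟨0, 0, 0, 0, 0, 0, 0, 0, 0, ⟨0, 0⟩, 0⟩, 100000, 0⟩ 0 0)))),
    by decide +kernel⟩

end Vale.Agent.P237.Petty.Cor.Grid.Tiny.N15
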