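import Vale.Agent.P237.Petty.Cor.Grid.Tiny.N15.Cert

/-!
# P237: a cell down to zero in dimension 15, subdivisions
-/

namespace Vale.Agent.P237.Petty.Cor.Grid.Tiny.N15

def covers0 : cell.Covers Vale.Agent.P237.Petty.Cor.Grid.N15.table row0.1 :=
  ⟨(.cut .d 0 (.cut .v 16777216 (.cut .v 8388608 (.cut .s 851968 (.cut .s 425984 (.cut .s 212992 (.cut .v 4194304 (.cut .v 2097152 (.void 6 ⟨⟨0, 0, 100000, 0, 0, 0, 0, 0, 0, ⟨0, 0⟩, 0⟩, 0, 0⟩ 0 0) (.pos 7 .mm ⟨⟨0, 0, 0, 0, 0, 0, 0, 0, 0, ⟨0, 0⟩, 0⟩, 0, 0⟩ 0 0)) (.cut .d (-8388608) (.pos 5 .mm ⟨⟨0, 0, 0, 0, 0, 0, 0, 0, 0, ⟨0, 0⟩, 0⟩, 0, 0⟩ 0 0) (.pos 5 .mm ⟨⟨0, 0, 0, 0, 0, 0, 0, 0, 0, ⟨0,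 0⟩, 0⟩, 0, 0⟩ 0 0))) (.void 2 ⟨⟨0, 0, 0, 0, 50000, 50000, 0, 0, 0, ⟨0, 0⟩, 0⟩, 0, 0⟩ 0 0)) (.void 2 ⟨⟨0, 0, 0, 0, 50000, 50000, 0, 0, 0, ⟨0, 0⟩, 0⟩, 0, 0⟩ 0 0)) (.void 2 ⟨⟨0, 0, 0, 0, 50000, 50000, 0, 0, 0, ⟨0, 0⟩, 0⟩, 0, 0⟩ 0 0)) (.cut .v 12582912 (.cut .d (-8388608) (.pos 10 .mm ⟨⟨0, 0, 0, 0, 0, 0, 0, 0, 0, ⟨0, 0⟩, 0⟩, 0, 0⟩ 0 0) (.cut .d (-4194304) (.cut .d (-6291456) (.pos 10 .mm ⟨⟨0, 0, 0, 0, 0, 0, 0, 0, 0, ⟨0, 0⟩, 0⟩, 0, 0⟩ 0 0) (.pos 10 .mm ⟨⟨0, 0, 0, 0, 0, 0, 0, 0, 0, ⟨0, 0⟩, 0⟩, 0, 0⟩ 0 0)) (.pos 10 .mm ⟨⟨0, 0, 0, 0, 0, 0, 0, 0, 0, ⟨0, 0⟩, 0⟩, 0, 0⟩ 0 0))) (.cut .d (-8388608) (.pos 11 .mm ⟨⟨0, 0, 0, 0, 0, 0, 0, 0, 0, ⟨0,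 0⟩, 0⟩, 0, 0⟩ 0 0) (.cut .d (-4194304) (.cut .v 14680064 (.cut .v 13631488 (.pos 16 .mm ⟨⟨0, 0, 0, 0, 0, 0, 0, 0, 0, ⟨0, 0⟩, 0⟩, 0, 0⟩ 0 0) (.pos 17 .mm ⟨⟨0, 0, 0, 0, 0, 0, 0, 0, 0, ⟨0, 0⟩, 0⟩, 0, 0⟩ 0 0)) (.pos 15 .mm ⟨⟨0, 0, 0, 0, 0, 0, 0, 0, 0, ⟨0, 0⟩, 0⟩, 0, 0⟩ 0 0)) (.cut .v 14680064 (.cut .d (-2097152) (.cut .s 851968 (.cut .v 13631488 (.cut .d (-3145728) (.cut .d (-3670016) (.pos 16 .mm ⟨⟨0, 0, 0, 0, 0, 0, 0, 0, 0, ⟨0, 0⟩, 0⟩, 0, 0⟩ 0 0) (.pos 16 .mm ⟨⟨0, 0, 0, 0, 0, 0, 0, 0, 0, ⟨0, 0⟩, 0⟩, 0, 0⟩ 0 0)) (.pos 16 .mm ⟨⟨0, 0, 0, 0, 0, 0, 0, 0, 0, ⟨0, 0⟩, 0⟩, 0, 0⟩ 0 0)) (.cut .d (-3145728) (.pos 17 .mm ⟨⟨0, 0, 0, 0, 0, 0, 0,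 0, 0, ⟨0, 0⟩, 0⟩, 0, 0⟩ 0 0) (.cut .d (-2621440) (.cut .v 14155776 (.pos 20 .mm ⟨⟨0, 0, 0, 0, 0, 0, 0, 0, 0, ⟨0, 0⟩, 0⟩, 0, 0⟩ 0 0) (.pos 21 .mm ⟨⟨0, 0, 0, 0, 0, 0, 0, 0, 0, ⟨0, 0⟩, 0⟩, 0, 0⟩ 0 0)) (.pos 17 .mm ⟨⟨0, 0, 0, 0, 0, 0, 0, 0, 0, ⟨0, 0⟩, 0⟩, 0, 0⟩ 0 0)))) (.void 14 ⟨⟨0, 0, 0, 0, 0, 100000, 0, 0, 0, ⟨0, 0⟩, 0⟩, 0, 0⟩ 0 0)) (.pos 14 .mm ⟨⟨0, 0, 0, 0, 0, 0, 0, 0, 0, ⟨0, 0⟩, 0⟩, 0, 0⟩ 0 0)) (.cut .d (-2097152) (.pos 15 .mm ⟨⟨0, 0, 0, 0, 0, 0, 0, 0, 0, ⟨0, 0⟩, 0⟩, 0, 0⟩ 0 0) (.cut .d (-1048576) (.cut .v 15728640 (.pos 22 .mm ⟨⟨0, 0, 0, 0, 0, 0, 0, 0, 0, ⟨0, 0⟩, 0⟩, 0, 0⟩ 0 0) (.pos 23 .mm ⟨⟨0, 0, 0, 0, 0, 0, 0, 0, 0, ⟨0, 0⟩,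 0⟩, 0, 0⟩ 0 0)) (.pos 15 .mm ⟨⟨0, 0, 0, 0, 0, 272646, 0, 0, 0, ⟨0, 0⟩, 0⟩, 0, 0⟩ 0 0)))))))) (.cut .v 25165824 (.cut .v 20971520 (.cut .v 18874368 (.pos 29 .mp ⟨⟨1488961, 0, 0, 0, 0, 6850, 0, 0, 0, ⟨0, 0⟩, 0⟩, 0, 0⟩ 0 0) (.void 30 ⟨⟨0, 0, 0, 0, 0, 0, 100000, 0, 0, ⟨0, 0⟩, 0⟩, 0, 0⟩ 0 0)) (.void 28 ⟨⟨0, 0, 0, 0, 0, 0, 100000, 0, 0, ⟨0, 0⟩, 0⟩, 0, 0⟩ 0 0)) (.void 26 ⟨⟨0, 0, 0, 0, 0, 0, 100000, 0, 0, ⟨0, 0⟩, 0⟩, 0, 0⟩ 0 0))) (.cut .v 16777216 (.cut .v 8388608 (.cut .v 4194304 (.cut .v 2097152 (.void 6 ⟨⟨0, 0, 100000, 0, 0, 0, 0, 0, 0, ⟨0, 0⟩, 0⟩, 0, 0⟩ 0 0) (.pos 7 .pm ⟨⟨0, 0, 0, 0, 839262, 0, 0, 0, 0, ⟨0, 0⟩, 0⟩, 0, 0⟩ 0 0)) (.pos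 5 .pm ⟨⟨0, 0, 0, 0, 808740, 0, 0, 0, 0, ⟨0, 0⟩, 0⟩, 0, 0⟩ 0 0)) (.cut .v 12582912 (.pos 10 .pm ⟨⟨0, 0, 0, 0, 789137, 0, 0, 0, 0, ⟨0, 0⟩, 0⟩, 0, 0⟩ 0 0) (.pos 11 .pm ⟨⟨0, 0, 0, 0, 0, 0, 0, 0, 0, ⟨0, 0⟩, 0⟩, 0, 626708⟩ 0 0))) (.cut .v 25165824 (.cut .v 20971520 (.cut .v 18874368 (.cut .v 17825792 (.cut .v 17301504 (.cut .d 346248 (.cut .v 17039360 (.cut .s 851968 (.cut .d 173124 (.pos 35 .pp ⟨⟨1173138, 0, 0, 0, 0, 0, 213397, 0, 0, ⟨0, 0⟩, 0⟩, 0, 212942⟩ 0 0) (.pos 35 .pp ⟨⟨1184721, 0, 0, 0, 0, 0, 258103, 0, 0, ⟨0, 0⟩, 0⟩, 0, 93025⟩ 0 0)) (.cut .s 1277952 (.cut .s 1064960 (.pos 35 .pp ⟨⟨1563344, 0, 0, 0, 0, 0, 0, 0, 0, ⟨0, 0⟩, 0⟩,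 0, 238926⟩ 0 0) (.pos 35 .pp ⟨⟨1492844, 0, 0, 0, 0, 0, 0, 0, 0, ⟨0, 0⟩, 0⟩, 0, 222975⟩ 0 0)) (.cut .d 173124 (.cut .s 1490944 (.pos 35 .pp ⟨⟨1304917, 0, 0, 0, 0, 0, 0, 0, 0, ⟨0, 0⟩, 0⟩, 0, 263442⟩ 0 0) (.pos 35 .pp ⟨⟨1205272, 0, 0, 0, 0, 0, 0, 0, 0, ⟨0, 0⟩, 0⟩, 0, 240205⟩ 0 0)) (.pos 35 .pp ⟨⟨1167641, 0, 0, 0, 0, 0, 0, 0, 0, ⟨0, 0⟩, 0⟩, 0, 428440⟩ 0 0)))) (.pos 36 .pp ⟨⟨1851729, 0, 0, 0, 0, 0, 0, 0, 0, ⟨0, 0⟩, 0⟩, 0, 126795⟩ 0 0)) (.pos 33 .pp ⟨⟨0, 0, 0, 0, 0, 0, 969562, 0, 0, ⟨0, 0⟩, 0⟩, 0, 1314324⟩ 0 0)) (.void 34 ⟨⟨0, 0, 0, 0, 0, 0, 100000, 0, 0, ⟨0, 0⟩, 0⟩, 0, 0⟩ 0 0)) (.void 32 ⟨⟨0, 0, 0, 0, 0, 0, 100000, 0, 0, ⟨0, 0⟩, 0⟩,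 0, 0⟩ 0 0)) (.void 30 ⟨⟨0, 0, 0, 0, 0, 0, 0, 0, 0, ⟨0, 0⟩, 0⟩, 100000, 0⟩ 0 0)) (.void 28 ⟨⟨0, 0, 0, 0, 0, 0, 0, 0, 0, ⟨0, 0⟩, 0⟩, 100000, 0⟩ 0 0)) (.void 26 ⟨⟨0, 0, 0, 0, 0, 0, 0, 0, 0, ⟨0, 0⟩, 0⟩, 100000, 0⟩ 0 0)))),
    by decide +kernel⟩

def covers1 : cell.Covers Vale.Agent.P237.Petty.Cor.Grid.N15.table row1.1 :=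
  ⟨(.cut .d 0 (.cut .v 16777216 (.cut .v 8388608 (.void 2 ⟨⟨0, 0, 0, 0, 50000, 50000, 0, 0, 0, ⟨0, 0⟩, 0⟩, 0, 0⟩ 0 0) (.cut .v 12582912 (.void 10 ⟨⟨0, 0, 0, 0, 50000, 50000, 0, 0, 0, ⟨0, 0⟩, 0⟩, 0, 0⟩ 0 0) (.cut .v 14680064 (.void 14 ⟨⟨0, 0, 0, 0, 0, 64287, 0, 0, 35713, ⟨0, 0⟩, 15100357⟩, 0, 0⟩ 0 0) (.cut .d (-8388608) (.void 15 ⟨⟨0, 0, 0, 0, 0, 100000, 0, 0, 0, ⟨0, 0⟩, 0⟩, 0, 0⟩ 0 0) (.cut .d (-4194304) (.void 15 ⟨⟨0, 0, 0, 0, 0, 100000, 0, 0, 0, ⟨0, 0⟩, 0⟩, 0, 0⟩ 0 0) (.cut .d (-2097152) (.void 15 ⟨⟨0, 0, 0, 0, 0, 100000, 0, 0, 0, ⟨0, 0⟩, 0⟩, 0, 0⟩ 0 0) (.pos 15 .mm ⟨⟨0, 0, 0, 0, 0, 773195, 0, 0, 0, ⟨0, 0⟩, 0⟩, 0, 0⟩ 0 0)))))))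 (.cut .v 25165824 (.cut .v 20971520 (.cut .d (-8388608) (.void 27 ⟨⟨0, 0, 0, 0, 0, 100000, 0, 0, 0, ⟨0, 0⟩, 0⟩, 0, 0⟩ 0 0) (.cut .d (-4194304) (.void 27 ⟨⟨0, 0, 0, 0, 0, 100000, 0, 0, 0, ⟨0, 0⟩, 0⟩, 0, 0⟩ 0 0) (.cut .v 18874368 (.cut .d (-2097152) (.void 29 ⟨⟨0, 0, 0, 0, 0, 100000, 0, 0, 0, ⟨0, 0⟩, 0⟩, 0, 0⟩ 0 0) (.pos 29 .mp ⟨⟨1111083, 0, 0, 0, 0, 7593, 0, 0, 0, ⟨0, 0⟩, 0⟩, 0, 0⟩ 0 0)) (.void 30 ⟨⟨0, 0, 0, 0, 0, 0, 100000, 0, 0, ⟨0, 0⟩, 0⟩, 0, 0⟩ 0 0)))) (.void 28 ⟨⟨0, 0, 0, 0, 0, 0, 100000, 0, 0, ⟨0, 0⟩, 0⟩, 0, 0⟩ 0 0)) (.void 26 ⟨⟨0, 0, 0, 0, 0, 0, 100000, 0, 0, ⟨0, 0⟩, 0⟩, 0, 0⟩ 0 0))) (.cut .v 16777216 (.cut .v 8388608 (.void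 2 ⟨⟨0, 0, 0, 0, 100000, 0, 0, 0, 0, ⟨0, 0⟩, 0⟩, 0, 0⟩ 0 0) (.cut .v 12582912 (.void 10 ⟨⟨0, 0, 0, 0, 100000, 0, 0, 0, 0, ⟨0, 0⟩, 0⟩, 0, 0⟩ 0 0) (.cut .v 14680064 (.void 14 ⟨⟨0, 0, 0, 0, 0, 0, 0, 0, 100000, ⟨0, 0⟩, 15100357⟩, 0, 0⟩ 0 0) (.pos 15 .pm ⟨⟨0, 0, 0, 0, 0, 0, 0, 0, 0, ⟨0, 0⟩, 0⟩, 0, 287613⟩ 0 0)))) (.cut .v 25165824 (.cut .v 20971520 (.cut .v 18874368 (.cut .d 804925 (.cut .v 17825792 (.cut .d 402462 (.cut .v 17301504 (.cut .s 2359296 (.cut .v 17039360 (.cut .d 201231 (.cut .l 123033 (.cut .v 16908288 (.cut .d 100615 (.cut .s 2031616 (.pos 37 .pp ⟨⟨1026893, 0, 0, 0, 0, 0, 0, 0, 0, ⟨0, 0⟩, 0⟩, 0, 244012⟩ 0 0) (.pos 37 .pp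 ⟨⟨869574, 0, 0, 0, 0, 0, 0, 0, 0, ⟨0, 0⟩, 0⟩, 0, 233612⟩ 0 0)) (.pos 37 .pp ⟨⟨717421, 0, 0, 0, 0, 0, 0, 0, 0, ⟨0, 0⟩, 0⟩, 0, 503260⟩ 0 0)) (.pos 38 .pp ⟨⟨1177540, 0, 0, 0, 0, 0, 0, 0, 0, ⟨0, 0⟩, 0⟩, 0, 233138⟩ 0 0)) (.pos 35 .pp ⟨⟨885350, 0, 0, 0, 0, 0, 0, 0, 0, ⟨0, 0⟩, 0⟩, 0, 214821⟩ 0 0)) (.pos 35 .pp ⟨⟨764536, 0, 0, 0, 0, 0, 0, 0, 0, ⟨0, 0⟩, 0⟩, 0, 493079⟩ 0 0)) (.pos 36 .pp ⟨⟨1278190, 0, 0, 0, 0, 0, 0, 0, 0, ⟨0, 0⟩, 0⟩, 0, 210954⟩ 0 0)) (.cut .v 17039360 (.cut .d 201231 (.cut .s 2686976 (.cut .s 2523136 (.pos 35 .pp ⟨⟨725696, 0, 0, 0, 0, 0, 0, 0, 0, ⟨0, 0⟩, 0⟩, 0, 248909⟩ 0 0) (.pos 35 .pp ⟨⟨661041, 0, 0, 0, 0, 0, 0, 0, 0, ⟨0,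 0⟩, 0⟩, 0, 232103⟩ 0 0)) (.pos 35 .pp ⟨⟨550539, 0, 0, 0, 0, 0, 0, 0, 0, ⟨0, 0⟩, 0⟩, 0, 203207⟩ 0 0)) (.pos 35 .pp ⟨⟨330189, 0, 0, 0, 0, 0, 0, 0, 0, ⟨0, 0⟩, 0⟩, 0, 445174⟩ 0 0)) (.pos 36 .pp ⟨⟨726504, 0, 0, 0, 0, 0, 0, 0, 0, ⟨0, 0⟩, 0⟩, 0, 288093⟩ 0 0))) (.void 34 ⟨⟨84614, 0, 0, 0, 0, 0, 0, 0, 0, ⟨0, 0⟩, 0⟩, 0, 15386⟩ 0 0)) (.void 31 ⟨⟨0, 0, 0, 0, 0, 0, 666, 0, 0, ⟨0, 0⟩, 0⟩, 0, 99334⟩ 0 0)) (.void 32 ⟨⟨0, 0, 0, 0, 0, 0, 100000, 0, 0, ⟨0, 0⟩, 0⟩, 0, 0⟩ 0 0)) (.void 29 ⟨⟨0, 0, 0, 0, 0, 0, 666, 0, 0, ⟨0, 0⟩, 0⟩, 0, 99334⟩ 0 0)) (.void 30 ⟨⟨0, 0, 0, 0, 0, 0, 100000, 0, 0, ⟨0, 0⟩, 0⟩, 0, 0⟩ 0 0)) (.void 28 ⟨⟨0, 0, 0, 0, 0, 0, 0, 0, 0,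 ⟨0, 0⟩, 0⟩, 100000, 0⟩ 0 0)) (.void 26 ⟨⟨0, 0, 0, 0, 0, 0, 0, 0, 0, ⟨0, 0⟩, 0⟩, 100000, 0⟩ 0 0)))),
    by decide +kernel⟩

def covers2 : cell.Covers Vale.Agent.P237.Petty.Cor.Grid.N15.table row2.1 :=
  ⟨(.cut .d 0 (.cut .v 16777216 (.cut .v 8388608 (.void 2 ⟨⟨0, 0, 0, 0, 50000, 50000, 0, 0, 0, ⟨0, 0⟩, 0⟩, 0, 0⟩ 0 0) (.cut .v 12582912 (.void 10 ⟨⟨0, 0, 0, 0, 0, 61015, 0, 0, 38985, ⟨0, 0⟩, 13128881⟩, 0, 0⟩ 0 0) (.cut .d (-8388608) (.void 11 ⟨⟨0, 0, 0, 0, 0, 100000, 0, 0, 0, ⟨0, 0⟩, 0⟩, 0, 0⟩ 0 0) (.cut .d (-4194304) (.void 11 ⟨⟨0, 0, 0, 0, 0, 100000, 0, 0, 0, ⟨0, 0⟩, 0⟩, 0, 0⟩ 0 0) (.cut .v 14680064 (.pos 14 .mm ⟨⟨0, 0, 0, 0, 0,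 3990342, 0, 0, 0, ⟨0, 0⟩, 0⟩, 0, 0⟩ 0 0) (.cut .d (-2097152) (.void 15 ⟨⟨0, 0, 0, 0, 0, 100000, 0, 0, 0, ⟨0, 0⟩, 0⟩, 0, 0⟩ 0 0) (.cut .d (-1048576) (.void 15 ⟨⟨0, 0, 0, 0, 0, 100000, 0, 0, 0, ⟨0, 0⟩, 0⟩, 0, 0⟩ 0 0) (.cut .d (-524288) (.void 15 ⟨⟨0, 0, 0, 0, 0, 100000, 0, 0, 0, ⟨0, 0⟩, 0⟩, 0, 0⟩ 0 0) (.cut .d (-262144) (.pos 15 .mm ⟨⟨0, 0, 0, 0, 0, 2394776, 0, 0, 0, ⟨0, 0⟩, 0⟩, 0, 0⟩ 0 0) (.pos 15 .mm ⟨⟨0, 0, 0, 0, 0, 532147, 0, 0, 0, ⟨0, 0⟩, 0⟩, 0, 0⟩ 0 0)))))))))) (.cut .v 25165824 (.cut .d (-8388608) (.void 25 ⟨⟨0, 0, 0, 0, 0, 100000, 0, 0, 0, ⟨0, 0⟩, 0⟩, 0, 0⟩ 0 0) (.cut .d (-4194304) (.void 25 ⟨⟨0, 0, 0, 0, 0, 100000, 0, 0,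 0, ⟨0, 0⟩, 0⟩, 0, 0⟩ 0 0) (.cut .v 20971520 (.cut .d (-2097152) (.void 27 ⟨⟨0, 0, 0, 0, 0, 100000, 0, 0, 0, ⟨0, 0⟩, 0⟩, 0, 0⟩ 0 0) (.cut .d (-1048576) (.void 27 ⟨⟨0, 0, 0, 0, 0, 100000, 0, 0, 0, ⟨0, 0⟩, 0⟩, 0, 0⟩ 0 0) (.cut .d (-524288) (.void 27 ⟨⟨0, 0, 0, 0, 0, 100000, 0, 0, 0, ⟨0, 0⟩, 0⟩, 0, 0⟩ 0 0) (.cut .v 18874368 (.cut .d (-262144) (.pos 29 .mp ⟨⟨496114, 0, 0, 0, 0, 4488073, 0, 0, 0, ⟨0, 0⟩, 0⟩, 0, 0⟩ 0 0) (.cut .d (-131072) (.pos 29 .mp ⟨⟨655413, 0, 0, 0, 0, 342022, 0, 0, 0, ⟨0, 0⟩, 0⟩, 0, 0⟩ 0 0) (.pos 29 .mp ⟨⟨605035, 0, 0, 0, 0, 137423, 0, 0, 0, ⟨0, 0⟩, 0⟩, 0, 0⟩ 0 0))) (.void 30 ⟨⟨0, 0, 0, 0, 0, 0, 100000, 0, 0, ⟨0,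 0⟩, 0⟩, 0, 0⟩ 0 0))))) (.void 28 ⟨⟨0, 0, 0, 0, 0, 0, 100000, 0, 0, ⟨0, 0⟩, 0⟩, 0, 0⟩ 0 0)))) (.void 26 ⟨⟨0, 0, 0, 0, 0, 0, 100000, 0, 0, ⟨0, 0⟩, 0⟩, 0, 0⟩ 0 0))) (.cut .v 16777216 (.cut .v 8388608 (.void 2 ⟨⟨0, 0, 0, 0, 100000, 0, 0, 0, 0, ⟨0, 0⟩, 0⟩, 0, 0⟩ 0 0) (.cut .v 12582912 (.void 10 ⟨⟨0, 0, 0, 0, 0, 0, 0, 0, 100000, ⟨0, 0⟩, 13128881⟩, 0, 0⟩ 0 0) (.cut .v 14680064 (.pos 14 .pm ⟨⟨0, 0, 0, 0, 0, 0, 0, 0, 1695518, ⟨0, 0⟩, 15100357⟩, 0, 0⟩ 0 0) (.cut .d 1244275 (.cut .d 622137 (.cut .s 3407872 (.pos 15 .pm ⟨⟨0, 0, 0, 0, 0, 0, 0, 0, 0, ⟨0, 0⟩, 0⟩, 0, 256632⟩ 0 0) (.cut .v 15728640 (.pos 22 .pm ⟨⟨0, 0, 0, 0, 0, 0, 0, 0, 0, ⟨0, 0⟩,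 0⟩, 0, 456400⟩ 0 0) (.cut .d 311068 (.pos 23 .pm ⟨⟨0, 0, 0, 0, 0, 0, 0, 0, 0, ⟨0, 0⟩, 0⟩, 0, 180385⟩ 0 0) (.pos 23 .pm ⟨⟨0, 0, 0, 0, 0, 0, 0, 0, 0, ⟨0, 0⟩, 0⟩, 0, 597946⟩ 0 0)))) (.void 15 ⟨⟨0, 0, 0, 0, 0, 0, 0, 0, 0, ⟨0, 0⟩, 0⟩, 0, 100000⟩ 0 0)) (.void 15 ⟨⟨0, 0, 0, 0, 0, 0, 0, 0, 0, ⟨0, 0⟩, 0⟩, 0, 100000⟩ 0 0))))) (.cut .v 25165824 (.cut .v 20971520 (.cut .v 18874368 (.cut .d 1244275 (.cut .d 622137 (.cut .v 17825792 (.cut .v 17301504 (.cut .d 311068 (.cut .v 17039360 (.cut .d 155534 (.cut .s 3407872 (.cut .s 3211264 (.pos 35 .pp ⟨⟨429846, 0, 0, 0, 0, 0, 0, 0, 0, ⟨0, 0⟩, 0⟩, 0, 186367⟩ 0 0) (.pos 35 .pp ⟨⟨344291, 0, 0, 0, 0, 0,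 0, 0, 0, ⟨0, 0⟩, 0⟩, 0, 169687⟩ 0 0)) (.pos 35 .pp ⟨⟨249531, 0, 0, 0, 0, 0, 0, 0, 0, ⟨0, 0⟩, 0⟩, 0, 139651⟩ 0 0)) (.pos 35 .pp ⟨⟨0, 0, 0, 0, 0, 0, 0, 0, 0, ⟨0, 0⟩, 0⟩, 0, 344720⟩ 0 0)) (.pos 36 .pp ⟨⟨410511, 0, 0, 0, 0, 0, 0, 0, 0, ⟨0, 0⟩, 0⟩, 0, 191733⟩ 0 0)) (.pos 33 .pp ⟨⟨0, 0, 0, 0, 0, 0, 0, 0, 0, ⟨0, 0⟩, 0⟩, 0, 879507⟩ 0 0)) (.void 34 ⟨⟨81250, 0, 0, 0, 0, 0, 0, 0, 0, ⟨0, 0⟩, 0⟩, 0, 18750⟩ 0 0)) (.void 32 ⟨⟨0, 0, 0, 0, 0, 0, 100000, 0, 0, ⟨0, 0⟩, 0⟩, 0, 0⟩ 0 0)) (.void 29 ⟨⟨0, 0, 0, 0, 0, 0, 1604, 0, 0, ⟨0, 0⟩, 0⟩, 0, 98396⟩ 0 0)) (.void 29 ⟨⟨0, 0, 0, 0, 0, 0, 0, 0, 0, ⟨0, 0⟩, 0⟩, 0, 100000⟩ 0 0)) (.void 30 ⟨⟨0, 0, 0, 0, 0,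 0, 0, 0, 0, ⟨0, 0⟩, 0⟩, 19923, 80077⟩ 0 0)) (.void 28 ⟨⟨0, 0, 0, 0, 0, 0, 0, 0, 0, ⟨0, 0⟩, 0⟩, 19923, 80077⟩ 0 0)) (.void 26 ⟨⟨0, 0, 0, 0, 0, 0, 0, 0, 0, ⟨0, 0⟩, 0⟩, 100000, 0⟩ 0 0)))),
    by decide +kernel⟩

def covers3 : cell.Covers Vale.Agent.P237.Petty.Cor.Grid.N15.table row3.1 :=
  ⟨(.cut .d 0 (.cut .v 16777216 (.cut .v 8388608 (.void 2 ⟨⟨0, 0, 0, 0, 50000, 50000, 0, 0, 0, ⟨0, 0⟩, 0⟩, 0, 0⟩ 0 0) (.cut .v 12582912 (.void 10 ⟨⟨0, 0, 0, 0, 0, 61015, 0, 0, 38985, ⟨0, 0⟩, 13128881⟩, 0, 0⟩ 0 0) (.cut .d (-8388608) (.void 11 ⟨⟨0, 0, 0, 0, 0, 100000, 0, 0, 0, ⟨0, 0⟩, 0⟩, 0, 0⟩ 0 0) (.cut .d (-4194304) (.void 11 ⟨⟨0, 0, 0, 0, 0, 100000,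 0, 0, 0, ⟨0, 0⟩, 0⟩, 0, 0⟩ 0 0) (.cut .d (-2097152) (.void 11 ⟨⟨0, 0, 0, 0, 0, 100000, 0, 0, 0, ⟨0, 0⟩, 0⟩, 0, 0⟩ 0 0) (.cut .v 14680064 (.pos 14 .mm ⟨⟨0, 0, 0, 0, 0, 3740646, 0, 0, 0, ⟨0, 0⟩, 0⟩, 0, 0⟩ 0 0) (.cut .d (-1048576) (.void 15 ⟨⟨0, 0, 0, 0, 0, 100000, 0, 0, 0, ⟨0, 0⟩, 0⟩, 0, 0⟩ 0 0) (.cut .d (-524288) (.void 15 ⟨⟨0, 0, 0, 0, 0, 100000, 0, 0, 0, ⟨0, 0⟩, 0⟩, 0, 0⟩ 0 0) (.cut .d (-262144) (.void 15 ⟨⟨0, 0, 0, 0, 0, 100000, 0, 0, 0, ⟨0, 0⟩, 0⟩, 0, 0⟩ 0 0) (.cut .d (-131072) (.pos 15 .mm ⟨⟨0, 0, 0, 0, 0, 1449470, 0, 0, 0, ⟨0, 0⟩, 0⟩, 0, 0⟩ 0 0) (.cut .v 15728640 (.pos 22 .mm ⟨⟨0, 0, 0, 0, 0, 353505, 0, 0, 0, ⟨0, 0⟩, 0⟩, 0,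 0⟩ 0 0) (.cut .s 4161536 (.pos 23 .mm ⟨⟨0, 0, 0, 0, 0, 666166, 0, 0, 0, ⟨0, 0⟩, 0⟩, 0, 0⟩ 0 0) (.cut .s 4341760 (.pos 23 .mm ⟨⟨0, 0, 0, 0, 0, 882272, 0, 0, 0, ⟨0, 0⟩, 0⟩, 0, 0⟩ 0 0) (.pos 23 .mm ⟨⟨0, 0, 0, 0, 0, 1110596, 0, 0, 0, ⟨0, 0⟩, 0⟩, 0, 0⟩ 0 0)))))))))))))) (.cut .v 25165824 (.cut .d (-8388608) (.void 25 ⟨⟨0, 0, 0, 0, 0, 100000, 0, 0, 0, ⟨0, 0⟩, 0⟩, 0, 0⟩ 0 0) (.cut .d (-4194304) (.void 25 ⟨⟨0, 0, 0, 0, 0, 100000, 0, 0, 0, ⟨0, 0⟩, 0⟩, 0, 0⟩ 0 0) (.cut .d (-2097152) (.void 25 ⟨⟨0, 0, 0, 0, 0, 100000, 0, 0, 0, ⟨0, 0⟩, 0⟩, 0, 0⟩ 0 0) (.cut .v 20971520 (.cut .d (-1048576) (.void 27 ⟨⟨0, 0, 0, 0, 0, 100000, 0, 0, 0, ⟨0, 0⟩, 0⟩,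 0, 0⟩ 0 0) (.cut .d (-524288) (.void 27 ⟨⟨0, 0, 0, 0, 0, 100000, 0, 0, 0, ⟨0, 0⟩, 0⟩, 0, 0⟩ 0 0) (.cut .v 18874368 (.cut .d (-262144) (.void 29 ⟨⟨0, 0, 0, 0, 0, 100000, 0, 0, 0, ⟨0, 0⟩, 0⟩, 0, 0⟩ 0 0) (.cut .v 17825792 (.cut .v 17301504 (.cut .v 17039360 (.cut .d (-131072) (.cut .s 4161536 (.pos 35 .mp ⟨⟨152557, 0, 0, 0, 0, 1049664, 0, 0, 0, ⟨0, 0⟩, 0⟩, 0, 0⟩ 0 0) (.pos 35 .mp ⟨⟨152552, 0, 0, 0, 0, 1717739, 0, 0, 0, ⟨0, 0⟩, 0⟩, 0, 0⟩ 0 0)) (.cut .s 4161536 (.pos 35 .mp ⟨⟨169780, 0, 0, 0, 0, 553142, 0, 0, 0, ⟨0, 0⟩, 0⟩, 0, 0⟩ 0 0) (.cut .s 4341760 (.pos 35 .mp ⟨⟨203662, 0, 0, 0, 0, 760739, 0, 0, 0, ⟨0, 0⟩, 0⟩, 0, 0⟩ 0 0) (.cut .s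 4431872 (.pos 35 .mp ⟨⟨236628, 0, 0, 0, 0, 888142, 0, 0, 0, ⟨0, 0⟩, 0⟩, 0, 0⟩ 0 0) (.pos 35 .mp ⟨⟨246631, 0, 0, 0, 0, 995618, 0, 0, 0, ⟨0, 0⟩, 0⟩, 0, 0⟩ 0 0))))) (.void 36 ⟨⟨100000, 0, 0, 0, 0, 0, 0, 0, 0, ⟨0, 0⟩, 0⟩, 0, 0⟩ 0 0)) (.void 34 ⟨⟨100000, 0, 0, 0, 0, 0, 0, 0, 0, ⟨0, 0⟩, 0⟩, 0, 0⟩ 0 0)) (.void 32 ⟨⟨100000, 0, 0, 0, 0, 0, 0, 0, 0, ⟨0, 0⟩, 0⟩, 0, 0⟩ 0 0))) (.void 30 ⟨⟨100000, 0, 0, 0, 0, 0, 0, 0, 0, ⟨0, 0⟩, 0⟩, 0, 0⟩ 0 0)))) (.void 28 ⟨⟨0, 0, 0, 0, 0, 0, 100000, 0, 0, ⟨0, 0⟩, 0⟩, 0, 0⟩ 0 0))))) (.void 26 ⟨⟨0, 0, 0, 0, 0, 0, 100000, 0, 0, ⟨0, 0⟩, 0⟩, 0, 0⟩ 0 0))) (.cut .v 16777216 (.cut .v 8388608 (.void 2 ⟨⟨0, 0, 0, 0, 100000,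 0, 0, 0, 0, ⟨0, 0⟩, 0⟩, 0, 0⟩ 0 0) (.cut .v 12582912 (.void 10 ⟨⟨0, 0, 0, 0, 0, 0, 0, 0, 100000, ⟨0, 0⟩, 13128881⟩, 0, 0⟩ 0 0) (.cut .d 1706701 (.cut .d 853350 (.cut .v 14680064 (.pos 14 .pm ⟨⟨0, 0, 0, 0, 0, 0, 0, 0, 0, ⟨0, 0⟩, 0⟩, 0, 1033715⟩ 0 0) (.cut .d 426675 (.cut .v 15728640 (.cut .s 4161536 (.pos 22 .pm ⟨⟨0, 0, 0, 0, 0, 0, 0, 0, 0, ⟨0, 0⟩, 0⟩, 0, 407665⟩ 0 0) (.pos 22 .pm ⟨⟨0, 0, 0, 0, 0, 0, 0, 0, 0, ⟨0, 0⟩, 0⟩, 0, 418743⟩ 0 0)) (.cut .d 213337 (.cut .s 4161536 (.pos 23 .pm ⟨⟨0, 0, 0, 0, 0, 0, 0, 0, 0, ⟨0, 0⟩, 0⟩, 0, 147906⟩ 0 0) (.pos 23 .pm ⟨⟨0, 0, 0, 0, 0, 0, 0, 0, 0, ⟨0, 0⟩, 0⟩, 0, 135844⟩ 0 0)) (.cut .l 123033 (.void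 23 ⟨⟨0, 0, 0, 0, 0, 0, 0, 0, 0, ⟨0, 0⟩, 0⟩, 0, 100000⟩ 0 0) (.cut .v 16252928 (.cut .s 4161536 (.pos 41 .pm ⟨⟨0, 0, 0, 0, 0, 0, 0, 0, 0, ⟨0, 0⟩, 0⟩, 0, 470752⟩ 0 0) (.pos 41 .pm ⟨⟨0, 0, 0, 0, 0, 0, 0, 0, 0, ⟨0, 0⟩, 0⟩, 0, 533059⟩ 0 0)) (.cut .s 4161536 (.cut .s 3981312 (.pos 42 .pm ⟨⟨0, 0, 0, 0, 0, 0, 0, 0, 0, ⟨0, 0⟩, 0⟩, 0, 419768⟩ 0 0) (.pos 42 .pm ⟨⟨0, 0, 0, 0, 0, 0, 0, 0, 0, ⟨0, 0⟩, 0⟩, 0, 438477⟩ 0 0)) (.pos 42 .pm ⟨⟨0, 0, 0, 0, 0, 0, 0, 0, 0, ⟨0, 0⟩, 0⟩, 0, 465282⟩ 0 0)))))) (.void 15 ⟨⟨0, 0, 0, 0, 0, 0, 0, 0, 0, ⟨0, 0⟩, 0⟩, 0, 100000⟩ 0 0))) (.void 11 ⟨⟨0, 0, 0, 0, 0, 0, 0, 0, 0, ⟨0, 0⟩, 0⟩, 0, 100000⟩ 0 0)) (.void 11 ⟨⟨0,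 0, 0, 0, 0, 0, 0, 0, 0, ⟨0, 0⟩, 0⟩, 0, 100000⟩ 0 0)))) (.cut .v 25165824 (.cut .v 20971520 (.cut .d 1706701 (.cut .v 18874368 (.cut .d 853350 (.cut .d 426675 (.cut .v 17825792 (.cut .d 213337 (.pos 31 .pp ⟨⟨192954, 0, 0, 0, 0, 0, 0, 0, 0, ⟨0, 0⟩, 0⟩, 0, 139919⟩ 0 0) (.pos 31 .pp ⟨⟨0, 0, 0, 0, 0, 0, 0, 0, 0, ⟨0, 0⟩, 0⟩, 0, 356794⟩ 0 0)) (.void 32 ⟨⟨100000, 0, 0, 0, 0, 0, 0, 0, 0, ⟨0, 0⟩, 0⟩, 0, 0⟩ 0 0)) (.void 29 ⟨⟨4427, 0, 0, 0, 0, 0, 0, 0, 0, ⟨0, 0⟩, 0⟩, 0, 95573⟩ 0 0)) (.void 29 ⟨⟨0, 0, 0, 0, 0, 0, 0, 0, 0, ⟨0, 0⟩, 0⟩, 410, 99590⟩ 0 0)) (.void 30 ⟨⟨0, 0, 0, 0, 0, 0, 0, 0, 0, ⟨0, 0⟩, 0⟩, 19955, 80045⟩ 0 0)) (.void 27 ⟨⟨0, 0, 0,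 0, 0, 0, 0, 0, 0, ⟨0, 0⟩, 0⟩, 372, 99628⟩ 0 0)) (.void 28 ⟨⟨0, 0, 0, 0, 0, 0, 0, 0, 0, ⟨0, 0⟩, 0⟩, 19955, 80045⟩ 0 0)) (.void 26 ⟨⟨0, 0, 0, 0, 0, 0, 0, 0, 0, ⟨0, 0⟩, 0⟩, 19955, 80045⟩ 0 0)))),
    by decide +kernel⟩

def covers4 : cell.Covers Vale.Agent.P237.Petty.Cor.Grid.N15.table row4.1 :=
  ⟨(.cut .d 0 (.cut .v 16777216 (.cut .v 8388608 (.void 2 ⟨⟨0, 0, 0, 0, 50000, 50000, 0, 0, 0, ⟨0, 0⟩, 0⟩, 0, 0⟩ 0 0) (.cut .d (-8388608) (.void 3 ⟨⟨0, 0, 0, 0, 0, 100000, 0, 0, 0, ⟨0, 0⟩, 0⟩, 0, 0⟩ 0 0) (.cut .v 12582912 (.pos 10 .mm ⟨⟨0, 0, 0, 0, 0, 20584398, 0, 0, 315556, ⟨0, 0⟩, 13128881⟩, 0, 0⟩ 0 0) (.cut .d (-4194304) (.void 11 ⟨⟨0, 0,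 0, 0, 0, 100000, 0, 0, 0, ⟨0, 0⟩, 0⟩, 0, 0⟩ 0 0) (.cut .d (-2097152) (.void 11 ⟨⟨0, 0, 0, 0, 0, 100000, 0, 0, 0, ⟨0, 0⟩, 0⟩, 0, 0⟩ 0 0) (.cut .d (-1048576) (.void 11 ⟨⟨0, 0, 0, 0, 0, 100000, 0, 0, 0, ⟨0, 0⟩, 0⟩, 0, 0⟩ 0 0) (.cut .v 14680064 (.pos 14 .mm ⟨⟨0, 0, 0, 0, 0, 3338917, 0, 0, 0, ⟨0, 0⟩, 0⟩, 0, 0⟩ 0 0) (.cut .d (-524288) (.void 15 ⟨⟨0, 0, 0, 0, 0, 100000, 0, 0, 0, ⟨0, 0⟩, 0⟩, 0, 0⟩ 0 0) (.cut .d (-262144) (.void 15 ⟨⟨0, 0, 0, 0, 0, 100000, 0, 0, 0, ⟨0, 0⟩, 0⟩, 0, 0⟩ 0 0) (.cut .d (-131072) (.pos 15 .mm ⟨⟨0, 0, 0, 0, 0, 3115736, 0, 0, 0, ⟨0, 0⟩, 0⟩, 0, 0⟩ 0 0) (.cut .v 15728640 (.pos 22 .mm ⟨⟨0, 0, 0, 0, 0, 701950, 0, 0,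 0, ⟨0, 0⟩, 0⟩, 0, 0⟩ 0 0) (.cut .v 16252928 (.pos 41 .mm ⟨⟨0, 0, 0, 0, 0, 1381548, 0, 0, 0, ⟨0, 0⟩, 0⟩, 0, 0⟩ 0 0) (.cut .s 4882432 (.cut .s 4702208 (.pos 42 .mm ⟨⟨0, 0, 0, 0, 0, 1364081, 0, 0, 0, ⟨0, 0⟩, 0⟩, 0, 0⟩ 0 0) (.cut .s 4792320 (.pos 42 .mm ⟨⟨0, 0, 0, 0, 0, 1577727, 0, 0, 0, ⟨0, 0⟩, 0⟩, 0, 0⟩ 0 0) (.pos 42 .mm ⟨⟨0, 0, 0, 0, 0, 1744689, 0, 0, 0, ⟨0, 0⟩, 0⟩, 0, 0⟩ 0 0))) (.cut .d (-65536) (.pos 42 .mm ⟨⟨0, 0, 0, 0, 0, 2520869, 0, 0, 0, ⟨0, 0⟩, 0⟩, 0, 0⟩ 0 0) (.cut .s 5062656 (.pos 42 .mm ⟨⟨0, 0, 0, 0, 0, 1944784, 0, 0, 0, ⟨0, 0⟩, 0⟩, 0, 0⟩ 0 0) (.pos 42 .mm ⟨⟨0, 0, 0, 0, 0, 2363011, 0, 0, 0, ⟨0, 0⟩, 0⟩, 0, 0⟩ 0 0))))))))))))))))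 (.cut .v 25165824 (.cut .d (-8388608) (.void 25 ⟨⟨0, 0, 0, 0, 0, 100000, 0, 0, 0, ⟨0, 0⟩, 0⟩, 0, 0⟩ 0 0) (.cut .d (-4194304) (.void 25 ⟨⟨0, 0, 0, 0, 0, 100000, 0, 0, 0, ⟨0, 0⟩, 0⟩, 0, 0⟩ 0 0) (.cut .d (-2097152) (.void 25 ⟨⟨0, 0, 0, 0, 0, 100000, 0, 0, 0, ⟨0, 0⟩, 0⟩, 0, 0⟩ 0 0) (.cut .v 20971520 (.cut .d (-1048576) (.void 27 ⟨⟨0, 0, 0, 0, 0, 100000, 0, 0, 0, ⟨0, 0⟩, 0⟩, 0, 0⟩ 0 0) (.cut .d (-524288) (.void 27 ⟨⟨0, 0, 0, 0, 0, 100000, 0, 0, 0, ⟨0, 0⟩, 0⟩, 0, 0⟩ 0 0) (.cut .d (-262144) (.void 27 ⟨⟨0, 0, 0, 0, 0, 100000, 0, 0, 0, ⟨0, 0⟩, 0⟩, 0, 0⟩ 0 0) (.cut .v 18874368 (.cut .v 17825792 (.cut .v 17301504 (.cut .v 17039360 (.cut .d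 (-131072) (.pos 35 .mp ⟨⟨236009, 0, 0, 0, 0, 3746161, 0, 0, 0, ⟨0, 0⟩, 0⟩, 0, 0⟩ 0 0) (.cut .v 16908288 (.cut .s 4882432 (.cut .d (-65536) (.cut .s 4702208 (.pos 37 .mp ⟨⟨142146, 0, 0, 0, 0, 1451366, 0, 0, 0, ⟨0, 0⟩, 0⟩, 0, 0⟩ 0 0) (.pos 37 .mp ⟨⟨209020, 0, 0, 0, 0, 1737588, 0, 0, 0, ⟨0, 0⟩, 0⟩, 0, 0⟩ 0 0)) (.cut .s 4702208 (.pos 37 .mp ⟨⟨329402, 0, 0, 0, 0, 1058684, 0, 0, 0, ⟨0, 0⟩, 0⟩, 0, 0⟩ 0 0) (.pos 37 .mp ⟨⟨346520, 0, 0, 0, 0, 1322807, 0, 0, 0, ⟨0, 0⟩, 0⟩, 0, 0⟩ 0 0))) (.cut .d (-65536) (.cut .s 5062656 (.pos 37 .mp ⟨⟨313616, 0, 0, 0, 0, 2059739, 0, 0, 0, ⟨0, 0⟩, 0⟩, 0, 0⟩ 0 0) (.pos 37 .mp ⟨⟨460229, 0, 0, 0, 0, 2411898, 0,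 0, 0, ⟨0, 0⟩, 0⟩, 0, 0⟩ 0 0)) (.cut .v 16842752 (.cut .l 123033 (.cut .d (-32768) (.pos 39 .mp ⟨⟨297251, 0, 0, 0, 0, 2263366, 0, 0, 0, ⟨0, 0⟩, 0⟩, 0, 0⟩ 0 0) (.cut .s 5062656 (.pos 39 .mp ⟨⟨520374, 0, 0, 0, 0, 1491530, 0, 0, 0, ⟨0, 0⟩, 0⟩, 0, 0⟩ 0 0) (.pos 39 .mp ⟨⟨651671, 0, 0, 0, 0, 1789813, 0, 0, 0, ⟨0, 0⟩, 0⟩, 0, 0⟩ 0 0))) (.pos 39 .mp ⟨⟨660963, 0, 0, 0, 0, 1135496, 0, 0, 0, ⟨0, 0⟩, 0⟩, 0, 0⟩ 0 0)) (.pos 40 .mp ⟨⟨2701954, 0, 0, 0, 0, 0, 0, 0, 0, ⟨0, 0⟩, 0⟩, 0, 0⟩ 0 0)))) (.pos 38 .mp ⟨⟨2903477, 0, 0, 0, 0, 0, 0, 0, 0, ⟨0, 0⟩, 0⟩, 0, 0⟩ 0 0))) (.void 36 ⟨⟨100000, 0, 0, 0, 0, 0, 0, 0, 0, ⟨0, 0⟩, 0⟩, 0, 0⟩ 0 0)) (.void 34 ⟨⟨100000,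 0, 0, 0, 0, 0, 0, 0, 0, ⟨0, 0⟩, 0⟩, 0, 0⟩ 0 0)) (.void 32 ⟨⟨100000, 0, 0, 0, 0, 0, 0, 0, 0, ⟨0, 0⟩, 0⟩, 0, 0⟩ 0 0)) (.void 30 ⟨⟨100000, 0, 0, 0, 0, 0, 0, 0, 0, ⟨0, 0⟩, 0⟩, 0, 0⟩ 0 0))))) (.void 28 ⟨⟨100000, 0, 0, 0, 0, 0, 0, 0, 0, ⟨0, 0⟩, 0⟩, 0, 0⟩ 0 0))))) (.void 26 ⟨⟨0, 0, 0, 0, 0, 0, 100000, 0, 0, ⟨0, 0⟩, 0⟩, 0, 0⟩ 0 0))) (.cut .v 16777216 (.cut .v 8388608 (.void 2 ⟨⟨0, 0, 0, 0, 100000, 0, 0, 0, 0, ⟨0, 0⟩, 0⟩, 0, 0⟩ 0 0) (.cut .v 12582912 (.pos 10 .pm ⟨⟨0, 0, 0, 0, 0, 0, 0, 0, 7450948, ⟨0, 0⟩, 13128881⟩, 0, 0⟩ 0 0) (.cut .d 2308649 (.cut .d 1154324 (.cut .d 577162 (.cut .v 14680064 (.pos 14 .pm ⟨⟨0, 0, 0, 0, 0, 0, 0, 0, 0, ⟨0,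 0⟩, 0⟩, 0, 804210⟩ 0 0) (.cut .v 15728640 (.cut .d 288581 (.pos 22 .pm ⟨⟨0, 0, 0, 0, 0, 0, 0, 0, 0, ⟨0, 0⟩, 0⟩, 0, 250751⟩ 0 0) (.pos 22 .pm ⟨⟨0, 0, 0, 0, 0, 0, 0, 0, 0, ⟨0, 0⟩, 0⟩, 0, 943426⟩ 0 0)) (.cut .d 288581 (.pos 23 .pm ⟨⟨0, 0, 0, 0, 0, 0, 0, 0, 0, ⟨0, 0⟩, 0⟩, 0, 152675⟩ 0 0) (.pos 23 .pm ⟨⟨0, 0, 0, 0, 0, 0, 0, 0, 0, ⟨0, 0⟩, 0⟩, 0, 798591⟩ 0 0)))) (.void 11 ⟨⟨0, 0, 0, 0, 0, 0, 0, 0, 0, ⟨0, 0⟩, 0⟩, 0, 100000⟩ 0 0)) (.void 11 ⟨⟨0, 0, 0, 0, 0, 0, 0, 0, 0, ⟨0, 0⟩, 0⟩, 0, 100000⟩ 0 0)) (.void 11 ⟨⟨0, 0, 0, 0, 0, 0, 0, 0, 0, ⟨0, 0⟩, 0⟩, 0, 100000⟩ 0 0)))) (.cut .v 25165824 (.cut .v 20971520 (.cut .d 2308649 (.cut .d 1154324 (.cut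 .v 18874368 (.cut .d 577162 (.cut .v 17825792 (.cut .d 288581 (.cut .s 4882432 (.pos 31 .pp ⟨⟨476280, 0, 0, 0, 0, 0, 0, 0, 0, ⟨0, 0⟩, 0⟩, 0, 143008⟩ 0 0) (.pos 31 .pp ⟨⟨928451, 0, 0, 0, 0, 0, 0, 0, 0, ⟨0, 0⟩, 0⟩, 0, 123343⟩ 0 0)) (.pos 31 .pp ⟨⟨0, 0, 0, 0, 0, 0, 0, 0, 0, ⟨0, 0⟩, 0⟩, 0, 627582⟩ 0 0)) (.void 32 ⟨⟨75880, 0, 0, 0, 0, 0, 0, 0, 0, ⟨0, 0⟩, 0⟩, 0, 24120⟩ 0 0)) (.void 29 ⟨⟨0, 0, 0, 0, 0, 0, 5367, 0, 0, ⟨0, 0⟩, 0⟩, 0, 94633⟩ 0 0)) (.void 30 ⟨⟨0, 0, 0, 0, 0, 0, 100000, 0, 0, ⟨0, 0⟩, 0⟩, 0, 0⟩ 0 0)) (.void 27 ⟨⟨0, 0, 0, 0, 0, 0, 0, 0, 0, ⟨0, 0⟩, 0⟩, 507, 99493⟩ 0 0)) (.void 27 ⟨⟨0, 0, 0, 0, 0, 0, 0, 0, 0, ⟨0, 0⟩, 0⟩, 0, 100000⟩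 0 0)) (.void 28 ⟨⟨0, 0, 0, 0, 0, 0, 0, 0, 0, ⟨0, 0⟩, 0⟩, 19608, 80392⟩ 0 0)) (.void 26 ⟨⟨0, 0, 0, 0, 0, 0, 0, 0, 0, ⟨0, 0⟩, 0⟩, 19608, 80392⟩ 0 0)))),
    by decide +kernel⟩

def covers5 : cell.Covers Vale.Agent.P237.Petty.Cor.Grid.N15.table row5.1 :=
  ⟨(.cut .d 0 (.cut .v 16777216 (.cut .d (-8388608) (.void 1 ⟨⟨0, 0, 0, 0, 0, 100000, 0, 0, 0, ⟨0, 0⟩, 0⟩, 0, 0⟩ 0 0) (.cut .d (-4194304) (.void 1 ⟨⟨0, 0, 0, 0, 0, 100000, 0, 0, 0, ⟨0, 0⟩, 0⟩, 0, 0⟩ 0 0) (.cut .d (-2097152) (.void 1 ⟨⟨0, 0, 0, 0, 0, 100000, 0, 0, 0, ⟨0, 0⟩, 0⟩, 0, 0⟩ 0 0) (.cut .d (-1048576) (.void 1 ⟨⟨0, 0, 0, 0, 0, 100000, 0, 0, 0, ⟨0, 0⟩, 0⟩, 0, 0⟩ 0 0) (.cut .d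 (-524288) (.void 1 ⟨⟨0, 0, 0, 0, 0, 100000, 0, 0, 0, ⟨0, 0⟩, 0⟩, 0, 0⟩ 0 0) (.cut .d (-262144) (.void 1 ⟨⟨0, 0, 0, 0, 0, 100000, 0, 0, 0, ⟨0, 0⟩, 0⟩, 0, 0⟩ 0 0) (.cut .d (-131072) (.void 1 ⟨⟨0, 0, 0, 0, 0, 100000, 0, 0, 0, ⟨0, 0⟩, 0⟩, 0, 0⟩ 0 0) (.cut .v 8388608 (.cut .v 4194304 (.void 4 ⟨⟨0, 0, 50000, 0, 50000, 0, 0, 0, 0, ⟨0, 0⟩, 0⟩, 0, 0⟩ 0 0) (.void 5 ⟨⟨0, 0, 0, 0, 0, 0, 0, 0, 100000, ⟨0, 0⟩, 9975792⟩, 0, 0⟩ 0 0)) (.cut .v 12582912 (.pos 10 .mm ⟨⟨0, 0, 0, 0, 0, 485060, 0, 0, 0, ⟨0, 0⟩, 0⟩, 0, 0⟩ 0 0) (.cut .v 14680064 (.pos 14 .mm ⟨⟨0, 0, 0, 0, 0, 938437, 0, 0, 0, ⟨0, 0⟩, 0⟩, 0, 0⟩ 0 0) (.cut .v 15728640 (.pos 22 .mm ⟨⟨0, 0,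 0, 0, 0, 1651727, 0, 0, 0, ⟨0, 0⟩, 0⟩, 0, 0⟩ 0 0) (.cut .v 16252928 (.pos 41 .mm ⟨⟨0, 0, 0, 0, 0, 2943135, 0, 0, 0, ⟨0, 0⟩, 0⟩, 0, 0⟩ 0 0) (.cut .s 5636096 (.cut .d (-65536) (.pos 42 .mm ⟨⟨0, 0, 0, 0, 0, 3762103, 0, 0, 0, ⟨0, 0⟩, 0⟩, 0, 0⟩ 0 0) (.cut .s 5439488 (.pos 42 .mm ⟨⟨0, 0, 0, 0, 0, 2877148, 0, 0, 0, ⟨0, 0⟩, 0⟩, 0, 0⟩ 0 0) (.pos 42 .mm ⟨⟨0, 0, 0, 0, 0, 3468411, 0, 0, 0, ⟨0, 0⟩, 0⟩, 0, 0⟩ 0 0))) (.cut .d (-65536) (.pos 42 .mm ⟨⟨0, 0, 0, 0, 0, 5443632, 0, 0, 0, ⟨0, 0⟩, 0⟩, 0, 0⟩ 0 0) (.cut .s 5832704 (.cut .s 5734400 (.pos 42 .mm ⟨⟨0, 0, 0, 0, 0, 4036610, 0, 0, 0, ⟨0, 0⟩, 0⟩, 0, 0⟩ 0 0) (.pos 42 .mm ⟨⟨0, 0, 0, 0, 0, 4439967,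 0, 0, 0, ⟨0, 0⟩, 0⟩, 0, 0⟩ 0 0)) (.pos 42 .mm ⟨⟨0, 0, 0, 0, 0, 5065549, 0, 0, 0, ⟨0, 0⟩, 0⟩, 0, 0⟩ 0 0)))))))))))))))) (.cut .v 25165824 (.cut .d (-8388608) (.void 25 ⟨⟨0, 0, 0, 0, 0, 100000, 0, 0, 0, ⟨0, 0⟩, 0⟩, 0, 0⟩ 0 0) (.cut .d (-4194304) (.void 25 ⟨⟨0, 0, 0, 0, 0, 100000, 0, 0, 0, ⟨0, 0⟩, 0⟩, 0, 0⟩ 0 0) (.cut .d (-2097152) (.void 25 ⟨⟨0, 0, 0, 0, 0, 100000, 0, 0, 0, ⟨0, 0⟩, 0⟩, 0, 0⟩ 0 0) (.cut .v 20971520 (.cut .d (-1048576) (.void 27 ⟨⟨0, 0, 0, 0, 0, 100000, 0, 0, 0, ⟨0, 0⟩, 0⟩, 0, 0⟩ 0 0) (.cut .d (-524288) (.void 27 ⟨⟨0, 0, 0, 0, 0, 100000, 0, 0, 0, ⟨0, 0⟩, 0⟩, 0, 0⟩ 0 0) (.cut .d (-262144) (.void 27 ⟨⟨0, 0, 0, 0, 0, 100000,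 0, 0, 0, ⟨0, 0⟩, 0⟩, 0, 0⟩ 0 0) (.cut .v 18874368 (.cut .d (-131072) (.void 29 ⟨⟨0, 0, 0, 0, 0, 100000, 0, 0, 0, ⟨0, 0⟩, 0⟩, 0, 0⟩ 0 0) (.cut .v 17825792 (.cut .v 17301504 (.cut .v 17039360 (.cut .v 16908288 (.cut .s 5636096 (.cut .d (-65536) (.cut .s 5439488 (.pos 37 .mp ⟨⟨647718, 0, 0, 0, 0, 2857384, 0, 0, 0, ⟨0, 0⟩, 0⟩, 0, 0⟩ 0 0) (.cut .s 5537792 (.pos 37 .mp ⟨⟨907199, 0, 0, 0, 0, 3066938, 0, 0, 0, ⟨0, 0⟩, 0⟩, 0, 0⟩ 0 0) (.pos 37 .mp ⟨⟨1064860, 0, 0, 0, 0, 3305003, 0, 0, 0, ⟨0, 0⟩, 0⟩, 0, 0⟩ 0 0))) (.cut .v 16842752 (.cut .s 5439488 (.cut .s 5341184 (.pos 39 .mp ⟨⟨997794, 0, 0, 0, 0, 1944961, 0, 0, 0, ⟨0, 0⟩, 0⟩, 0, 0⟩ 0 0)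 (.pos 39 .mp ⟨⟨1023955, 0, 0, 0, 0, 2179030, 0, 0, 0, ⟨0, 0⟩, 0⟩, 0, 0⟩ 0 0)) (.cut .s 5537792 (.pos 39 .mp ⟨⟨1109729, 0, 0, 0, 0, 2396888, 0, 0, 0, ⟨0, 0⟩, 0⟩, 0, 0⟩ 0 0) (.cut .s 5586944 (.pos 39 .mp ⟨⟨1422980, 0, 0, 0, 0, 2387655, 0, 0, 0, ⟨0, 0⟩, 0⟩, 0, 0⟩ 0 0) (.pos 39 .mp ⟨⟨1484157, 0, 0, 0, 0, 2505760, 0, 0, 0, ⟨0, 0⟩, 0⟩, 0, 0⟩ 0 0)))) (.pos 40 .mp ⟨⟨3889571, 0, 0, 0, 0, 0, 0, 0, 0, ⟨0, 0⟩, 0⟩, 0, 0⟩ 0 0))) (.cut .d (-65536) (.cut .d (-98304) (.void 37 ⟨⟨0, 0, 0, 0, 0, 100000, 0, 0, 0, ⟨0, 0⟩, 0⟩, 0, 0⟩ 0 0) (.cut .s 5832704 (.cut .s 5734400 (.pos 37 .mp ⟨⟨1241501, 0, 0, 0, 0, 3386865, 0, 0, 0, ⟨0, 0⟩, 0⟩, 0, 0⟩ 0 0) (.pos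 37 .mp ⟨⟨1437416, 0, 0, 0, 0, 3639491, 0, 0, 0, ⟨0, 0⟩, 0⟩, 0, 0⟩ 0 0)) (.pos 37 .mp ⟨⟨1652911, 0, 0, 0, 0, 4348429, 0, 0, 0, ⟨0, 0⟩, 0⟩, 0, 0⟩ 0 0))) (.cut .s 5832704 (.cut .v 16842752 (.cut .l 123033 (.cut .d (-32768) (.pos 39 .mp ⟨⟨1172178, 0, 0, 0, 0, 3749826, 0, 0, 0, ⟨0, 0⟩, 0⟩, 0, 0⟩ 0 0) (.cut .s 5734400 (.pos 39 .mp ⟨⟨1456765, 0, 0, 0, 0, 2724108, 0, 0, 0, ⟨0, 0⟩, 0⟩, 0, 0⟩ 0 0) (.pos 39 .mp ⟨⟨1630963, 0, 0, 0, 0, 2960267, 0, 0, 0, ⟨0, 0⟩, 0⟩, 0, 0⟩ 0 0))) (.pos 39 .mp ⟨⟨1669042, 0, 0, 0, 0, 2477628, 0, 0, 0, ⟨0, 0⟩, 0⟩, 0, 0⟩ 0 0)) (.pos 40 .mp ⟨⟨4846020, 0, 0, 0, 0, 0, 0, 0, 0, ⟨0, 0⟩, 0⟩, 0, 0⟩ 0 0)) (.cut .v 16842752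 (.cut .l 123033 (.cut .d (-32768) (.pos 39 .mp ⟨⟨1576747, 0, 0, 0, 0, 4346739, 0, 0, 0, ⟨0, 0⟩, 0⟩, 0, 0⟩ 0 0) (.cut .s 5931008 (.pos 39 .mp ⟨⟨1850890, 0, 0, 0, 0, 3187967, 0, 0, 0, ⟨0, 0⟩, 0⟩, 0, 0⟩ 0 0) (.pos 39 .mp ⟨⟨2106953, 0, 0, 0, 0, 3414513, 0, 0, 0, ⟨0, 0⟩, 0⟩, 0, 0⟩ 0 0))) (.pos 39 .mp ⟨⟨2161402, 0, 0, 0, 0, 2858898, 0, 0, 0, ⟨0, 0⟩, 0⟩, 0, 0⟩ 0 0)) (.pos 40 .mp ⟨⟨5737217, 0, 0, 0, 0, 0, 0, 0, 0, ⟨0, 0⟩, 0⟩, 0, 0⟩ 0 0))))) (.pos 38 .mp ⟨⟨5874951, 0, 0, 0, 0, 0, 0, 0, 0, ⟨0, 0⟩, 0⟩, 0, 0⟩ 0 0)) (.void 36 ⟨⟨100000, 0, 0, 0, 0, 0, 0, 0, 0, ⟨0, 0⟩, 0⟩, 0, 0⟩ 0 0)) (.void 34 ⟨⟨100000, 0, 0, 0, 0, 0, 0, 0, 0, ⟨0, 0⟩, 0⟩, 0,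 0⟩ 0 0)) (.void 32 ⟨⟨100000, 0, 0, 0, 0, 0, 0, 0, 0, ⟨0, 0⟩, 0⟩, 0, 0⟩ 0 0))) (.void 30 ⟨⟨100000, 0, 0, 0, 0, 0, 0, 0, 0, ⟨0, 0⟩, 0⟩, 0, 0⟩ 0 0))))) (.void 28 ⟨⟨100000, 0, 0, 0, 0, 0, 0, 0, 0, ⟨0, 0⟩, 0⟩, 0, 0⟩ 0 0))))) (.void 26 ⟨⟨0, 0, 0, 0, 0, 0, 100000, 0, 0, ⟨0, 0⟩, 0⟩, 0, 0⟩ 0 0))) (.cut .v 16777216 (.cut .v 8388608 (.void 2 ⟨⟨0, 0, 0, 0, 100000, 0, 0, 0, 0, ⟨0, 0⟩, 0⟩, 0, 0⟩ 0 0) (.cut .d 3013651 (.cut .d 1506825 (.cut .v 12582912 (.pos 10 .pm ⟨⟨0, 0, 0, 0, 0, 0, 0, 0, 0, ⟨0, 0⟩, 0⟩, 0, 2077939⟩ 0 0) (.cut .d 753412 (.cut .v 14680064 (.pos 14 .pm ⟨⟨0, 0, 0, 0, 0, 0, 0, 0, 0, ⟨0, 0⟩, 0⟩, 0, 848433⟩ 0 0) (.cut .d 376706 (.pos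 15 .pm ⟨⟨0, 0, 0, 0, 0, 0, 0, 0, 0, ⟨0, 0⟩, 0⟩, 0, 124982⟩ 0 0) (.pos 15 .pm ⟨⟨0, 0, 0, 0, 0, 0, 0, 0, 0, ⟨0, 0⟩, 0⟩, 0, 1292138⟩ 0 0))) (.void 11 ⟨⟨0, 0, 0, 0, 0, 0, 0, 0, 0, ⟨0, 0⟩, 0⟩, 0, 100000⟩ 0 0))) (.void 3 ⟨⟨0, 0, 0, 0, 0, 0, 0, 0, 0, ⟨0, 0⟩, 0⟩, 0, 100000⟩ 0 0)) (.void 3 ⟨⟨0, 0, 0, 0, 0, 0, 0, 0, 0, ⟨0, 0⟩, 0⟩, 0, 100000⟩ 0 0))) (.cut .v 25165824 (.cut .d 3013651 (.cut .v 20971520 (.cut .d 1506825 (.cut .d 753412 (.cut .v 18874368 (.cut .d 376706 (.cut .v 17825792 (.cut .s 5636096 (.pos 31 .pp ⟨⟨1588443, 0, 0, 0, 0, 0, 0, 0, 0, ⟨0, 0⟩, 0⟩, 0, 162417⟩ 0 0) (.pos 31 .pp ⟨⟨2682712, 0, 0, 0, 0, 0, 0, 0, 0, ⟨0, 0⟩, 0⟩, 0, 130702⟩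 0 0)) (.pos 32 .pp ⟨⟨11309263, 0, 0, 0, 0, 0, 0, 0, 0, ⟨0, 0⟩, 0⟩, 0, 0⟩ 0 0)) (.pos 29 .pp ⟨⟨1360077, 0, 0, 0, 0, 0, 0, 0, 0, ⟨0, 0⟩, 0⟩, 0, 1366997⟩ 0 0)) (.void 30 ⟨⟨73129, 0, 0, 0, 0, 0, 0, 0, 0, ⟨0, 0⟩, 0⟩, 0, 26871⟩ 0 0)) (.void 27 ⟨⟨0, 0, 0, 0, 0, 0, 0, 0, 0, ⟨0, 0⟩, 0⟩, 992, 99008⟩ 0 0)) (.void 27 ⟨⟨0, 0, 0, 0, 0, 0, 0, 0, 0, ⟨0, 0⟩, 0⟩, 0, 100000⟩ 0 0)) (.void 28 ⟨⟨0, 0, 0, 0, 0, 0, 0, 0, 0, ⟨0, 0⟩, 0⟩, 18989, 81011⟩ 0 0)) (.void 25 ⟨⟨0, 0, 0, 0, 0, 0, 0, 0, 0, ⟨0, 0⟩, 0⟩, 0, 100000⟩ 0 0)) (.void 26 ⟨⟨0, 0, 0, 0, 0, 0, 0, 0, 0, ⟨0, 0⟩, 0⟩, 18989, 81011⟩ 0 0)))),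
    by decide +kernel⟩

def covers6 : cell.Covers Vale.Agent.P237.Petty.Cor.Grid.N15.table row6.1 :=
  ⟨(.cut .d 0 (.cut .v 16777216 (.cut .d (-8388608) (.void 1 ⟨⟨0, 0, 0, 0, 0, 100000, 0, 0, 0, ⟨0, 0⟩, 0⟩, 0, 0⟩ 0 0) (.cut .d (-4194304) (.void 1 ⟨⟨0, 0, 0, 0, 0, 100000, 0, 0, 0, ⟨0, 0⟩, 0⟩, 0, 0⟩ 0 0) (.cut .d (-2097152) (.void 1 ⟨⟨0, 0, 0, 0, 0, 100000, 0, 0, 0, ⟨0, 0⟩, 0⟩, 0, 0⟩ 0 0) (.cut .d (-1048576) (.void 1 ⟨⟨0, 0, 0, 0, 0, 100000, 0, 0, 0, ⟨0, 0⟩, 0⟩, 0, 0⟩ 0 0) (.cut .d (-524288) (.void 1 ⟨⟨0, 0, 0, 0, 0, 100000, 0, 0, 0, ⟨0, 0⟩, 0⟩, 0, 0⟩ 0 0) (.cut .d (-262144) (.void 1 ⟨⟨0, 0, 0, 0, 0, 100000, 0, 0, 0, ⟨0, 0⟩, 0⟩,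 0, 0⟩ 0 0) (.cut .d (-131072) (.void 1 ⟨⟨0, 0, 0, 0, 0, 100000, 0, 0, 0, ⟨0, 0⟩, 0⟩, 0, 0⟩ 0 0) (.cut .v 8388608 (.cut .v 4194304 (.void 4 ⟨⟨0, 0, 100000, 0, 0, 0, 0, 0, 0, ⟨0, 0⟩, 0⟩, 0, 0⟩ 0 0) (.void 5 ⟨⟨0, 0, 0, 0, 0, 0, 0, 0, 100000, ⟨0, 0⟩, 9975792⟩, 0, 0⟩ 0 0)) (.cut .v 12582912 (.pos 10 .mm ⟨⟨0, 0, 0, 0, 0, 2134046, 0, 0, 0, ⟨0, 0⟩, 0⟩, 0, 0⟩ 0 0) (.cut .v 14680064 (.pos 14 .mm ⟨⟨0, 0, 0, 0, 0, 3438865, 0, 0, 0, ⟨0, 0⟩, 0⟩, 0, 0⟩ 0 0) (.cut .v 15728640 (.pos 22 .mm ⟨⟨0, 0, 0, 0, 0, 4323213, 0, 0, 0, ⟨0, 0⟩, 0⟩, 0, 0⟩ 0 0) (.cut .v 16252928 (.pos 41 .mm ⟨⟨0, 0, 0, 0, 0, 6347849, 0, 0, 0, ⟨0, 0⟩, 0⟩, 0, 0⟩ 0 0) (.cut .v 16515072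 (.pos 47 .mm ⟨⟨0, 0, 0, 0, 0, 7599178, 0, 0, 0, ⟨0, 0⟩, 0⟩, 0, 0⟩ 0 0) (.cut .d (-65536) (.cut .s 6422528 (.pos 48 .mm ⟨⟨0, 0, 0, 0, 0, 7852671, 0, 0, 0, ⟨0, 0⟩, 0⟩, 0, 0⟩ 0 0) (.pos 48 .mm ⟨⟨0, 0, 0, 0, 0, 11105841, 0, 0, 0, ⟨0, 0⟩, 0⟩, 0, 0⟩ 0 0)) (.cut .v 16646144 (.pos 51 .mm ⟨⟨0, 0, 0, 0, 0, 7112113, 0, 0, 0, ⟨0, 0⟩, 0⟩, 0, 0⟩ 0 0) (.cut .s 6422528 (.cut .s 6225920 (.pos 52 .mm ⟨⟨0, 0, 0, 0, 0, 6095513, 0, 0, 0, ⟨0, 0⟩, 0⟩, 0, 0⟩ 0 0) (.cut .s 6324224 (.pos 52 .mm ⟨⟨0, 0, 0, 0, 0, 6934220, 0, 0, 0, ⟨0, 0⟩, 0⟩, 0, 0⟩ 0 0) (.pos 52 .mm ⟨⟨0, 0, 0, 0, 0, 7556348, 0, 0, 0, ⟨0, 0⟩, 0⟩, 0, 0⟩ 0 0))) (.cut .s 6619136 (.cut .s 6520832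 (.pos 52 .mm ⟨⟨0, 0, 0, 0, 0, 8239841, 0, 0, 0, ⟨0, 0⟩, 0⟩, 0, 0⟩ 0 0) (.pos 52 .mm ⟨⟨0, 0, 0, 0, 0, 8987066, 0, 0, 0, ⟨0, 0⟩, 0⟩, 0, 0⟩ 0 0)) (.pos 52 .mm ⟨⟨0, 0, 0, 0, 0, 10160339, 0, 0, 0, ⟨0, 0⟩, 0⟩, 0, 0⟩ 0 0)))))))))))))))))) (.cut .v 25165824 (.cut .d (-8388608) (.void 25 ⟨⟨0, 0, 0, 0, 0, 100000, 0, 0, 0, ⟨0, 0⟩, 0⟩, 0, 0⟩ 0 0) (.cut .d (-4194304) (.void 25 ⟨⟨0, 0, 0, 0, 0, 100000, 0, 0, 0, ⟨0, 0⟩, 0⟩, 0, 0⟩ 0 0) (.cut .d (-2097152) (.void 25 ⟨⟨0, 0, 0, 0, 0, 100000, 0, 0, 0, ⟨0, 0⟩, 0⟩, 0, 0⟩ 0 0) (.cut .v 20971520 (.cut .d (-1048576) (.void 27 ⟨⟨0, 0, 0, 0, 0, 100000, 0, 0, 0, ⟨0, 0⟩, 0⟩, 0, 0⟩ 0 0) (.cut .d (-524288) (.void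 27 ⟨⟨0, 0, 0, 0, 0, 100000, 0, 0, 0, ⟨0, 0⟩, 0⟩, 0, 0⟩ 0 0) (.cut .d (-262144) (.void 27 ⟨⟨0, 0, 0, 0, 0, 100000, 0, 0, 0, ⟨0, 0⟩, 0⟩, 0, 0⟩ 0 0) (.cut .v 18874368 (.cut .d (-131072) (.void 29 ⟨⟨0, 0, 0, 0, 0, 100000, 0, 0, 0, ⟨0, 0⟩, 0⟩, 0, 0⟩ 0 0) (.cut .v 17825792 (.cut .v 17301504 (.cut .v 17039360 (.cut .d (-65536) (.cut .d (-98304) (.void 35 ⟨⟨0, 0, 0, 0, 0, 100000, 0, 0, 0, ⟨0, 0⟩, 0⟩, 0, 0⟩ 0 0) (.cut .d (-81920) (.pos 35 .mp ⟨⟨2259857, 0, 0, 0, 0, 18744044, 0, 0, 0, ⟨0, 0⟩, 0⟩, 0, 0⟩ 0 0) (.cut .v 16908288 (.cut .l 123033 (.void 37 ⟨⟨0, 0, 0, 0, 0, 100000, 0, 0, 0, ⟨0, 0⟩, 0⟩, 0, 0⟩ 0 0) (.cut .l 184549 (.void 37 ⟨⟨0, 0,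 0, 0, 0, 100000, 0, 0, 0, ⟨0, 0⟩, 0⟩, 0, 0⟩ 0 0) (.cut .s 6422528 (.cut .s 6225920 (.pos 37 .mp ⟨⟨2173899, 0, 0, 0, 0, 4980240, 0, 0, 0, ⟨0, 0⟩, 0⟩, 0, 0⟩ 0 0) (.pos 37 .mp ⟨⟨2829474, 0, 0, 0, 0, 5586719, 0, 0, 0, ⟨0, 0⟩, 0⟩, 0, 0⟩ 0 0)) (.cut .s 6619136 (.pos 37 .mp ⟨⟨3540469, 0, 0, 0, 0, 6410185, 0, 0, 0, ⟨0, 0⟩, 0⟩, 0, 0⟩ 0 0) (.pos 37 .mp ⟨⟨4375948, 0, 0, 0, 0, 7354696, 0, 0, 0, ⟨0, 0⟩, 0⟩, 0, 0⟩ 0 0))))) (.void 38 ⟨⟨100000, 0, 0, 0, 0, 0, 0, 0, 0, ⟨0, 0⟩, 0⟩, 0, 0⟩ 0 0)))) (.cut .v 16908288 (.cut .s 6422528 (.cut .s 6225920 (.cut .v 16842752 (.cut .s 6127616 (.cut .s 6078464 (.pos 39 .mp ⟨⟨2505621, 0, 0, 0, 0, 3519406, 0, 0,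 0, ⟨0, 0⟩, 0⟩, 0, 0⟩ 0 0) (.pos 39 .mp ⟨⟨2575864, 0, 0, 0, 0, 3683827, 0, 0, 0, ⟨0, 0⟩, 0⟩, 0, 0⟩ 0 0)) (.cut .s 6176768 (.pos 39 .mp ⟨⟨2654025, 0, 0, 0, 0, 3855113, 0, 0, 0, ⟨0, 0⟩, 0⟩, 0, 0⟩ 0 0) (.pos 39 .mp ⟨⟨2808879, 0, 0, 0, 0, 3970750, 0, 0, 0, ⟨0, 0⟩, 0⟩, 0, 0⟩ 0 0))) (.pos 40 .mp ⟨⟨6805317, 0, 0, 0, 0, 0, 0, 0, 0, ⟨0, 0⟩, 0⟩, 0, 0⟩ 0 0)) (.cut .v 16842752 (.cut .s 6324224 (.cut .d (-32768) (.pos 39 .mp ⟨⟨2592989, 0, 0, 0, 0, 4850223, 0, 0, 0, ⟨0, 0⟩, 0⟩, 0, 0⟩ 0 0) (.cut .s 6275072 (.pos 39 .mp ⟨⟨3082795, 0, 0, 0, 0, 3934281, 0, 0, 0, ⟨0, 0⟩, 0⟩, 0, 0⟩ 0 0) (.pos 39 .mp ⟨⟨3207785, 0, 0, 0, 0, 4099414, 0, 0, 0, ⟨0, 0⟩, 0⟩,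 0, 0⟩ 0 0))) (.cut .s 6373376 (.cut .s 6348800 (.pos 39 .mp ⟨⟨3318410, 0, 0, 0, 0, 4289267, 0, 0, 0, ⟨0, 0⟩, 0⟩, 0, 0⟩ 0 0) (.pos 39 .mp ⟨⟨3390311, 0, 0, 0, 0, 4375407, 0, 0, 0, ⟨0, 0⟩, 0⟩, 0, 0⟩ 0 0)) (.cut .s 6397952 (.pos 39 .mp ⟨⟨3465927, 0, 0, 0, 0, 4461458, 0, 0, 0, ⟨0, 0⟩, 0⟩, 0, 0⟩ 0 0) (.pos 39 .mp ⟨⟨3545426, 0, 0, 0, 0, 4547240, 0, 0, 0, ⟨0, 0⟩, 0⟩, 0, 0⟩ 0 0)))) (.pos 40 .mp ⟨⟨7918124, 0, 0, 0, 0, 0, 0, 0, 0, ⟨0, 0⟩, 0⟩, 0, 0⟩ 0 0))) (.cut .s 6619136 (.cut .v 16842752 (.cut .s 6520832 (.cut .s 6471680 (.cut .s 6447104 (.pos 39 .mp ⟨⟨3634088, 0, 0, 0, 0, 4627824, 0, 0, 0, ⟨0, 0⟩, 0⟩, 0, 0⟩ 0 0) (.pos 39 .mp ⟨⟨3735876,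 0, 0, 0, 0, 4699460, 0, 0, 0, ⟨0, 0⟩, 0⟩, 0, 0⟩ 0 0)) (.cut .s 6496256 (.pos 39 .mp ⟨⟨3839718, 0, 0, 0, 0, 4772386, 0, 0, 0, ⟨0, 0⟩, 0⟩, 0, 0⟩ 0 0) (.pos 39 .mp ⟨⟨3945624, 0, 0, 0, 0, 4846578, 0, 0, 0, ⟨0, 0⟩, 0⟩, 0, 0⟩ 0 0))) (.cut .s 6569984 (.cut .s 6545408 (.pos 39 .mp ⟨⟨4053604, 0, 0, 0, 0, 4922010, 0, 0, 0, ⟨0, 0⟩, 0⟩, 0, 0⟩ 0 0) (.pos 39 .mp ⟨⟨4163667, 0, 0, 0, 0, 4998656, 0, 0, 0, ⟨0, 0⟩, 0⟩, 0, 0⟩ 0 0)) (.cut .s 6594560 (.pos 39 .mp ⟨⟨4275825, 0, 0, 0, 0, 5076492, 0, 0, 0, ⟨0, 0⟩, 0⟩, 0, 0⟩ 0 0) (.pos 39 .mp ⟨⟨4390087, 0, 0, 0, 0, 5155489, 0, 0, 0, ⟨0, 0⟩, 0⟩, 0, 0⟩ 0 0)))) (.pos 40 .mp ⟨⟨9241079, 0, 0, 0, 0, 0, 0, 0, 0,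 ⟨0, 0⟩, 0⟩, 0, 0⟩ 0 0)) (.cut .v 16842752 (.cut .s 6717440 (.cut .s 6668288 (.cut .s 6643712 (.pos 39 .mp ⟨⟨4397432, 0, 0, 0, 0, 5354950, 0, 0, 0, ⟨0, 0⟩, 0⟩, 0, 0⟩ 0 0) (.pos 39 .mp ⟨⟨4539365, 0, 0, 0, 0, 5410723, 0, 0, 0, ⟨0, 0⟩, 0⟩, 0, 0⟩ 0 0)) (.cut .s 6692864 (.pos 39 .mp ⟨⟨4692149, 0, 0, 0, 0, 5457909, 0, 0, 0, ⟨0, 0⟩, 0⟩, 0, 0⟩ 0 0) (.pos 39 .mp ⟨⟨4856039, 0, 0, 0, 0, 5496157, 0, 0, 0, ⟨0, 0⟩, 0⟩, 0, 0⟩ 0 0))) (.cut .s 6766592 (.cut .s 6742016 (.pos 39 .mp ⟨⟨5008722, 0, 0, 0, 0, 5552271, 0, 0, 0, ⟨0, 0⟩, 0⟩, 0, 0⟩ 0 0) (.pos 39 .mp ⟨⟨5160290, 0, 0, 0, 0, 5614226, 0, 0, 0, ⟨0, 0⟩, 0⟩, 0, 0⟩ 0 0)) (.cut .s 6791168 (.pos 39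 .mp ⟨⟨5318291, 0, 0, 0, 0, 5672959, 0, 0, 0, ⟨0, 0⟩, 0⟩, 0, 0⟩ 0 0) (.pos 39 .mp ⟨⟨5482897, 0, 0, 0, 0, 5728258, 0, 0, 0, ⟨0, 0⟩, 0⟩, 0, 0⟩ 0 0)))) (.pos 40 .mp ⟨⟨10200385, 0, 0, 0, 0, 641686, 0, 0, 0, ⟨0, 0⟩, 0⟩, 0, 0⟩ 0 0)))) (.pos 38 .mp ⟨⟨9804107, 0, 0, 0, 0, 0, 0, 0, 0, ⟨0, 0⟩, 0⟩, 0, 0⟩ 0 0))) (.void 36 ⟨⟨100000, 0, 0, 0, 0, 0, 0, 0, 0, ⟨0, 0⟩, 0⟩, 0, 0⟩ 0 0)) (.void 34 ⟨⟨100000, 0, 0, 0, 0, 0, 0, 0, 0, ⟨0, 0⟩, 0⟩, 0, 0⟩ 0 0)) (.void 32 ⟨⟨100000, 0, 0, 0, 0, 0, 0, 0, 0, ⟨0, 0⟩, 0⟩, 0, 0⟩ 0 0))) (.void 30 ⟨⟨100000, 0, 0, 0, 0, 0, 0, 0, 0, ⟨0, 0⟩, 0⟩, 0, 0⟩ 0 0))))) (.void 28 ⟨⟨100000, 0, 0, 0, 0, 0, 0, 0, 0, ⟨0, 0⟩, 0⟩, 0,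 0⟩ 0 0))))) (.void 26 ⟨⟨100000, 0, 0, 0, 0, 0, 0, 0, 0, ⟨0, 0⟩, 0⟩, 0, 0⟩ 0 0))) (.cut .v 16777216 (.cut .d 3964996 (.cut .d 1982498 (.cut .d 991249 (.cut .v 8388608 (.cut .v 4194304 (.void 4 ⟨⟨0, 0, 50000, 0, 50000, 0, 0, 0, 0, ⟨0, 0⟩, 0⟩, 0, 0⟩ 0 0) (.void 5 ⟨⟨0, 0, 0, 0, 0, 0, 0, 0, 100000, ⟨0, 0⟩, 9975792⟩, 0, 0⟩ 0 0)) (.cut .v 12582912 (.pos 10 .pm ⟨⟨0, 0, 0, 0, 0, 0, 0, 0, 0, ⟨0, 0⟩, 0⟩, 0, 800627⟩ 0 0) (.cut .v 14680064 (.pos 14 .pm ⟨⟨0, 0, 0, 0, 0, 0, 0, 0, 0, ⟨0, 0⟩, 0⟩, 0, 513530⟩ 0 0) (.pos 15 .pm ⟨⟨0, 0, 0, 0, 0, 0, 0, 0, 0, ⟨0, 0⟩, 0⟩, 0, 195708⟩ 0 0)))) (.void 1 ⟨⟨0, 0, 0, 0, 0, 0, 0, 0, 0, ⟨0, 0⟩, 0⟩, 0, 100000⟩ 0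 0)) (.void 1 ⟨⟨0, 0, 0, 0, 0, 0, 0, 0, 0, ⟨0, 0⟩, 0⟩, 0, 100000⟩ 0 0)) (.void 1 ⟨⟨0, 0, 0, 0, 0, 0, 0, 0, 0, ⟨0, 0⟩, 0⟩, 0, 100000⟩ 0 0)) (.cut .v 25165824 (.cut .d 3964996 (.cut .v 20971520 (.cut .d 1982498 (.cut .d 991249 (.cut .v 18874368 (.cut .d 495624 (.cut .v 17825792 (.cut .d 247812 (.cut .s 6422528 (.pos 31 .pp ⟨⟨4425818, 0, 0, 0, 0, 0, 0, 0, 0, ⟨0, 0⟩, 0⟩, 0, 27443⟩ 0 0) (.pos 31 .pp ⟨⟨6391743, 0, 0, 0, 0, 0, 0, 0, 0, ⟨0, 0⟩, 0⟩, 22651, 0⟩ 0 0)) (.pos 31 .pp ⟨⟨1796850, 0, 0, 0, 0, 0, 0, 0, 0, ⟨0, 0⟩, 0⟩, 0, 378901⟩ 0 0)) (.pos 32 .pp ⟨⟨8193417, 0, 0, 0, 0, 0, 0, 0, 0, ⟨0, 0⟩, 0⟩, 0, 0⟩ 0 0)) (.pos 29 .pp ⟨⟨2646752, 0,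 0, 0, 0, 0, 0, 0, 0, ⟨0, 0⟩, 0⟩, 0, 2042874⟩ 0 0)) (.pos 30 .pp ⟨⟨16706810, 0, 0, 0, 0, 0, 0, 0, 0, ⟨0, 0⟩, 0⟩, 0, 3742244⟩ 0 0)) (.void 27 ⟨⟨0, 0, 0, 0, 0, 0, 0, 0, 0, ⟨0, 0⟩, 0⟩, 0, 100000⟩ 0 0)) (.void 27 ⟨⟨0, 0, 0, 0, 0, 0, 0, 0, 0, ⟨0, 0⟩, 0⟩, 0, 100000⟩ 0 0)) (.void 28 ⟨⟨0, 0, 0, 0, 0, 0, 0, 0, 0, ⟨0, 0⟩, 0⟩, 18246, 81754⟩ 0 0)) (.void 25 ⟨⟨0, 0, 0, 0, 0, 0, 0, 0, 0, ⟨0, 0⟩, 0⟩, 0, 100000⟩ 0 0)) (.void 26 ⟨⟨0, 0, 0, 0, 0, 0, 0, 0, 0, ⟨0, 0⟩, 0⟩, 18246, 81754⟩ 0 0)))),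
    by decide +kernel⟩

def covers7 : cell.Covers Vale.Agent.P237.Petty.Cor.Grid.N15.table row7.1 :=
  ⟨(.cut .d 0 (.cut .v 16777216 (.cut .d (-8388608) (.void 1 ⟨⟨0, 0, 0, 0, 0, 100000, 0, 0, 0, ⟨0, 0⟩, 0⟩, 0, 0⟩ 0 0) (.cut .d (-4194304) (.void 1 ⟨⟨0, 0, 0, 0, 0, 100000, 0, 0, 0, ⟨0, 0⟩, 0⟩, 0, 0⟩ 0 0) (.cut .d (-2097152) (.void 1 ⟨⟨0, 0, 0, 0, 0, 100000, 0, 0, 0, ⟨0, 0⟩, 0⟩, 0, 0⟩ 0 0) (.cut .d (-1048576) (.void 1 ⟨⟨0, 0, 0, 0, 0, 100000, 0, 0, 0, ⟨0, 0⟩, 0⟩, 0, 0⟩ 0 0) (.cut .d (-524288) (.void 1 ⟨⟨0, 0, 0, 0, 0, 100000, 0, 0, 0, ⟨0, 0⟩, 0⟩, 0, 0⟩ 0 0) (.cut .d (-262144) (.void 1 ⟨⟨0, 0, 0, 0, 0, 100000, 0, 0, 0, ⟨0, 0⟩, 0⟩,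 0, 0⟩ 0 0) (.cut .d (-131072) (.void 1 ⟨⟨0, 0, 0, 0, 0, 100000, 0, 0, 0, ⟨0, 0⟩, 0⟩, 0, 0⟩ 0 0) (.cut .d (-65536) (.void 1 ⟨⟨0, 0, 0, 0, 0, 100000, 0, 0, 0, ⟨0, 0⟩, 0⟩, 0, 0⟩ 0 0) (.cut .v 8388608 (.cut .v 4194304 (.void 4 ⟨⟨0, 0, 100000, 0, 0, 0, 0, 0, 0, ⟨0, 0⟩, 0⟩, 0, 0⟩ 0 0) (.pos 5 .mm ⟨⟨0, 0, 0, 0, 0, 6426063, 0, 0, 533420, ⟨0, 0⟩, 9975792⟩, 0, 0⟩ 0 0)) (.cut .v 12582912 (.pos 10 .mm ⟨⟨0, 0, 0, 0, 0, 5952009, 0, 0, 0, ⟨0, 0⟩, 0⟩, 0, 0⟩ 0 0) (.cut .v 14680064 (.pos 14 .mm ⟨⟨0, 0, 0, 0, 0, 7734855, 0, 0, 0, ⟨0, 0⟩, 0⟩, 0, 0⟩ 0 0) (.cut .v 15728640 (.pos 22 .mm ⟨⟨0, 0, 0, 0, 0, 8859033, 0, 0, 0, ⟨0, 0⟩, 0⟩, 0, 0⟩ 0 0) (.cut .v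 16252928 (.pos 41 .mm ⟨⟨0, 0, 0, 0, 0, 9479311, 0, 0, 0, ⟨0, 0⟩, 0⟩, 0, 0⟩ 0 0) (.cut .v 16515072 (.pos 47 .mm ⟨⟨0, 0, 0, 0, 0, 12499526, 0, 0, 0, ⟨0, 0⟩, 0⟩, 0, 0⟩ 0 0) (.cut .v 16646144 (.pos 51 .mm ⟨⟨0, 0, 0, 0, 0, 13895396, 0, 0, 0, ⟨0, 0⟩, 0⟩, 0, 0⟩ 0 0) (.cut .s 7176192 (.cut .s 6995968 (.pos 52 .mm ⟨⟨0, 0, 0, 0, 0, 11941609, 0, 0, 0, ⟨0, 0⟩, 0⟩, 0, 0⟩ 0 0) (.pos 52 .mm ⟨⟨0, 0, 0, 0, 0, 13774773, 0, 0, 0, ⟨0, 0⟩, 0⟩, 0, 0⟩ 0 0)) (.cut .s 7356416 (.pos 52 .mm ⟨⟨0, 0, 0, 0, 0, 15922479, 0, 0, 0, ⟨0, 0⟩, 0⟩, 0, 0⟩ 0 0) (.pos 52 .mm ⟨⟨0, 0, 0, 0, 0, 18383010, 0, 0, 0, ⟨0, 0⟩, 0⟩, 0, 0⟩ 0 0)))))))))))))))))) (.cut .v 25165824 (.cut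 .d (-8388608) (.void 25 ⟨⟨0, 0, 0, 0, 0, 100000, 0, 0, 0, ⟨0, 0⟩, 0⟩, 0, 0⟩ 0 0) (.cut .d (-4194304) (.void 25 ⟨⟨0, 0, 0, 0, 0, 100000, 0, 0, 0, ⟨0, 0⟩, 0⟩, 0, 0⟩ 0 0) (.cut .d (-2097152) (.void 25 ⟨⟨0, 0, 0, 0, 0, 100000, 0, 0, 0, ⟨0, 0⟩, 0⟩, 0, 0⟩ 0 0) (.cut .v 20971520 (.cut .d (-1048576) (.void 27 ⟨⟨0, 0, 0, 0, 0, 100000, 0, 0, 0, ⟨0, 0⟩, 0⟩, 0, 0⟩ 0 0) (.cut .d (-524288) (.void 27 ⟨⟨0, 0, 0, 0, 0, 100000, 0, 0, 0, ⟨0, 0⟩, 0⟩, 0, 0⟩ 0 0) (.cut .v 18874368 (.cut .d (-262144) (.void 29 ⟨⟨0, 0, 0, 0, 0, 100000, 0, 0, 0, ⟨0, 0⟩, 0⟩, 0, 0⟩ 0 0) (.cut .d (-131072) (.void 29 ⟨⟨0, 0, 0, 0, 0, 100000, 0, 0, 0, ⟨0, 0⟩, 0⟩, 0, 0⟩ 0 0)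 (.cut .d (-65536) (.void 29 ⟨⟨0, 0, 0, 0, 0, 100000, 0, 0, 0, ⟨0, 0⟩, 0⟩, 0, 0⟩ 0 0) (.cut .v 17825792 (.cut .v 17301504 (.cut .v 17039360 (.cut .v 16908288 (.cut .s 7176192 (.cut .s 6995968 (.cut .v 16842752 (.cut .s 6905856 (.cut .d (-32768) (.pos 39 .mp ⟨⟨5063843, 0, 0, 0, 0, 7041348, 0, 0, 0, ⟨0, 0⟩, 0⟩, 0, 0⟩ 0 0) (.cut .s 6860800 (.pos 39 .mp ⟨⟨5662049, 0, 0, 0, 0, 5781156, 0, 0, 0, ⟨0, 0⟩, 0⟩, 0, 0⟩ 0 0) (.pos 39 .mp ⟨⟨5821209, 0, 0, 0, 0, 5995206, 0, 0, 0, ⟨0, 0⟩, 0⟩, 0, 0⟩ 0 0))) (.cut .d (-32768) (.cut .s 6950912 (.pos 39 .mp ⟨⟨5551926, 0, 0, 0, 0, 7061599, 0, 0, 0, ⟨0, 0⟩, 0⟩, 0, 0⟩ 0 0) (.pos 39 .mp ⟨⟨5810507, 0, 0,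 0, 0, 7214716, 0, 0, 0, ⟨0, 0⟩, 0⟩, 0, 0⟩ 0 0)) (.cut .s 6950912 (.pos 39 .mp ⟨⟨5997564, 0, 0, 0, 0, 6210890, 0, 0, 0, ⟨0, 0⟩, 0⟩, 0, 0⟩ 0 0) (.pos 39 .mp ⟨⟨6271971, 0, 0, 0, 0, 6345007, 0, 0, 0, ⟨0, 0⟩, 0⟩, 0, 0⟩ 0 0)))) (.pos 40 .mp ⟨⟨11019010, 0, 0, 0, 0, 1464279, 0, 0, 0, ⟨0, 0⟩, 0⟩, 0, 0⟩ 0 0)) (.cut .v 16842752 (.cut .s 7086080 (.cut .d (-32768) (.cut .s 7041024 (.pos 39 .mp ⟨⟨6078903, 0, 0, 0, 0, 7381948, 0, 0, 0, ⟨0, 0⟩, 0⟩, 0, 0⟩ 0 0) (.pos 39 .mp ⟨⟨6357208, 0, 0, 0, 0, 7564076, 0, 0, 0, ⟨0, 0⟩, 0⟩, 0, 0⟩ 0 0)) (.cut .l 123033 (.cut .v 16809984 (.cut .d (-16384) (.pos 49 .mp ⟨⟨6060898, 0, 0, 0, 0, 7683061, 0, 0, 0, ⟨0,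 0⟩, 0⟩, 0, 0⟩ 0 0) (.cut .s 7041024 (.pos 49 .mp ⟨⟨6532285, 0, 0, 0, 0, 6478808, 0, 0, 0, ⟨0, 0⟩, 0⟩, 0, 0⟩ 0 0) (.pos 49 .mp ⟨⟨6746692, 0, 0, 0, 0, 6711747, 0, 0, 0, ⟨0, 0⟩, 0⟩, 0, 0⟩ 0 0))) (.pos 50 .mp ⟨⟨14047011, 0, 0, 0, 0, 0, 0, 0, 0, ⟨0, 0⟩, 0⟩, 0, 0⟩ 0 0)) (.pos 39 .mp ⟨⟨6685041, 0, 0, 0, 0, 5997540, 0, 0, 0, ⟨0, 0⟩, 0⟩, 0, 0⟩ 0 0))) (.cut .d (-32768) (.cut .s 7131136 (.pos 39 .mp ⟨⟨6645518, 0, 0, 0, 0, 7754550, 0, 0, 0, ⟨0, 0⟩, 0⟩, 0, 0⟩ 0 0) (.pos 39 .mp ⟨⟨6943930, 0, 0, 0, 0, 7953249, 0, 0, 0, ⟨0, 0⟩, 0⟩, 0, 0⟩ 0 0)) (.cut .l 123033 (.cut .v 16809984 (.cut .s 7131136 (.cut .s 7108608 (.pos 49 .mp ⟨⟨7188128, 0, 0, 0, 0,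 6669063, 0, 0, 0, ⟨0, 0⟩, 0⟩, 0, 0⟩ 0 0) (.pos 49 .mp ⟨⟨7311283, 0, 0, 0, 0, 6784742, 0, 0, 0, ⟨0, 0⟩, 0⟩, 0, 0⟩ 0 0)) (.cut .s 7153664 (.pos 49 .mp ⟨⟨7439589, 0, 0, 0, 0, 6899744, 0, 0, 0, ⟨0, 0⟩, 0⟩, 0, 0⟩ 0 0) (.pos 49 .mp ⟨⟨7573256, 0, 0, 0, 0, 7013823, 0, 0, 0, ⟨0, 0⟩, 0⟩, 0, 0⟩ 0 0))) (.pos 50 .mp ⟨⟨14958490, 0, 0, 0, 0, 0, 0, 0, 0, ⟨0, 0⟩, 0⟩, 0, 0⟩ 0 0)) (.pos 39 .mp ⟨⟨7301864, 0, 0, 0, 0, 6315237, 0, 0, 0, ⟨0, 0⟩, 0⟩, 0, 0⟩ 0 0)))) (.pos 40 .mp ⟨⟨14475695, 0, 0, 0, 0, 0, 0, 0, 0, ⟨0, 0⟩, 0⟩, 0, 0⟩ 0 0))) (.cut .s 7356416 (.cut .v 16842752 (.cut .s 7266304 (.cut .d (-32768) (.cut .s 7221248 (.pos 39 .mp ⟨⟨7252546, 0, 0,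 0, 0, 8160044, 0, 0, 0, ⟨0, 0⟩, 0⟩, 0, 0⟩ 0 0) (.pos 39 .mp ⟨⟨7571467, 0, 0, 0, 0, 8374801, 0, 0, 0, ⟨0, 0⟩, 0⟩, 0, 0⟩ 0 0)) (.cut .l 123033 (.cut .v 16809984 (.cut .s 7221248 (.cut .s 7198720 (.pos 49 .mp ⟨⟨7712493, 0, 0, 0, 0, 7126731, 0, 0, 0, ⟨0, 0⟩, 0⟩, 0, 0⟩ 0 0) (.pos 49 .mp ⟨⟨7857513, 0, 0, 0, 0, 7238219, 0, 0, 0, ⟨0, 0⟩, 0⟩, 0, 0⟩ 0 0)) (.cut .s 7243776 (.pos 49 .mp ⟨⟨8008528, 0, 0, 0, 0, 7348033, 0, 0, 0, ⟨0, 0⟩, 0⟩, 0, 0⟩ 0 0) (.pos 49 .mp ⟨⟨8165750, 0, 0, 0, 0, 7455918, 0, 0, 0, ⟨0, 0⟩, 0⟩, 0, 0⟩ 0 0))) (.pos 50 .mp ⟨⟨15923179, 0, 0, 0, 0, 0, 0, 0, 0, ⟨0, 0⟩, 0⟩, 0, 0⟩ 0 0)) (.pos 39 .mp ⟨⟨7956984, 0, 0, 0, 0, 6654002,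 0, 0, 0, ⟨0, 0⟩, 0⟩, 0, 0⟩ 0 0))) (.cut .d (-32768) (.cut .s 7311360 (.pos 39 .mp ⟨⟨7900798, 0, 0, 0, 0, 8597381, 0, 0, 0, ⟨0, 0⟩, 0⟩, 0, 0⟩ 0 0) (.pos 39 .mp ⟨⟨8240647, 0, 0, 0, 0, 8827636, 0, 0, 0, ⟨0, 0⟩, 0⟩, 0, 0⟩ 0 0)) (.cut .l 123033 (.cut .v 16809984 (.cut .s 7311360 (.cut .s 7288832 (.pos 49 .mp ⟨⟨8329392, 0, 0, 0, 0, 7561616, 0, 0, 0, ⟨0, 0⟩, 0⟩, 0, 0⟩ 0 0) (.pos 49 .mp ⟨⟨8499668, 0, 0, 0, 0, 7664865, 0, 0, 0, ⟨0, 0⟩, 0⟩, 0, 0⟩ 0 0)) (.cut .s 7333888 (.pos 49 .mp ⟨⟨8676794, 0, 0, 0, 0, 7765403, 0, 0, 0, ⟨0, 0⟩, 0⟩, 0, 0⟩ 0 0) (.pos 49 .mp ⟨⟨8860984, 0, 0, 0, 0, 7862964, 0, 0, 0, ⟨0, 0⟩, 0⟩, 0, 0⟩ 0 0))) (.pos 50 .mp ⟨⟨16936384,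 0, 0, 0, 0, 0, 0, 0, 0, ⟨0, 0⟩, 0⟩, 0, 0⟩ 0 0)) (.pos 39 .mp ⟨⟨8651303, 0, 0, 0, 0, 7009324, 0, 0, 0, ⟨0, 0⟩, 0⟩, 0, 0⟩ 0 0)))) (.pos 40 .mp ⟨⟨16366502, 0, 0, 0, 0, 0, 0, 0, 0, ⟨0, 0⟩, 0⟩, 0, 0⟩ 0 0)) (.cut .v 16842752 (.cut .s 7446528 (.cut .d (-32768) (.cut .s 7401472 (.pos 39 .mp ⟨⟨8591122, 0, 0, 0, 0, 9065414, 0, 0, 0, ⟨0, 0⟩, 0⟩, 0, 0⟩ 0 0) (.pos 39 .mp ⟨⟨8952335, 0, 0, 0, 0, 9310554, 0, 0, 0, ⟨0, 0⟩, 0⟩, 0, 0⟩ 0 0)) (.cut .l 123033 (.cut .v 16809984 (.cut .s 7401472 (.cut .s 7378944 (.pos 49 .mp ⟨⟨9052454, 0, 0, 0, 0, 7957277, 0, 0, 0, ⟨0, 0⟩, 0⟩, 0, 0⟩ 0 0) (.pos 49 .mp ⟨⟨9251422, 0, 0, 0, 0, 8048072, 0, 0, 0, ⟨0, 0⟩, 0⟩,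 0, 0⟩ 0 0)) (.cut .s 7424000 (.pos 49 .mp ⟨⟨9458105, 0, 0, 0, 0, 8135074, 0, 0, 0, ⟨0, 0⟩, 0⟩, 0, 0⟩ 0 0) (.pos 49 .mp ⟨⟨9672722, 0, 0, 0, 0, 8218006, 0, 0, 0, ⟨0, 0⟩, 0⟩, 0, 0⟩ 0 0))) (.pos 50 .mp ⟨⟨17993766, 0, 0, 0, 0, 0, 0, 0, 0, ⟨0, 0⟩, 0⟩, 0, 0⟩ 0 0)) (.pos 39 .mp ⟨⟨9385753, 0, 0, 0, 0, 7376755, 0, 0, 0, ⟨0, 0⟩, 0⟩, 0, 0⟩ 0 0))) (.cut .d (-32768) (.cut .s 7491584 (.pos 39 .mp ⟨⟨9324401, 0, 0, 0, 0, 9562890, 0, 0, 0, ⟨0, 0⟩, 0⟩, 0, 0⟩ 0 0) (.pos 39 .mp ⟨⟨9707436, 0, 0, 0, 0, 9838536, 0, 0, 0, ⟨0, 0⟩, 0⟩, 0, 0⟩ 0 0)) (.cut .l 123033 (.cut .v 16809984 (.cut .d (-16384) (.pos 49 .mp ⟨⟨9302157, 0, 0, 0, 0, 10011593, 0, 0, 0, ⟨0,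 0⟩, 0⟩, 0, 0⟩ 0 0) (.cut .l 61516 (.cut .v 16793600 (.cut .d (-8192) (.pos 55 .mp ⟨⟨9291629, 0, 0, 0, 0, 10001207, 0, 0, 0, ⟨0, 0⟩, 0⟩, 0, 0⟩ 0 0) (.cut .s 7491584 (.cut .s 7469056 (.pos 55 .mp ⟨⟨10022096, 0, 0, 0, 0, 8132695, 0, 0, 0, ⟨0, 0⟩, 0⟩, 0, 0⟩ 0 0) (.pos 55 .mp ⟨⟨10241562, 0, 0, 0, 0, 8221384, 0, 0, 0, ⟨0, 0⟩, 0⟩, 0, 0⟩ 0 0)) (.pos 55 .mp ⟨⟨10157196, 0, 0, 0, 0, 8730885, 0, 0, 0, ⟨0, 0⟩, 0⟩, 0, 0⟩ 0 0))) (.pos 56 .mp ⟨⟨18942568, 0, 0, 0, 0, 0, 0, 0, 0, ⟨0, 0⟩, 0⟩, 0, 0⟩ 0 0)) (.pos 49 .mp ⟨⟨10068283, 0, 0, 0, 0, 7733064, 0, 0, 0, ⟨0, 0⟩, 0⟩, 0, 0⟩ 0 0))) (.pos 50 .mp ⟨⟨19091320, 0, 0, 0, 0, 0, 0, 0, 0, ⟨0, 0⟩, 0⟩, 0, 0⟩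 0 0)) (.pos 39 .mp ⟨⟨10161291, 0, 0, 0, 0, 7751896, 0, 0, 0, ⟨0, 0⟩, 0⟩, 0, 0⟩ 0 0)))) (.pos 40 .mp ⟨⟨18442561, 0, 0, 0, 0, 0, 0, 0, 0, ⟨0, 0⟩, 0⟩, 0, 0⟩ 0 0)))) (.pos 38 .mp ⟨⟨17011761, 0, 0, 0, 0, 0, 0, 0, 0, ⟨0, 0⟩, 0⟩, 0, 0⟩ 0 0)) (.void 36 ⟨⟨100000, 0, 0, 0, 0, 0, 0, 0, 0, ⟨0, 0⟩, 0⟩, 0, 0⟩ 0 0)) (.void 34 ⟨⟨100000, 0, 0, 0, 0, 0, 0, 0, 0, ⟨0, 0⟩, 0⟩, 0, 0⟩ 0 0)) (.void 32 ⟨⟨100000, 0, 0, 0, 0, 0, 0, 0, 0, ⟨0, 0⟩, 0⟩, 0, 0⟩ 0 0))))) (.void 30 ⟨⟨100000, 0, 0, 0, 0, 0, 0, 0, 0, ⟨0, 0⟩, 0⟩, 0, 0⟩ 0 0)))) (.void 28 ⟨⟨100000, 0, 0, 0, 0, 0, 0, 0, 0, ⟨0, 0⟩, 0⟩, 0, 0⟩ 0 0))))) (.void 26 ⟨⟨100000, 0, 0, 0, 0, 0, 0, 0, 0, ⟨0, 0⟩, 0⟩,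 0, 0⟩ 0 0))) (.cut .v 16777216 (.cut .d 4966662 (.cut .d 2483331 (.cut .d 1241665 (.cut .v 8388608 (.cut .v 4194304 (.void 4 ⟨⟨0, 0, 100000, 0, 0, 0, 0, 0, 0, ⟨0, 0⟩, 0⟩, 0, 0⟩ 0 0) (.pos 5 .pm ⟨⟨0, 0, 0, 0, 0, 0, 0, 0, 1093685, ⟨0, 0⟩, 9975792⟩, 0, 0⟩ 0 0)) (.cut .v 12582912 (.pos 10 .pm ⟨⟨0, 0, 0, 0, 0, 0, 0, 0, 0, ⟨0, 0⟩, 0⟩, 0, 0⟩ 0 0) (.pos 11 .pm ⟨⟨0, 0, 0, 0, 0, 0, 0, 0, 0, ⟨0, 0⟩, 0⟩, 0, 0⟩ 0 0))) (.void 1 ⟨⟨0, 0, 0, 0, 0, 0, 0, 0, 0, ⟨0, 0⟩, 0⟩, 0, 100000⟩ 0 0)) (.void 1 ⟨⟨0, 0, 0, 0, 0, 0, 0, 0, 0, ⟨0, 0⟩, 0⟩, 0, 100000⟩ 0 0)) (.void 1 ⟨⟨0, 0, 0, 0, 0, 0, 0, 0, 0, ⟨0, 0⟩, 0⟩, 0, 100000⟩ 0 0)) (.cut .v 25165824 (.cut .d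 4966662 (.cut .v 20971520 (.cut .d 2483331 (.cut .d 1241665 (.cut .v 18874368 (.cut .d 620832 (.cut .d 310416 (.cut .v 17825792 (.cut .s 7176192 (.pos 31 .pp ⟨⟨8944187, 0, 0, 0, 0, 0, 0, 0, 0, ⟨0, 0⟩, 0⟩, 30102, 0⟩ 0 0) (.pos 31 .pp ⟨⟨11436698, 0, 0, 0, 0, 0, 0, 0, 0, ⟨0, 0⟩, 0⟩, 129512, 0⟩ 0 0)) (.pos 32 .pp ⟨⟨16884547, 0, 0, 0, 0, 0, 0, 0, 0, ⟨0, 0⟩, 0⟩, 0, 0⟩ 0 0)) (.pos 29 .pp ⟨⟨6894441, 0, 0, 0, 0, 0, 0, 0, 0, ⟨0, 0⟩, 0⟩, 0, 474777⟩ 0 0)) (.pos 29 .pp ⟨⟨0, 0, 0, 0, 0, 0, 0, 0, 0, ⟨0, 0⟩, 0⟩, 0, 669254⟩ 0 0)) (.cut .d 620832 (.pos 30 .pp ⟨⟨20346275, 0, 0, 0, 0, 0, 0, 0, 0, ⟨0, 0⟩, 0⟩, 0, 0⟩ 0 0) (.cut .v 19922944 (.pos 59 .pp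 ⟨⟨9565868, 0, 0, 0, 0, 0, 0, 0, 0, ⟨0, 0⟩, 0⟩, 0, 3031576⟩ 0 0) (.pos 60 .pp ⟨⟨22495699, 0, 0, 0, 0, 0, 0, 0, 0, ⟨0, 0⟩, 0⟩, 0, 6374134⟩ 0 0)))) (.void 27 ⟨⟨0, 0, 0, 0, 0, 0, 0, 0, 0, ⟨0, 0⟩, 0⟩, 0, 100000⟩ 0 0)) (.void 27 ⟨⟨0, 0, 0, 0, 0, 0, 0, 0, 0, ⟨0, 0⟩, 0⟩, 0, 100000⟩ 0 0)) (.void 28 ⟨⟨0, 0, 0, 0, 0, 0, 100000, 0, 0, ⟨0, 0⟩, 0⟩, 0, 0⟩ 0 0)) (.void 25 ⟨⟨0, 0, 0, 0, 0, 0, 0, 0, 0, ⟨0, 0⟩, 0⟩, 0, 100000⟩ 0 0)) (.void 26 ⟨⟨0, 0, 0, 0, 0, 0, 0, 0, 0, ⟨0, 0⟩, 0⟩, 17523, 82477⟩ 0 0)))),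
    by decide +kernel⟩

def covers8 : cell.Covers Vale.Agent.P237.Petty.Cor.Grid.N15.table row8.1 :=
  ⟨(.cut .d 0 (.cut .v 16777216 (.cut .d (-8388608) (.void 1 ⟨⟨0, 0, 0, 0, 0, 100000, 0, 0, 0, ⟨0, 0⟩, 0⟩, 0, 0⟩ 0 0) (.cut .d (-4194304) (.void 1 ⟨⟨0, 0, 0, 0, 0, 100000, 0, 0, 0, ⟨0, 0⟩, 0⟩, 0, 0⟩ 0 0) (.cut .d (-2097152) (.void 1 ⟨⟨0, 0, 0, 0, 0, 100000, 0, 0, 0, ⟨0, 0⟩, 0⟩, 0, 0⟩ 0 0) (.cut .d (-1048576) (.void 1 ⟨⟨0, 0, 0, 0, 0, 100000, 0, 0, 0, ⟨0, 0⟩, 0⟩, 0, 0⟩ 0 0) (.cut .d (-524288) (.void 1 ⟨⟨0, 0, 0, 0, 0, 100000, 0, 0, 0, ⟨0, 0⟩, 0⟩, 0, 0⟩ 0 0) (.cut .d (-262144) (.void 1 ⟨⟨0, 0, 0, 0, 0, 100000, 0, 0, 0, ⟨0, 0⟩, 0⟩,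 0, 0⟩ 0 0) (.cut .d (-131072) (.void 1 ⟨⟨0, 0, 0, 0, 0, 100000, 0, 0, 0, ⟨0, 0⟩, 0⟩, 0, 0⟩ 0 0) (.cut .d (-65536) (.void 1 ⟨⟨0, 0, 0, 0, 0, 100000, 0, 0, 0, ⟨0, 0⟩, 0⟩, 0, 0⟩ 0 0) (.cut .v 8388608 (.cut .v 4194304 (.void 4 ⟨⟨0, 0, 100000, 0, 0, 0, 0, 0, 0, ⟨0, 0⟩, 0⟩, 0, 0⟩ 0 0) (.pos 5 .mm ⟨⟨0, 0, 0, 0, 0, 8531017, 0, 0, 0, ⟨0, 0⟩, 0⟩, 0, 0⟩ 0 0)) (.cut .v 12582912 (.pos 10 .mm ⟨⟨0, 0, 0, 0, 0, 12066001, 0, 0, 0, ⟨0, 0⟩, 0⟩, 0, 0⟩ 0 0) (.cut .s 7798784 (.cut .s 7667712 (.pos 11 .mm ⟨⟨0, 0, 0, 0, 0, 20885363, 0, 0, 0, ⟨0, 0⟩, 0⟩, 0, 0⟩ 0 0) (.pos 11 .mm ⟨⟨0, 0, 0, 0, 0, 23346519, 0, 0, 0, ⟨0, 0⟩, 0⟩, 0, 0⟩ 0 0)) (.pos 11 .mm ⟨⟨0,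 0, 0, 0, 0, 27256417, 0, 0, 0, ⟨0, 0⟩, 0⟩, 0, 0⟩ 0 0)))))))))))) (.cut .v 25165824 (.cut .d (-8388608) (.void 25 ⟨⟨0, 0, 0, 0, 0, 100000, 0, 0, 0, ⟨0, 0⟩, 0⟩, 0, 0⟩ 0 0) (.cut .d (-4194304) (.void 25 ⟨⟨0, 0, 0, 0, 0, 100000, 0, 0, 0, ⟨0, 0⟩, 0⟩, 0, 0⟩ 0 0) (.cut .v 20971520 (.cut .d (-2097152) (.void 27 ⟨⟨0, 0, 0, 0, 0, 100000, 0, 0, 0, ⟨0, 0⟩, 0⟩, 0, 0⟩ 0 0) (.cut .d (-1048576) (.void 27 ⟨⟨0, 0, 0, 0, 0, 100000, 0, 0, 0, ⟨0, 0⟩, 0⟩, 0, 0⟩ 0 0) (.cut .d (-524288) (.void 27 ⟨⟨0, 0, 0, 0, 0, 100000, 0, 0, 0, ⟨0, 0⟩, 0⟩, 0, 0⟩ 0 0) (.cut .v 18874368 (.cut .d (-262144) (.void 29 ⟨⟨0, 0, 0, 0, 0, 100000, 0, 0, 0, ⟨0, 0⟩, 0⟩, 0, 0⟩ 0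 0) (.cut .d (-131072) (.void 29 ⟨⟨0, 0, 0, 0, 0, 100000, 0, 0, 0, ⟨0, 0⟩, 0⟩, 0, 0⟩ 0 0) (.cut .d (-65536) (.void 29 ⟨⟨0, 0, 0, 0, 0, 100000, 0, 0, 0, ⟨0, 0⟩, 0⟩, 0, 0⟩ 0 0) (.cut .v 17825792 (.cut .v 17301504 (.cut .v 17039360 (.cut .v 16908288 (.cut .s 7798784 (.cut .s 7667712 (.cut .v 16842752 (.cut .s 7602176 (.cut .d (-32768) (.pos 39 .mp ⟨⟨10098178, 0, 0, 0, 0, 10381028, 0, 0, 0, ⟨0, 0⟩, 0⟩, 0, 0⟩ 0 0) (.cut .s 7569408 (.pos 39 .mp ⟨⟨10688191, 0, 0, 0, 0, 8834043, 0, 0, 0, ⟨0, 0⟩, 0⟩, 0, 0⟩ 0 0) (.pos 39 .mp ⟨⟨11064002, 0, 0, 0, 0, 8965830, 0, 0, 0, ⟨0, 0⟩, 0⟩, 0, 0⟩ 0 0))) (.cut .s 7634944 (.cut .s 7618560 (.pos 39 .mp ⟨⟨11589806,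 0, 0, 0, 0, 8916541, 0, 0, 0, ⟨0, 0⟩, 0⟩, 0, 0⟩ 0 0) (.pos 39 .mp ⟨⟨11840503, 0, 0, 0, 0, 8922128, 0, 0, 0, ⟨0, 0⟩, 0⟩, 0, 0⟩ 0 0)) (.pos 39 .mp ⟨⟨11452525, 0, 0, 0, 0, 9787351, 0, 0, 0, ⟨0, 0⟩, 0⟩, 0, 0⟩ 0 0))) (.pos 40 .mp ⟨⟨20467841, 0, 0, 0, 0, 0, 0, 0, 0, ⟨0, 0⟩, 0⟩, 0, 0⟩ 0 0)) (.cut .v 16842752 (.cut .d (-32768) (.pos 39 .mp ⟨⟨11322260, 0, 0, 0, 0, 12443404, 0, 0, 0, ⟨0, 0⟩, 0⟩, 0, 0⟩ 0 0) (.cut .l 123033 (.cut .v 16809984 (.cut .d (-16384) (.pos 49 .mp ⟨⟨11298476, 0, 0, 0, 0, 12414922, 0, 0, 0, ⟨0, 0⟩, 0⟩, 0, 0⟩ 0 0) (.cut .s 7733248 (.cut .s 7700480 (.pos 49 .mp ⟨⟨12565142, 0, 0, 0, 0, 9016504, 0, 0, 0, ⟨0, 0⟩, 0⟩, 0, 0⟩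 0 0) (.pos 49 .mp ⟨⟨13032475, 0, 0, 0, 0, 9111465, 0, 0, 0, ⟨0, 0⟩, 0⟩, 0, 0⟩ 0 0)) (.pos 49 .mp ⟨⟨12942254, 0, 0, 0, 0, 10000147, 0, 0, 0, ⟨0, 0⟩, 0⟩, 0, 0⟩ 0 0))) (.pos 50 .mp ⟨⟨22198208, 0, 0, 0, 0, 0, 0, 0, 0, ⟨0, 0⟩, 0⟩, 0, 0⟩ 0 0)) (.pos 39 .mp ⟨⟨12595297, 0, 0, 0, 0, 8414972, 0, 0, 0, ⟨0, 0⟩, 0⟩, 0, 0⟩ 0 0))) (.pos 40 .mp ⟨⟨22376623, 0, 0, 0, 0, 0, 0, 0, 0, ⟨0, 0⟩, 0⟩, 0, 0⟩ 0 0))) (.cut .s 7929856 (.cut .s 7864320 (.cut .s 7831552 (.pos 37 .mp ⟨⟨14039619, 0, 0, 0, 0, 9925834, 0, 0, 0, ⟨0, 0⟩, 0⟩, 0, 0⟩ 0 0) (.pos 37 .mp ⟨⟨14581080, 0, 0, 0, 0, 9976782, 0, 0, 0, ⟨0, 0⟩, 0⟩, 0, 0⟩ 0 0)) (.pos 37 .mp ⟨⟨14987589, 0, 0, 0, 0,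 10503305, 0, 0, 0, ⟨0, 0⟩, 0⟩, 0, 0⟩ 0 0)) (.cut .s 7995392 (.pos 37 .mp ⟨⟨15815530, 0, 0, 0, 0, 10952514, 0, 0, 0, ⟨0, 0⟩, 0⟩, 0, 0⟩ 0 0) (.pos 37 .mp ⟨⟨16924335, 0, 0, 0, 0, 11149626, 0, 0, 0, ⟨0, 0⟩, 0⟩, 0, 0⟩ 0 0)))) (.pos 38 .mp ⟨⟨25213127, 0, 0, 0, 0, 0, 0, 0, 0, ⟨0, 0⟩, 0⟩, 0, 0⟩ 0 0)) (.void 36 ⟨⟨100000, 0, 0, 0, 0, 0, 0, 0, 0, ⟨0, 0⟩, 0⟩, 0, 0⟩ 0 0)) (.void 34 ⟨⟨100000, 0, 0, 0, 0, 0, 0, 0, 0, ⟨0, 0⟩, 0⟩, 0, 0⟩ 0 0)) (.void 32 ⟨⟨100000, 0, 0, 0, 0, 0, 0, 0, 0, ⟨0, 0⟩, 0⟩, 0, 0⟩ 0 0))))) (.void 30 ⟨⟨100000, 0, 0, 0, 0, 0, 0, 0, 0, ⟨0, 0⟩, 0⟩, 0, 0⟩ 0 0))))) (.void 28 ⟨⟨100000, 0, 0, 0, 0, 0, 0, 0, 0, ⟨0, 0⟩, 0⟩, 0, 0⟩ 0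 0)))) (.void 26 ⟨⟨100000, 0, 0, 0, 0, 0, 0, 0, 0, ⟨0, 0⟩, 0⟩, 0, 0⟩ 0 0))) (.cut .v 16777216 (.cut .d 5807817 (.cut .d 2903908 (.cut .d 1451954 (.cut .v 8388608 (.cut .v 4194304 (.void 4 ⟨⟨0, 0, 100000, 0, 0, 0, 0, 0, 0, ⟨0, 0⟩, 0⟩, 0, 0⟩ 0 0) (.pos 5 .pm ⟨⟨0, 0, 0, 0, 0, 0, 0, 0, 0, ⟨0, 0⟩, 0⟩, 0, 0⟩ 0 0)) (.cut .v 12582912 (.pos 10 .pm ⟨⟨0, 0, 0, 0, 0, 0, 0, 0, 0, ⟨0, 0⟩, 0⟩, 0, 0⟩ 0 0) (.pos 11 .pm ⟨⟨0, 0, 0, 0, 0, 0, 0, 0, 0, ⟨0, 0⟩, 0⟩, 0, 0⟩ 0 0))) (.void 1 ⟨⟨0, 0, 0, 0, 0, 0, 0, 0, 0, ⟨0, 0⟩, 0⟩, 0, 100000⟩ 0 0)) (.void 1 ⟨⟨0, 0, 0, 0, 0, 0, 0, 0, 0, ⟨0, 0⟩, 0⟩, 0, 100000⟩ 0 0)) (.void 1 ⟨⟨0, 0, 0, 0, 0, 0, 0, 0, 0, ⟨0, 0⟩,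 0⟩, 0, 100000⟩ 0 0)) (.cut .v 25165824 (.cut .d 5807817 (.cut .d 2903908 (.cut .d 1451954 (.cut .v 20971520 (.cut .d 725977 (.cut .v 18874368 (.cut .d 362988 (.cut .v 17825792 (.cut .s 7798784 (.pos 31 .pp ⟨⟨12960050, 0, 0, 0, 0, 0, 0, 0, 0, ⟨0, 0⟩, 0⟩, 354484, 0⟩ 0 0) (.pos 31 .pp ⟨⟨16334004, 0, 0, 0, 0, 0, 0, 0, 0, ⟨0, 0⟩, 0⟩, 390892, 0⟩ 0 0)) (.pos 32 .pp ⟨⟨23762026, 0, 0, 0, 0, 0, 0, 0, 0, ⟨0, 0⟩, 0⟩, 0, 0⟩ 0 0)) (.pos 29 .pp ⟨⟨11682753, 0, 0, 0, 0, 0, 0, 0, 0, ⟨0, 0⟩, 0⟩, 0, 338241⟩ 0 0)) (.pos 30 .pp ⟨⟨27966600, 0, 0, 0, 0, 0, 0, 0, 0, ⟨0, 0⟩, 0⟩, 0, 0⟩ 0 0)) (.cut .v 18874368 (.pos 29 .pp ⟨⟨0, 0, 0, 0, 0, 0, 0, 0, 0, ⟨0,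 0⟩, 0⟩, 0, 749906⟩ 0 0) (.pos 30 .pp ⟨⟨11509098, 0, 0, 0, 0, 0, 0, 0, 0, ⟨0, 0⟩, 0⟩, 0, 681539⟩ 0 0))) (.cut .d 725977 (.void 28 ⟨⟨100000, 0, 0, 0, 0, 0, 0, 0, 0, ⟨0, 0⟩, 0⟩, 0, 0⟩ 0 0) (.cut .v 23068672 (.cut .d 1088965 (.cut .v 22020096 (.pos 63 .pp ⟨⟨22284443, 0, 0, 0, 0, 0, 4624887, 0, 0, ⟨0, 0⟩, 0⟩, 0, 0⟩ 0 0) (.pos 64 .pp ⟨⟨28515882, 0, 0, 0, 0, 0, 11316758, 0, 0, ⟨0, 0⟩, 0⟩, 0, 0⟩ 0 0)) (.pos 61 .pp ⟨⟨0, 0, 0, 0, 0, 0, 33861762, 0, 0, ⟨0, 0⟩, 0⟩, 0, 0⟩ 0 0)) (.void 62 ⟨⟨0, 0, 0, 0, 0, 0, 100000, 0, 0, ⟨0, 0⟩, 0⟩, 0, 0⟩ 0 0)))) (.void 25 ⟨⟨0, 0, 0, 0, 0, 0, 0, 0, 0, ⟨0, 0⟩, 0⟩, 2532, 97468⟩ 0 0)) (.void 25 ⟨⟨0, 0, 0, 0, 0,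 0, 0, 0, 0, ⟨0, 0⟩, 0⟩, 0, 100000⟩ 0 0)) (.void 25 ⟨⟨0, 0, 0, 0, 0, 0, 0, 0, 0, ⟨0, 0⟩, 0⟩, 0, 100000⟩ 0 0)) (.void 26 ⟨⟨0, 0, 0, 0, 0, 0, 0, 0, 0, ⟨0, 0⟩, 0⟩, 16994, 83006⟩ 0 0)))),
    by decide +kernel⟩

def covers9 : cell.Covers Vale.Agent.P237.Petty.Cor.Grid.N15.table row9.1 :=
  ⟨(.cut .d 0 (.cut .v 16777216 (.cut .d (-8388608) (.void 1 ⟨⟨0, 0, 0, 0, 0, 100000, 0, 0, 0, ⟨0, 0⟩, 0⟩, 0, 0⟩ 0 0) (.cut .d (-4194304) (.void 1 ⟨⟨0, 0, 0, 0, 0, 100000, 0, 0, 0, ⟨0, 0⟩, 0⟩, 0, 0⟩ 0 0) (.cut .d (-2097152) (.void 1 ⟨⟨0, 0, 0, 0, 0, 100000, 0, 0, 0, ⟨0, 0⟩, 0⟩, 0, 0⟩ 0 0) (.cut .d (-1048576) (.void 1 ⟨⟨0, 0, 0, 0, 0, 100000, 0, 0, 0,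 ⟨0, 0⟩, 0⟩, 0, 0⟩ 0 0) (.cut .d (-524288) (.void 1 ⟨⟨0, 0, 0, 0, 0, 100000, 0, 0, 0, ⟨0, 0⟩, 0⟩, 0, 0⟩ 0 0) (.cut .d (-262144) (.void 1 ⟨⟨0, 0, 0, 0, 0, 100000, 0, 0, 0, ⟨0, 0⟩, 0⟩, 0, 0⟩ 0 0) (.cut .d (-131072) (.void 1 ⟨⟨0, 0, 0, 0, 0, 100000, 0, 0, 0, ⟨0, 0⟩, 0⟩, 0, 0⟩ 0 0) (.cut .d (-65536) (.void 1 ⟨⟨0, 0, 0, 0, 0, 100000, 0, 0, 0, ⟨0, 0⟩, 0⟩, 0, 0⟩ 0 0) (.cut .v 8388608 (.cut .v 4194304 (.void 4 ⟨⟨0, 0, 100000, 0, 0, 0, 0, 0, 0, ⟨0, 0⟩, 0⟩, 0, 0⟩ 0 0) (.pos 5 .mm ⟨⟨0, 0, 0, 0, 0, 12901156, 0, 0, 0, ⟨0, 0⟩, 0⟩, 0, 0⟩ 0 0)) (.cut .v 12582912 (.pos 10 .mm ⟨⟨0, 0, 0, 0, 0, 18653949, 0, 0, 0, ⟨0, 0⟩, 0⟩, 0, 0⟩ 0 0) (.cut .s 8323072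 (.pos 11 .mm ⟨⟨0, 0, 0, 0, 0, 33674878, 0, 0, 0, ⟨0, 0⟩, 0⟩, 0, 0⟩ 0 0) (.pos 11 .mm ⟨⟨0, 0, 0, 0, 0, 40645668, 0, 0, 0, ⟨0, 0⟩, 0⟩, 0, 0⟩ 0 0)))))))))))) (.cut .v 25165824 (.cut .d (-8388608) (.void 25 ⟨⟨0, 0, 0, 0, 0, 100000, 0, 0, 0, ⟨0, 0⟩, 0⟩, 0, 0⟩ 0 0) (.cut .d (-4194304) (.void 25 ⟨⟨0, 0, 0, 0, 0, 100000, 0, 0, 0, ⟨0, 0⟩, 0⟩, 0, 0⟩ 0 0) (.cut .v 20971520 (.cut .d (-2097152) (.void 27 ⟨⟨0, 0, 0, 0, 0, 100000, 0, 0, 0, ⟨0, 0⟩, 0⟩, 0, 0⟩ 0 0) (.cut .d (-1048576) (.void 27 ⟨⟨0, 0, 0, 0, 0, 100000, 0, 0, 0, ⟨0, 0⟩, 0⟩, 0, 0⟩ 0 0) (.cut .v 18874368 (.cut .d (-524288) (.void 29 ⟨⟨0, 0, 0, 0, 0, 100000, 0, 0, 0, ⟨0, 0⟩, 0⟩, 0, 0⟩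 0 0) (.cut .d (-262144) (.void 29 ⟨⟨0, 0, 0, 0, 0, 100000, 0, 0, 0, ⟨0, 0⟩, 0⟩, 0, 0⟩ 0 0) (.cut .d (-131072) (.void 29 ⟨⟨0, 0, 0, 0, 0, 100000, 0, 0, 0, ⟨0, 0⟩, 0⟩, 0, 0⟩ 0 0) (.cut .d (-65536) (.void 29 ⟨⟨0, 0, 0, 0, 0, 100000, 0, 0, 0, ⟨0, 0⟩, 0⟩, 0, 0⟩ 0 0) (.cut .v 17825792 (.cut .v 17301504 (.cut .v 17039360 (.cut .v 16908288 (.cut .s 8323072 (.cut .d (-32768) (.pos 37 .mp ⟨⟨15895932, 0, 0, 0, 0, 21073731, 0, 0, 0, ⟨0, 0⟩, 0⟩, 0, 0⟩ 0 0) (.cut .v 16842752 (.cut .l 123033 (.cut .d (-16384) (.pos 39 .mp ⟨⟨15787461, 0, 0, 0, 0, 21028331, 0, 0, 0, ⟨0, 0⟩, 0⟩, 0, 0⟩ 0 0) (.cut .v 16809984 (.cut .l 61516 (.cut .d (-8192) (.pos 49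 .mp ⟨⟨15734669, 0, 0, 0, 0, 21003940, 0, 0, 0, ⟨0, 0⟩, 0⟩, 0, 0⟩ 0 0) (.cut .v 16793600 (.cut .l 30758 (.cut .d (-4096) (.pos 55 .mp ⟨⟨15708628, 0, 0, 0, 0, 20991290, 0, 0, 0, ⟨0, 0⟩, 0⟩, 0, 0⟩ 0 0) (.cut .v 16785408 (.cut .l 15379 (.cut .d (-2048) (.pos 57 .mp ⟨⟨15695702, 0, 0, 0, 0, 20984851, 0, 0, 0, ⟨0, 0⟩, 0⟩, 0, 0⟩ 0 0) (.cut .v 16781312 (.cut .l 7689 (.cut .d (-1024) (.pos 65 .mp ⟨⟨15689270, 0, 0, 0, 0, 20981990, 0, 0, 0, ⟨0, 0⟩, 0⟩, 0, 0⟩ 0 0) (.cut .v 16779264 (.cut .l 3844 (.cut .d (-512) (.pos 67 .mp ⟨⟨15686047, 0, 0, 0, 0, 20981163, 0, 0, 0, ⟨0, 0⟩, 0⟩, 0, 0⟩ 0 0) (.cut .v 16778240 (.cut .l 1922 (.cut .s 8192000 (.cut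 .s 8126464 (.pos 69 .mp ⟨⟨18418665, 0, 0, 0, 0, 10894951, 0, 0, 0, ⟨0, 0⟩, 0⟩, 0, 0⟩ 0 0) (.pos 69 .mp ⟨⟨19184498, 0, 0, 0, 0, 11398321, 0, 0, 0, ⟨0, 0⟩, 0⟩, 0, 0⟩ 0 0)) (.cut .s 8257536 (.pos 69 .mp ⟨⟨20010133, 0, 0, 0, 0, 11913914, 0, 0, 0, ⟨0, 0⟩, 0⟩, 0, 0⟩ 0 0) (.pos 69 .mp ⟨⟨20902390, 0, 0, 0, 0, 12433280, 0, 0, 0, ⟨0, 0⟩, 0⟩, 0, 0⟩ 0 0))) (.pos 69 .mp ⟨⟨19328201, 0, 0, 0, 0, 9502226, 0, 0, 0, ⟨0, 0⟩, 0⟩, 0, 0⟩ 0 0)) (.pos 70 .mp ⟨⟨30148457, 0, 0, 0, 0, 0, 0, 0, 0, ⟨0, 0⟩, 0⟩, 0, 0⟩ 0 0))) (.pos 67 .mp ⟨⟨19333600, 0, 0, 0, 0, 9500265, 0, 0, 0, ⟨0, 0⟩, 0⟩, 0, 0⟩ 0 0)) (.pos 68 .mp ⟨⟨30155335, 0, 0, 0, 0, 0, 0, 0, 0, ⟨0, 0⟩,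 0⟩, 0, 0⟩ 0 0))) (.pos 65 .mp ⟨⟨19344417, 0, 0, 0, 0, 9495812, 0, 0, 0, ⟨0, 0⟩, 0⟩, 0, 0⟩ 0 0)) (.pos 66 .mp ⟨⟨30164655, 0, 0, 0, 0, 0, 0, 0, 0, ⟨0, 0⟩, 0⟩, 0, 0⟩ 0 0))) (.pos 57 .mp ⟨⟨19366045, 0, 0, 0, 0, 9487680, 0, 0, 0, ⟨0, 0⟩, 0⟩, 0, 0⟩ 0 0)) (.pos 58 .mp ⟨⟨30180106, 0, 0, 0, 0, 0, 0, 0, 0, ⟨0, 0⟩, 0⟩, 0, 0⟩ 0 0))) (.pos 55 .mp ⟨⟨19409421, 0, 0, 0, 0, 9471817, 0, 0, 0, ⟨0, 0⟩, 0⟩, 0, 0⟩ 0 0)) (.pos 56 .mp ⟨⟨30210087, 0, 0, 0, 0, 0, 0, 0, 0, ⟨0, 0⟩, 0⟩, 0, 0⟩ 0 0))) (.pos 49 .mp ⟨⟨19496582, 0, 0, 0, 0, 9439720, 0, 0, 0, ⟨0, 0⟩, 0⟩, 0, 0⟩ 0 0)) (.pos 50 .mp ⟨⟨30269488, 0, 0, 0, 0, 0, 0, 0, 0, ⟨0, 0⟩, 0⟩, 0, 0⟩ 0 0))) (.pos 39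 .mp ⟨⟨19672496, 0, 0, 0, 0, 9374058, 0, 0, 0, ⟨0, 0⟩, 0⟩, 0, 0⟩ 0 0)) (.pos 40 .mp ⟨⟨30388381, 0, 0, 0, 0, 0, 0, 0, 0, ⟨0, 0⟩, 0⟩, 0, 0⟩ 0 0))) (.cut .d (-32768) (.pos 37 .mp ⟨⟨19602062, 0, 0, 0, 0, 24495341, 0, 0, 0, ⟨0, 0⟩, 0⟩, 0, 0⟩ 0 0) (.cut .v 16842752 (.cut .s 8454144 (.cut .s 8388608 (.pos 39 .mp ⟨⟨22149361, 0, 0, 0, 0, 12733808, 0, 0, 0, ⟨0, 0⟩, 0⟩, 0, 0⟩ 0 0) (.pos 39 .mp ⟨⟨23198351, 0, 0, 0, 0, 13228503, 0, 0, 0, ⟨0, 0⟩, 0⟩, 0, 0⟩ 0 0)) (.cut .s 8519680 (.pos 39 .mp ⟨⟨24342906, 0, 0, 0, 0, 13693779, 0, 0, 0, ⟨0, 0⟩, 0⟩, 0, 0⟩ 0 0) (.pos 39 .mp ⟨⟨25591809, 0, 0, 0, 0, 14118434, 0, 0, 0, ⟨0, 0⟩, 0⟩, 0, 0⟩ 0 0))) (.pos 40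 .mp ⟨⟨35846613, 0, 0, 0, 0, 0, 0, 0, 0, ⟨0, 0⟩, 0⟩, 0, 0⟩ 0 0)))) (.pos 38 .mp ⟨⟨36451842, 0, 0, 0, 0, 0, 0, 0, 0, ⟨0, 0⟩, 0⟩, 0, 0⟩ 0 0)) (.void 36 ⟨⟨100000, 0, 0, 0, 0, 0, 0, 0, 0, ⟨0, 0⟩, 0⟩, 0, 0⟩ 0 0)) (.void 34 ⟨⟨100000, 0, 0, 0, 0, 0, 0, 0, 0, ⟨0, 0⟩, 0⟩, 0, 0⟩ 0 0)) (.void 32 ⟨⟨100000, 0, 0, 0, 0, 0, 0, 0, 0, ⟨0, 0⟩, 0⟩, 0, 0⟩ 0 0)))))) (.void 30 ⟨⟨100000, 0, 0, 0, 0, 0, 0, 0, 0, ⟨0, 0⟩, 0⟩, 0, 0⟩ 0 0)))) (.void 28 ⟨⟨100000, 0, 0, 0, 0, 0, 0, 0, 0, ⟨0, 0⟩, 0⟩, 0, 0⟩ 0 0)))) (.void 26 ⟨⟨100000, 0, 0, 0, 0, 0, 0, 0, 0, ⟨0, 0⟩, 0⟩, 0, 0⟩ 0 0))) (.cut .v 16777216 (.cut .d 6887513 (.cut .d 3443756 (.cut .d 1721878 (.cut .v 8388608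 (.cut .v 4194304 (.void 4 ⟨⟨0, 0, 100000, 0, 0, 0, 0, 0, 0, ⟨0, 0⟩, 0⟩, 0, 0⟩ 0 0) (.pos 5 .pm ⟨⟨0, 0, 0, 0, 0, 0, 0, 0, 0, ⟨0, 0⟩, 0⟩, 0, 0⟩ 0 0)) (.cut .v 12582912 (.pos 10 .pm ⟨⟨0, 0, 0, 0, 0, 0, 0, 0, 0, ⟨0, 0⟩, 0⟩, 0, 0⟩ 0 0) (.pos 11 .pm ⟨⟨0, 0, 0, 0, 0, 0, 0, 0, 0, ⟨0, 0⟩, 0⟩, 0, 0⟩ 0 0))) (.void 1 ⟨⟨0, 0, 0, 0, 0, 0, 0, 0, 0, ⟨0, 0⟩, 0⟩, 0, 100000⟩ 0 0)) (.void 1 ⟨⟨0, 0, 0, 0, 0, 0, 0, 0, 0, ⟨0, 0⟩, 0⟩, 0, 100000⟩ 0 0)) (.void 1 ⟨⟨0, 0, 0, 0, 0, 0, 0, 0, 0, ⟨0, 0⟩, 0⟩, 0, 100000⟩ 0 0)) (.cut .v 25165824 (.cut .d 6887513 (.cut .d 3443756 (.cut .d 1721878 (.cut .v 20971520 (.cut .d 860939 (.cut .v 18874368 (.cut .d 430469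 (.cut .v 17825792 (.cut .s 8323072 (.pos 31 .pp ⟨⟨21642340, 0, 0, 0, 0, 0, 0, 0, 0, ⟨0, 0⟩, 0⟩, 259187, 0⟩ 0 0) (.pos 31 .pp ⟨⟨25645397, 0, 0, 0, 0, 0, 0, 0, 0, ⟨0, 0⟩, 0⟩, 376907, 0⟩ 0 0)) (.pos 32 .pp ⟨⟨33090801, 0, 0, 0, 0, 0, 0, 0, 0, ⟨0, 0⟩, 0⟩, 0, 0⟩ 0 0)) (.pos 29 .pp ⟨⟨16836267, 0, 0, 0, 0, 0, 0, 0, 0, ⟨0, 0⟩, 0⟩, 0, 384721⟩ 0 0)) (.cut .d 430469 (.pos 30 .pp ⟨⟨44843330, 0, 0, 0, 0, 0, 0, 0, 0, ⟨0, 0⟩, 0⟩, 0, 0⟩ 0 0) (.pos 30 .pp ⟨⟨29321212, 0, 0, 0, 0, 0, 0, 0, 0, ⟨0, 0⟩, 0⟩, 0, 347957⟩ 0 0))) (.pos 27 .pp ⟨⟨0, 0, 0, 0, 0, 0, 0, 0, 0, ⟨0, 0⟩, 0⟩, 0, 870481⟩ 0 0)) (.cut .l 123033 (.void 28 ⟨⟨0, 0, 0, 0, 0, 0, 100000, 0,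 0, ⟨0, 0⟩, 0⟩, 0, 0⟩ 0 0) (.cut .d 860939 (.cut .v 23068672 (.pos 61 .pp ⟨⟨52364547, 0, 0, 0, 0, 0, 0, 0, 0, ⟨0, 0⟩, 0⟩, 0, 0⟩ 0 0) (.void 62 ⟨⟨0, 0, 0, 0, 0, 0, 0, 0, 0, ⟨0, 0⟩, 0⟩, 100000, 0⟩ 0 0)) (.cut .d 1291408 (.cut .v 23068672 (.cut .s 8323072 (.cut .v 22020096 (.pos 63 .pp ⟨⟨22927519, 0, 0, 0, 0, 0, 762670, 0, 0, ⟨0, 0⟩, 0⟩, 0, 0⟩ 0 0) (.cut .d 1076173 (.pos 64 .pp ⟨⟨44317854, 0, 0, 0, 0, 0, 0, 0, 0, ⟨0, 0⟩, 0⟩, 0, 0⟩ 0 0) (.cut .d 1183790 (.cut .s 8192000 (.cut .d 1129981 (.cut .v 22544384 (.pos 71 .pp ⟨⟨0, 0, 0, 0, 0, 0, 18999637, 0, 0, ⟨0, 0⟩, 0⟩, 0, 0⟩ 0 0) (.pos 72 .pp ⟨⟨16611389, 0, 0, 0, 0, 0, 12095900, 0, 0, ⟨0,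 0⟩, 0⟩, 1248417, 0⟩ 0 0)) (.pos 64 .pp ⟨⟨0, 0, 0, 0, 0, 0, 39688304, 0, 0, ⟨0, 0⟩, 0⟩, 0, 0⟩ 0 0)) (.pos 64 .pp ⟨⟨0, 0, 0, 0, 0, 0, 5160948, 0, 0, ⟨0, 0⟩, 0⟩, 2954201, 0⟩ 0 0)) (.pos 64 .pp ⟨⟨0, 0, 0, 0, 0, 0, 27969923, 0, 0, ⟨0, 0⟩, 0⟩, 0, 0⟩ 0 0)))) (.pos 61 .pp ⟨⟨14360300, 0, 0, 0, 0, 0, 657209, 0, 0, ⟨0, 0⟩, 0⟩, 1977273, 0⟩ 0 0)) (.cut .l 184549 (.void 62 ⟨⟨0, 0, 0, 0, 0, 0, 100000, 0, 0, ⟨0, 0⟩, 0⟩, 0, 0⟩ 0 0) (.cut .d 1076173 (.cut .s 8323072 (.pos 62 .pp ⟨⟨0, 0, 0, 0, 0, 0, 0, 0, 0, ⟨0, 0⟩, 0⟩, 6319118, 0⟩ 0 0) (.pos 62 .pp ⟨⟨0, 0, 0, 0, 0, 0, 0, 0, 0, ⟨0, 0⟩, 0⟩, 5029514, 0⟩ 0 0)) (.cut .l 215307 (.pos 62 .pp ⟨⟨0, 0, 0,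 0, 0, 0, 21005624, 0, 0, ⟨0, 0⟩, 0⟩, 3529658, 0⟩ 0 0) (.cut .v 24117248 (.cut .s 8323072 (.cut .d 1183790 (.cut .s 8192000 (.void 73 ⟨⟨0, 0, 0, 0, 0, 0, 100000, 0, 0, ⟨0, 0⟩, 0⟩, 0, 0⟩ 0 0) (.cut .v 23592960 (.cut .d 1129981 (.pos 75 .pp ⟨⟨0, 0, 0, 0, 0, 0, 9252326, 0, 0, ⟨0, 0⟩, 0⟩, 3292309, 0⟩ 0 0) (.pos 75 .pp ⟨⟨0, 0, 0, 0, 0, 0, 11448695, 0, 0, ⟨0, 0⟩, 0⟩, 3009192, 0⟩ 0 0)) (.pos 76 .pp ⟨⟨0, 0, 0, 0, 0, 0, 11725725, 0, 0, ⟨0, 0⟩, 0⟩, 3549144, 0⟩ 0 0))) (.pos 73 .pp ⟨⟨0, 0, 0, 0, 0, 0, 49776748, 0, 0, ⟨0, 0⟩, 0⟩, 0, 0⟩ 0 0)) (.cut .d 1183790 (.pos 73 .pp ⟨⟨0, 0, 0, 0, 0, 0, 4216425, 0, 0, ⟨0, 0⟩, 0⟩, 3812132, 0⟩ 0 0) (.pos 73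 .pp ⟨⟨0, 0, 0, 0, 0, 0, 9968408, 0, 0, ⟨0, 0⟩, 0⟩, 3288190, 0⟩ 0 0))) (.cut .s 8323072 (.void 74 ⟨⟨0, 0, 0, 0, 0, 0, 100000, 0, 0, ⟨0, 0⟩, 0⟩, 0, 0⟩ 0 0) (.pos 74 .pp ⟨⟨0, 0, 0, 0, 0, 0, 9918888, 0, 0, ⟨0, 0⟩, 0⟩, 4466989, 0⟩ 0 0))))))) (.cut .v 23068672 (.pos 61 .pp ⟨⟨0, 0, 0, 0, 0, 0, 0, 0, 0, ⟨0, 0⟩, 0⟩, 0, 19408018⟩ 0 0) (.cut .v 24117248 (.pos 73 .pp ⟨⟨0, 0, 0, 0, 0, 0, 34550651, 0, 0, ⟨0, 0⟩, 0⟩, 0, 0⟩ 0 0) (.pos 74 .pp ⟨⟨0, 0, 0, 0, 0, 0, 25937288, 0, 0, ⟨0, 0⟩, 0⟩, 3037921, 0⟩ 0 0))))))) (.void 25 ⟨⟨0, 0, 0, 0, 0, 0, 0, 0, 0, ⟨0, 0⟩, 0⟩, 0, 100000⟩ 0 0)) (.void 25 ⟨⟨0, 0, 0, 0, 0, 0, 0, 0, 0, ⟨0, 0⟩, 0⟩, 0, 100000⟩ 0 0))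 (.void 25 ⟨⟨0, 0, 0, 0, 0, 0, 0, 0, 0, ⟨0, 0⟩, 0⟩, 0, 100000⟩ 0 0)) (.void 26 ⟨⟨0, 0, 0, 0, 0, 0, 100000, 0, 0, ⟨0, 0⟩, 0⟩, 0, 0⟩ 0 0)))),
    by decide +kernel⟩

def covers10 : cell.Covers Vale.Agent.P237.Petty.Cor.Grid.N15.table row10.1 :=
  ⟨(.cut .d 0 (.cut .v 16777216 (.cut .d (-8388608) (.void 1 ⟨⟨0, 0, 0, 0, 0, 100000, 0, 0, 0, ⟨0, 0⟩, 0⟩, 0, 0⟩ 0 0) (.cut .d (-4194304) (.void 1 ⟨⟨0, 0, 0, 0, 0, 100000, 0, 0, 0, ⟨0, 0⟩, 0⟩, 0, 0⟩ 0 0) (.cut .d (-2097152) (.void 1 ⟨⟨0, 0, 0, 0, 0, 100000, 0, 0, 0, ⟨0, 0⟩, 0⟩, 0, 0⟩ 0 0) (.cut .d (-1048576) (.void 1 ⟨⟨0, 0, 0, 0, 0, 100000, 0, 0, 0, ⟨0, 0⟩, 0⟩, 0, 0⟩ 0 0) (.cut .d (-524288)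 (.void 1 ⟨⟨0, 0, 0, 0, 0, 100000, 0, 0, 0, ⟨0, 0⟩, 0⟩, 0, 0⟩ 0 0) (.cut .d (-262144) (.void 1 ⟨⟨0, 0, 0, 0, 0, 100000, 0, 0, 0, ⟨0, 0⟩, 0⟩, 0, 0⟩ 0 0) (.cut .d (-131072) (.void 1 ⟨⟨0, 0, 0, 0, 0, 100000, 0, 0, 0, ⟨0, 0⟩, 0⟩, 0, 0⟩ 0 0) (.cut .d (-65536) (.void 1 ⟨⟨0, 0, 0, 0, 0, 100000, 0, 0, 0, ⟨0, 0⟩, 0⟩, 0, 0⟩ 0 0) (.cut .v 8388608 (.cut .v 4194304 (.void 4 ⟨⟨0, 0, 100000, 0, 0, 0, 0, 0, 0, ⟨0, 0⟩, 0⟩, 0, 0⟩ 0 0) (.pos 5 .mm ⟨⟨0, 0, 0, 0, 0, 18707142, 0, 0, 0, ⟨0, 0⟩, 0⟩, 0, 0⟩ 0 0)) (.cut .s 8814592 (.pos 3 .mm ⟨⟨0, 0, 0, 0, 0, 48701762, 0, 0, 0, ⟨0, 0⟩, 0⟩, 0, 0⟩ 0 0) (.pos 3 .mm ⟨⟨0, 0, 0, 0, 0, 56449144, 0, 0, 0, ⟨0, 0⟩,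 0⟩, 0, 0⟩ 0 0))))))))))) (.cut .v 25165824 (.cut .d (-8388608) (.void 25 ⟨⟨0, 0, 0, 0, 0, 100000, 0, 0, 0, ⟨0, 0⟩, 0⟩, 0, 0⟩ 0 0) (.cut .v 20971520 (.cut .d (-4194304) (.void 27 ⟨⟨0, 0, 0, 0, 0, 100000, 0, 0, 0, ⟨0, 0⟩, 0⟩, 0, 0⟩ 0 0) (.cut .d (-2097152) (.void 27 ⟨⟨0, 0, 0, 0, 0, 100000, 0, 0, 0, ⟨0, 0⟩, 0⟩, 0, 0⟩ 0 0) (.cut .v 18874368 (.cut .d (-1048576) (.void 29 ⟨⟨0, 0, 0, 0, 0, 100000, 0, 0, 0, ⟨0, 0⟩, 0⟩, 0, 0⟩ 0 0) (.cut .d (-524288) (.void 29 ⟨⟨0, 0, 0, 0, 0, 100000, 0, 0, 0, ⟨0, 0⟩, 0⟩, 0, 0⟩ 0 0) (.cut .d (-262144) (.void 29 ⟨⟨0, 0, 0, 0, 0, 100000, 0, 0, 0, ⟨0, 0⟩, 0⟩, 0, 0⟩ 0 0) (.cut .d (-131072) (.void 29 ⟨⟨0, 0,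 0, 0, 0, 100000, 0, 0, 0, ⟨0, 0⟩, 0⟩, 0, 0⟩ 0 0) (.cut .d (-65536) (.void 29 ⟨⟨0, 0, 0, 0, 0, 100000, 0, 0, 0, ⟨0, 0⟩, 0⟩, 0, 0⟩ 0 0) (.cut .v 17825792 (.cut .v 17301504 (.cut .v 17039360 (.cut .v 16908288 (.cut .d (-32768) (.cut .s 8814592 (.pos 37 .mp ⟨⟨27204447, 0, 0, 0, 0, 21276654, 0, 0, 0, ⟨0, 0⟩, 0⟩, 0, 0⟩ 0 0) (.cut .s 8929280 (.pos 37 .mp ⟨⟨30347828, 0, 0, 0, 0, 20916906, 0, 0, 0, ⟨0, 0⟩, 0⟩, 0, 0⟩ 0 0) (.pos 37 .mp ⟨⟨32948390, 0, 0, 0, 0, 21687673, 0, 0, 0, ⟨0, 0⟩, 0⟩, 0, 0⟩ 0 0))) (.cut .s 8814592 (.cut .v 16842752 (.cut .s 8699904 (.cut .s 8642560 (.pos 39 .mp ⟨⟨27174658, 0, 0, 0, 0, 14160260, 0, 0, 0, ⟨0, 0⟩, 0⟩, 0,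 0⟩ 0 0) (.pos 39 .mp ⟨⟨27562792, 0, 0, 0, 0, 15167605, 0, 0, 0, ⟨0, 0⟩, 0⟩, 0, 0⟩ 0 0)) (.cut .s 8757248 (.pos 39 .mp ⟨⟨27837827, 0, 0, 0, 0, 16441159, 0, 0, 0, ⟨0, 0⟩, 0⟩, 0, 0⟩ 0 0) (.cut .s 8785920 (.pos 39 .mp ⟨⟨29499838, 0, 0, 0, 0, 15743851, 0, 0, 0, ⟨0, 0⟩, 0⟩, 0, 0⟩ 0 0) (.pos 39 .mp ⟨⟨29783175, 0, 0, 0, 0, 16257850, 0, 0, 0, ⟨0, 0⟩, 0⟩, 0, 0⟩ 0 0)))) (.pos 40 .mp ⟨⟨41943379, 0, 0, 0, 0, 0, 0, 0, 0, ⟨0, 0⟩, 0⟩, 0, 0⟩ 0 0)) (.cut .v 16842752 (.cut .s 8929280 (.cut .s 8871936 (.cut .s 8843264 (.pos 39 .mp ⟨⟨30029641, 0, 0, 0, 0, 16852529, 0, 0, 0, ⟨0, 0⟩, 0⟩, 0, 0⟩ 0 0) (.pos 39 .mp ⟨⟨30297005, 0, 0, 0, 0, 17444363, 0, 0,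 0, ⟨0, 0⟩, 0⟩, 0, 0⟩ 0 0)) (.cut .s 8900608 (.pos 39 .mp ⟨⟨30837508, 0, 0, 0, 0, 17728557, 0, 0, 0, ⟨0, 0⟩, 0⟩, 0, 0⟩ 0 0) (.cut .s 8914944 (.pos 39 .mp ⟨⟨31650858, 0, 0, 0, 0, 17473090, 0, 0, 0, ⟨0, 0⟩, 0⟩, 0, 0⟩ 0 0) (.pos 39 .mp ⟨⟨31823835, 0, 0, 0, 0, 17748354, 0, 0, 0, ⟨0, 0⟩, 0⟩, 0, 0⟩ 0 0)))) (.cut .s 8986624 (.cut .s 8957952 (.cut .s 8943616 (.pos 39 .mp ⟨⟨32002985, 0, 0, 0, 0, 18021625, 0, 0, 0, ⟨0, 0⟩, 0⟩, 0, 0⟩ 0 0) (.pos 39 .mp ⟨⟨32188455, 0, 0, 0, 0, 18292708, 0, 0, 0, ⟨0, 0⟩, 0⟩, 0, 0⟩ 0 0)) (.cut .s 8972288 (.pos 39 .mp ⟨⟨32492935, 0, 0, 0, 0, 18424620, 0, 0, 0, ⟨0, 0⟩, 0⟩, 0, 0⟩ 0 0) (.pos 39 .mp ⟨⟨32832754, 0, 0,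 0, 0, 18518687, 0, 0, 0, ⟨0, 0⟩, 0⟩, 0, 0⟩ 0 0))) (.cut .s 9015296 (.cut .s 9000960 (.pos 39 .mp ⟨⟨33175514, 0, 0, 0, 0, 18614232, 0, 0, 0, ⟨0, 0⟩, 0⟩, 0, 0⟩ 0 0) (.cut .s 9008128 (.pos 39 .mp ⟨⟨33392975, 0, 0, 0, 0, 18744668, 0, 0, 0, ⟨0, 0⟩, 0⟩, 0, 0⟩ 0 0) (.pos 39 .mp ⟨⟨33521229, 0, 0, 0, 0, 18848947, 0, 0, 0, ⟨0, 0⟩, 0⟩, 0, 0⟩ 0 0))) (.cut .v 16809984 (.cut .s 9029632 (.pos 49 .mp ⟨⟨32975043, 0, 0, 0, 0, 19971051, 0, 0, 0, ⟨0, 0⟩, 0⟩, 0, 0⟩ 0 0) (.cut .s 9036800 (.pos 49 .mp ⟨⟨34083455, 0, 0, 0, 0, 18952905, 0, 0, 0, ⟨0, 0⟩, 0⟩, 0, 0⟩ 0 0) (.pos 49 .mp ⟨⟨34185440, 0, 0, 0, 0, 19094487, 0, 0, 0, ⟨0, 0⟩, 0⟩, 0, 0⟩ 0 0))) (.pos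 50 .mp ⟨⟨39068314, 0, 0, 0, 0, 12919607, 0, 0, 0, ⟨0, 0⟩, 0⟩, 0, 0⟩ 0 0))))) (.pos 40 .mp ⟨⟨47692634, 0, 0, 0, 0, 0, 0, 0, 0, ⟨0, 0⟩, 0⟩, 0, 0⟩ 0 0)))) (.pos 38 .mp ⟨⟨49295152, 0, 0, 0, 0, 0, 0, 0, 0, ⟨0, 0⟩, 0⟩, 0, 0⟩ 0 0)) (.void 36 ⟨⟨100000, 0, 0, 0, 0, 0, 0, 0, 0, ⟨0, 0⟩, 0⟩, 0, 0⟩ 0 0)) (.void 34 ⟨⟨100000, 0, 0, 0, 0, 0, 0, 0, 0, ⟨0, 0⟩, 0⟩, 0, 0⟩ 0 0)) (.void 32 ⟨⟨100000, 0, 0, 0, 0, 0, 0, 0, 0, ⟨0, 0⟩, 0⟩, 0, 0⟩ 0 0))))))) (.void 30 ⟨⟨100000, 0, 0, 0, 0, 0, 0, 0, 0, ⟨0, 0⟩, 0⟩, 0, 0⟩ 0 0)))) (.void 28 ⟨⟨100000, 0, 0, 0, 0, 0, 0, 0, 0, ⟨0, 0⟩, 0⟩, 0, 0⟩ 0 0))) (.void 26 ⟨⟨100000, 0, 0, 0, 0, 0, 0, 0, 0, ⟨0, 0⟩, 0⟩, 0, 0⟩ 0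 0))) (.cut .v 16777216 (.cut .d 8004398 (.cut .d 4002199 (.cut .v 8388608 (.cut .v 4194304 (.void 4 ⟨⟨0, 0, 66667, 0, 0, 0, 0, 0, 0, ⟨0, 0⟩, 0⟩, 0, 33333⟩ 0 0) (.pos 5 .pm ⟨⟨0, 0, 0, 0, 0, 0, 0, 0, 0, ⟨0, 0⟩, 0⟩, 0, 0⟩ 0 0)) (.pos 3 .pm ⟨⟨0, 0, 0, 0, 0, 0, 0, 0, 0, ⟨0, 0⟩, 0⟩, 0, 0⟩ 0 0)) (.void 1 ⟨⟨0, 0, 0, 0, 0, 0, 0, 0, 0, ⟨0, 0⟩, 0⟩, 0, 100000⟩ 0 0)) (.void 1 ⟨⟨0, 0, 0, 0, 0, 0, 0, 0, 0, ⟨0, 0⟩, 0⟩, 0, 100000⟩ 0 0)) (.cut .d 8004398 (.cut .d 4002199 (.cut .v 25165824 (.cut .d 2001099 (.cut .v 20971520 (.cut .d 1000549 (.cut .d 500274 (.cut .v 18874368 (.cut .v 17825792 (.cut .s 8814592 (.pos 31 .pp ⟨⟨29844255, 0, 0, 0, 0, 0,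 0, 0, 0, ⟨0, 0⟩, 0⟩, 509499, 0⟩ 0 0) (.pos 31 .pp ⟨⟨33502411, 0, 0, 0, 0, 0, 0, 0, 0, ⟨0, 0⟩, 0⟩, 760704, 0⟩ 0 0)) (.pos 32 .pp ⟨⟨44308073, 0, 0, 0, 0, 0, 0, 0, 0, ⟨0, 0⟩, 0⟩, 0, 0⟩ 0 0)) (.pos 30 .pp ⟨⟨57717357, 0, 0, 0, 0, 0, 0, 0, 0, ⟨0, 0⟩, 0⟩, 0, 0⟩ 0 0)) (.cut .v 18874368 (.pos 29 .pp ⟨⟨0, 0, 0, 0, 0, 0, 0, 0, 0, ⟨0, 0⟩, 0⟩, 0, 818830⟩ 0 0) (.pos 30 .pp ⟨⟨37126536, 0, 0, 0, 0, 0, 0, 0, 0, ⟨0, 0⟩, 0⟩, 0, 262644⟩ 0 0))) (.pos 27 .pp ⟨⟨0, 0, 0, 0, 0, 0, 0, 0, 0, ⟨0, 0⟩, 0⟩, 0, 859266⟩ 0 0)) (.cut .d 1000549 (.cut .v 23068672 (.cut .d 500274 (.void 61 ⟨⟨0, 0, 0, 0, 0, 0, 0, 0, 0, ⟨0, 0⟩, 0⟩, 100000, 0⟩ 0 0) (.cut .d 750411 (.pos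 61 .pp ⟨⟨66526885, 0, 0, 0, 0, 0, 0, 0, 0, ⟨0, 0⟩, 0⟩, 0, 0⟩ 0 0) (.pos 61 .pp ⟨⟨50036033, 0, 0, 0, 0, 0, 352107, 0, 0, ⟨0, 0⟩, 0⟩, 0, 0⟩ 0 0))) (.pos 62 .pp ⟨⟨0, 0, 0, 0, 0, 0, 0, 0, 0, ⟨0, 0⟩, 0⟩, 8030179, 0⟩ 0 0)) (.cut .v 23068672 (.pos 61 .pp ⟨⟨0, 0, 0, 0, 0, 0, 783200, 0, 0, ⟨0, 0⟩, 0⟩, 3387543, 0⟩ 0 0) (.cut .d 1500824 (.cut .d 1250686 (.pos 62 .pp ⟨⟨0, 0, 0, 0, 0, 0, 325067, 0, 0, ⟨0, 0⟩, 0⟩, 5137679, 0⟩ 0 0) (.pos 62 .pp ⟨⟨0, 0, 0, 0, 0, 0, 391801, 0, 0, ⟨0, 0⟩, 0⟩, 4509949, 0⟩ 0 0)) (.pos 62 .pp ⟨⟨0, 0, 0, 0, 0, 0, 41459220, 0, 0, ⟨0, 0⟩, 0⟩, 0, 0⟩ 0 0))))) (.void 25 ⟨⟨0, 0, 0, 0, 0, 0, 0, 0, 0, ⟨0, 0⟩, 0⟩, 0, 100000⟩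 0 0)) (.cut .d 2001099 (.cut .d 1000549 (.void 26 ⟨⟨0, 0, 0, 0, 0, 0, 0, 0, 0, ⟨0, 0⟩, 0⟩, 100000, 0⟩ 0 0) (.cut .v 29360128 (.cut .v 27262976 (.cut .d 1500824 (.cut .d 1250686 (.pos 83 .pp ⟨⟨0, 0, 0, 0, 0, 0, 0, 0, 0, ⟨0, 0⟩, 0⟩, 13098064, 0⟩ 0 0) (.pos 83 .pp ⟨⟨0, 0, 0, 0, 0, 0, 13413495, 0, 0, ⟨0, 0⟩, 0⟩, 5542242, 0⟩ 0 0)) (.pos 83 .pp ⟨⟨0, 0, 0, 0, 0, 0, 26750581, 0, 0, ⟨0, 0⟩, 0⟩, 4095889, 0⟩ 0 0)) (.pos 84 .pp ⟨⟨0, 0, 0, 0, 0, 0, 48365053, 0, 0, ⟨0, 0⟩, 0⟩, 8045617, 0⟩ 0 0)) (.void 82 ⟨⟨0, 0, 0, 0, 0, 0, 100000, 0, 0, ⟨0, 0⟩, 0⟩, 0, 0⟩ 0 0))) (.pos 26 .pp ⟨⟨0, 0, 0, 0, 0, 0, 105210652, 0, 0, ⟨0, 0⟩, 0⟩, 0, 0⟩ 0 0))) (.void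 24 ⟨⟨0, 0, 0, 0, 0, 0, 0, 0, 0, ⟨0, 0⟩, 0⟩, 0, 100000⟩ 0 0)) (.void 24 ⟨⟨0, 0, 0, 0, 0, 0, 0, 0, 0, ⟨0, 0⟩, 0⟩, 0, 100000⟩ 0 0)))),
    by decide +kernel⟩

def covers11 : cell.Covers Vale.Agent.P237.Petty.Cor.Grid.N15.table row11.1 :=
  ⟨(.cut .d 0 (.cut .v 16777216 (.cut .d (-8388608) (.void 1 ⟨⟨0, 0, 0, 0, 0, 100000, 0, 0, 0, ⟨0, 0⟩, 0⟩, 0, 0⟩ 0 0) (.cut .d (-4194304) (.void 1 ⟨⟨0, 0, 0, 0, 0, 100000, 0, 0, 0, ⟨0, 0⟩, 0⟩, 0, 0⟩ 0 0) (.cut .d (-2097152) (.void 1 ⟨⟨0, 0, 0, 0, 0, 100000, 0, 0, 0, ⟨0, 0⟩, 0⟩, 0, 0⟩ 0 0) (.cut .d (-1048576) (.void 1 ⟨⟨0, 0, 0, 0, 0, 100000, 0, 0, 0, ⟨0, 0⟩, 0⟩, 0, 0⟩ 0 0) (.cut .d (-524288) (.void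 1 ⟨⟨0, 0, 0, 0, 0, 100000, 0, 0, 0, ⟨0, 0⟩, 0⟩, 0, 0⟩ 0 0) (.cut .d (-262144) (.void 1 ⟨⟨0, 0, 0, 0, 0, 100000, 0, 0, 0, ⟨0, 0⟩, 0⟩, 0, 0⟩ 0 0) (.cut .d (-131072) (.void 1 ⟨⟨0, 0, 0, 0, 0, 100000, 0, 0, 0, ⟨0, 0⟩, 0⟩, 0, 0⟩ 0 0) (.cut .d (-65536) (.void 1 ⟨⟨0, 0, 0, 0, 0, 100000, 0, 0, 0, ⟨0, 0⟩, 0⟩, 0, 0⟩ 0 0) (.cut .v 8388608 (.cut .v 4194304 (.void 4 ⟨⟨0, 0, 100000, 0, 0, 0, 0, 0, 0, ⟨0, 0⟩, 0⟩, 0, 0⟩ 0 0) (.pos 5 .mm ⟨⟨0, 0, 0, 0, 0, 25413977, 0, 0, 0, ⟨0, 0⟩, 0⟩, 0, 0⟩ 0 0)) (.cut .d (-32768) (.pos 3 .mm ⟨⟨0, 0, 0, 0, 0, 89974549, 0, 0, 0, ⟨0, 0⟩, 0⟩, 0, 0⟩ 0 0) (.cut .v 12582912 (.pos 10 .mm ⟨⟨0, 0, 0, 0, 0, 38568173, 0, 0,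 0, ⟨0, 0⟩, 0⟩, 0, 0⟩ 0 0) (.cut .v 14680064 (.pos 14 .mm ⟨⟨0, 0, 0, 0, 0, 46712322, 0, 0, 0, ⟨0, 0⟩, 0⟩, 0, 0⟩ 0 0) (.cut .v 15728640 (.pos 22 .mm ⟨⟨0, 0, 0, 0, 0, 51165202, 0, 0, 0, ⟨0, 0⟩, 0⟩, 0, 0⟩ 0 0) (.cut .v 16252928 (.pos 41 .mm ⟨⟨0, 0, 0, 0, 0, 53486844, 0, 0, 0, ⟨0, 0⟩, 0⟩, 0, 0⟩ 0 0) (.cut .v 16515072 (.pos 47 .mm ⟨⟨0, 0, 0, 0, 0, 62217941, 0, 0, 0, ⟨0, 0⟩, 0⟩, 0, 0⟩ 0 0) (.cut .v 16646144 (.pos 51 .mm ⟨⟨0, 0, 0, 0, 0, 68597271, 0, 0, 0, ⟨0, 0⟩, 0⟩, 0, 0⟩ 0 0) (.cut .v 16711680 (.pos 53 .mm ⟨⟨0, 0, 0, 0, 0, 71132559, 0, 0, 0, ⟨0, 0⟩, 0⟩, 0, 0⟩ 0 0) (.cut .s 9306112 (.cut .s 9175040 (.pos 54 .mm ⟨⟨0, 0, 0, 0, 0, 64431770,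 0, 0, 0, ⟨0, 0⟩, 0⟩, 0, 0⟩ 0 0) (.pos 54 .mm ⟨⟨0, 0, 0, 0, 0, 70562434, 0, 0, 0, ⟨0, 0⟩, 0⟩, 0, 0⟩ 0 0)) (.cut .s 9437184 (.pos 54 .mm ⟨⟨0, 0, 0, 0, 0, 77409192, 0, 0, 0, ⟨0, 0⟩, 0⟩, 0, 0⟩ 0 0) (.pos 54 .mm ⟨⟨0, 0, 0, 0, 0, 84990729, 0, 0, 0, ⟨0, 0⟩, 0⟩, 0, 0⟩ 0 0)))))))))))))))))))) (.cut .v 33554432 (.cut .v 25165824 (.cut .d (-8388608) (.void 25 ⟨⟨0, 0, 0, 0, 0, 100000, 0, 0, 0, ⟨0, 0⟩, 0⟩, 0, 0⟩ 0 0) (.cut .v 20971520 (.cut .d (-4194304) (.void 27 ⟨⟨0, 0, 0, 0, 0, 100000, 0, 0, 0, ⟨0, 0⟩, 0⟩, 0, 0⟩ 0 0) (.cut .v 18874368 (.cut .d (-2097152) (.void 29 ⟨⟨100000, 0, 0, 0, 0, 0, 0, 0, 0, ⟨0, 0⟩, 0⟩, 0, 0⟩ 0 0) (.cut .d (-1048576)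 (.void 29 ⟨⟨100000, 0, 0, 0, 0, 0, 0, 0, 0, ⟨0, 0⟩, 0⟩, 0, 0⟩ 0 0) (.cut .d (-524288) (.void 29 ⟨⟨100000, 0, 0, 0, 0, 0, 0, 0, 0, ⟨0, 0⟩, 0⟩, 0, 0⟩ 0 0) (.cut .d (-262144) (.void 29 ⟨⟨100000, 0, 0, 0, 0, 0, 0, 0, 0, ⟨0, 0⟩, 0⟩, 0, 0⟩ 0 0) (.cut .d (-131072) (.void 29 ⟨⟨0, 0, 0, 0, 0, 100000, 0, 0, 0, ⟨0, 0⟩, 0⟩, 0, 0⟩ 0 0) (.cut .d (-65536) (.void 29 ⟨⟨0, 0, 0, 0, 0, 100000, 0, 0, 0, ⟨0, 0⟩, 0⟩, 0, 0⟩ 0 0) (.cut .v 17825792 (.cut .v 17301504 (.cut .v 17039360 (.cut .d (-32768) (.cut .s 9306112 (.cut .s 9175040 (.cut .d (-49152) (.void 35 ⟨⟨0, 0, 0, 0, 0, 100000, 0, 0, 0, ⟨0, 0⟩, 0⟩, 0, 0⟩ 0 0) (.cut .d (-40960) (.void 35 ⟨⟨0, 0,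 0, 0, 0, 100000, 0, 0, 0, ⟨0, 0⟩, 0⟩, 0, 0⟩ 0 0) (.cut .d (-36864) (.void 35 ⟨⟨0, 0, 0, 0, 0, 100000, 0, 0, 0, ⟨0, 0⟩, 0⟩, 0, 0⟩ 0 0) (.cut .d (-34816) (.void 35 ⟨⟨0, 0, 0, 0, 0, 100000, 0, 0, 0, ⟨0, 0⟩, 0⟩, 0, 0⟩ 0 0) (.cut .v 16908288 (.cut .s 9109504 (.pos 37 .mp ⟨⟨34722145, 0, 0, 0, 0, 22047441, 0, 0, 0, ⟨0, 0⟩, 0⟩, 0, 0⟩ 0 0) (.pos 37 .mp ⟨⟨36418240, 0, 0, 0, 0, 22692125, 0, 0, 0, ⟨0, 0⟩, 0⟩, 0, 0⟩ 0 0)) (.void 38 ⟨⟨100000, 0, 0, 0, 0, 0, 0, 0, 0, ⟨0, 0⟩, 0⟩, 0, 0⟩ 0 0)))))) (.void 35 ⟨⟨0, 0, 0, 0, 0, 100000, 0, 0, 0, ⟨0, 0⟩, 0⟩, 0, 0⟩ 0 0)) (.void 35 ⟨⟨0, 0, 0, 0, 0, 100000, 0, 0, 0, ⟨0, 0⟩, 0⟩, 0, 0⟩ 0 0)) (.cut .v 16908288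 (.cut .s 9306112 (.cut .s 9175040 (.cut .v 16842752 (.cut .s 9109504 (.cut .s 9076736 (.cut .s 9060352 (.cut .s 9052160 (.pos 39 .mp ⟨⟨34426206, 0, 0, 0, 0, 19091404, 0, 0, 0, ⟨0, 0⟩, 0⟩, 0, 0⟩ 0 0) (.cut .s 9056256 (.pos 39 .mp ⟨⟨34527672, 0, 0, 0, 0, 19209438, 0, 0, 0, ⟨0, 0⟩, 0⟩, 0, 0⟩ 0 0) (.pos 39 .mp ⟨⟨34629419, 0, 0, 0, 0, 19242765, 0, 0, 0, ⟨0, 0⟩, 0⟩, 0, 0⟩ 0 0))) (.cut .d (-16384) (.pos 39 .mp ⟨⟨34005227, 0, 0, 0, 0, 20857664, 0, 0, 0, ⟨0, 0⟩, 0⟩, 0, 0⟩ 0 0) (.cut .s 9068544 (.pos 39 .mp ⟨⟨34394400, 0, 0, 0, 0, 19746822, 0, 0, 0, ⟨0, 0⟩, 0⟩, 0, 0⟩ 0 0) (.pos 39 .mp ⟨⟨34606707, 0, 0, 0, 0, 19800871, 0, 0, 0, ⟨0, 0⟩, 0⟩,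 0, 0⟩ 0 0)))) (.cut .s 9093120 (.cut .d (-16384) (.pos 39 .mp ⟨⟨34361450, 0, 0, 0, 0, 21080507, 0, 0, 0, ⟨0, 0⟩, 0⟩, 0, 0⟩ 0 0) (.cut .s 9084928 (.pos 39 .mp ⟨⟨34819926, 0, 0, 0, 0, 19856198, 0, 0, 0, ⟨0, 0⟩, 0⟩, 0, 0⟩ 0 0) (.pos 39 .mp ⟨⟨35030974, 0, 0, 0, 0, 19917491, 0, 0, 0, ⟨0, 0⟩, 0⟩, 0, 0⟩ 0 0))) (.cut .d (-16384) (.pos 39 .mp ⟨⟨34724330, 0, 0, 0, 0, 21304159, 0, 0, 0, ⟨0, 0⟩, 0⟩, 0, 0⟩ 0 0) (.cut .s 9101312 (.pos 39 .mp ⟨⟨35236664, 0, 0, 0, 0, 19989600, 0, 0, 0, ⟨0, 0⟩, 0⟩, 0, 0⟩ 0 0) (.pos 39 .mp ⟨⟨35443465, 0, 0, 0, 0, 20062710, 0, 0, 0, ⟨0, 0⟩, 0⟩, 0, 0⟩ 0 0))))) (.cut .s 9142272 (.cut .s 9125888 (.cut .v 16809984 (.cut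 .s 9117696 (.pos 49 .mp ⟨⟨35109034, 0, 0, 0, 0, 20916817, 0, 0, 0, ⟨0, 0⟩, 0⟩, 0, 0⟩ 0 0) (.pos 49 .mp ⟨⟨35286370, 0, 0, 0, 0, 21036748, 0, 0, 0, ⟨0, 0⟩, 0⟩, 0, 0⟩ 0 0)) (.pos 50 .mp ⟨⟨39126296, 0, 0, 0, 0, 16248245, 0, 0, 0, ⟨0, 0⟩, 0⟩, 0, 0⟩ 0 0)) (.cut .v 16809984 (.cut .d (-16384) (.pos 49 .mp ⟨⟨34883479, 0, 0, 0, 0, 22490489, 0, 0, 0, ⟨0, 0⟩, 0⟩, 0, 0⟩ 0 0) (.cut .s 9134080 (.pos 49 .mp ⟨⟨36024061, 0, 0, 0, 0, 20347490, 0, 0, 0, ⟨0, 0⟩, 0⟩, 0, 0⟩ 0 0) (.pos 49 .mp ⟨⟨36208103, 0, 0, 0, 0, 20459468, 0, 0, 0, ⟨0, 0⟩, 0⟩, 0, 0⟩ 0 0))) (.pos 50 .mp ⟨⟨39513278, 0, 0, 0, 0, 16442826, 0, 0, 0, ⟨0, 0⟩, 0⟩, 0, 0⟩ 0 0))) (.cut .s 9158656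 (.cut .v 16809984 (.cut .d (-16384) (.pos 49 .mp ⟨⟨35294915, 0, 0, 0, 0, 22665286, 0, 0, 0, ⟨0, 0⟩, 0⟩, 0, 0⟩ 0 0) (.cut .s 9150464 (.pos 49 .mp ⟨⟨36394266, 0, 0, 0, 0, 20571206, 0, 0, 0, ⟨0, 0⟩, 0⟩, 0, 0⟩ 0 0) (.pos 49 .mp ⟨⟨36582592, 0, 0, 0, 0, 20682651, 0, 0, 0, ⟨0, 0⟩, 0⟩, 0, 0⟩ 0 0))) (.pos 50 .mp ⟨⟨39911181, 0, 0, 0, 0, 16633283, 0, 0, 0, ⟨0, 0⟩, 0⟩, 0, 0⟩ 0 0)) (.cut .v 16809984 (.cut .d (-16384) (.pos 49 .mp ⟨⟨35710716, 0, 0, 0, 0, 22844962, 0, 0, 0, ⟨0, 0⟩, 0⟩, 0, 0⟩ 0 0) (.cut .s 9166848 (.pos 49 .mp ⟨⟨36773122, 0, 0, 0, 0, 20793748, 0, 0, 0, ⟨0, 0⟩, 0⟩, 0, 0⟩ 0 0) (.pos 49 .mp ⟨⟨36977348, 0, 0, 0, 0, 20889760, 0, 0,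 0, ⟨0, 0⟩, 0⟩, 0, 0⟩ 0 0))) (.pos 50 .mp ⟨⟨40320523, 0, 0, 0, 0, 16818938, 0, 0, 0, ⟨0, 0⟩, 0⟩, 0, 0⟩ 0 0))))) (.pos 40 .mp ⟨⟨52594234, 0, 0, 0, 0, 0, 0, 0, 0, ⟨0, 0⟩, 0⟩, 0, 0⟩ 0 0)) (.cut .v 16842752 (.cut .s 9240576 (.cut .s 9207808 (.cut .s 9191424 (.cut .v 16809984 (.cut .d (-16384) (.pos 49 .mp ⟨⟨36130905, 0, 0, 0, 0, 23029555, 0, 0, 0, ⟨0, 0⟩, 0⟩, 0, 0⟩ 0 0) (.cut .s 9183232 (.pos 49 .mp ⟨⟨37193449, 0, 0, 0, 0, 20972992, 0, 0, 0, ⟨0, 0⟩, 0⟩, 0, 0⟩ 0 0) (.pos 49 .mp ⟨⟨37410687, 0, 0, 0, 0, 21057214, 0, 0, 0, ⟨0, 0⟩, 0⟩, 0, 0⟩ 0 0))) (.pos 50 .mp ⟨⟨40741822, 0, 0, 0, 0, 16999110, 0, 0, 0, ⟨0, 0⟩, 0⟩, 0, 0⟩ 0 0)) (.cut .v 16809984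 (.cut .d (-16384) (.pos 49 .mp ⟨⟨36555505, 0, 0, 0, 0, 23219106, 0, 0, 0, ⟨0, 0⟩, 0⟩, 0, 0⟩ 0 0) (.cut .s 9199616 (.pos 49 .mp ⟨⟨37629064, 0, 0, 0, 0, 21142423, 0, 0, 0, ⟨0, 0⟩, 0⟩, 0, 0⟩ 0 0) (.pos 49 .mp ⟨⟨37848584, 0, 0, 0, 0, 21228617, 0, 0, 0, ⟨0, 0⟩, 0⟩, 0, 0⟩ 0 0))) (.pos 50 .mp ⟨⟨41175599, 0, 0, 0, 0, 17173107, 0, 0, 0, ⟨0, 0⟩, 0⟩, 0, 0⟩ 0 0))) (.cut .s 9224192 (.cut .v 16809984 (.cut .d (-16384) (.pos 49 .mp ⟨⟨36984541, 0, 0, 0, 0, 23413654, 0, 0, 0, ⟨0, 0⟩, 0⟩, 0, 0⟩ 0 0) (.cut .s 9216000 (.pos 49 .mp ⟨⟨38069250, 0, 0, 0, 0, 21315795, 0, 0, 0, ⟨0, 0⟩, 0⟩, 0, 0⟩ 0 0) (.pos 49 .mp ⟨⟨38291064, 0, 0, 0, 0, 21403954, 0, 0,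 0, ⟨0, 0⟩, 0⟩, 0, 0⟩ 0 0))) (.pos 50 .mp ⟨⟨41622377, 0, 0, 0, 0, 17340236, 0, 0, 0, ⟨0, 0⟩, 0⟩, 0, 0⟩ 0 0)) (.cut .d (-16384) (.cut .s 9232384 (.pos 39 .mp ⟨⟨38029820, 0, 0, 0, 0, 22589900, 0, 0, 0, ⟨0, 0⟩, 0⟩, 0, 0⟩ 0 0) (.pos 39 .mp ⟨⟨38245504, 0, 0, 0, 0, 22695552, 0, 0, 0, ⟨0, 0⟩, 0⟩, 0, 0⟩ 0 0)) (.cut .s 9232384 (.pos 39 .mp ⟨⟨38680756, 0, 0, 0, 0, 21278306, 0, 0, 0, ⟨0, 0⟩, 0⟩, 0, 0⟩ 0 0) (.cut .s 9236480 (.pos 39 .mp ⟨⟨38786987, 0, 0, 0, 0, 21464329, 0, 0, 0, ⟨0, 0⟩, 0⟩, 0, 0⟩ 0 0) (.pos 39 .mp ⟨⟨38900892, 0, 0, 0, 0, 21507391, 0, 0, 0, ⟨0, 0⟩, 0⟩, 0, 0⟩ 0 0)))))) (.cut .s 9273344 (.cut .s 9256960 (.cut .d (-16384) (.cut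 .s 9248768 (.pos 39 .mp ⟨⟨38463388, 0, 0, 0, 0, 22800604, 0, 0, 0, ⟨0, 0⟩, 0⟩, 0, 0⟩ 0 0) (.pos 39 .mp ⟨⟨38683502, 0, 0, 0, 0, 22905011, 0, 0, 0, ⟨0, 0⟩, 0⟩, 0, 0⟩ 0 0)) (.cut .v 16809984 (.cut .s 9248768 (.pos 49 .mp ⟨⟨38963431, 0, 0, 0, 0, 21674298, 0, 0, 0, ⟨0, 0⟩, 0⟩, 0, 0⟩ 0 0) (.pos 49 .mp ⟨⟨39189871, 0, 0, 0, 0, 21766361, 0, 0, 0, ⟨0, 0⟩, 0⟩, 0, 0⟩ 0 0)) (.pos 50 .mp ⟨⟨55042552, 0, 0, 0, 0, 0, 0, 0, 0, ⟨0, 0⟩, 0⟩, 0, 0⟩ 0 0))) (.cut .d (-16384) (.cut .s 9265152 (.pos 39 .mp ⟨⟨38905875, 0, 0, 0, 0, 23008731, 0, 0, 0, ⟨0, 0⟩, 0⟩, 0, 0⟩ 0 0) (.pos 39 .mp ⟨⟨39130536, 0, 0, 0, 0, 23111716, 0, 0, 0, ⟨0, 0⟩, 0⟩, 0, 0⟩ 0 0)) (.cut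 .v 16809984 (.cut .s 9265152 (.pos 49 .mp ⟨⟨39417476, 0, 0, 0, 0, 21859395, 0, 0, 0, ⟨0, 0⟩, 0⟩, 0, 0⟩ 0 0) (.pos 49 .mp ⟨⟨39646249, 0, 0, 0, 0, 21953398, 0, 0, 0, ⟨0, 0⟩, 0⟩, 0, 0⟩ 0 0)) (.pos 50 .mp ⟨⟨55613209, 0, 0, 0, 0, 0, 0, 0, 0, ⟨0, 0⟩, 0⟩, 0, 0⟩ 0 0)))) (.cut .s 9289728 (.cut .d (-16384) (.cut .s 9281536 (.pos 39 .mp ⟨⟨39357515, 0, 0, 0, 0, 23213922, 0, 0, 0, ⟨0, 0⟩, 0⟩, 0, 0⟩ 0 0) (.pos 39 .mp ⟨⟨39586841, 0, 0, 0, 0, 23315304, 0, 0, 0, ⟨0, 0⟩, 0⟩, 0, 0⟩ 0 0)) (.cut .v 16809984 (.cut .s 9281536 (.pos 49 .mp ⟨⟨39876192, 0, 0, 0, 0, 22048366, 0, 0, 0, ⟨0, 0⟩, 0⟩, 0, 0⟩ 0 0) (.pos 49 .mp ⟨⟨40107310, 0, 0, 0, 0, 22144298, 0,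 0, 0, ⟨0, 0⟩, 0⟩, 0, 0⟩ 0 0)) (.pos 50 .mp ⟨⟨56191765, 0, 0, 0, 0, 0, 0, 0, 0, ⟨0, 0⟩, 0⟩, 0, 0⟩ 0 0))) (.cut .d (-16384) (.cut .s 9297920 (.pos 39 .mp ⟨⟨39818543, 0, 0, 0, 0, 23415817, 0, 0, 0, ⟨0, 0⟩, 0⟩, 0, 0⟩ 0 0) (.pos 39 .mp ⟨⟨40052652, 0, 0, 0, 0, 23515415, 0, 0, 0, ⟨0, 0⟩, 0⟩, 0, 0⟩ 0 0)) (.cut .v 16809984 (.cut .s 9297920 (.pos 49 .mp ⟨⟨40339605, 0, 0, 0, 0, 22241192, 0, 0, 0, ⟨0, 0⟩, 0⟩, 0, 0⟩ 0 0) (.pos 49 .mp ⟨⟨40573080, 0, 0, 0, 0, 22339046, 0, 0, 0, ⟨0, 0⟩, 0⟩, 0, 0⟩ 0 0)) (.pos 50 .mp ⟨⟨56778260, 0, 0, 0, 0, 0, 0, 0, 0, ⟨0, 0⟩, 0⟩, 0, 0⟩ 0 0)))))) (.pos 40 .mp ⟨⟨57032349, 0, 0, 0, 0, 0, 0, 0, 0, ⟨0, 0⟩, 0⟩, 0, 0⟩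 0 0))) (.cut .s 9437184 (.cut .v 16842752 (.cut .s 9371648 (.cut .s 9338880 (.cut .s 9322496 (.cut .d (-16384) (.cut .s 9314304 (.pos 39 .mp ⟨⟨40289196, 0, 0, 0, 0, 23614052, 0, 0, 0, ⟨0, 0⟩, 0⟩, 0, 0⟩ 0 0) (.pos 39 .mp ⟨⟨40528206, 0, 0, 0, 0, 23711683, 0, 0, 0, ⟨0, 0⟩, 0⟩, 0, 0⟩ 0 0)) (.cut .v 16809984 (.cut .s 9314304 (.pos 49 .mp ⟨⟨40807739, 0, 0, 0, 0, 22437856, 0, 0, 0, ⟨0, 0⟩, 0⟩, 0, 0⟩ 0 0) (.pos 49 .mp ⟨⟨41043584, 0, 0, 0, 0, 22537620, 0, 0, 0, ⟨0, 0⟩, 0⟩, 0, 0⟩ 0 0)) (.pos 50 .mp ⟨⟨57372738, 0, 0, 0, 0, 0, 0, 0, 0, ⟨0, 0⟩, 0⟩, 0, 0⟩ 0 0))) (.cut .d (-16384) (.cut .s 9330688 (.pos 39 .mp ⟨⟨40769710, 0, 0, 0, 0, 23808262,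 0, 0, 0, ⟨0, 0⟩, 0⟩, 0, 0⟩ 0 0) (.pos 39 .mp ⟨⟨41013739, 0, 0, 0, 0, 23903744, 0, 0, 0, ⟨0, 0⟩, 0⟩, 0, 0⟩ 0 0)) (.cut .v 16809984 (.cut .s 9330688 (.pos 49 .mp ⟨⟨41280621, 0, 0, 0, 0, 22638337, 0, 0, 0, ⟨0, 0⟩, 0⟩, 0, 0⟩ 0 0) (.pos 49 .mp ⟨⟨41518850, 0, 0, 0, 0, 22740004, 0, 0, 0, ⟨0, 0⟩, 0⟩, 0, 0⟩ 0 0)) (.pos 50 .mp ⟨⟨57975239, 0, 0, 0, 0, 0, 0, 0, 0, ⟨0, 0⟩, 0⟩, 0, 0⟩ 0 0)))) (.cut .s 9355264 (.cut .d (-16384) (.cut .s 9347072 (.pos 39 .mp ⟨⟨41260321, 0, 0, 0, 0, 23998081, 0, 0, 0, ⟨0, 0⟩, 0⟩, 0, 0⟩ 0 0) (.pos 39 .mp ⟨⟨41509487, 0, 0, 0, 0, 24091228, 0, 0, 0, ⟨0, 0⟩, 0⟩, 0, 0⟩ 0 0)) (.cut .s 9347072 (.cut .s 9342976 (.pos 39 .mp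 ⟨⟨41803177, 0, 0, 0, 0, 22724679, 0, 0, 0, ⟨0, 0⟩, 0⟩, 0, 0⟩ 0 0) (.pos 39 .mp ⟨⟨41921298, 0, 0, 0, 0, 22779297, 0, 0, 0, ⟨0, 0⟩, 0⟩, 0, 0⟩ 0 0)) (.pos 39 .mp ⟨⟨42178876, 0, 0, 0, 0, 22712174, 0, 0, 0, ⟨0, 0⟩, 0⟩, 0, 0⟩ 0 0))) (.cut .v 16809984 (.cut .d (-16384) (.pos 49 .mp ⟨⟨41049476, 0, 0, 0, 0, 25396274, 0, 0, 0, ⟨0, 0⟩, 0⟩, 0, 0⟩ 0 0) (.cut .s 9363456 (.pos 49 .mp ⟨⟨42240735, 0, 0, 0, 0, 23050676, 0, 0, 0, ⟨0, 0⟩, 0⟩, 0, 0⟩ 0 0) (.pos 49 .mp ⟨⟨42483772, 0, 0, 0, 0, 23156116, 0, 0, 0, ⟨0, 0⟩, 0⟩, 0, 0⟩ 0 0))) (.pos 50 .mp ⟨⟨46315816, 0, 0, 0, 0, 18417479, 0, 0, 0, ⟨0, 0⟩, 0⟩, 0, 0⟩ 0 0)))) (.cut .s 9404416 (.cut .s 9388032 (.cut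 .v 16809984 (.cut .d (-16384) (.pos 49 .mp ⟨⟨41524220, 0, 0, 0, 0, 25643080, 0, 0, 0, ⟨0, 0⟩, 0⟩, 0, 0⟩ 0 0) (.cut .s 9379840 (.pos 49 .mp ⟨⟨42728020, 0, 0, 0, 0, 23262493, 0, 0, 0, ⟨0, 0⟩, 0⟩, 0, 0⟩ 0 0) (.pos 49 .mp ⟨⟨42973481, 0, 0, 0, 0, 23369804, 0, 0, 0, ⟨0, 0⟩, 0⟩, 0, 0⟩ 0 0))) (.pos 50 .mp ⟨⟨46921865, 0, 0, 0, 0, 18476296, 0, 0, 0, ⟨0, 0⟩, 0⟩, 0, 0⟩ 0 0)) (.cut .v 16809984 (.cut .d (-16384) (.pos 49 .mp ⟨⟨42003674, 0, 0, 0, 0, 25895347, 0, 0, 0, ⟨0, 0⟩, 0⟩, 0, 0⟩ 0 0) (.cut .s 9396224 (.pos 49 .mp ⟨⟨43220160, 0, 0, 0, 0, 23478047, 0, 0, 0, ⟨0, 0⟩, 0⟩, 0, 0⟩ 0 0) (.pos 49 .mp ⟨⟨43468059, 0, 0, 0, 0, 23587218, 0, 0, 0, ⟨0,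 0⟩, 0⟩, 0, 0⟩ 0 0))) (.pos 50 .mp ⟨⟨47546819, 0, 0, 0, 0, 18520177, 0, 0, 0, ⟨0, 0⟩, 0⟩, 0, 0⟩ 0 0))) (.cut .s 9420800 (.cut .v 16809984 (.cut .d (-16384) (.pos 49 .mp ⟨⟨42487866, 0, 0, 0, 0, 26153120, 0, 0, 0, ⟨0, 0⟩, 0⟩, 0, 0⟩ 0 0) (.cut .s 9412608 (.pos 49 .mp ⟨⟨43726422, 0, 0, 0, 0, 23685251, 0, 0, 0, ⟨0, 0⟩, 0⟩, 0, 0⟩ 0 0) (.pos 49 .mp ⟨⟨44006706, 0, 0, 0, 0, 23757155, 0, 0, 0, ⟨0, 0⟩, 0⟩, 0, 0⟩ 0 0))) (.pos 50 .mp ⟨⟨48191231, 0, 0, 0, 0, 18548348, 0, 0, 0, ⟨0, 0⟩, 0⟩, 0, 0⟩ 0 0)) (.cut .d (-16384) (.pos 39 .mp ⟨⟨43739556, 0, 0, 0, 0, 25407818, 0, 0, 0, ⟨0, 0⟩, 0⟩, 0, 0⟩ 0 0) (.cut .s 9428992 (.pos 39 .mp ⟨⟨44407482, 0, 0,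 0, 0, 23674015, 0, 0, 0, ⟨0, 0⟩, 0⟩, 0, 0⟩ 0 0) (.pos 39 .mp ⟨⟨44661252, 0, 0, 0, 0, 23785477, 0, 0, 0, ⟨0, 0⟩, 0⟩, 0, 0⟩ 0 0)))))) (.pos 40 .mp ⟨⟨61921384, 0, 0, 0, 0, 0, 0, 0, 0, ⟨0, 0⟩, 0⟩, 0, 0⟩ 0 0)) (.cut .v 16842752 (.cut .s 9502720 (.cut .s 9469952 (.cut .s 9453568 (.cut .d (-16384) (.pos 39 .mp ⟨⟨44296326, 0, 0, 0, 0, 25566736, 0, 0, 0, ⟨0, 0⟩, 0⟩, 0, 0⟩ 0 0) (.cut .s 9445376 (.pos 39 .mp ⟨⟨44916264, 0, 0, 0, 0, 23897847, 0, 0, 0, ⟨0, 0⟩, 0⟩, 0, 0⟩ 0 0) (.pos 39 .mp ⟨⟨45172522, 0, 0, 0, 0, 24011122, 0, 0, 0, ⟨0, 0⟩, 0⟩, 0, 0⟩ 0 0))) (.cut .d (-16384) (.pos 39 .mp ⟨⟨44864936, 0, 0, 0, 0, 25718517, 0, 0, 0, ⟨0, 0⟩, 0⟩, 0,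 0⟩ 0 0) (.cut .s 9461760 (.pos 39 .mp ⟨⟨45430029, 0, 0, 0, 0, 24125300, 0, 0, 0, ⟨0, 0⟩, 0⟩, 0, 0⟩ 0 0) (.pos 39 .mp ⟨⟨45688789, 0, 0, 0, 0, 24240376, 0, 0, 0, ⟨0, 0⟩, 0⟩, 0, 0⟩ 0 0)))) (.cut .s 9486336 (.cut .d (-16384) (.pos 39 .mp ⟨⟨45445628, 0, 0, 0, 0, 25862775, 0, 0, 0, ⟨0, 0⟩, 0⟩, 0, 0⟩ 0 0) (.cut .s 9478144 (.pos 39 .mp ⟨⟨45937525, 0, 0, 0, 0, 24373885, 0, 0, 0, ⟨0, 0⟩, 0⟩, 0, 0⟩ 0 0) (.pos 39 .mp ⟨⟨46183190, 0, 0, 0, 0, 24515039, 0, 0, 0, ⟨0, 0⟩, 0⟩, 0, 0⟩ 0 0))) (.cut .d (-16384) (.pos 39 .mp ⟨⟨46038642, 0, 0, 0, 0, 25999124, 0, 0, 0, ⟨0, 0⟩, 0⟩, 0, 0⟩ 0 0) (.cut .s 9494528 (.pos 39 .mp ⟨⟨46429234, 0, 0, 0, 0, 24658483,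 0, 0, 0, ⟨0, 0⟩, 0⟩, 0, 0⟩ 0 0) (.pos 39 .mp ⟨⟨46675646, 0, 0, 0, 0, 24804240, 0, 0, 0, ⟨0, 0⟩, 0⟩, 0, 0⟩ 0 0))))) (.cut .s 9535488 (.cut .s 9519104 (.cut .s 9510912 (.pos 39 .mp ⟨⟨47624151, 0, 0, 0, 0, 24056016, 0, 0, 0, ⟨0, 0⟩, 0⟩, 0, 0⟩ 0 0) (.pos 39 .mp ⟨⟨47895241, 0, 0, 0, 0, 24165347, 0, 0, 0, ⟨0, 0⟩, 0⟩, 0, 0⟩ 0 0)) (.cut .s 9527296 (.pos 39 .mp ⟨⟨48167642, 0, 0, 0, 0, 24275285, 0, 0, 0, ⟨0, 0⟩, 0⟩, 0, 0⟩ 0 0) (.pos 39 .mp ⟨⟨48441359, 0, 0, 0, 0, 24385822, 0, 0, 0, ⟨0, 0⟩, 0⟩, 0, 0⟩ 0 0))) (.cut .s 9551872 (.cut .s 9543680 (.pos 39 .mp ⟨⟨48716394, 0, 0, 0, 0, 24496952, 0, 0, 0, ⟨0, 0⟩, 0⟩, 0, 0⟩ 0 0) (.pos 39 .mp ⟨⟨48992752,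 0, 0, 0, 0, 24608668, 0, 0, 0, ⟨0, 0⟩, 0⟩, 0, 0⟩ 0 0)) (.cut .s 9560064 (.pos 39 .mp ⟨⟨49270436, 0, 0, 0, 0, 24720962, 0, 0, 0, ⟨0, 0⟩, 0⟩, 0, 0⟩ 0 0) (.pos 39 .mp ⟨⟨49549450, 0, 0, 0, 0, 24833829, 0, 0, 0, ⟨0, 0⟩, 0⟩, 0, 0⟩ 0 0))))) (.pos 40 .mp ⟨⟨67252137, 0, 0, 0, 0, 0, 0, 0, 0, ⟨0, 0⟩, 0⟩, 0, 0⟩ 0 0)))) (.pos 38 .mp ⟨⟨64019788, 0, 0, 0, 0, 0, 0, 0, 0, ⟨0, 0⟩, 0⟩, 0, 0⟩ 0 0))) (.void 36 ⟨⟨100000, 0, 0, 0, 0, 0, 0, 0, 0, ⟨0, 0⟩, 0⟩, 0, 0⟩ 0 0)) (.void 34 ⟨⟨100000, 0, 0, 0, 0, 0, 0, 0, 0, ⟨0, 0⟩, 0⟩, 0, 0⟩ 0 0)) (.void 32 ⟨⟨100000, 0, 0, 0, 0, 0, 0, 0, 0, ⟨0, 0⟩, 0⟩, 0, 0⟩ 0 0)))))))) (.void 30 ⟨⟨100000, 0, 0, 0, 0, 0, 0, 0, 0,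 ⟨0, 0⟩, 0⟩, 0, 0⟩ 0 0))) (.void 28 ⟨⟨100000, 0, 0, 0, 0, 0, 0, 0, 0, ⟨0, 0⟩, 0⟩, 0, 0⟩ 0 0))) (.void 26 ⟨⟨100000, 0, 0, 0, 0, 0, 0, 0, 0, ⟨0, 0⟩, 0⟩, 0, 0⟩ 0 0)) (.void 91 ⟨⟨100000, 0, 0, 0, 0, 0, 0, 0, 0, ⟨0, 0⟩, 0⟩, 0, 0⟩ 0 0))) (.cut .v 16777216 (.cut .d 7172869 (.cut .v 8388608 (.cut .v 4194304 (.void 4 ⟨⟨0, 0, 66667, 0, 0, 0, 0, 0, 0, ⟨0, 0⟩, 0⟩, 0, 33333⟩ 0 0) (.pos 5 .pm ⟨⟨0, 0, 0, 0, 0, 0, 0, 0, 0, ⟨0, 0⟩, 0⟩, 0, 0⟩ 0 0)) (.pos 3 .pm ⟨⟨0, 0, 0, 0, 0, 0, 0, 0, 0, ⟨0, 0⟩, 0⟩, 0, 0⟩ 0 0)) (.void 1 ⟨⟨0, 0, 0, 0, 0, 0, 0, 0, 0, ⟨0, 0⟩, 0⟩, 0, 100000⟩ 0 0)) (.cut .d 7172869 (.cut .d 3586434 (.cut .v 33554432 (.cut .v 25165824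 (.cut .d 1793217 (.cut .v 20971520 (.cut .d 896608 (.cut .d 448304 (.cut .v 18874368 (.cut .d 224152 (.cut .v 17825792 (.cut .s 9306112 (.pos 31 .pp ⟨⟨36498222, 0, 0, 0, 0, 0, 0, 0, 0, ⟨0, 0⟩, 0⟩, 1337385, 0⟩ 0 0) (.pos 31 .pp ⟨⟨44490435, 0, 0, 0, 0, 0, 0, 0, 0, ⟨0, 0⟩, 0⟩, 1454346, 0⟩ 0 0)) (.pos 32 .pp ⟨⟨66886128, 0, 0, 0, 0, 0, 0, 0, 0, ⟨0, 0⟩, 0⟩, 0, 0⟩ 0 0)) (.pos 29 .pp ⟨⟨38802503, 0, 0, 0, 0, 0, 0, 0, 0, ⟨0, 0⟩, 0⟩, 0, 140604⟩ 0 0)) (.pos 30 .pp ⟨⟨79874005, 0, 0, 0, 0, 0, 0, 0, 0, ⟨0, 0⟩, 0⟩, 0, 0⟩ 0 0)) (.pos 27 .pp ⟨⟨44124230, 0, 0, 0, 0, 0, 0, 0, 0, ⟨0, 0⟩, 0⟩, 0, 297903⟩ 0 0)) (.pos 27 .pp ⟨⟨0, 0, 0, 0, 0, 0, 0, 0, 0,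 ⟨0, 0⟩, 0⟩, 0, 785694⟩ 0 0)) (.cut .d 896608 (.cut .v 23068672 (.cut .d 448304 (.void 61 ⟨⟨0, 0, 0, 0, 0, 0, 0, 0, 0, ⟨0, 0⟩, 0⟩, 100000, 0⟩ 0 0) (.cut .d 672456 (.pos 61 .pp ⟨⟨90417992, 0, 0, 0, 0, 0, 0, 0, 0, ⟨0, 0⟩, 0⟩, 0, 0⟩ 0 0) (.pos 61 .pp ⟨⟨0, 0, 0, 0, 0, 0, 420813, 0, 0, ⟨0, 0⟩, 0⟩, 6205299, 0⟩ 0 0))) (.pos 62 .pp ⟨⟨0, 0, 0, 0, 0, 0, 0, 0, 0, ⟨0, 0⟩, 0⟩, 11301328, 0⟩ 0 0)) (.pos 28 .pp ⟨⟨0, 0, 0, 0, 0, 0, 376223, 0, 0, ⟨0, 0⟩, 0⟩, 5671589, 0⟩ 0 0))) (.pos 25 .pp ⟨⟨0, 0, 0, 0, 0, 0, 0, 0, 0, ⟨0, 0⟩, 0⟩, 0, 848550⟩ 0 0)) (.cut .d 1793217 (.cut .d 896608 (.void 26 ⟨⟨0, 0, 0, 0, 0, 0, 0, 0, 0, ⟨0, 0⟩, 0⟩, 100000, 0⟩ 0 0) (.cut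 .v 29360128 (.cut .d 1344912 (.pos 81 .pp ⟨⟨0, 0, 0, 0, 0, 0, 0, 0, 0, ⟨0, 0⟩, 0⟩, 9911980, 0⟩ 0 0) (.pos 81 .pp ⟨⟨0, 0, 0, 0, 0, 0, 0, 0, 0, ⟨0, 0⟩, 0⟩, 7385697, 0⟩ 0 0)) (.pos 82 .pp ⟨⟨0, 0, 0, 0, 0, 0, 0, 0, 0, ⟨0, 0⟩, 0⟩, 26591185, 0⟩ 0 0))) (.cut .v 29360128 (.pos 81 .pp ⟨⟨0, 0, 0, 0, 0, 0, 23524709, 0, 0, ⟨0, 0⟩, 0⟩, 4713743, 0⟩ 0 0) (.pos 82 .pp ⟨⟨0, 0, 0, 0, 0, 0, 46116387, 0, 0, ⟨0, 0⟩, 0⟩, 6812259, 0⟩ 0 0)))) (.cut .d 1793217 (.void 91 ⟨⟨0, 0, 0, 0, 0, 0, 0, 0, 0, ⟨0, 0⟩, 0⟩, 100000, 0⟩ 0 0) (.pos 91 .pp ⟨⟨0, 0, 0, 0, 0, 0, 206180897, 0, 0, ⟨0, 0⟩, 0⟩, 14633370, 0⟩ 0 0))) (.void 90 ⟨⟨0, 0, 0, 0, 0, 0, 52014, 0, 0, ⟨0,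 0⟩, 0⟩, 0, 47986⟩ 0 0)) (.void 90 ⟨⟨0, 0, 0, 0, 0, 0, 0, 0, 0, ⟨0, 0⟩, 0⟩, 4166, 95834⟩ 0 0)))),
    by decide +kernel⟩

def covers12 : cell.Covers Vale.Agent.P237.Petty.Cor.Grid.N15.table row12.1 :=
  ⟨(.cut .d 0 (.cut .v 16777216 (.cut .d (-8388608) (.void 1 ⟨⟨0, 0, 0, 0, 0, 100000, 0, 0, 0, ⟨0, 0⟩, 0⟩, 0, 0⟩ 0 0) (.cut .d (-4194304) (.void 1 ⟨⟨0, 0, 0, 0, 0, 100000, 0, 0, 0, ⟨0, 0⟩, 0⟩, 0, 0⟩ 0 0) (.cut .d (-2097152) (.void 1 ⟨⟨0, 0, 0, 0, 0, 100000, 0, 0, 0, ⟨0, 0⟩, 0⟩, 0, 0⟩ 0 0) (.cut .d (-1048576) (.void 1 ⟨⟨0, 0, 0, 0, 0, 100000, 0, 0, 0, ⟨0, 0⟩, 0⟩, 0, 0⟩ 0 0) (.cut .d (-524288) (.void 1 ⟨⟨0, 0, 0, 0, 0, 100000, 0, 0, 0,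 ⟨0, 0⟩, 0⟩, 0, 0⟩ 0 0) (.cut .d (-262144) (.void 1 ⟨⟨0, 0, 0, 0, 0, 100000, 0, 0, 0, ⟨0, 0⟩, 0⟩, 0, 0⟩ 0 0) (.cut .d (-131072) (.void 1 ⟨⟨0, 0, 0, 0, 0, 100000, 0, 0, 0, ⟨0, 0⟩, 0⟩, 0, 0⟩ 0 0) (.cut .d (-65536) (.void 1 ⟨⟨0, 0, 0, 0, 0, 100000, 0, 0, 0, ⟨0, 0⟩, 0⟩, 0, 0⟩ 0 0) (.cut .d (-32768) (.void 1 ⟨⟨0, 0, 0, 0, 0, 100000, 0, 0, 0, ⟨0, 0⟩, 0⟩, 0, 0⟩ 0 0) (.cut .v 8388608 (.cut .v 4194304 (.void 4 ⟨⟨0, 0, 100000, 0, 0, 0, 0, 0, 0, ⟨0, 0⟩, 0⟩, 0, 0⟩ 0 0) (.pos 5 .mm ⟨⟨0, 0, 511648, 0, 0, 35048785, 0, 0, 0, ⟨0, 0⟩, 0⟩, 0, 0⟩ 0 0)) (.cut .v 12582912 (.pos 10 .mm ⟨⟨0, 0, 0, 0, 0, 55664120, 0, 0, 0, ⟨0, 0⟩, 0⟩, 0, 0⟩ 0 0) (.cut .v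 14680064 (.pos 14 .mm ⟨⟨0, 0, 0, 0, 0, 67755298, 0, 0, 0, ⟨0, 0⟩, 0⟩, 0, 0⟩ 0 0) (.cut .v 15728640 (.pos 22 .mm ⟨⟨0, 0, 0, 0, 0, 74310720, 0, 0, 0, ⟨0, 0⟩, 0⟩, 0, 0⟩ 0 0) (.cut .v 16252928 (.pos 41 .mm ⟨⟨0, 0, 0, 0, 0, 77715890, 0, 0, 0, ⟨0, 0⟩, 0⟩, 0, 0⟩ 0 0) (.cut .v 16515072 (.pos 47 .mm ⟨⟨0, 0, 0, 0, 0, 93924093, 0, 0, 0, ⟨0, 0⟩, 0⟩, 0, 0⟩ 0 0) (.cut .v 16646144 (.pos 51 .mm ⟨⟨0, 0, 0, 0, 0, 100786090, 0, 0, 0, ⟨0, 0⟩, 0⟩, 0, 0⟩ 0 0) (.cut .v 16711680 (.pos 53 .mm ⟨⟨0, 0, 0, 0, 0, 104133262, 0, 0, 0, ⟨0, 0⟩, 0⟩, 0, 0⟩ 0 0) (.cut .s 9830400 (.cut .s 9699328 (.pos 54 .mm ⟨⟨0, 0, 0, 0, 0, 93378098, 0, 0, 0, ⟨0, 0⟩, 0⟩, 0, 0⟩ 0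 0) (.pos 54 .mm ⟨⟨0, 0, 0, 0, 0, 101929329, 0, 0, 0, ⟨0, 0⟩, 0⟩, 0, 0⟩ 0 0)) (.cut .s 9961472 (.pos 54 .mm ⟨⟨0, 0, 0, 0, 0, 111483879, 0, 0, 0, ⟨0, 0⟩, 0⟩, 0, 0⟩ 0 0) (.pos 54 .mm ⟨⟨0, 0, 0, 0, 0, 122067237, 0, 0, 0, ⟨0, 0⟩, 0⟩, 0, 0⟩ 0 0)))))))))))))))))))) (.cut .v 33554432 (.cut .v 25165824 (.cut .d (-8388608) (.void 25 ⟨⟨0, 0, 0, 0, 0, 100000, 0, 0, 0, ⟨0, 0⟩, 0⟩, 0, 0⟩ 0 0) (.cut .v 20971520 (.cut .d (-4194304) (.void 27 ⟨⟨0, 0, 0, 0, 0, 100000, 0, 0, 0, ⟨0, 0⟩, 0⟩, 0, 0⟩ 0 0) (.cut .v 18874368 (.cut .d (-2097152) (.void 29 ⟨⟨100000, 0, 0, 0, 0, 0, 0, 0, 0, ⟨0, 0⟩, 0⟩, 0, 0⟩ 0 0) (.cut .v 17825792 (.cut .d (-1048576) (.void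 31 ⟨⟨100000, 0, 0, 0, 0, 0, 0, 0, 0, ⟨0, 0⟩, 0⟩, 0, 0⟩ 0 0) (.cut .v 17301504 (.cut .d (-524288) (.void 33 ⟨⟨100000, 0, 0, 0, 0, 0, 0, 0, 0, ⟨0, 0⟩, 0⟩, 0, 0⟩ 0 0) (.cut .d (-262144) (.void 33 ⟨⟨100000, 0, 0, 0, 0, 0, 0, 0, 0, ⟨0, 0⟩, 0⟩, 0, 0⟩ 0 0) (.cut .d (-131072) (.void 33 ⟨⟨100000, 0, 0, 0, 0, 0, 0, 0, 0, ⟨0, 0⟩, 0⟩, 0, 0⟩ 0 0) (.cut .d (-65536) (.void 33 ⟨⟨0, 0, 0, 0, 0, 100000, 0, 0, 0, ⟨0, 0⟩, 0⟩, 0, 0⟩ 0 0) (.cut .d (-32768) (.void 33 ⟨⟨0, 0, 0, 0, 0, 100000, 0, 0, 0, ⟨0, 0⟩, 0⟩, 0, 0⟩ 0 0) (.cut .v 17039360 (.cut .v 16908288 (.cut .s 9830400 (.cut .s 9699328 (.cut .v 16842752 (.cut .s 9633792 (.cut .s 9601024 (.cut .s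 9584640 (.cut .s 9576448 (.pos 39 .mp ⟨⟨49831006, 0, 0, 0, 0, 24952169, 0, 0, 0, ⟨0, 0⟩, 0⟩, 0, 0⟩ 0 0) (.pos 39 .mp ⟨⟨50112836, 0, 0, 0, 0, 25030403, 0, 0, 0, ⟨0, 0⟩, 0⟩, 0, 0⟩ 0 0)) (.cut .s 9592832 (.pos 39 .mp ⟨⟨50396197, 0, 0, 0, 0, 25109919, 0, 0, 0, ⟨0, 0⟩, 0⟩, 0, 0⟩ 0 0) (.pos 39 .mp ⟨⟨50681094, 0, 0, 0, 0, 25190710, 0, 0, 0, ⟨0, 0⟩, 0⟩, 0, 0⟩ 0 0))) (.cut .s 9617408 (.cut .s 9609216 (.pos 39 .mp ⟨⟨50967531, 0, 0, 0, 0, 25272768, 0, 0, 0, ⟨0, 0⟩, 0⟩, 0, 0⟩ 0 0) (.pos 39 .mp ⟨⟨51255513, 0, 0, 0, 0, 25356087, 0, 0, 0, ⟨0, 0⟩, 0⟩, 0, 0⟩ 0 0)) (.cut .s 9625600 (.pos 39 .mp ⟨⟨51545044, 0, 0, 0, 0, 25440659, 0, 0, 0, ⟨0, 0⟩, 0⟩,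 0, 0⟩ 0 0) (.cut .s 9629696 (.pos 39 .mp ⟨⟨51690392, 0, 0, 0, 0, 25596641, 0, 0, 0, ⟨0, 0⟩, 0⟩, 0, 0⟩ 0 0) (.pos 39 .mp ⟨⟨51836128, 0, 0, 0, 0, 25640104, 0, 0, 0, ⟨0, 0⟩, 0⟩, 0, 0⟩ 0 0))))) (.cut .s 9666560 (.cut .d (-16384) (.cut .s 9650176 (.pos 39 .mp ⟨⟨50990335, 0, 0, 0, 0, 27996008, 0, 0, 0, ⟨0, 0⟩, 0⟩, 0, 0⟩ 0 0) (.pos 39 .mp ⟨⟨51470809, 0, 0, 0, 0, 28345467, 0, 0, 0, ⟨0, 0⟩, 0⟩, 0, 0⟩ 0 0)) (.cut .v 16809984 (.cut .l 123033 (.cut .s 9650176 (.cut .s 9641984 (.pos 49 .mp ⟨⟨51505732, 0, 0, 0, 0, 26335325, 0, 0, 0, ⟨0, 0⟩, 0⟩, 0, 0⟩ 0 0) (.pos 49 .mp ⟨⟨51730581, 0, 0, 0, 0, 26512624, 0, 0, 0, ⟨0, 0⟩, 0⟩, 0, 0⟩ 0 0)) (.cut .s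 9658368 (.pos 49 .mp ⟨⟨51958081, 0, 0, 0, 0, 26689860, 0, 0, 0, ⟨0, 0⟩, 0⟩, 0, 0⟩ 0 0) (.pos 49 .mp ⟨⟨52188287, 0, 0, 0, 0, 26866961, 0, 0, 0, ⟨0, 0⟩, 0⟩, 0, 0⟩ 0 0))) (.pos 49 .mp ⟨⟨51500637, 0, 0, 0, 0, 25822353, 0, 0, 0, ⟨0, 0⟩, 0⟩, 0, 0⟩ 0 0)) (.pos 50 .mp ⟨⟨71022313, 0, 0, 0, 0, 0, 0, 0, 0, ⟨0, 0⟩, 0⟩, 0, 0⟩ 0 0))) (.cut .d (-16384) (.cut .s 9682944 (.pos 39 .mp ⟨⟨51139617, 0, 0, 0, 0, 30185739, 0, 0, 0, ⟨0, 0⟩, 0⟩, 0, 0⟩ 0 0) (.pos 39 .mp ⟨⟨51716664, 0, 0, 0, 0, 30397640, 0, 0, 0, ⟨0, 0⟩, 0⟩, 0, 0⟩ 0 0)) (.cut .v 16809984 (.cut .l 123033 (.cut .s 9682944 (.cut .s 9674752 (.pos 49 .mp ⟨⟨52421251, 0, 0, 0, 0, 27043853, 0, 0,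 0, ⟨0, 0⟩, 0⟩, 0, 0⟩ 0 0) (.pos 49 .mp ⟨⟨52665275, 0, 0, 0, 0, 27209869, 0, 0, 0, ⟨0, 0⟩, 0⟩, 0, 0⟩ 0 0)) (.cut .s 9691136 (.pos 49 .mp ⟨⟨52960661, 0, 0, 0, 0, 27313197, 0, 0, 0, ⟨0, 0⟩, 0⟩, 0, 0⟩ 0 0) (.pos 49 .mp ⟨⟨53257586, 0, 0, 0, 0, 27417781, 0, 0, 0, ⟨0, 0⟩, 0⟩, 0, 0⟩ 0 0))) (.pos 49 .mp ⟨⟨52667730, 0, 0, 0, 0, 26261010, 0, 0, 0, ⟨0, 0⟩, 0⟩, 0, 0⟩ 0 0)) (.pos 50 .mp ⟨⟨72394592, 0, 0, 0, 0, 0, 0, 0, 0, ⟨0, 0⟩, 0⟩, 0, 0⟩ 0 0))))) (.pos 40 .mp ⟨⟨73092900, 0, 0, 0, 0, 0, 0, 0, 0, ⟨0, 0⟩, 0⟩, 0, 0⟩ 0 0)) (.cut .v 16842752 (.cut .s 9764864 (.cut .s 9732096 (.cut .d (-16384) (.cut .s 9715712 (.pos 39 .mp ⟨⟨52299702, 0, 0, 0, 0,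 30616432, 0, 0, 0, ⟨0, 0⟩, 0⟩, 0, 0⟩ 0 0) (.pos 39 .mp ⟨⟨52888765, 0, 0, 0, 0, 30842177, 0, 0, 0, ⟨0, 0⟩, 0⟩, 0, 0⟩ 0 0)) (.cut .v 16809984 (.cut .l 123033 (.cut .s 9715712 (.cut .s 9707520 (.pos 49 .mp ⟨⟨53556053, 0, 0, 0, 0, 27523612, 0, 0, 0, ⟨0, 0⟩, 0⟩, 0, 0⟩ 0 0) (.pos 49 .mp ⟨⟨53856068, 0, 0, 0, 0, 27630684, 0, 0, 0, ⟨0, 0⟩, 0⟩, 0, 0⟩ 0 0)) (.cut .s 9723904 (.pos 49 .mp ⟨⟨54157635, 0, 0, 0, 0, 27738989, 0, 0, 0, ⟨0, 0⟩, 0⟩, 0, 0⟩ 0 0) (.pos 49 .mp ⟨⟨54460758, 0, 0, 0, 0, 27848517, 0, 0, 0, ⟨0, 0⟩, 0⟩, 0, 0⟩ 0 0))) (.pos 49 .mp ⟨⟨53859177, 0, 0, 0, 0, 26714006, 0, 0, 0, ⟨0, 0⟩, 0⟩, 0, 0⟩ 0 0)) (.pos 50 .mp ⟨⟨73808409, 0, 0,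 0, 0, 0, 0, 0, 0, ⟨0, 0⟩, 0⟩, 0, 0⟩ 0 0))) (.cut .d (-16384) (.cut .d (-24576) (.pos 39 .mp ⟨⟨53865144, 0, 0, 0, 0, 31893788, 0, 0, 0, ⟨0, 0⟩, 0⟩, 0, 0⟩ 0 0) (.cut .l 123033 (.void 39 ⟨⟨0, 0, 0, 0, 0, 100000, 0, 0, 0, ⟨0, 0⟩, 0⟩, 0, 0⟩ 0 0) (.cut .s 9748480 (.pos 39 .mp ⟨⟨53614967, 0, 0, 0, 0, 30486421, 0, 0, 0, ⟨0, 0⟩, 0⟩, 0, 0⟩ 0 0) (.pos 39 .mp ⟨⟨54176665, 0, 0, 0, 0, 30808178, 0, 0, 0, ⟨0, 0⟩, 0⟩, 0, 0⟩ 0 0)))) (.cut .v 16809984 (.cut .l 123033 (.cut .s 9748480 (.cut .s 9740288 (.pos 49 .mp ⟨⟨54765443, 0, 0, 0, 0, 27959263, 0, 0, 0, ⟨0, 0⟩, 0⟩, 0, 0⟩ 0 0) (.pos 49 .mp ⟨⟨55071693, 0, 0, 0, 0, 28071216, 0, 0, 0, ⟨0, 0⟩, 0⟩, 0,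 0⟩ 0 0)) (.cut .d (-8192) (.pos 49 .mp ⟨⟨54077684, 0, 0, 0, 0, 31090044, 0, 0, 0, ⟨0, 0⟩, 0⟩, 0, 0⟩ 0 0) (.cut .s 9756672 (.pos 49 .mp ⟨⟨54954373, 0, 0, 0, 0, 28731902, 0, 0, 0, ⟨0, 0⟩, 0⟩, 0, 0⟩ 0 0) (.pos 49 .mp ⟨⟨55274892, 0, 0, 0, 0, 28824657, 0, 0, 0, ⟨0, 0⟩, 0⟩, 0, 0⟩ 0 0)))) (.pos 49 .mp ⟨⟨55075266, 0, 0, 0, 0, 27180199, 0, 0, 0, ⟨0, 0⟩, 0⟩, 0, 0⟩ 0 0)) (.pos 50 .mp ⟨⟨75264234, 0, 0, 0, 0, 0, 0, 0, 0, ⟨0, 0⟩, 0⟩, 0, 0⟩ 0 0)))) (.cut .s 9797632 (.cut .d (-16384) (.cut .d (-24576) (.pos 39 .mp ⟨⟨55085604, 0, 0, 0, 0, 32405407, 0, 0, 0, ⟨0, 0⟩, 0⟩, 0, 0⟩ 0 0) (.cut .l 123033 (.void 39 ⟨⟨0, 0, 0, 0, 0, 100000, 0, 0, 0, ⟨0, 0⟩,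 0⟩, 0, 0⟩ 0 0) (.cut .s 9781248 (.pos 39 .mp ⟨⟨54748183, 0, 0, 0, 0, 31129066, 0, 0, 0, ⟨0, 0⟩, 0⟩, 0, 0⟩ 0 0) (.pos 39 .mp ⟨⟨55329743, 0, 0, 0, 0, 31448702, 0, 0, 0, ⟨0, 0⟩, 0⟩, 0, 0⟩ 0 0)))) (.cut .v 16809984 (.cut .l 123033 (.cut .s 9781248 (.cut .d (-8192) (.pos 49 .mp ⟨⟨54682847, 0, 0, 0, 0, 31337508, 0, 0, 0, ⟨0, 0⟩, 0⟩, 0, 0⟩ 0 0) (.cut .s 9773056 (.pos 49 .mp ⟨⟨55596310, 0, 0, 0, 0, 28919814, 0, 0, 0, ⟨0, 0⟩, 0⟩, 0, 0⟩ 0 0) (.pos 49 .mp ⟨⟨55913536, 0, 0, 0, 0, 29025434, 0, 0, 0, ⟨0, 0⟩, 0⟩, 0, 0⟩ 0 0))) (.cut .d (-8192) (.pos 49 .mp ⟨⟨55294150, 0, 0, 0, 0, 31592180, 0, 0, 0, ⟨0, 0⟩, 0⟩, 0, 0⟩ 0 0) (.cut .s 9789440 (.pos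 49 .mp ⟨⟨56224610, 0, 0, 0, 0, 29144638, 0, 0, 0, ⟨0, 0⟩, 0⟩, 0, 0⟩ 0 0) (.pos 49 .mp ⟨⟨56537254, 0, 0, 0, 0, 29265214, 0, 0, 0, ⟨0, 0⟩, 0⟩, 0, 0⟩ 0 0)))) (.pos 49 .mp ⟨⟨56316297, 0, 0, 0, 0, 27658444, 0, 0, 0, ⟨0, 0⟩, 0⟩, 0, 0⟩ 0 0)) (.pos 50 .mp ⟨⟨76762544, 0, 0, 0, 0, 0, 0, 0, 0, ⟨0, 0⟩, 0⟩, 0, 0⟩ 0 0))) (.cut .d (-16384) (.cut .d (-24576) (.pos 39 .mp ⟨⟨56331134, 0, 0, 0, 0, 32945463, 0, 0, 0, ⟨0, 0⟩, 0⟩, 0, 0⟩ 0 0) (.cut .l 123033 (.void 39 ⟨⟨0, 0, 0, 0, 0, 100000, 0, 0, 0, ⟨0, 0⟩, 0⟩, 0, 0⟩ 0 0) (.cut .s 9814016 (.pos 39 .mp ⟨⟨55925734, 0, 0, 0, 0, 31759108, 0, 0, 0, ⟨0, 0⟩, 0⟩, 0, 0⟩ 0 0) (.pos 39 .mp ⟨⟨56551718, 0, 0, 0,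 0, 32031890, 0, 0, 0, ⟨0, 0⟩, 0⟩, 0, 0⟩ 0 0)))) (.cut .v 16809984 (.cut .l 123033 (.cut .s 9814016 (.cut .d (-8192) (.pos 49 .mp ⟨⟨55911630, 0, 0, 0, 0, 31854121, 0, 0, 0, ⟨0, 0⟩, 0⟩, 0, 0⟩ 0 0) (.cut .s 9805824 (.pos 49 .mp ⟨⟨56851473, 0, 0, 0, 0, 29387158, 0, 0, 0, ⟨0, 0⟩, 0⟩, 0, 0⟩ 0 0) (.pos 49 .mp ⟨⟨57167272, 0, 0, 0, 0, 29510466, 0, 0, 0, ⟨0, 0⟩, 0⟩, 0, 0⟩ 0 0))) (.cut .d (-8192) (.pos 49 .mp ⟨⟨56535323, 0, 0, 0, 0, 32123395, 0, 0, 0, ⟨0, 0⟩, 0⟩, 0, 0⟩ 0 0) (.cut .s 9822208 (.pos 49 .mp ⟨⟨57484655, 0, 0, 0, 0, 29635135, 0, 0, 0, ⟨0, 0⟩, 0⟩, 0, 0⟩ 0 0) (.pos 49 .mp ⟨⟨57803628, 0, 0, 0, 0, 29761161, 0, 0, 0, ⟨0, 0⟩, 0⟩, 0, 0⟩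 0 0)))) (.pos 49 .mp ⟨⟨57582570, 0, 0, 0, 0, 28147593, 0, 0, 0, ⟨0, 0⟩, 0⟩, 0, 0⟩ 0 0)) (.pos 50 .mp ⟨⟨78303830, 0, 0, 0, 0, 0, 0, 0, 0, ⟨0, 0⟩, 0⟩, 0, 0⟩ 0 0))))) (.pos 40 .mp ⟨⟨79060440, 0, 0, 0, 0, 0, 0, 0, 0, ⟨0, 0⟩, 0⟩, 0, 0⟩ 0 0))) (.cut .s 9961472 (.cut .v 16842752 (.cut .s 9895936 (.cut .s 9863168 (.cut .d (-16384) (.cut .d (-24576) (.pos 39 .mp ⟨⟨57602036, 0, 0, 0, 0, 33514439, 0, 0, 0, ⟨0, 0⟩, 0⟩, 0, 0⟩ 0 0) (.cut .l 123033 (.void 39 ⟨⟨0, 0, 0, 0, 0, 100000, 0, 0, 0, ⟨0, 0⟩, 0⟩, 0, 0⟩ 0 0) (.cut .s 9846784 (.pos 39 .mp ⟨⟨57183985, 0, 0, 0, 0, 32310289, 0, 0, 0, ⟨0, 0⟩, 0⟩, 0, 0⟩ 0 0) (.pos 39 .mp ⟨⟨57822576, 0, 0, 0, 0,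 32594273, 0, 0, 0, ⟨0, 0⟩, 0⟩, 0, 0⟩ 0 0)))) (.cut .v 16809984 (.cut .l 123033 (.cut .s 9846784 (.cut .d (-8192) (.pos 49 .mp ⟨⟨57165268, 0, 0, 0, 0, 32400064, 0, 0, 0, ⟨0, 0⟩, 0⟩, 0, 0⟩ 0 0) (.cut .s 9838592 (.pos 49 .mp ⟨⟨58124195, 0, 0, 0, 0, 29888540, 0, 0, 0, ⟨0, 0⟩, 0⟩, 0, 0⟩ 0 0) (.pos 49 .mp ⟨⟨58446361, 0, 0, 0, 0, 30017267, 0, 0, 0, ⟨0, 0⟩, 0⟩, 0, 0⟩ 0 0))) (.cut .d (-8192) (.pos 49 .mp ⟨⟨57801504, 0, 0, 0, 0, 32684190, 0, 0, 0, ⟨0, 0⟩, 0⟩, 0, 0⟩ 0 0) (.cut .s 9854976 (.pos 49 .mp ⟨⟨58770132, 0, 0, 0, 0, 30147339, 0, 0, 0, ⟨0, 0⟩, 0⟩, 0, 0⟩ 0 0) (.pos 49 .mp ⟨⟨59095511, 0, 0, 0, 0, 30278752, 0, 0, 0, ⟨0, 0⟩, 0⟩, 0, 0⟩ 0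 0)))) (.pos 49 .mp ⟨⟨58874395, 0, 0, 0, 0, 28646491, 0, 0, 0, ⟨0, 0⟩, 0⟩, 0, 0⟩ 0 0)) (.pos 50 .mp ⟨⟨79888589, 0, 0, 0, 0, 0, 0, 0, 0, ⟨0, 0⟩, 0⟩, 0, 0⟩ 0 0))) (.cut .d (-16384) (.cut .d (-24576) (.pos 39 .mp ⟨⟨58898622, 0, 0, 0, 0, 34112828, 0, 0, 0, ⟨0, 0⟩, 0⟩, 0, 0⟩ 0 0) (.cut .l 123033 (.void 39 ⟨⟨0, 0, 0, 0, 0, 100000, 0, 0, 0, ⟨0, 0⟩, 0⟩, 0, 0⟩ 0 0) (.cut .s 9879552 (.pos 39 .mp ⟨⟨58467528, 0, 0, 0, 0, 32883812, 0, 0, 0, ⟨0, 0⟩, 0⟩, 0, 0⟩ 0 0) (.pos 39 .mp ⟨⟨59118880, 0, 0, 0, 0, 33178872, 0, 0, 0, ⟨0, 0⟩, 0⟩, 0, 0⟩ 0 0)))) (.cut .v 16809984 (.cut .l 123033 (.cut .s 9879552 (.cut .d (-8192) (.pos 49 .mp ⟨⟨58444068, 0, 0, 0,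 0, 32975839, 0, 0, 0, ⟨0, 0⟩, 0⟩, 0, 0⟩ 0 0) (.cut .v 16793600 (.cut .s 9871360 (.pos 55 .mp ⟨⟨59299913, 0, 0, 0, 0, 30577053, 0, 0, 0, ⟨0, 0⟩, 0⟩, 0, 0⟩ 0 0) (.pos 55 .mp ⟨⟨59627916, 0, 0, 0, 0, 30712055, 0, 0, 0, ⟨0, 0⟩, 0⟩, 0, 0⟩ 0 0)) (.pos 56 .mp ⟨⟨80905254, 0, 0, 0, 0, 0, 0, 0, 0, ⟨0, 0⟩, 0⟩, 0, 0⟩ 0 0))) (.cut .d (-8192) (.pos 49 .mp ⟨⟨59092999, 0, 0, 0, 0, 33275075, 0, 0, 0, ⟨0, 0⟩, 0⟩, 0, 0⟩ 0 0) (.cut .v 16793600 (.cut .s 9887744 (.pos 55 .mp ⟨⟨59957541, 0, 0, 0, 0, 30848390, 0, 0, 0, ⟨0, 0⟩, 0⟩, 0, 0⟩ 0 0) (.pos 55 .mp ⟨⟨60288791, 0, 0, 0, 0, 30986054, 0, 0, 0, ⟨0, 0⟩, 0⟩, 0, 0⟩ 0 0)) (.pos 56 .mp ⟨⟨81728514, 0, 0, 0,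 0, 0, 0, 0, 0, ⟨0, 0⟩, 0⟩, 0, 0⟩ 0 0)))) (.pos 49 .mp ⟨⟨60192087, 0, 0, 0, 0, 29153977, 0, 0, 0, ⟨0, 0⟩, 0⟩, 0, 0⟩ 0 0)) (.pos 50 .mp ⟨⟨81517328, 0, 0, 0, 0, 0, 0, 0, 0, ⟨0, 0⟩, 0⟩, 0, 0⟩ 0 0)))) (.cut .s 9928704 (.cut .d (-16384) (.cut .d (-24576) (.pos 39 .mp ⟨⟨60221208, 0, 0, 0, 0, 34741133, 0, 0, 0, ⟨0, 0⟩, 0⟩, 0, 0⟩ 0 0) (.cut .l 123033 (.void 39 ⟨⟨0, 0, 0, 0, 0, 100000, 0, 0, 0, ⟨0, 0⟩, 0⟩, 0, 0⟩ 0 0) (.cut .s 9912320 (.pos 39 .mp ⟨⟨59776673, 0, 0, 0, 0, 33479422, 0, 0, 0, ⟨0, 0⟩, 0⟩, 0, 0⟩ 0 0) (.pos 39 .mp ⟨⟨60440947, 0, 0, 0, 0, 33785427, 0, 0, 0, ⟨0, 0⟩, 0⟩, 0, 0⟩ 0 0)))) (.cut .v 16809984 (.cut .l 123033 (.cut .s 9912320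 (.cut .d (-8192) (.pos 49 .mp ⟨⟨59748338, 0, 0, 0, 0, 33581963, 0, 0, 0, ⟨0, 0⟩, 0⟩, 0, 0⟩ 0 0) (.cut .v 16793600 (.cut .s 9904128 (.pos 55 .mp ⟨⟨60621673, 0, 0, 0, 0, 31125041, 0, 0, 0, ⟨0, 0⟩, 0⟩, 0, 0⟩ 0 0) (.pos 55 .mp ⟨⟨60956191, 0, 0, 0, 0, 31265349, 0, 0, 0, ⟨0, 0⟩, 0⟩, 0, 0⟩ 0 0)) (.pos 56 .mp ⟨⟨82562947, 0, 0, 0, 0, 0, 0, 0, 0, ⟨0, 0⟩, 0⟩, 0, 0⟩ 0 0))) (.cut .d (-8192) (.pos 49 .mp ⟨⟨60410123, 0, 0, 0, 0, 33896568, 0, 0, 0, ⟨0, 0⟩, 0⟩, 0, 0⟩ 0 0) (.cut .s 9920512 (.cut .s 9916416 (.pos 49 .mp ⟨⟨61301217, 0, 0, 0, 0, 31316924, 0, 0, 0, ⟨0, 0⟩, 0⟩, 0, 0⟩ 0 0) (.pos 49 .mp ⟨⟨61472692, 0, 0, 0, 0, 31384435, 0, 0, 0, ⟨0, 0⟩,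 0⟩, 0, 0⟩ 0 0)) (.pos 49 .mp ⟨⟨61757068, 0, 0, 0, 0, 31377812, 0, 0, 0, ⟨0, 0⟩, 0⟩, 0, 0⟩ 0 0)))) (.pos 49 .mp ⟨⟨61535966, 0, 0, 0, 0, 29668886, 0, 0, 0, ⟨0, 0⟩, 0⟩, 0, 0⟩ 0 0)) (.pos 50 .mp ⟨⟨83190568, 0, 0, 0, 0, 0, 0, 0, 0, ⟨0, 0⟩, 0⟩, 0, 0⟩ 0 0))) (.cut .d (-16384) (.cut .d (-24576) (.pos 39 .mp ⟨⟨61570116, 0, 0, 0, 0, 35399864, 0, 0, 0, ⟨0, 0⟩, 0⟩, 0, 0⟩ 0 0) (.cut .l 123033 (.void 39 ⟨⟨0, 0, 0, 0, 0, 100000, 0, 0, 0, ⟨0, 0⟩, 0⟩, 0, 0⟩ 0 0) (.cut .s 9945088 (.pos 39 .mp ⟨⟨61111740, 0, 0, 0, 0, 34096853, 0, 0, 0, ⟨0, 0⟩, 0⟩, 0, 0⟩ 0 0) (.pos 39 .mp ⟨⟨61789095, 0, 0, 0, 0, 34413665, 0, 0, 0, ⟨0, 0⟩, 0⟩, 0, 0⟩ 0 0)))) (.cut .v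 16809984 (.cut .l 123033 (.cut .s 9945088 (.cut .d (-8192) (.pos 49 .mp ⟨⟨61078395, 0, 0, 0, 0, 34218958, 0, 0, 0, ⟨0, 0⟩, 0⟩, 0, 0⟩ 0 0) (.cut .s 9936896 (.pos 49 .mp ⟨⟨62097154, 0, 0, 0, 0, 31521099, 0, 0, 0, ⟨0, 0⟩, 0⟩, 0, 0⟩ 0 0) (.pos 49 .mp ⟨⟨62438900, 0, 0, 0, 0, 31665683, 0, 0, 0, ⟨0, 0⟩, 0⟩, 0, 0⟩ 0 0))) (.cut .d (-8192) (.pos 49 .mp ⟨⟨61753194, 0, 0, 0, 0, 34549198, 0, 0, 0, ⟨0, 0⟩, 0⟩, 0, 0⟩ 0 0) (.cut .s 9953280 (.pos 49 .mp ⟨⟨62782310, 0, 0, 0, 0, 31811560, 0, 0, 0, ⟨0, 0⟩, 0⟩, 0, 0⟩ 0 0) (.pos 49 .mp ⟨⟨63127390, 0, 0, 0, 0, 31958724, 0, 0, 0, ⟨0, 0⟩, 0⟩, 0, 0⟩ 0 0)))) (.pos 49 .mp ⟨⟨62906362, 0, 0, 0, 0, 30190046,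 0, 0, 0, ⟨0, 0⟩, 0⟩, 0, 0⟩ 0 0)) (.pos 50 .mp ⟨⟨84908836, 0, 0, 0, 0, 0, 0, 0, 0, ⟨0, 0⟩, 0⟩, 0, 0⟩ 0 0))))) (.pos 40 .mp ⟨⟨85645953, 0, 0, 0, 0, 0, 0, 0, 0, ⟨0, 0⟩, 0⟩, 0, 0⟩ 0 0)) (.cut .v 16842752 (.cut .s 10027008 (.cut .s 9994240 (.cut .d (-16384) (.cut .d (-24576) (.pos 39 .mp ⟨⟨62945676, 0, 0, 0, 0, 36089541, 0, 0, 0, ⟨0, 0⟩, 0⟩, 0, 0⟩ 0 0) (.cut .l 123033 (.void 39 ⟨⟨0, 0, 0, 0, 0, 100000, 0, 0, 0, ⟨0, 0⟩, 0⟩, 0, 0⟩ 0 0) (.cut .s 9977856 (.pos 39 .mp ⟨⟨62473053, 0, 0, 0, 0, 34735827, 0, 0, 0, ⟨0, 0⟩, 0⟩, 0, 0⟩ 0 0) (.pos 39 .mp ⟨⟨63173189, 0, 0, 0, 0, 35045773, 0, 0, 0, ⟨0, 0⟩, 0⟩, 0, 0⟩ 0 0)))) (.cut .v 16809984 (.cut .l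 123033 (.cut .s 9977856 (.cut .d (-8192) (.pos 49 .mp ⟨⟨62434562, 0, 0, 0, 0, 34887356, 0, 0, 0, ⟨0, 0⟩, 0⟩, 0, 0⟩ 0 0) (.cut .s 9969664 (.pos 49 .mp ⟨⟨63474146, 0, 0, 0, 0, 32107172, 0, 0, 0, ⟨0, 0⟩, 0⟩, 0, 0⟩ 0 0) (.pos 49 .mp ⟨⟨63822582, 0, 0, 0, 0, 32256898, 0, 0, 0, ⟨0, 0⟩, 0⟩, 0, 0⟩ 0 0))) (.cut .d (-8192) (.pos 49 .mp ⟨⟨63122539, 0, 0, 0, 0, 35233501, 0, 0, 0, ⟨0, 0⟩, 0⟩, 0, 0⟩ 0 0) (.cut .s 9986048 (.pos 49 .mp ⟨⟨64172704, 0, 0, 0, 0, 32407898, 0, 0, 0, ⟨0, 0⟩, 0⟩, 0, 0⟩ 0 0) (.pos 49 .mp ⟨⟨64524517, 0, 0, 0, 0, 32560167, 0, 0, 0, ⟨0, 0⟩, 0⟩, 0, 0⟩ 0 0)))) (.pos 49 .mp ⟨⟨64303606, 0, 0, 0, 0, 30716277, 0, 0, 0, ⟨0, 0⟩, 0⟩,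 0, 0⟩ 0 0)) (.pos 50 .mp ⟨⟨86672672, 0, 0, 0, 0, 0, 0, 0, 0, ⟨0, 0⟩, 0⟩, 0, 0⟩ 0 0))) (.cut .d (-16384) (.cut .s 10010624 (.cut .s 10002432 (.pos 39 .mp ⟨⟨63860942, 0, 0, 0, 0, 35305303, 0, 0, 0, ⟨0, 0⟩, 0⟩, 0, 0⟩ 0 0) (.pos 39 .mp ⟨⟨64212106, 0, 0, 0, 0, 35481836, 0, 0, 0, ⟨0, 0⟩, 0⟩, 0, 0⟩ 0 0)) (.pos 39 .mp ⟨⟨64564958, 0, 0, 0, 0, 36164705, 0, 0, 0, ⟨0, 0⟩, 0⟩, 0, 0⟩ 0 0)) (.cut .v 16809984 (.cut .l 123033 (.cut .s 10010624 (.cut .d (-8192) (.pos 49 .mp ⟨⟨63817168, 0, 0, 0, 0, 35587701, 0, 0, 0, ⟨0, 0⟩, 0⟩, 0, 0⟩ 0 0) (.cut .s 10002432 (.pos 49 .mp ⟨⟨64878027, 0, 0, 0, 0, 32713699, 0, 0, 0, ⟨0, 0⟩, 0⟩, 0, 0⟩ 0 0) (.pos 49 .mp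 ⟨⟨65231524, 0, 0, 0, 0, 32871239, 0, 0, 0, ⟨0, 0⟩, 0⟩, 0, 0⟩ 0 0))) (.cut .d (-8192) (.pos 49 .mp ⟨⟨64518491, 0, 0, 0, 0, 35950025, 0, 0, 0, ⟨0, 0⟩, 0⟩, 0, 0⟩ 0 0) (.cut .s 10018816 (.pos 49 .mp ⟨⟨65571783, 0, 0, 0, 0, 33054005, 0, 0, 0, ⟨0, 0⟩, 0⟩, 0, 0⟩ 0 0) (.pos 49 .mp ⟨⟨65912377, 0, 0, 0, 0, 33240256, 0, 0, 0, ⟨0, 0⟩, 0⟩, 0, 0⟩ 0 0)))) (.pos 49 .mp ⟨⟨65728041, 0, 0, 0, 0, 31246392, 0, 0, 0, ⟨0, 0⟩, 0⟩, 0, 0⟩ 0 0)) (.pos 50 .mp ⟨⟨88482626, 0, 0, 0, 0, 0, 0, 0, 0, ⟨0, 0⟩, 0⟩, 0, 0⟩ 0 0)))) (.cut .s 10059776 (.cut .d (-16384) (.cut .s 10043392 (.pos 39 .mp ⟨⟨65275745, 0, 0, 0, 0, 36534454, 0, 0, 0, ⟨0, 0⟩, 0⟩, 0, 0⟩ 0 0) (.pos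 39 .mp ⟨⟨65993347, 0, 0, 0, 0, 36912450, 0, 0, 0, ⟨0, 0⟩, 0⟩, 0, 0⟩ 0 0)) (.cut .v 16809984 (.cut .l 123033 (.cut .s 10043392 (.cut .s 10035200 (.cut .s 10031104 (.pos 49 .mp ⟨⟨66719960, 0, 0, 0, 0, 32649171, 0, 0, 0, ⟨0, 0⟩, 0⟩, 0, 0⟩ 0 0) (.pos 49 .mp ⟨⟨66927894, 0, 0, 0, 0, 32690281, 0, 0, 0, ⟨0, 0⟩, 0⟩, 0, 0⟩ 0 0)) (.pos 49 .mp ⟨⟨67180922, 0, 0, 0, 0, 32834431, 0, 0, 0, ⟨0, 0⟩, 0⟩, 0, 0⟩ 0 0)) (.cut .s 10051584 (.pos 49 .mp ⟨⟨67548610, 0, 0, 0, 0, 32984967, 0, 0, 0, ⟨0, 0⟩, 0⟩, 0, 0⟩ 0 0) (.pos 49 .mp ⟨⟨67918060, 0, 0, 0, 0, 33136365, 0, 0, 0, ⟨0, 0⟩, 0⟩, 0, 0⟩ 0 0))) (.pos 49 .mp ⟨⟨67180014, 0, 0, 0, 0, 31779198, 0, 0, 0, ⟨0,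 0⟩, 0⟩, 0, 0⟩ 0 0)) (.pos 50 .mp ⟨⟨90339260, 0, 0, 0, 0, 0, 0, 0, 0, ⟨0, 0⟩, 0⟩, 0, 0⟩ 0 0))) (.cut .d (-16384) (.cut .s 10076160 (.pos 39 .mp ⟨⟨66717807, 0, 0, 0, 0, 37298764, 0, 0, 0, ⟨0, 0⟩, 0⟩, 0, 0⟩ 0 0) (.pos 39 .mp ⟨⟨67449169, 0, 0, 0, 0, 37693468, 0, 0, 0, ⟨0, 0⟩, 0⟩, 0, 0⟩ 0 0)) (.cut .v 16809984 (.cut .l 123033 (.cut .s 10076160 (.cut .s 10067968 (.pos 49 .mp ⟨⟨68289277, 0, 0, 0, 0, 33288616, 0, 0, 0, ⟨0, 0⟩, 0⟩, 0, 0⟩ 0 0) (.pos 49 .mp ⟨⟨68662267, 0, 0, 0, 0, 33441708, 0, 0, 0, ⟨0, 0⟩, 0⟩, 0, 0⟩ 0 0)) (.cut .s 10084352 (.pos 49 .mp ⟨⟨69037035, 0, 0, 0, 0, 33595632, 0, 0, 0, ⟨0, 0⟩, 0⟩, 0, 0⟩ 0 0) (.pos 49 .mp ⟨⟨69413587,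 0, 0, 0, 0, 33750376, 0, 0, 0, ⟨0, 0⟩, 0⟩, 0, 0⟩ 0 0))) (.pos 49 .mp ⟨⟨68659880, 0, 0, 0, 0, 32313493, 0, 0, 0, ⟨0, 0⟩, 0⟩, 0, 0⟩ 0 0)) (.pos 50 .mp ⟨⟨92243146, 0, 0, 0, 0, 0, 0, 0, 0, ⟨0, 0⟩, 0⟩, 0, 0⟩ 0 0))))) (.pos 40 .mp ⟨⟨92833679, 0, 0, 0, 0, 0, 0, 0, 0, ⟨0, 0⟩, 0⟩, 0, 0⟩ 0 0)))) (.pos 38 .mp ⟨⟨89077156, 0, 0, 0, 0, 0, 0, 0, 0, ⟨0, 0⟩, 0⟩, 0, 0⟩ 0 0)) (.void 36 ⟨⟨100000, 0, 0, 0, 0, 0, 0, 0, 0, ⟨0, 0⟩, 0⟩, 0, 0⟩ 0 0))))))) (.void 34 ⟨⟨100000, 0, 0, 0, 0, 0, 0, 0, 0, ⟨0, 0⟩, 0⟩, 0, 0⟩ 0 0))) (.void 32 ⟨⟨100000, 0, 0, 0, 0, 0, 0, 0, 0, ⟨0, 0⟩, 0⟩, 0, 0⟩ 0 0))) (.void 30 ⟨⟨100000, 0, 0, 0, 0, 0, 0, 0, 0, ⟨0, 0⟩, 0⟩, 0, 0⟩ 0 0)))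 (.void 28 ⟨⟨100000, 0, 0, 0, 0, 0, 0, 0, 0, ⟨0, 0⟩, 0⟩, 0, 0⟩ 0 0))) (.void 26 ⟨⟨100000, 0, 0, 0, 0, 0, 0, 0, 0, ⟨0, 0⟩, 0⟩, 0, 0⟩ 0 0)) (.void 91 ⟨⟨100000, 0, 0, 0, 0, 0, 0, 0, 0, ⟨0, 0⟩, 0⟩, 0, 0⟩ 0 0))) (.cut .v 16777216 (.cut .d 6320185 (.cut .v 8388608 (.cut .v 4194304 (.void 4 ⟨⟨0, 0, 66667, 0, 0, 0, 0, 0, 0, ⟨0, 0⟩, 0⟩, 0, 33333⟩ 0 0) (.pos 5 .pm ⟨⟨0, 0, 493605, 0, 0, 0, 0, 0, 0, ⟨0, 0⟩, 0⟩, 0, 0⟩ 0 0)) (.pos 3 .pm ⟨⟨0, 0, 0, 0, 0, 0, 0, 0, 0, ⟨0, 0⟩, 0⟩, 0, 0⟩ 0 0)) (.void 1 ⟨⟨0, 0, 0, 0, 0, 0, 0, 0, 0, ⟨0, 0⟩, 0⟩, 0, 100000⟩ 0 0)) (.cut .d 6320185 (.cut .d 3160092 (.cut .v 33554432 (.cut .v 25165824 (.cut .d 1580046 (.cut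 .v 20971520 (.cut .d 790023 (.cut .d 395011 (.cut .v 18874368 (.cut .d 197505 (.cut .v 17825792 (.cut .s 9830400 (.pos 31 .pp ⟨⟨54633584, 0, 0, 0, 0, 0, 0, 0, 0, ⟨0, 0⟩, 0⟩, 1501356, 0⟩ 0 0) (.pos 31 .pp ⟨⟨65947708, 0, 0, 0, 0, 0, 0, 0, 0, ⟨0, 0⟩, 0⟩, 1602634, 0⟩ 0 0)) (.pos 32 .pp ⟨⟨92844942, 0, 0, 0, 0, 0, 0, 0, 0, ⟨0, 0⟩, 0⟩, 0, 0⟩ 0 0)) (.pos 29 .pp ⟨⟨54760259, 0, 0, 0, 0, 0, 0, 0, 0, ⟨0, 0⟩, 0⟩, 0, 123175⟩ 0 0)) (.pos 30 .pp ⟨⟨110504025, 0, 0, 0, 0, 0, 0, 0, 0, ⟨0, 0⟩, 0⟩, 0, 0⟩ 0 0)) (.pos 27 .pp ⟨⟨62055903, 0, 0, 0, 0, 0, 0, 0, 0, ⟨0, 0⟩, 0⟩, 0, 230931⟩ 0 0)) (.pos 27 .pp ⟨⟨0, 0, 0, 0, 0, 0, 0, 0, 0, ⟨0, 0⟩, 0⟩, 0, 727133⟩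 0 0)) (.cut .d 790023 (.cut .d 395011 (.void 28 ⟨⟨0, 0, 0, 0, 0, 0, 0, 0, 0, ⟨0, 0⟩, 0⟩, 100000, 0⟩ 0 0) (.cut .d 592517 (.pos 28 .pp ⟨⟨100466850, 0, 0, 0, 0, 0, 0, 0, 0, ⟨0, 0⟩, 0⟩, 4303270, 0⟩ 0 0) (.pos 28 .pp ⟨⟨0, 0, 0, 0, 0, 0, 0, 0, 0, ⟨0, 0⟩, 0⟩, 10006836, 0⟩ 0 0))) (.pos 28 .pp ⟨⟨0, 0, 0, 0, 0, 0, 228080, 0, 0, ⟨0, 0⟩, 0⟩, 8283652, 0⟩ 0 0))) (.pos 25 .pp ⟨⟨0, 0, 0, 0, 0, 0, 0, 0, 0, ⟨0, 0⟩, 0⟩, 0, 785303⟩ 0 0)) (.cut .d 1580046 (.cut .d 790023 (.void 26 ⟨⟨0, 0, 0, 0, 0, 0, 0, 0, 0, ⟨0, 0⟩, 0⟩, 100000, 0⟩ 0 0) (.cut .v 29360128 (.pos 81 .pp ⟨⟨0, 0, 0, 0, 0, 0, 0, 0, 0, ⟨0, 0⟩, 0⟩, 12583314, 0⟩ 0 0) (.pos 82 .pp ⟨⟨0, 0, 0,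 0, 0, 0, 0, 0, 0, ⟨0, 0⟩, 0⟩, 37093459, 0⟩ 0 0))) (.pos 26 .pp ⟨⟨0, 0, 0, 0, 0, 0, 97572, 0, 0, ⟨0, 0⟩, 0⟩, 9282360, 0⟩ 0 0))) (.cut .v 50331648 (.cut .d 1580046 (.void 92 ⟨⟨0, 0, 0, 0, 0, 0, 0, 0, 0, ⟨0, 0⟩, 0⟩, 100000, 0⟩ 0 0) (.pos 92 .pp ⟨⟨0, 0, 0, 0, 0, 0, 0, 0, 0, ⟨0, 0⟩, 0⟩, 19721458, 0⟩ 0 0)) (.void 93 ⟨⟨0, 0, 0, 0, 0, 0, 0, 0, 0, ⟨0, 0⟩, 0⟩, 100000, 0⟩ 0 0))) (.cut .v 33554432 (.pos 24 .pp ⟨⟨0, 0, 0, 0, 0, 0, 0, 0, 0, ⟨0, 0⟩, 0⟩, 0, 872559⟩ 0 0) (.pos 91 .pp ⟨⟨0, 0, 0, 0, 0, 0, 175411891, 0, 0, ⟨0, 0⟩, 0⟩, 7248771, 0⟩ 0 0))) (.void 90 ⟨⟨0, 0, 0, 0, 0, 0, 63961, 0, 0, ⟨0, 0⟩, 0⟩, 0, 36039⟩ 0 0)))),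
    by decide +kernel⟩

def covers13 : cell.Covers Vale.Agent.P237.Petty.Cor.Grid.N15.table row13.1 :=
  ⟨(.cut .d 0 (.cut .v 16777216 (.cut .d (-8388608) (.void 1 ⟨⟨0, 0, 0, 0, 0, 100000, 0, 0, 0, ⟨0, 0⟩, 0⟩, 0, 0⟩ 0 0) (.cut .d (-4194304) (.void 1 ⟨⟨0, 0, 0, 0, 0, 100000, 0, 0, 0, ⟨0, 0⟩, 0⟩, 0, 0⟩ 0 0) (.cut .d (-2097152) (.void 1 ⟨⟨0, 0, 0, 0, 0, 100000, 0, 0, 0, ⟨0, 0⟩, 0⟩, 0, 0⟩ 0 0) (.cut .d (-1048576) (.void 1 ⟨⟨0, 0, 0, 0, 0, 100000, 0, 0, 0, ⟨0, 0⟩, 0⟩, 0, 0⟩ 0 0) (.cut .d (-524288) (.void 1 ⟨⟨0, 0, 0, 0, 0, 100000, 0, 0, 0, ⟨0, 0⟩, 0⟩, 0, 0⟩ 0 0) (.cut .d (-262144) (.void 1 ⟨⟨0, 0, 0, 0, 0, 100000, 0, 0, 0, ⟨0, 0⟩, 0⟩,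 0, 0⟩ 0 0) (.cut .d (-131072) (.void 1 ⟨⟨0, 0, 0, 0, 0, 100000, 0, 0, 0, ⟨0, 0⟩, 0⟩, 0, 0⟩ 0 0) (.cut .d (-65536) (.void 1 ⟨⟨0, 0, 0, 0, 0, 100000, 0, 0, 0, ⟨0, 0⟩, 0⟩, 0, 0⟩ 0 0) (.cut .d (-32768) (.void 1 ⟨⟨0, 0, 0, 0, 0, 100000, 0, 0, 0, ⟨0, 0⟩, 0⟩, 0, 0⟩ 0 0) (.cut .v 8388608 (.cut .v 4194304 (.void 4 ⟨⟨0, 0, 100000, 0, 0, 0, 0, 0, 0, ⟨0, 0⟩, 0⟩, 0, 0⟩ 0 0) (.pos 5 .mm ⟨⟨0, 0, 1272973, 0, 0, 48420110, 0, 0, 0, ⟨0, 0⟩, 0⟩, 0, 0⟩ 0 0)) (.cut .s 10289152 (.pos 3 .mm ⟨⟨0, 0, 0, 0, 0, 136174558, 0, 0, 0, ⟨0, 0⟩, 0⟩, 0, 0⟩ 0 0) (.pos 3 .mm ⟨⟨0, 0, 0, 0, 0, 155513832, 0, 0, 0, ⟨0, 0⟩, 0⟩, 0, 0⟩ 0 0)))))))))))) (.cut .v 33554432 (.cut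 .v 25165824 (.cut .d (-8388608) (.void 25 ⟨⟨0, 0, 0, 0, 0, 100000, 0, 0, 0, ⟨0, 0⟩, 0⟩, 0, 0⟩ 0 0) (.cut .v 20971520 (.cut .d (-4194304) (.void 27 ⟨⟨100000, 0, 0, 0, 0, 0, 0, 0, 0, ⟨0, 0⟩, 0⟩, 0, 0⟩ 0 0) (.cut .v 18874368 (.cut .d (-2097152) (.void 29 ⟨⟨100000, 0, 0, 0, 0, 0, 0, 0, 0, ⟨0, 0⟩, 0⟩, 0, 0⟩ 0 0) (.cut .v 17825792 (.cut .d (-1048576) (.void 31 ⟨⟨100000, 0, 0, 0, 0, 0, 0, 0, 0, ⟨0, 0⟩, 0⟩, 0, 0⟩ 0 0) (.cut .v 17301504 (.cut .d (-524288) (.void 33 ⟨⟨100000, 0, 0, 0, 0, 0, 0, 0, 0, ⟨0, 0⟩, 0⟩, 0, 0⟩ 0 0) (.cut .d (-262144) (.void 33 ⟨⟨100000, 0, 0, 0, 0, 0, 0, 0, 0, ⟨0, 0⟩, 0⟩, 0, 0⟩ 0 0) (.cut .d (-131072) (.void 33 ⟨⟨100000,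 0, 0, 0, 0, 0, 0, 0, 0, ⟨0, 0⟩, 0⟩, 0, 0⟩ 0 0) (.cut .d (-65536) (.void 33 ⟨⟨100000, 0, 0, 0, 0, 0, 0, 0, 0, ⟨0, 0⟩, 0⟩, 0, 0⟩ 0 0) (.cut .d (-32768) (.void 33 ⟨⟨0, 0, 0, 0, 0, 100000, 0, 0, 0, ⟨0, 0⟩, 0⟩, 0, 0⟩ 0 0) (.cut .v 17039360 (.cut .v 16908288 (.cut .s 10289152 (.cut .s 10190848 (.cut .v 16842752 (.cut .s 10141696 (.cut .d (-16384) (.cut .s 10117120 (.pos 39 .mp ⟨⟨68183671, 0, 0, 0, 0, 38664229, 0, 0, 0, ⟨0, 0⟩, 0⟩, 0, 0⟩ 0 0) (.pos 39 .mp ⟨⟨69308637, 0, 0, 0, 0, 39066412, 0, 0, 0, ⟨0, 0⟩, 0⟩, 0, 0⟩ 0 0)) (.cut .v 16809984 (.cut .l 123033 (.cut .s 10117120 (.cut .d (-8192) (.pos 49 .mp ⟨⟨68123386, 0, 0, 0, 0, 38451467,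 0, 0, 0, ⟨0, 0⟩, 0⟩, 0, 0⟩ 0 0) (.cut .s 10104832 (.pos 49 .mp ⟨⟨69416526, 0, 0, 0, 0, 34554076, 0, 0, 0, ⟨0, 0⟩, 0⟩, 0, 0⟩ 0 0) (.pos 49 .mp ⟨⟨70006807, 0, 0, 0, 0, 34702101, 0, 0, 0, ⟨0, 0⟩, 0⟩, 0, 0⟩ 0 0))) (.cut .d (-8192) (.pos 49 .mp ⟨⟨69242760, 0, 0, 0, 0, 38857124, 0, 0, 0, ⟨0, 0⟩, 0⟩, 0, 0⟩ 0 0) (.cut .s 10129408 (.pos 49 .mp ⟨⟨70578543, 0, 0, 0, 0, 34891507, 0, 0, 0, ⟨0, 0⟩, 0⟩, 0, 0⟩ 0 0) (.pos 49 .mp ⟨⟨71154728, 0, 0, 0, 0, 35085271, 0, 0, 0, ⟨0, 0⟩, 0⟩, 0, 0⟩ 0 0)))) (.pos 49 .mp ⟨⟨70937212, 0, 0, 0, 0, 32344685, 0, 0, 0, ⟨0, 0⟩, 0⟩, 0, 0⟩ 0 0)) (.pos 50 .mp ⟨⟨94845758, 0, 0, 0, 0, 0, 0, 0, 0, ⟨0, 0⟩, 0⟩, 0, 0⟩ 0 0)))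 (.cut .d (-16384) (.cut .d (-24576) (.pos 39 .mp ⟨⟨71009753, 0, 0, 0, 0, 67854915, 0, 0, 0, ⟨0, 0⟩, 0⟩, 0, 0⟩ 0 0) (.cut .d (-20480) (.pos 39 .mp ⟨⟨70730408, 0, 0, 0, 0, 41437153, 0, 0, 0, ⟨0, 0⟩, 0⟩, 0, 0⟩ 0 0) (.cut .l 123033 (.void 39 ⟨⟨0, 0, 0, 0, 0, 100000, 0, 0, 0, ⟨0, 0⟩, 0⟩, 0, 0⟩ 0 0) (.cut .s 10166272 (.pos 39 .mp ⟨⟨70683829, 0, 0, 0, 0, 38536244, 0, 0, 0, ⟨0, 0⟩, 0⟩, 0, 0⟩ 0 0) (.pos 39 .mp ⟨⟨71757689, 0, 0, 0, 0, 39166723, 0, 0, 0, ⟨0, 0⟩, 0⟩, 0, 0⟩ 0 0))))) (.cut .v 16809984 (.cut .l 123033 (.cut .s 10166272 (.cut .d (-8192) (.pos 49 .mp ⟨⟨70379595, 0, 0, 0, 0, 39284287, 0, 0, 0, ⟨0, 0⟩, 0⟩, 0, 0⟩ 0 0) (.cut .v 16793600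 (.cut .l 61516 (.cut .d (-4096) (.pos 55 .mp ⟨⟨70344508, 0, 0, 0, 0, 39180390, 0, 0, 0, ⟨0, 0⟩, 0⟩, 0, 0⟩ 0 0) (.cut .s 10153984 (.pos 55 .mp ⟨⟨71280221, 0, 0, 0, 0, 35898776, 0, 0, 0, ⟨0, 0⟩, 0⟩, 0, 0⟩ 0 0) (.pos 55 .mp ⟨⟨71889073, 0, 0, 0, 0, 36062203, 0, 0, 0, ⟨0, 0⟩, 0⟩, 0, 0⟩ 0 0))) (.pos 55 .mp ⟨⟨71781014, 0, 0, 0, 0, 34608815, 0, 0, 0, ⟨0, 0⟩, 0⟩, 0, 0⟩ 0 0)) (.pos 56 .mp ⟨⟨96504440, 0, 0, 0, 0, 0, 0, 0, 0, ⟨0, 0⟩, 0⟩, 0, 0⟩ 0 0))) (.cut .d (-8192) (.pos 49 .mp ⟨⟨71534061, 0, 0, 0, 0, 39733246, 0, 0, 0, ⟨0, 0⟩, 0⟩, 0, 0⟩ 0 0) (.cut .v 16793600 (.cut .l 61516 (.cut .d (-4096) (.pos 55 .mp ⟨⟨71496061, 0, 0, 0, 0, 39631176,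 0, 0, 0, ⟨0, 0⟩, 0⟩, 0, 0⟩ 0 0) (.cut .s 10178560 (.pos 55 .mp ⟨⟨72474369, 0, 0, 0, 0, 36275280, 0, 0, 0, ⟨0, 0⟩, 0⟩, 0, 0⟩ 0 0) (.cut .s 10184704 (.pos 55 .mp ⟨⟨73227734, 0, 0, 0, 0, 36123399, 0, 0, 0, ⟨0, 0⟩, 0⟩, 0, 0⟩ 0 0) (.pos 55 .mp ⟨⟨73499219, 0, 0, 0, 0, 36265370, 0, 0, 0, ⟨0, 0⟩, 0⟩, 0, 0⟩ 0 0)))) (.pos 55 .mp ⟨⟨72956909, 0, 0, 0, 0, 35067399, 0, 0, 0, ⟨0, 0⟩, 0⟩, 0, 0⟩ 0 0)) (.pos 56 .mp ⟨⟨97906095, 0, 0, 0, 0, 0, 0, 0, 0, ⟨0, 0⟩, 0⟩, 0, 0⟩ 0 0)))) (.cut .s 10166272 (.pos 49 .mp ⟨⟨72104579, 0, 0, 0, 0, 34309652, 0, 0, 0, ⟨0, 0⟩, 0⟩, 0, 0⟩ 0 0) (.pos 49 .mp ⟨⟨73290067, 0, 0, 0, 0, 34757137, 0, 0, 0, ⟨0, 0⟩, 0⟩, 0, 0⟩ 0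 0))) (.pos 50 .mp ⟨⟨97603824, 0, 0, 0, 0, 0, 0, 0, 0, ⟨0, 0⟩, 0⟩, 0, 0⟩ 0 0)))) (.pos 40 .mp ⟨⟨100098430, 0, 0, 0, 0, 0, 0, 0, 0, ⟨0, 0⟩, 0⟩, 0, 0⟩ 0 0)) (.cut .v 16842752 (.cut .s 10240000 (.cut .d (-16384) (.cut .d (-24576) (.void 39 ⟨⟨0, 0, 0, 0, 0, 100000, 0, 0, 0, ⟨0, 0⟩, 0⟩, 0, 0⟩ 0 0) (.cut .l 123033 (.void 39 ⟨⟨0, 0, 0, 0, 0, 100000, 0, 0, 0, ⟨0, 0⟩, 0⟩, 0, 0⟩ 0 0) (.cut .s 10215424 (.pos 39 .mp ⟨⟨72814642, 0, 0, 0, 0, 39898961, 0, 0, 0, ⟨0, 0⟩, 0⟩, 0, 0⟩ 0 0) (.cut .s 10227712 (.pos 39 .mp ⟨⟨74244343, 0, 0, 0, 0, 39156519, 0, 0, 0, ⟨0, 0⟩, 0⟩, 0, 0⟩ 0 0) (.pos 39 .mp ⟨⟨74821999, 0, 0, 0, 0, 39458522, 0, 0, 0, ⟨0, 0⟩, 0⟩,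 0, 0⟩ 0 0))))) (.cut .s 10215424 (.cut .v 16809984 (.cut .l 123033 (.cut .d (-8192) (.pos 49 .mp ⟨⟨72706329, 0, 0, 0, 0, 40204294, 0, 0, 0, ⟨0, 0⟩, 0⟩, 0, 0⟩ 0 0) (.cut .v 16793600 (.cut .l 61516 (.cut .d (-4096) (.pos 55 .mp ⟨⟨72665352, 0, 0, 0, 0, 40104106, 0, 0, 0, ⟨0, 0⟩, 0⟩, 0, 0⟩ 0 0) (.cut .v 16785408 (.cut .l 30758 (.cut .d (-2048) (.pos 57 .mp ⟨⟨72645066, 0, 0, 0, 0, 40053704, 0, 0, 0, ⟨0, 0⟩, 0⟩, 0, 0⟩ 0 0) (.cut .s 10203136 (.pos 57 .mp ⟨⟨73436477, 0, 0, 0, 0, 37011829, 0, 0, 0, ⟨0, 0⟩, 0⟩, 0, 0⟩ 0 0) (.cut .s 10209280 (.pos 57 .mp ⟨⟨74312936, 0, 0, 0, 0, 36709321, 0, 0, 0, ⟨0, 0⟩, 0⟩, 0, 0⟩ 0 0) (.pos 57 .mp ⟨⟨74592430,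 0, 0, 0, 0, 36851216, 0, 0, 0, ⟨0, 0⟩, 0⟩, 0, 0⟩ 0 0)))) (.pos 57 .mp ⟨⟨73979831, 0, 0, 0, 0, 35696674, 0, 0, 0, ⟨0, 0⟩, 0⟩, 0, 0⟩ 0 0)) (.pos 58 .mp ⟨⟨99283211, 0, 0, 0, 0, 0, 0, 0, 0, ⟨0, 0⟩, 0⟩, 0, 0⟩ 0 0))) (.pos 55 .mp ⟨⟨74150876, 0, 0, 0, 0, 35536329, 0, 0, 0, ⟨0, 0⟩, 0⟩, 0, 0⟩ 0 0)) (.pos 56 .mp ⟨⟨99339306, 0, 0, 0, 0, 0, 0, 0, 0, ⟨0, 0⟩, 0⟩, 0, 0⟩ 0 0))) (.pos 49 .mp ⟨⟨74493853, 0, 0, 0, 0, 35214696, 0, 0, 0, ⟨0, 0⟩, 0⟩, 0, 0⟩ 0 0)) (.pos 50 .mp ⟨⟨99451265, 0, 0, 0, 0, 0, 0, 0, 0, ⟨0, 0⟩, 0⟩, 0, 0⟩ 0 0)) (.cut .v 16809984 (.cut .l 123033 (.cut .d (-8192) (.pos 49 .mp ⟨⟨73896575, 0, 0, 0, 0, 40697728, 0, 0, 0, ⟨0, 0⟩, 0⟩,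 0, 0⟩ 0 0) (.cut .v 16793600 (.cut .l 61516 (.cut .d (-4096) (.pos 55 .mp ⟨⟨73852556, 0, 0, 0, 0, 40599476, 0, 0, 0, ⟨0, 0⟩, 0⟩, 0, 0⟩ 0 0) (.cut .v 16785408 (.cut .l 30758 (.cut .d (-2048) (.pos 57 .mp ⟨⟨73830751, 0, 0, 0, 0, 40550038, 0, 0, 0, ⟨0, 0⟩, 0⟩, 0, 0⟩ 0 0) (.cut .v 16781312 (.cut .l 15379 (.cut .d (-1024) (.pos 65 .mp ⟨⟨73819932, 0, 0, 0, 0, 40525195, 0, 0, 0, ⟨0, 0⟩, 0⟩, 0, 0⟩ 0 0) (.cut .l 7689 (.cut .d (-512) (.pos 65 .mp ⟨⟨75087418, 0, 0, 0, 0, 38108600, 0, 0, 0, ⟨0, 0⟩, 0⟩, 0, 0⟩ 0 0) (.cut .s 10227712 (.pos 65 .mp ⟨⟨74483344, 0, 0, 0, 0, 37676490, 0, 0, 0, ⟨0, 0⟩, 0⟩, 0, 0⟩ 0 0) (.cut .s 10233856 (.pos 65 .mp ⟨⟨75153141,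 0, 0, 0, 0, 37690570, 0, 0, 0, ⟨0, 0⟩, 0⟩, 0, 0⟩ 0 0) (.pos 65 .mp ⟨⟨75446766, 0, 0, 0, 0, 37823853, 0, 0, 0, ⟨0, 0⟩, 0⟩, 0, 0⟩ 0 0)))) (.pos 65 .mp ⟨⟨75074222, 0, 0, 0, 0, 36282417, 0, 0, 0, ⟨0, 0⟩, 0⟩, 0, 0⟩ 0 0))) (.pos 65 .mp ⟨⟨75099150, 0, 0, 0, 0, 36264031, 0, 0, 0, ⟨0, 0⟩, 0⟩, 0, 0⟩ 0 0)) (.pos 66 .mp ⟨⟨100718760, 0, 0, 0, 0, 0, 0, 0, 0, ⟨0, 0⟩, 0⟩, 0, 0⟩ 0 0))) (.pos 57 .mp ⟨⟨75187034, 0, 0, 0, 0, 36181108, 0, 0, 0, ⟨0, 0⟩, 0⟩, 0, 0⟩ 0 0)) (.pos 58 .mp ⟨⟨100747434, 0, 0, 0, 0, 0, 0, 0, 0, ⟨0, 0⟩, 0⟩, 0, 0⟩ 0 0))) (.pos 55 .mp ⟨⟨75363094, 0, 0, 0, 0, 36014948, 0, 0, 0, ⟨0, 0⟩, 0⟩, 0, 0⟩ 0 0)) (.pos 56 .mp ⟨⟨100804369, 0,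 0, 0, 0, 0, 0, 0, 0, ⟨0, 0⟩, 0⟩, 0, 0⟩ 0 0))) (.pos 49 .mp ⟨⟨75716119, 0, 0, 0, 0, 35681666, 0, 0, 0, ⟨0, 0⟩, 0⟩, 0, 0⟩ 0 0)) (.pos 50 .mp ⟨⟨100918002, 0, 0, 0, 0, 0, 0, 0, 0, ⟨0, 0⟩, 0⟩, 0, 0⟩ 0 0)))) (.cut .d (-16384) (.cut .d (-24576) (.void 39 ⟨⟨0, 0, 0, 0, 0, 100000, 0, 0, 0, ⟨0, 0⟩, 0⟩, 0, 0⟩ 0 0) (.cut .l 123033 (.void 39 ⟨⟨0, 0, 0, 0, 0, 100000, 0, 0, 0, ⟨0, 0⟩, 0⟩, 0, 0⟩ 0 0) (.cut .l 184549 (.pos 39 .mp ⟨⟨76134557, 0, 0, 0, 0, 42877477, 0, 0, 0, ⟨0, 0⟩, 0⟩, 0, 0⟩ 0 0) (.cut .s 10264576 (.pos 39 .mp ⟨⟨75200745, 0, 0, 0, 0, 40597273, 0, 0, 0, ⟨0, 0⟩, 0⟩, 0, 0⟩ 0 0) (.pos 39 .mp ⟨⟨76433856, 0, 0, 0, 0, 41137207, 0, 0, 0,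 ⟨0, 0⟩, 0⟩, 0, 0⟩ 0 0))))) (.cut .s 10264576 (.cut .v 16809984 (.cut .l 123033 (.cut .d (-8192) (.cut .s 10252288 (.pos 49 .mp ⟨⟨75104977, 0, 0, 0, 0, 40278786, 0, 0, 0, ⟨0, 0⟩, 0⟩, 0, 0⟩ 0 0) (.pos 49 .mp ⟨⟨75716042, 0, 0, 0, 0, 40534967, 0, 0, 0, ⟨0, 0⟩, 0⟩, 0, 0⟩ 0 0)) (.cut .v 16793600 (.cut .l 61516 (.cut .d (-4096) (.pos 55 .mp ⟨⟨75057849, 0, 0, 0, 0, 41117591, 0, 0, 0, ⟨0, 0⟩, 0⟩, 0, 0⟩ 0 0) (.cut .v 16785408 (.cut .l 30758 (.cut .d (-2048) (.pos 57 .mp ⟨⟨75034493, 0, 0, 0, 0, 41069143, 0, 0, 0, ⟨0, 0⟩, 0⟩, 0, 0⟩ 0 0) (.cut .v 16781312 (.cut .l 15379 (.cut .d (-1024) (.pos 65 .mp ⟨⟨75022899, 0, 0, 0, 0, 41044793, 0, 0, 0,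 ⟨0, 0⟩, 0⟩, 0, 0⟩ 0 0) (.cut .l 7689 (.cut .d (-512) (.pos 65 .mp ⟨⟨76309261, 0, 0, 0, 0, 38587470, 0, 0, 0, ⟨0, 0⟩, 0⟩, 0, 0⟩ 0 0) (.cut .v 16779264 (.cut .l 3844 (.cut .v 16778240 (.cut .s 10252288 (.cut .s 10246144 (.pos 69 .mp ⟨⟨76233414, 0, 0, 0, 0, 37209976, 0, 0, 0, ⟨0, 0⟩, 0⟩, 0, 0⟩ 0 0) (.pos 69 .mp ⟨⟨76521462, 0, 0, 0, 0, 37357448, 0, 0, 0, ⟨0, 0⟩, 0⟩, 0, 0⟩ 0 0)) (.cut .s 10258432 (.pos 69 .mp ⟨⟨76812071, 0, 0, 0, 0, 37504056, 0, 0, 0, ⟨0, 0⟩, 0⟩, 0, 0⟩ 0 0) (.pos 69 .mp ⟨⟨77105270, 0, 0, 0, 0, 37649757, 0, 0, 0, ⟨0, 0⟩, 0⟩, 0, 0⟩ 0 0))) (.pos 70 .mp ⟨⟨106692782, 0, 0, 0, 0, 0, 0, 0, 0, ⟨0, 0⟩, 0⟩, 0, 0⟩ 0 0)) (.pos 67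 .mp ⟨⟨76263893, 0, 0, 0, 0, 36813611, 0, 0, 0, ⟨0, 0⟩, 0⟩, 0, 0⟩ 0 0)) (.pos 68 .mp ⟨⟨102369838, 0, 0, 0, 0, 0, 0, 0, 0, ⟨0, 0⟩, 0⟩, 0, 0⟩ 0 0))) (.pos 65 .mp ⟨⟨76296180, 0, 0, 0, 0, 36780085, 0, 0, 0, ⟨0, 0⟩, 0⟩, 0, 0⟩ 0 0))) (.pos 65 .mp ⟨⟨76322108, 0, 0, 0, 0, 36760610, 0, 0, 0, ⟨0, 0⟩, 0⟩, 0, 0⟩ 0 0)) (.pos 66 .mp ⟨⟨102214683, 0, 0, 0, 0, 0, 0, 0, 0, ⟨0, 0⟩, 0⟩, 0, 0⟩ 0 0))) (.pos 57 .mp ⟨⟨76412555, 0, 0, 0, 0, 36674712, 0, 0, 0, ⟨0, 0⟩, 0⟩, 0, 0⟩ 0 0)) (.pos 58 .mp ⟨⟨102243790, 0, 0, 0, 0, 0, 0, 0, 0, ⟨0, 0⟩, 0⟩, 0, 0⟩ 0 0))) (.pos 55 .mp ⟨⟨76593744, 0, 0, 0, 0, 36502595, 0, 0, 0, ⟨0, 0⟩, 0⟩, 0, 0⟩ 0 0)) (.pos 56 .mp ⟨⟨102301583,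 0, 0, 0, 0, 0, 0, 0, 0, ⟨0, 0⟩, 0⟩, 0, 0⟩ 0 0))) (.pos 49 .mp ⟨⟨76957046, 0, 0, 0, 0, 36157382, 0, 0, 0, ⟨0, 0⟩, 0⟩, 0, 0⟩ 0 0)) (.pos 50 .mp ⟨⟨102416927, 0, 0, 0, 0, 0, 0, 0, 0, ⟨0, 0⟩, 0⟩, 0, 0⟩ 0 0)) (.cut .v 16809984 (.cut .l 123033 (.cut .d (-8192) (.cut .s 10276864 (.pos 49 .mp ⟨⟨76331714, 0, 0, 0, 0, 40796902, 0, 0, 0, ⟨0, 0⟩, 0⟩, 0, 0⟩ 0 0) (.pos 49 .mp ⟨⟨76952015, 0, 0, 0, 0, 41064629, 0, 0, 0, ⟨0, 0⟩, 0⟩, 0, 0⟩ 0 0)) (.cut .v 16793600 (.cut .l 61516 (.cut .d (-4096) (.pos 55 .mp ⟨⟨76281411, 0, 0, 0, 0, 41658756, 0, 0, 0, ⟨0, 0⟩, 0⟩, 0, 0⟩ 0 0) (.cut .v 16785408 (.cut .l 30758 (.cut .d (-2048) (.pos 57 .mp ⟨⟨76256471, 0,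 0, 0, 0, 41611327, 0, 0, 0, ⟨0, 0⟩, 0⟩, 0, 0⟩ 0 0) (.cut .v 16781312 (.cut .l 15379 (.cut .d (-1024) (.pos 65 .mp ⟨⟨76244087, 0, 0, 0, 0, 41587485, 0, 0, 0, ⟨0, 0⟩, 0⟩, 0, 0⟩ 0 0) (.cut .l 7689 (.cut .d (-512) (.pos 65 .mp ⟨⟨77549517, 0, 0, 0, 0, 39088919, 0, 0, 0, ⟨0, 0⟩, 0⟩, 0, 0⟩ 0 0) (.cut .v 16779264 (.cut .l 3844 (.cut .v 16778240 (.cut .s 10276864 (.cut .s 10270720 (.pos 69 .mp ⟨⟨77401089, 0, 0, 0, 0, 37794509, 0, 0, 0, ⟨0, 0⟩, 0⟩, 0, 0⟩ 0 0) (.pos 69 .mp ⟨⟨77699558, 0, 0, 0, 0, 37938270, 0, 0, 0, ⟨0, 0⟩, 0⟩, 0, 0⟩ 0 0)) (.cut .s 10283008 (.pos 69 .mp ⟨⟨78000706, 0, 0, 0, 0, 38080998, 0, 0, 0, ⟨0, 0⟩, 0⟩, 0, 0⟩ 0 0) (.pos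 69 .mp ⟨⟨78304562, 0, 0, 0, 0, 38222649, 0, 0, 0, ⟨0, 0⟩, 0⟩, 0, 0⟩ 0 0))) (.pos 70 .mp ⟨⟨108276464, 0, 0, 0, 0, 0, 0, 0, 0, ⟨0, 0⟩, 0⟩, 0, 0⟩ 0 0)) (.pos 67 .mp ⟨⟨77503471, 0, 0, 0, 0, 37320858, 0, 0, 0, ⟨0, 0⟩, 0⟩, 0, 0⟩ 0 0)) (.pos 68 .mp ⟨⟨103900524, 0, 0, 0, 0, 0, 0, 0, 0, ⟨0, 0⟩, 0⟩, 0, 0⟩ 0 0))) (.pos 65 .mp ⟨⟨77536555, 0, 0, 0, 0, 37286363, 0, 0, 0, ⟨0, 0⟩, 0⟩, 0, 0⟩ 0 0))) (.pos 65 .mp ⟨⟨77563509, 0, 0, 0, 0, 37265768, 0, 0, 0, ⟨0, 0⟩, 0⟩, 0, 0⟩ 0 0)) (.pos 66 .mp ⟨⟨103743035, 0, 0, 0, 0, 0, 0, 0, 0, ⟨0, 0⟩, 0⟩, 0, 0⟩ 0 0))) (.pos 57 .mp ⟨⟨77656576, 0, 0, 0, 0, 37176823, 0, 0, 0, ⟨0, 0⟩, 0⟩, 0, 0⟩ 0 0)) (.pos 58 .mp ⟨⟨103772585,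 0, 0, 0, 0, 0, 0, 0, 0, ⟨0, 0⟩, 0⟩, 0, 0⟩ 0 0))) (.pos 55 .mp ⟨⟨77843011, 0, 0, 0, 0, 36998607, 0, 0, 0, ⟨0, 0⟩, 0⟩, 0, 0⟩ 0 0)) (.pos 56 .mp ⟨⟨103831253, 0, 0, 0, 0, 0, 0, 0, 0, ⟨0, 0⟩, 0⟩, 0, 0⟩ 0 0))) (.pos 49 .mp ⟨⟨78216822, 0, 0, 0, 0, 36641176, 0, 0, 0, ⟨0, 0⟩, 0⟩, 0, 0⟩ 0 0)) (.pos 50 .mp ⟨⟨103948345, 0, 0, 0, 0, 0, 0, 0, 0, ⟨0, 0⟩, 0⟩, 0, 0⟩ 0 0))))) (.pos 40 .mp ⟨⟨106139833, 0, 0, 0, 0, 0, 0, 0, 0, ⟨0, 0⟩, 0⟩, 0, 0⟩ 0 0))) (.cut .s 10387456 (.cut .v 16842752 (.cut .s 10338304 (.cut .d (-16384) (.cut .d (-24576) (.void 39 ⟨⟨0, 0, 0, 0, 0, 100000, 0, 0, 0, ⟨0, 0⟩, 0⟩, 0, 0⟩ 0 0) (.cut .l 123033 (.void 39 ⟨⟨0, 0, 0, 0, 0,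 100000, 0, 0, 0, ⟨0, 0⟩, 0⟩, 0, 0⟩ 0 0) (.cut .l 184549 (.pos 39 .mp ⟨⟨78638738, 0, 0, 0, 0, 44072346, 0, 0, 0, ⟨0, 0⟩, 0⟩, 0, 0⟩ 0 0) (.cut .s 10313728 (.pos 39 .mp ⟨⟨77685620, 0, 0, 0, 0, 41691528, 0, 0, 0, ⟨0, 0⟩, 0⟩, 0, 0⟩ 0 0) (.pos 39 .mp ⟨⟨78956226, 0, 0, 0, 0, 42259902, 0, 0, 0, ⟨0, 0⟩, 0⟩, 0, 0⟩ 0 0))))) (.cut .s 10313728 (.cut .v 16809984 (.cut .l 123033 (.cut .d (-8192) (.cut .s 10301440 (.pos 49 .mp ⟨⟨77576969, 0, 0, 0, 0, 41338187, 0, 0, 0, ⟨0, 0⟩, 0⟩, 0, 0⟩ 0 0) (.pos 49 .mp ⟨⟨78206600, 0, 0, 0, 0, 41617617, 0, 0, 0, ⟨0, 0⟩, 0⟩, 0, 0⟩ 0 0)) (.cut .v 16793600 (.cut .l 61516 (.cut .d (-4096) (.pos 55 .mp ⟨⟨77523424,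 0, 0, 0, 0, 42223284, 0, 0, 0, ⟨0, 0⟩, 0⟩, 0, 0⟩ 0 0) (.cut .v 16785408 (.cut .l 30758 (.cut .d (-2048) (.pos 57 .mp ⟨⟨77496867, 0, 0, 0, 0, 42176902, 0, 0, 0, ⟨0, 0⟩, 0⟩, 0, 0⟩ 0 0) (.cut .v 16781312 (.cut .l 15379 (.cut .d (-1024) (.pos 65 .mp ⟨⟨77483675, 0, 0, 0, 0, 42153581, 0, 0, 0, ⟨0, 0⟩, 0⟩, 0, 0⟩ 0 0) (.cut .l 7689 (.cut .d (-512) (.pos 65 .mp ⟨⟨78808372, 0, 0, 0, 0, 39613251, 0, 0, 0, ⟨0, 0⟩, 0⟩, 0, 0⟩ 0 0) (.cut .v 16779264 (.cut .l 3844 (.cut .v 16778240 (.cut .s 10301440 (.cut .s 10295296 (.pos 69 .mp ⟨⟨78611158, 0, 0, 0, 0, 38363180, 0, 0, 0, ⟨0, 0⟩, 0⟩, 0, 0⟩ 0 0) (.pos 69 .mp ⟨⟨78920523, 0, 0, 0, 0, 38502550, 0,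 0, 0, ⟨0, 0⟩, 0⟩, 0, 0⟩ 0 0)) (.cut .s 10307584 (.pos 69 .mp ⟨⟨79232686, 0, 0, 0, 0, 38640714, 0, 0, 0, ⟨0, 0⟩, 0⟩, 0, 0⟩ 0 0) (.pos 69 .mp ⟨⟨79547679, 0, 0, 0, 0, 38777629, 0, 0, 0, ⟨0, 0⟩, 0⟩, 0, 0⟩ 0 0))) (.pos 70 .mp ⟨⟨109883580, 0, 0, 0, 0, 0, 0, 0, 0, ⟨0, 0⟩, 0⟩, 0, 0⟩ 0 0)) (.pos 67 .mp ⟨⟨78761635, 0, 0, 0, 0, 37836073, 0, 0, 0, ⟨0, 0⟩, 0⟩, 0, 0⟩ 0 0)) (.pos 68 .mp ⟨⟨105463974, 0, 0, 0, 0, 0, 0, 0, 0, ⟨0, 0⟩, 0⟩, 0, 0⟩ 0 0))) (.pos 65 .mp ⟨⟨78795534, 0, 0, 0, 0, 37800588, 0, 0, 0, ⟨0, 0⟩, 0⟩, 0, 0⟩ 0 0))) (.pos 65 .mp ⟨⟨78823537, 0, 0, 0, 0, 37778844, 0, 0, 0, ⟨0, 0⟩, 0⟩, 0, 0⟩ 0 0)) (.pos 66 .mp ⟨⟨105304126, 0, 0, 0, 0,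 0, 0, 0, 0, ⟨0, 0⟩, 0⟩, 0, 0⟩ 0 0))) (.pos 57 .mp ⟨⟨78919283, 0, 0, 0, 0, 37686780, 0, 0, 0, ⟨0, 0⟩, 0⟩, 0, 0⟩ 0 0)) (.pos 58 .mp ⟨⟨105334127, 0, 0, 0, 0, 0, 0, 0, 0, ⟨0, 0⟩, 0⟩, 0, 0⟩ 0 0))) (.pos 55 .mp ⟨⟨79111082, 0, 0, 0, 0, 37502317, 0, 0, 0, ⟨0, 0⟩, 0⟩, 0, 0⟩ 0 0)) (.pos 56 .mp ⟨⟨105393690, 0, 0, 0, 0, 0, 0, 0, 0, ⟨0, 0⟩, 0⟩, 0, 0⟩ 0 0))) (.pos 49 .mp ⟨⟨79495636, 0, 0, 0, 0, 37132375, 0, 0, 0, ⟨0, 0⟩, 0⟩, 0, 0⟩ 0 0)) (.pos 50 .mp ⟨⟨105512565, 0, 0, 0, 0, 0, 0, 0, 0, ⟨0, 0⟩, 0⟩, 0, 0⟩ 0 0)) (.cut .v 16809984 (.cut .l 123033 (.cut .d (-8192) (.cut .s 10326016 (.pos 49 .mp ⟨⟨78840930, 0, 0, 0, 0, 41902957, 0, 0, 0, ⟨0, 0⟩, 0⟩,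 0, 0⟩ 0 0) (.pos 49 .mp ⟨⟨79479983, 0, 0, 0, 0, 42194247, 0, 0, 0, ⟨0, 0⟩, 0⟩, 0, 0⟩ 0 0)) (.cut .v 16793600 (.cut .l 61516 (.cut .d (-4096) (.pos 55 .mp ⟨⟨78784075, 0, 0, 0, 0, 42811489, 0, 0, 0, ⟨0, 0⟩, 0⟩, 0, 0⟩ 0 0) (.cut .v 16785408 (.cut .l 30758 (.cut .d (-2048) (.pos 57 .mp ⟨⟨78755866, 0, 0, 0, 0, 42766184, 0, 0, 0, ⟨0, 0⟩, 0⟩, 0, 0⟩ 0 0) (.cut .l 15379 (.cut .d (-1024) (.pos 57 .mp ⟨⟨80098333, 0, 0, 0, 0, 40197859, 0, 0, 0, ⟨0, 0⟩, 0⟩, 0, 0⟩ 0 0) (.cut .v 16781312 (.cut .l 7689 (.cut .d (-512) (.pos 65 .mp ⟨⟨80086013, 0, 0, 0, 0, 40160774, 0, 0, 0, ⟨0, 0⟩, 0⟩, 0, 0⟩ 0 0) (.cut .v 16779264 (.cut .l 3844 (.cut .v 16778240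 (.cut .s 10326016 (.cut .s 10319872 (.pos 69 .mp ⟨⟨79865531, 0, 0, 0, 0, 38913251, 0, 0, 0, ⟨0, 0⟩, 0⟩, 0, 0⟩ 0 0) (.pos 69 .mp ⟨⟨80186273, 0, 0, 0, 0, 39047536, 0, 0, 0, ⟨0, 0⟩, 0⟩, 0, 0⟩ 0 0)) (.cut .s 10332160 (.pos 69 .mp ⟨⟨80509935, 0, 0, 0, 0, 39180441, 0, 0, 0, ⟨0, 0⟩, 0⟩, 0, 0⟩ 0 0) (.pos 69 .mp ⟨⟨80836548, 0, 0, 0, 0, 39311921, 0, 0, 0, ⟨0, 0⟩, 0⟩, 0, 0⟩ 0 0))) (.pos 70 .mp ⟨⟨111513743, 0, 0, 0, 0, 0, 0, 0, 0, ⟨0, 0⟩, 0⟩, 0, 0⟩ 0 0)) (.pos 67 .mp ⟨⟨80038573, 0, 0, 0, 0, 38358592, 0, 0, 0, ⟨0, 0⟩, 0⟩, 0, 0⟩ 0 0)) (.pos 68 .mp ⟨⟨107060502, 0, 0, 0, 0, 0, 0, 0, 0, ⟨0, 0⟩, 0⟩, 0, 0⟩ 0 0))) (.pos 65 .mp ⟨⟨80073303, 0, 0, 0,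 0, 38322094, 0, 0, 0, ⟨0, 0⟩, 0⟩, 0, 0⟩ 0 0)) (.pos 66 .mp ⟨⟨107077334, 0, 0, 0, 0, 0, 0, 0, 0, ⟨0, 0⟩, 0⟩, 0, 0⟩ 0 0))) (.pos 57 .mp ⟨⟨80142665, 0, 0, 0, 0, 38249571, 0, 0, 0, ⟨0, 0⟩, 0⟩, 0, 0⟩ 0 0))) (.pos 57 .mp ⟨⟨80200866, 0, 0, 0, 0, 38203913, 0, 0, 0, ⟨0, 0⟩, 0⟩, 0, 0⟩ 0 0)) (.pos 58 .mp ⟨⟨106928732, 0, 0, 0, 0, 0, 0, 0, 0, ⟨0, 0⟩, 0⟩, 0, 0⟩ 0 0))) (.pos 55 .mp ⟨⟨80398145, 0, 0, 0, 0, 38013057, 0, 0, 0, ⟨0, 0⟩, 0⟩, 0, 0⟩ 0 0)) (.pos 56 .mp ⟨⟨106989208, 0, 0, 0, 0, 0, 0, 0, 0, ⟨0, 0⟩, 0⟩, 0, 0⟩ 0 0))) (.cut .s 10326016 (.pos 49 .mp ⟨⟨80142243, 0, 0, 0, 0, 38261197, 0, 0, 0, ⟨0, 0⟩, 0⟩, 0, 0⟩ 0 0) (.pos 49 .mp ⟨⟨80793681, 0,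 0, 0, 0, 38517776, 0, 0, 0, ⟨0, 0⟩, 0⟩, 0, 0⟩ 0 0))) (.pos 50 .mp ⟨⟨107109904, 0, 0, 0, 0, 0, 0, 0, 0, ⟨0, 0⟩, 0⟩, 0, 0⟩ 0 0)))) (.cut .d (-16384) (.cut .d (-24576) (.void 39 ⟨⟨0, 0, 0, 0, 0, 100000, 0, 0, 0, ⟨0, 0⟩, 0⟩, 0, 0⟩ 0 0) (.cut .l 123033 (.void 39 ⟨⟨0, 0, 0, 0, 0, 100000, 0, 0, 0, ⟨0, 0⟩, 0⟩, 0, 0⟩ 0 0) (.cut .l 184549 (.pos 39 .mp ⟨⟨81213405, 0, 0, 0, 0, 45373049, 0, 0, 0, ⟨0, 0⟩, 0⟩, 0, 0⟩ 0 0) (.cut .s 10362880 (.pos 39 .mp ⟨⟨80245862, 0, 0, 0, 0, 42841988, 0, 0, 0, ⟨0, 0⟩, 0⟩, 0, 0⟩ 0 0) (.pos 39 .mp ⟨⟨81554722, 0, 0, 0, 0, 43437437, 0, 0, 0, ⟨0, 0⟩, 0⟩, 0, 0⟩ 0 0))))) (.cut .s 10362880 (.cut .v 16809984 (.cut .l 123033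 (.cut .d (-8192) (.cut .s 10350592 (.pos 49 .mp ⟨⟨80123784, 0, 0, 0, 0, 42491529, 0, 0, 0, ⟨0, 0⟩, 0⟩, 0, 0⟩ 0 0) (.pos 49 .mp ⟨⟨80772356, 0, 0, 0, 0, 42794842, 0, 0, 0, ⟨0, 0⟩, 0⟩, 0, 0⟩ 0 0)) (.cut .v 16793600 (.cut .l 61516 (.cut .d (-4096) (.pos 55 .mp ⟨⟨80063551, 0, 0, 0, 0, 43423693, 0, 0, 0, ⟨0, 0⟩, 0⟩, 0, 0⟩ 0 0) (.cut .v 16785408 (.cut .l 30758 (.cut .d (-2048) (.pos 57 .mp ⟨⟨80033657, 0, 0, 0, 0, 43379492, 0, 0, 0, ⟨0, 0⟩, 0⟩, 0, 0⟩ 0 0) (.cut .l 15379 (.cut .d (-1024) (.pos 57 .mp ⟨⟨81408596, 0, 0, 0, 0, 40738654, 0, 0, 0, ⟨0, 0⟩, 0⟩, 0, 0⟩ 0 0) (.cut .v 16781312 (.cut .l 7689 (.cut .d (-512) (.pos 65 .mp ⟨⟨81382632,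 0, 0, 0, 0, 40731800, 0, 0, 0, ⟨0, 0⟩, 0⟩, 0, 0⟩ 0 0) (.cut .v 16779264 (.cut .l 3844 (.cut .v 16778240 (.cut .s 10350592 (.cut .s 10344448 (.pos 69 .mp ⟨⟨81166143, 0, 0, 0, 0, 39441931, 0, 0, 0, ⟨0, 0⟩, 0⟩, 0, 0⟩ 0 0) (.pos 69 .mp ⟨⟨81498750, 0, 0, 0, 0, 39570426, 0, 0, 0, ⟨0, 0⟩, 0⟩, 0, 0⟩ 0 0)) (.cut .s 10356736 (.pos 69 .mp ⟨⟨81834400, 0, 0, 0, 0, 39697363, 0, 0, 0, ⟨0, 0⟩, 0⟩, 0, 0⟩ 0 0) (.pos 69 .mp ⟨⟨82173124, 0, 0, 0, 0, 39822694, 0, 0, 0, ⟨0, 0⟩, 0⟩, 0, 0⟩ 0 0))) (.pos 70 .mp ⟨⟨113166573, 0, 0, 0, 0, 0, 0, 0, 0, ⟨0, 0⟩, 0⟩, 0, 0⟩ 0 0)) (.pos 67 .mp ⟨⟨81334475, 0, 0, 0, 0, 38887746, 0, 0, 0, ⟨0, 0⟩, 0⟩, 0, 0⟩ 0 0)) (.pos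 68 .mp ⟨⟨108690429, 0, 0, 0, 0, 0, 0, 0, 0, ⟨0, 0⟩, 0⟩, 0, 0⟩ 0 0))) (.pos 65 .mp ⟨⟨81370054, 0, 0, 0, 0, 38850214, 0, 0, 0, ⟨0, 0⟩, 0⟩, 0, 0⟩ 0 0)) (.pos 66 .mp ⟨⟨108707529, 0, 0, 0, 0, 0, 0, 0, 0, ⟨0, 0⟩, 0⟩, 0, 0⟩ 0 0))) (.pos 57 .mp ⟨⟨81441111, 0, 0, 0, 0, 38775630, 0, 0, 0, ⟨0, 0⟩, 0⟩, 0, 0⟩ 0 0))) (.pos 57 .mp ⟨⟨81501515, 0, 0, 0, 0, 38727553, 0, 0, 0, ⟨0, 0⟩, 0⟩, 0, 0⟩ 0 0)) (.pos 58 .mp ⟨⟨108556718, 0, 0, 0, 0, 0, 0, 0, 0, ⟨0, 0⟩, 0⟩, 0, 0⟩ 0 0))) (.pos 55 .mp ⟨⟨81704395, 0, 0, 0, 0, 38530152, 0, 0, 0, ⟨0, 0⟩, 0⟩, 0, 0⟩ 0 0)) (.pos 56 .mp ⟨⟨108618127, 0, 0, 0, 0, 0, 0, 0, 0, ⟨0, 0⟩, 0⟩, 0, 0⟩ 0 0))) (.cut .s 10350592 (.pos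 49 .mp ⟨⟨81449975, 0, 0, 0, 0, 38775864, 0, 0, 0, ⟨0, 0⟩, 0⟩, 0, 0⟩ 0 0) (.pos 49 .mp ⟨⟨82111150, 0, 0, 0, 0, 39035376, 0, 0, 0, ⟨0, 0⟩, 0⟩, 0, 0⟩ 0 0))) (.pos 50 .mp ⟨⟨108740681, 0, 0, 0, 0, 0, 0, 0, 0, ⟨0, 0⟩, 0⟩, 0, 0⟩ 0 0)) (.cut .v 16809984 (.cut .l 123033 (.cut .d (-8192) (.pos 49 .mp ⟨⟨81425723, 0, 0, 0, 0, 44145659, 0, 0, 0, ⟨0, 0⟩, 0⟩, 0, 0⟩ 0 0) (.cut .v 16793600 (.cut .l 61516 (.cut .d (-4096) (.pos 55 .mp ⟨⟨81362044, 0, 0, 0, 0, 44060220, 0, 0, 0, ⟨0, 0⟩, 0⟩, 0, 0⟩ 0 0) (.cut .v 16785408 (.cut .l 30758 (.cut .d (-2048) (.pos 57 .mp ⟨⟨81330430, 0, 0, 0, 0, 44017154, 0, 0, 0, ⟨0, 0⟩, 0⟩, 0, 0⟩ 0 0) (.cut .l 15379 (.cut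 .d (-1024) (.pos 57 .mp ⟨⟨82754587, 0, 0, 0, 0, 41264817, 0, 0, 0, ⟨0, 0⟩, 0⟩, 0, 0⟩ 0 0) (.cut .v 16781312 (.cut .l 7689 (.cut .d (-512) (.pos 65 .mp ⟨⟨82698422, 0, 0, 0, 0, 41326648, 0, 0, 0, ⟨0, 0⟩, 0⟩, 0, 0⟩ 0 0) (.cut .v 16779264 (.cut .l 3844 (.cut .v 16778240 (.cut .s 10375168 (.cut .s 10369024 (.pos 69 .mp ⟨⟨82514953, 0, 0, 0, 0, 39946376, 0, 0, 0, ⟨0, 0⟩, 0⟩, 0, 0⟩ 0 0) (.pos 69 .mp ⟨⟨82859919, 0, 0, 0, 0, 40068363, 0, 0, 0, ⟨0, 0⟩, 0⟩, 0, 0⟩ 0 0)) (.cut .s 10381312 (.pos 69 .mp ⟨⟨83208052, 0, 0, 0, 0, 40188608, 0, 0, 0, ⟨0, 0⟩, 0⟩, 0, 0⟩ 0 0) (.pos 69 .mp ⟨⟨83559385, 0, 0, 0, 0, 40307066, 0, 0, 0, ⟨0, 0⟩, 0⟩, 0, 0⟩ 0 0)))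 (.pos 70 .mp ⟨⟨114841693, 0, 0, 0, 0, 0, 0, 0, 0, ⟨0, 0⟩, 0⟩, 0, 0⟩ 0 0)) (.pos 67 .mp ⟨⟨82649537, 0, 0, 0, 0, 39422864, 0, 0, 0, ⟨0, 0⟩, 0⟩, 0, 0⟩ 0 0)) (.pos 68 .mp ⟨⟨110354080, 0, 0, 0, 0, 0, 0, 0, 0, ⟨0, 0⟩, 0⟩, 0, 0⟩ 0 0))) (.pos 65 .mp ⟨⟨82685981, 0, 0, 0, 0, 39384274, 0, 0, 0, ⟨0, 0⟩, 0⟩, 0, 0⟩ 0 0)) (.pos 66 .mp ⟨⟨110371454, 0, 0, 0, 0, 0, 0, 0, 0, ⟨0, 0⟩, 0⟩, 0, 0⟩ 0 0))) (.pos 57 .mp ⟨⟨82758767, 0, 0, 0, 0, 39307583, 0, 0, 0, ⟨0, 0⟩, 0⟩, 0, 0⟩ 0 0))) (.pos 57 .mp ⟨⟨82821426, 0, 0, 0, 0, 39257026, 0, 0, 0, ⟨0, 0⟩, 0⟩, 0, 0⟩ 0 0)) (.pos 58 .mp ⟨⟨110218411, 0, 0, 0, 0, 0, 0, 0, 0, ⟨0, 0⟩, 0⟩, 0, 0⟩ 0 0))) (.pos 55 .mp ⟨⟨83030027,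 0, 0, 0, 0, 39052926, 0, 0, 0, ⟨0, 0⟩, 0⟩, 0, 0⟩ 0 0)) (.pos 56 .mp ⟨⟨110280770, 0, 0, 0, 0, 0, 0, 0, 0, ⟨0, 0⟩, 0⟩, 0, 0⟩ 0 0))) (.pos 49 .mp ⟨⟨83448243, 0, 0, 0, 0, 38643646, 0, 0, 0, ⟨0, 0⟩, 0⟩, 0, 0⟩ 0 0)) (.pos 50 .mp ⟨⟨110405221, 0, 0, 0, 0, 0, 0, 0, 0, ⟨0, 0⟩, 0⟩, 0, 0⟩ 0 0))))) (.pos 40 .mp ⟨⟨112566521, 0, 0, 0, 0, 0, 0, 0, 0, ⟨0, 0⟩, 0⟩, 0, 0⟩ 0 0)) (.cut .v 16842752 (.cut .d (-16384) (.cut .d (-24576) (.void 39 ⟨⟨0, 0, 0, 0, 0, 100000, 0, 0, 0, ⟨0, 0⟩, 0⟩, 0, 0⟩ 0 0) (.cut .l 123033 (.void 39 ⟨⟨0, 0, 0, 0, 0, 100000, 0, 0, 0, ⟨0, 0⟩, 0⟩, 0, 0⟩ 0 0) (.cut .s 10436608 (.cut .s 10412032 (.cut .s 10399744 (.pos 39 .mp ⟨⟨83072603,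 0, 0, 0, 0, 43189467, 0, 0, 0, ⟨0, 0⟩, 0⟩, 0, 0⟩ 0 0) (.pos 39 .mp ⟨⟨83768876, 0, 0, 0, 0, 43453301, 0, 0, 0, ⟨0, 0⟩, 0⟩, 0, 0⟩ 0 0)) (.pos 39 .mp ⟨⟨84230905, 0, 0, 0, 0, 45114769, 0, 0, 0, ⟨0, 0⟩, 0⟩, 0, 0⟩ 0 0)) (.cut .s 10461184 (.pos 39 .mp ⟨⟨85599927, 0, 0, 0, 0, 45769166, 0, 0, 0, ⟨0, 0⟩, 0⟩, 0, 0⟩ 0 0) (.pos 39 .mp ⟨⟨87078876, 0, 0, 0, 0, 46270743, 0, 0, 0, ⟨0, 0⟩, 0⟩, 0, 0⟩ 0 0))))) (.cut .s 10436608 (.cut .s 10412032 (.cut .v 16809984 (.cut .l 123033 (.cut .d (-8192) (.pos 49 .mp ⟨⟨82746944, 0, 0, 0, 0, 44804499, 0, 0, 0, ⟨0, 0⟩, 0⟩, 0, 0⟩ 0 0) (.cut .v 16793600 (.cut .l 61516 (.cut .d (-4096) (.pos 55 .mp ⟨⟨82679747, 0,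 0, 0, 0, 44721400, 0, 0, 0, ⟨0, 0⟩, 0⟩, 0, 0⟩ 0 0) (.cut .v 16785408 (.cut .l 30758 (.cut .d (-2048) (.pos 57 .mp ⟨⟨82646379, 0, 0, 0, 0, 44679499, 0, 0, 0, ⟨0, 0⟩, 0⟩, 0, 0⟩ 0 0) (.cut .l 15379 (.cut .d (-1024) (.pos 57 .mp ⟨⟨84120432, 0, 0, 0, 0, 41813766, 0, 0, 0, ⟨0, 0⟩, 0⟩, 0, 0⟩ 0 0) (.cut .v 16781312 (.cut .l 7689 (.cut .d (-512) (.pos 65 .mp ⟨⟨84033580, 0, 0, 0, 0, 41945638, 0, 0, 0, ⟨0, 0⟩, 0⟩, 0, 0⟩ 0 0) (.cut .v 16779264 (.cut .l 3844 (.cut .v 16778240 (.cut .s 10399744 (.cut .s 10393600 (.pos 69 .mp ⟨⟨83913948, 0, 0, 0, 0, 40423690, 0, 0, 0, ⟨0, 0⟩, 0⟩, 0, 0⟩ 0 0) (.pos 69 .mp ⟨⟨84271773, 0, 0, 0, 0, 40538434, 0, 0,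 0, ⟨0, 0⟩, 0⟩, 0, 0⟩ 0 0)) (.cut .s 10405888 (.pos 69 .mp ⟨⟨84632892, 0, 0, 0, 0, 40651251, 0, 0, 0, ⟨0, 0⟩, 0⟩, 0, 0⟩ 0 0) (.pos 69 .mp ⟨⟨84997336, 0, 0, 0, 0, 40762094, 0, 0, 0, ⟨0, 0⟩, 0⟩, 0, 0⟩ 0 0))) (.pos 70 .mp ⟨⟨116538734, 0, 0, 0, 0, 0, 0, 0, 0, ⟨0, 0⟩, 0⟩, 0, 0⟩ 0 0)) (.pos 67 .mp ⟨⟨83983954, 0, 0, 0, 0, 39963269, 0, 0, 0, ⟨0, 0⟩, 0⟩, 0, 0⟩ 0 0)) (.pos 68 .mp ⟨⟨112051784, 0, 0, 0, 0, 0, 0, 0, 0, ⟨0, 0⟩, 0⟩, 0, 0⟩ 0 0))) (.pos 65 .mp ⟨⟨84021280, 0, 0, 0, 0, 39923600, 0, 0, 0, ⟨0, 0⟩, 0⟩, 0, 0⟩ 0 0)) (.pos 66 .mp ⟨⟨112069438, 0, 0, 0, 0, 0, 0, 0, 0, ⟨0, 0⟩, 0⟩, 0, 0⟩ 0 0))) (.pos 57 .mp ⟨⟨84095830, 0, 0, 0, 0, 39844757,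 0, 0, 0, ⟨0, 0⟩, 0⟩, 0, 0⟩ 0 0))) (.pos 57 .mp ⟨⟨84160797, 0, 0, 0, 0, 39791654, 0, 0, 0, ⟨0, 0⟩, 0⟩, 0, 0⟩ 0 0)) (.pos 58 .mp ⟨⟨111914140, 0, 0, 0, 0, 0, 0, 0, 0, ⟨0, 0⟩, 0⟩, 0, 0⟩ 0 0))) (.pos 55 .mp ⟨⟨84375240, 0, 0, 0, 0, 39580700, 0, 0, 0, ⟨0, 0⟩, 0⟩, 0, 0⟩ 0 0)) (.pos 56 .mp ⟨⟨111977469, 0, 0, 0, 0, 0, 0, 0, 0, ⟨0, 0⟩, 0⟩, 0, 0⟩ 0 0))) (.pos 49 .mp ⟨⟨84805161, 0, 0, 0, 0, 39157687, 0, 0, 0, ⟨0, 0⟩, 0⟩, 0, 0⟩ 0 0)) (.pos 50 .mp ⟨⟨112103854, 0, 0, 0, 0, 0, 0, 0, 0, ⟨0, 0⟩, 0⟩, 0, 0⟩ 0 0)) (.cut .v 16809984 (.cut .l 123033 (.cut .d (-8192) (.pos 49 .mp ⟨⟨84087643, 0, 0, 0, 0, 45488264, 0, 0, 0, ⟨0, 0⟩, 0⟩, 0, 0⟩ 0 0) (.cut .v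 16793600 (.cut .l 61516 (.cut .d (-4096) (.pos 55 .mp ⟨⟨84016860, 0, 0, 0, 0, 45407568, 0, 0, 0, ⟨0, 0⟩, 0⟩, 0, 0⟩ 0 0) (.cut .v 16785408 (.cut .l 30758 (.cut .d (-2048) (.pos 57 .mp ⟨⟨83981702, 0, 0, 0, 0, 45366861, 0, 0, 0, ⟨0, 0⟩, 0⟩, 0, 0⟩ 0 0) (.cut .v 16781312 (.cut .l 15379 (.cut .d (-1024) (.pos 65 .mp ⟨⟨83964217, 0, 0, 0, 0, 45346365, 0, 0, 0, ⟨0, 0⟩, 0⟩, 0, 0⟩ 0 0) (.cut .l 7689 (.cut .d (-512) (.pos 65 .mp ⟨⟨85388306, 0, 0, 0, 0, 42589098, 0, 0, 0, ⟨0, 0⟩, 0⟩, 0, 0⟩ 0 0) (.cut .v 16779264 (.cut .s 10424320 (.cut .s 10418176 (.pos 67 .mp ⟨⟨85109152, 0, 0, 0, 0, 41294700, 0, 0, 0, ⟨0, 0⟩, 0⟩, 0, 0⟩ 0 0) (.pos 67 .mp ⟨⟨85472540,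 0, 0, 0, 0, 41414567, 0, 0, 0, ⟨0, 0⟩, 0⟩, 0, 0⟩ 0 0)) (.pos 67 .mp ⟨⟨85366895, 0, 0, 0, 0, 42367174, 0, 0, 0, ⟨0, 0⟩, 0⟩, 0, 0⟩ 0 0)) (.pos 68 .mp ⟨⟨113783877, 0, 0, 0, 0, 0, 0, 0, 0, ⟨0, 0⟩, 0⟩, 0, 0⟩ 0 0))) (.pos 65 .mp ⟨⟨85376153, 0, 0, 0, 0, 40467511, 0, 0, 0, ⟨0, 0⟩, 0⟩, 0, 0⟩ 0 0))) (.pos 65 .mp ⟨⟨85409794, 0, 0, 0, 0, 40439556, 0, 0, 0, ⟨0, 0⟩, 0⟩, 0, 0⟩ 0 0)) (.pos 66 .mp ⟨⟨113611835, 0, 0, 0, 0, 0, 0, 0, 0, ⟨0, 0⟩, 0⟩, 0, 0⟩ 0 0))) (.pos 57 .mp ⟨⟨85519829, 0, 0, 0, 0, 40330756, 0, 0, 0, ⟨0, 0⟩, 0⟩, 0, 0⟩ 0 0)) (.pos 58 .mp ⟨⟨113644239, 0, 0, 0, 0, 0, 0, 0, 0, ⟨0, 0⟩, 0⟩, 0, 0⟩ 0 0))) (.pos 55 .mp ⟨⟨85740237, 0, 0, 0, 0,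 40112787, 0, 0, 0, ⟨0, 0⟩, 0⟩, 0, 0⟩ 0 0)) (.pos 56 .mp ⟨⟨113708558, 0, 0, 0, 0, 0, 0, 0, 0, ⟨0, 0⟩, 0⟩, 0, 0⟩ 0 0))) (.pos 49 .mp ⟨⟨86182108, 0, 0, 0, 0, 39675724, 0, 0, 0, ⟨0, 0⟩, 0⟩, 0, 0⟩ 0 0)) (.pos 50 .mp ⟨⟨113836917, 0, 0, 0, 0, 0, 0, 0, 0, ⟨0, 0⟩, 0⟩, 0, 0⟩ 0 0))) (.cut .s 10461184 (.cut .v 16809984 (.cut .l 123033 (.cut .d (-8192) (.pos 49 .mp ⟨⟨85448022, 0, 0, 0, 0, 46197295, 0, 0, 0, ⟨0, 0⟩, 0⟩, 0, 0⟩ 0 0) (.cut .v 16793600 (.cut .l 61516 (.cut .d (-4096) (.pos 55 .mp ⟨⟨85373581, 0, 0, 0, 0, 46119063, 0, 0, 0, ⟨0, 0⟩, 0⟩, 0, 0⟩ 0 0) (.cut .v 16785408 (.cut .l 30758 (.cut .d (-2048) (.pos 57 .mp ⟨⟨85336597, 0, 0, 0, 0,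 46079581, 0, 0, 0, ⟨0, 0⟩, 0⟩, 0, 0⟩ 0 0) (.cut .s 10448896 (.cut .s 10442752 (.pos 57 .mp ⟨⟨86591280, 0, 0, 0, 0, 41750532, 0, 0, 0, ⟨0, 0⟩, 0⟩, 0, 0⟩ 0 0) (.pos 57 .mp ⟨⟨86966513, 0, 0, 0, 0, 41865074, 0, 0, 0, ⟨0, 0⟩, 0⟩, 0, 0⟩ 0 0)) (.pos 57 .mp ⟨⟨86946728, 0, 0, 0, 0, 42713300, 0, 0, 0, ⟨0, 0⟩, 0⟩, 0, 0⟩ 0 0))) (.pos 57 .mp ⟨⟨86898726, 0, 0, 0, 0, 40873646, 0, 0, 0, ⟨0, 0⟩, 0⟩, 0, 0⟩ 0 0)) (.pos 58 .mp ⟨⟨115409051, 0, 0, 0, 0, 0, 0, 0, 0, ⟨0, 0⟩, 0⟩, 0, 0⟩ 0 0))) (.pos 55 .mp ⟨⟨87125223, 0, 0, 0, 0, 40648502, 0, 0, 0, ⟨0, 0⟩, 0⟩, 0, 0⟩ 0 0)) (.pos 56 .mp ⟨⟨115474379, 0, 0, 0, 0, 0, 0, 0, 0, ⟨0, 0⟩, 0⟩, 0, 0⟩ 0 0))) (.pos 49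 .mp ⟨⟨87579293, 0, 0, 0, 0, 40197064, 0, 0, 0, ⟨0, 0⟩, 0⟩, 0, 0⟩ 0 0)) (.pos 50 .mp ⟨⟨115604750, 0, 0, 0, 0, 0, 0, 0, 0, ⟨0, 0⟩, 0⟩, 0, 0⟩ 0 0)) (.cut .v 16809984 (.cut .l 123033 (.cut .d (-8192) (.pos 49 .mp ⟨⟨86828286, 0, 0, 0, 0, 46931935, 0, 0, 0, ⟨0, 0⟩, 0⟩, 0, 0⟩ 0 0) (.cut .v 16793600 (.cut .l 61516 (.cut .d (-4096) (.pos 55 .mp ⟨⟨86750114, 0, 0, 0, 0, 46856228, 0, 0, 0, ⟨0, 0⟩, 0⟩, 0, 0⟩ 0 0) (.cut .s 10473472 (.cut .s 10467328 (.pos 55 .mp ⟨⟨88125319, 0, 0, 0, 0, 42178486, 0, 0, 0, ⟨0, 0⟩, 0⟩, 0, 0⟩ 0 0) (.pos 55 .mp ⟨⟨88512845, 0, 0, 0, 0, 42287071, 0, 0, 0, ⟨0, 0⟩, 0⟩, 0, 0⟩ 0 0)) (.pos 55 .mp ⟨⟨88625107, 0, 0, 0, 0,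 42966885, 0, 0, 0, ⟨0, 0⟩, 0⟩, 0, 0⟩ 0 0))) (.pos 55 .mp ⟨⟨88530407, 0, 0, 0, 0, 41187150, 0, 0, 0, ⟨0, 0⟩, 0⟩, 0, 0⟩ 0 0)) (.pos 56 .mp ⟨⟨117275276, 0, 0, 0, 0, 0, 0, 0, 0, ⟨0, 0⟩, 0⟩, 0, 0⟩ 0 0))) (.pos 49 .mp ⟨⟨88996927, 0, 0, 0, 0, 40721008, 0, 0, 0, ⟨0, 0⟩, 0⟩, 0, 0⟩ 0 0)) (.pos 50 .mp ⟨⟨117407699, 0, 0, 0, 0, 0, 0, 0, 0, ⟨0, 0⟩, 0⟩, 0, 0⟩ 0 0))))) (.pos 40 .mp ⟨⟨119353837, 0, 0, 0, 0, 0, 0, 0, 0, ⟨0, 0⟩, 0⟩, 0, 0⟩ 0 0)))) (.pos 38 .mp ⟨⟨115499484, 0, 0, 0, 0, 0, 0, 0, 0, ⟨0, 0⟩, 0⟩, 0, 0⟩ 0 0)) (.void 36 ⟨⟨100000, 0, 0, 0, 0, 0, 0, 0, 0, ⟨0, 0⟩, 0⟩, 0, 0⟩ 0 0))))))) (.void 34 ⟨⟨100000, 0, 0, 0, 0, 0, 0, 0, 0, ⟨0, 0⟩, 0⟩, 0,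 0⟩ 0 0))) (.void 32 ⟨⟨100000, 0, 0, 0, 0, 0, 0, 0, 0, ⟨0, 0⟩, 0⟩, 0, 0⟩ 0 0))) (.void 30 ⟨⟨100000, 0, 0, 0, 0, 0, 0, 0, 0, ⟨0, 0⟩, 0⟩, 0, 0⟩ 0 0))) (.void 28 ⟨⟨100000, 0, 0, 0, 0, 0, 0, 0, 0, ⟨0, 0⟩, 0⟩, 0, 0⟩ 0 0))) (.void 26 ⟨⟨100000, 0, 0, 0, 0, 0, 0, 0, 0, ⟨0, 0⟩, 0⟩, 0, 0⟩ 0 0)) (.void 91 ⟨⟨100000, 0, 0, 0, 0, 0, 0, 0, 0, ⟨0, 0⟩, 0⟩, 0, 0⟩ 0 0))) (.cut .v 16777216 (.cut .v 8388608 (.cut .v 4194304 (.void 4 ⟨⟨0, 0, 66667, 0, 0, 0, 0, 0, 0, ⟨0, 0⟩, 0⟩, 0, 33333⟩ 0 0) (.pos 5 .pm ⟨⟨0, 0, 1257777, 0, 0, 0, 0, 0, 0, ⟨0, 0⟩, 0⟩, 0, 0⟩ 0 0)) (.pos 3 .pm ⟨⟨0, 0, 0, 0, 0, 0, 0, 0, 0, ⟨0, 0⟩, 0⟩, 0, 0⟩ 0 0)) (.cut .d 5556092 (.cut .d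 2778046 (.cut .v 33554432 (.cut .v 25165824 (.cut .d 1389023 (.cut .v 20971520 (.cut .d 694511 (.cut .d 347255 (.cut .v 18874368 (.cut .v 17825792 (.cut .s 10289152 (.pos 31 .pp ⟨⟨72276273, 0, 0, 0, 0, 0, 0, 0, 0, ⟨0, 0⟩, 0⟩, 2269511, 0⟩ 0 0) (.pos 31 .pp ⟨⟨83584837, 0, 0, 0, 0, 0, 0, 0, 0, ⟨0, 0⟩, 0⟩, 2333923, 0⟩ 0 0)) (.pos 32 .pp ⟨⟨113335854, 0, 0, 0, 0, 0, 0, 0, 0, ⟨0, 0⟩, 0⟩, 0, 0⟩ 0 0)) (.pos 30 .pp ⟨⟨142704888, 0, 0, 0, 0, 0, 0, 0, 0, ⟨0, 0⟩, 0⟩, 0, 0⟩ 0 0)) (.pos 27 .pp ⟨⟨85715156, 0, 0, 0, 0, 0, 0, 0, 0, ⟨0, 0⟩, 0⟩, 0, 43570⟩ 0 0)) (.pos 27 .pp ⟨⟨0, 0, 0, 0, 0, 0, 0, 0, 0, ⟨0, 0⟩, 0⟩, 0, 636890⟩ 0 0)) (.cut .d 694511 (.cut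 .d 347255 (.void 28 ⟨⟨0, 0, 0, 0, 0, 0, 0, 0, 0, ⟨0, 0⟩, 0⟩, 100000, 0⟩ 0 0) (.cut .v 23068672 (.pos 61 .pp ⟨⟨0, 0, 0, 0, 0, 0, 0, 0, 0, ⟨0, 0⟩, 0⟩, 14231766, 0⟩ 0 0) (.pos 62 .pp ⟨⟨0, 0, 0, 0, 0, 0, 0, 0, 0, ⟨0, 0⟩, 0⟩, 18045959, 0⟩ 0 0))) (.pos 28 .pp ⟨⟨0, 0, 0, 0, 0, 0, 246587, 0, 0, ⟨0, 0⟩, 0⟩, 10964418, 0⟩ 0 0))) (.pos 25 .pp ⟨⟨0, 0, 0, 0, 0, 0, 0, 0, 0, ⟨0, 0⟩, 0⟩, 0, 687841⟩ 0 0)) (.cut .d 1389023 (.cut .d 694511 (.void 26 ⟨⟨0, 0, 0, 0, 0, 0, 0, 0, 0, ⟨0, 0⟩, 0⟩, 100000, 0⟩ 0 0) (.pos 26 .pp ⟨⟨0, 0, 0, 0, 0, 0, 0, 0, 0, ⟨0, 0⟩, 0⟩, 19229513, 0⟩ 0 0)) (.pos 26 .pp ⟨⟨0, 0, 0, 0, 0, 0, 182837, 0, 0, ⟨0, 0⟩, 0⟩, 11843973, 0⟩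 0 0))) (.cut .v 50331648 (.pos 92 .pp ⟨⟨0, 0, 0, 0, 0, 0, 0, 0, 0, ⟨0, 0⟩, 0⟩, 38501229, 0⟩ 0 0) (.void 93 ⟨⟨0, 0, 0, 0, 0, 0, 0, 0, 0, ⟨0, 0⟩, 0⟩, 100000, 0⟩ 0 0))) (.cut .v 33554432 (.pos 24 .pp ⟨⟨0, 0, 0, 0, 0, 0, 0, 0, 0, ⟨0, 0⟩, 0⟩, 0, 764268⟩ 0 0) (.pos 91 .pp ⟨⟨0, 0, 0, 0, 0, 0, 13392835, 0, 0, ⟨0, 0⟩, 0⟩, 17213219, 0⟩ 0 0))) (.pos 90 .pp ⟨⟨0, 0, 0, 0, 0, 0, 0, 0, 0, ⟨0, 0⟩, 0⟩, 0, 124423157⟩ 0 0)))),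
    by decide +kernel⟩

def covers14 : cell.Covers Vale.Agent.P237.Petty.Cor.Grid.N15.table row14.1 :=
  ⟨(.cut .d 0 (.cut .v 16777216 (.cut .d (-8388608) (.void 1 ⟨⟨0, 0, 0, 0, 0, 100000, 0, 0, 0, ⟨0, 0⟩, 0⟩, 0, 0⟩ 0 0) (.cut .d (-4194304) (.void 1 ⟨⟨0, 0, 0, 0, 0, 100000, 0, 0, 0, ⟨0, 0⟩, 0⟩, 0, 0⟩ 0 0) (.cut .d (-2097152) (.void 1 ⟨⟨0, 0, 0, 0, 0, 100000, 0, 0, 0, ⟨0, 0⟩, 0⟩, 0, 0⟩ 0 0) (.cut .d (-1048576) (.void 1 ⟨⟨0, 0, 0, 0, 0, 100000, 0, 0, 0, ⟨0, 0⟩, 0⟩, 0, 0⟩ 0 0) (.cut .d (-524288) (.void 1 ⟨⟨0, 0, 0, 0, 0, 100000, 0, 0, 0, ⟨0, 0⟩, 0⟩, 0, 0⟩ 0 0) (.cut .d (-262144) (.void 1 ⟨⟨0, 0, 0, 0, 0, 100000, 0, 0, 0, ⟨0, 0⟩, 0⟩,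 0, 0⟩ 0 0) (.cut .d (-131072) (.void 1 ⟨⟨0, 0, 0, 0, 0, 100000, 0, 0, 0, ⟨0, 0⟩, 0⟩, 0, 0⟩ 0 0) (.cut .d (-65536) (.void 1 ⟨⟨0, 0, 0, 0, 0, 100000, 0, 0, 0, ⟨0, 0⟩, 0⟩, 0, 0⟩ 0 0) (.cut .d (-32768) (.void 1 ⟨⟨0, 0, 0, 0, 0, 100000, 0, 0, 0, ⟨0, 0⟩, 0⟩, 0, 0⟩ 0 0) (.cut .v 8388608 (.cut .v 4194304 (.void 4 ⟨⟨0, 0, 100000, 0, 0, 0, 0, 0, 0, ⟨0, 0⟩, 0⟩, 0, 0⟩ 0 0) (.pos 5 .mm ⟨⟨0, 0, 2015973, 0, 0, 61950454, 0, 0, 0, ⟨0, 0⟩, 0⟩, 0, 0⟩ 0 0)) (.cut .s 10682368 (.pos 3 .mm ⟨⟨0, 0, 0, 0, 0, 178204376, 0, 0, 0, ⟨0, 0⟩, 0⟩, 0, 0⟩ 0 0) (.pos 3 .mm ⟨⟨0, 0, 0, 0, 0, 203571277, 0, 0, 0, ⟨0, 0⟩, 0⟩, 0, 0⟩ 0 0)))))))))))) (.cut .v 67108864 (.cut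 .v 33554432 (.cut .v 25165824 (.cut .d (-8388608) (.void 25 ⟨⟨0, 0, 0, 0, 0, 100000, 0, 0, 0, ⟨0, 0⟩, 0⟩, 0, 0⟩ 0 0) (.cut .v 20971520 (.cut .d (-4194304) (.void 27 ⟨⟨100000, 0, 0, 0, 0, 0, 0, 0, 0, ⟨0, 0⟩, 0⟩, 0, 0⟩ 0 0) (.cut .v 18874368 (.cut .d (-2097152) (.void 29 ⟨⟨100000, 0, 0, 0, 0, 0, 0, 0, 0, ⟨0, 0⟩, 0⟩, 0, 0⟩ 0 0) (.cut .v 17825792 (.cut .d (-1048576) (.void 31 ⟨⟨100000, 0, 0, 0, 0, 0, 0, 0, 0, ⟨0, 0⟩, 0⟩, 0, 0⟩ 0 0) (.cut .v 17301504 (.cut .d (-524288) (.void 33 ⟨⟨100000, 0, 0, 0, 0, 0, 0, 0, 0, ⟨0, 0⟩, 0⟩, 0, 0⟩ 0 0) (.cut .v 17039360 (.cut .d (-262144) (.void 35 ⟨⟨100000, 0, 0, 0, 0, 0, 0, 0, 0, ⟨0, 0⟩, 0⟩, 0, 0⟩ 0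 0) (.cut .d (-131072) (.void 35 ⟨⟨100000, 0, 0, 0, 0, 0, 0, 0, 0, ⟨0, 0⟩, 0⟩, 0, 0⟩ 0 0) (.cut .d (-65536) (.void 35 ⟨⟨100000, 0, 0, 0, 0, 0, 0, 0, 0, ⟨0, 0⟩, 0⟩, 0, 0⟩ 0 0) (.cut .d (-32768) (.void 35 ⟨⟨0, 0, 0, 0, 0, 100000, 0, 0, 0, ⟨0, 0⟩, 0⟩, 0, 0⟩ 0 0) (.cut .v 16908288 (.cut .s 10682368 (.cut .s 10584064 (.cut .v 16842752 (.cut .d (-16384) (.cut .d (-24576) (.void 39 ⟨⟨0, 0, 0, 0, 0, 100000, 0, 0, 0, ⟨0, 0⟩, 0⟩, 0, 0⟩ 0 0) (.cut .l 123033 (.void 39 ⟨⟨0, 0, 0, 0, 0, 100000, 0, 0, 0, ⟨0, 0⟩, 0⟩, 0, 0⟩ 0 0) (.cut .l 184549 (.pos 39 .mp ⟨⟨91746674, 0, 0, 0, 0, 51480652, 0, 0, 0, ⟨0, 0⟩, 0⟩, 0, 0⟩ 0 0) (.cut .v 16809984 (.pos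 49 .mp ⟨⟨0, 0, 0, 0, 0, 173148592, 0, 0, 0, ⟨0, 0⟩, 0⟩, 0, 0⟩ 0 0) (.cut .s 10534912 (.pos 50 .mp ⟨⟨92944154, 0, 0, 0, 0, 41305457, 0, 0, 0, ⟨0, 0⟩, 0⟩, 0, 0⟩ 0 0) (.cut .s 10559488 (.pos 50 .mp ⟨⟨94451996, 0, 0, 0, 0, 42862370, 0, 0, 0, ⟨0, 0⟩, 0⟩, 0, 0⟩ 0 0) (.pos 50 .mp ⟨⟨95983441, 0, 0, 0, 0, 43394891, 0, 0, 0, ⟨0, 0⟩, 0⟩, 0, 0⟩ 0 0))))))) (.cut .s 10534912 (.cut .s 10510336 (.cut .v 16809984 (.cut .l 123033 (.cut .d (-8192) (.pos 49 .mp ⟨⟨88229186, 0, 0, 0, 0, 47690285, 0, 0, 0, ⟨0, 0⟩, 0⟩, 0, 0⟩ 0 0) (.cut .v 16793600 (.cut .l 61516 (.cut .d (-4096) (.pos 55 .mp ⟨⟨88147177, 0, 0, 0, 0, 47617219, 0, 0, 0, ⟨0, 0⟩, 0⟩, 0, 0⟩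 0 0) (.cut .s 10498048 (.pos 55 .mp ⟨⟨89335303, 0, 0, 0, 0, 43288071, 0, 0, 0, ⟨0, 0⟩, 0⟩, 0, 0⟩ 0 0) (.pos 55 .mp ⟨⟨90050541, 0, 0, 0, 0, 43539366, 0, 0, 0, ⟨0, 0⟩, 0⟩, 0, 0⟩ 0 0))) (.pos 55 .mp ⟨⟨87763586, 0, 0, 0, 0, 45263316, 0, 0, 0, ⟨0, 0⟩, 0⟩, 0, 0⟩ 0 0)) (.pos 56 .mp ⟨⟨100668442, 0, 0, 0, 0, 28191102, 0, 0, 0, ⟨0, 0⟩, 0⟩, 0, 0⟩ 0 0))) (.pos 49 .mp ⟨⟨87461539, 0, 0, 0, 0, 45975036, 0, 0, 0, ⟨0, 0⟩, 0⟩, 0, 0⟩ 0 0)) (.pos 50 .mp ⟨⟨100192333, 0, 0, 0, 0, 29120436, 0, 0, 0, ⟨0, 0⟩, 0⟩, 0, 0⟩ 0 0)) (.cut .v 16809984 (.cut .l 123033 (.cut .d (-8192) (.pos 49 .mp ⟨⟨89651687, 0, 0, 0, 0, 48235917, 0, 0, 0, ⟨0, 0⟩, 0⟩, 0, 0⟩ 0 0)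 (.cut .v 16793600 (.cut .l 61516 (.cut .d (-4096) (.pos 55 .mp ⟨⟨89565190, 0, 0, 0, 0, 48166658, 0, 0, 0, ⟨0, 0⟩, 0⟩, 0, 0⟩ 0 0) (.cut .v 16785408 (.cut .l 30758 (.cut .d (-2048) (.pos 57 .mp ⟨⟨89522191, 0, 0, 0, 0, 48131643, 0, 0, 0, ⟨0, 0⟩, 0⟩, 0, 0⟩ 0 0) (.cut .s 10522624 (.pos 57 .mp ⟨⟨90482703, 0, 0, 0, 0, 44191835, 0, 0, 0, ⟨0, 0⟩, 0⟩, 0, 0⟩ 0 0) (.cut .s 10528768 (.pos 57 .mp ⟨⟨91608680, 0, 0, 0, 0, 43700781, 0, 0, 0, ⟨0, 0⟩, 0⟩, 0, 0⟩ 0 0) (.pos 57 .mp ⟨⟨91941614, 0, 0, 0, 0, 43876348, 0, 0, 0, ⟨0, 0⟩, 0⟩, 0, 0⟩ 0 0)))) (.pos 57 .mp ⟨⟨89326047, 0, 0, 0, 0, 45518684, 0, 0, 0, ⟨0, 0⟩, 0⟩, 0, 0⟩ 0 0)) (.pos 58 .mp ⟨⟨102186114,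 0, 0, 0, 0, 28444802, 0, 0, 0, ⟨0, 0⟩, 0⟩, 0, 0⟩ 0 0))) (.pos 55 .mp ⟨⟨89172784, 0, 0, 0, 0, 45880792, 0, 0, 0, ⟨0, 0⟩, 0⟩, 0, 0⟩ 0 0)) (.pos 56 .mp ⟨⟨101944341, 0, 0, 0, 0, 28917779, 0, 0, 0, ⟨0, 0⟩, 0⟩, 0, 0⟩ 0 0))) (.pos 49 .mp ⟨⟨88866401, 0, 0, 0, 0, 46604935, 0, 0, 0, ⟨0, 0⟩, 0⟩, 0, 0⟩ 0 0)) (.pos 50 .mp ⟨⟨101458594, 0, 0, 0, 0, 29866527, 0, 0, 0, ⟨0, 0⟩, 0⟩, 0, 0⟩ 0 0))) (.cut .s 10559488 (.cut .v 16809984 (.cut .s 10547200 (.cut .l 123033 (.cut .d (-8192) (.pos 49 .mp ⟨⟨91096414, 0, 0, 0, 0, 47598160, 0, 0, 0, ⟨0, 0⟩, 0⟩, 0, 0⟩ 0 0) (.cut .s 10541056 (.pos 49 .mp ⟨⟨92362168, 0, 0, 0, 0, 43927794, 0, 0, 0, ⟨0, 0⟩, 0⟩, 0, 0⟩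 0 0) (.pos 49 .mp ⟨⟨92751412, 0, 0, 0, 0, 44028511, 0, 0, 0, ⟨0, 0⟩, 0⟩, 0, 0⟩ 0 0))) (.pos 49 .mp ⟨⟨90293042, 0, 0, 0, 0, 46754163, 0, 0, 0, ⟨0, 0⟩, 0⟩, 0, 0⟩ 0 0)) (.cut .l 123033 (.cut .d (-8192) (.pos 49 .mp ⟨⟨91827184, 0, 0, 0, 0, 47881994, 0, 0, 0, ⟨0, 0⟩, 0⟩, 0, 0⟩ 0 0) (.cut .s 10553344 (.pos 49 .mp ⟨⟨93141428, 0, 0, 0, 0, 44131731, 0, 0, 0, ⟨0, 0⟩, 0⟩, 0, 0⟩ 0 0) (.pos 49 .mp ⟨⟨93532201, 0, 0, 0, 0, 44237482, 0, 0, 0, ⟨0, 0⟩, 0⟩, 0, 0⟩ 0 0))) (.pos 49 .mp ⟨⟨91014602, 0, 0, 0, 0, 47078823, 0, 0, 0, ⟨0, 0⟩, 0⟩, 0, 0⟩ 0 0))) (.pos 50 .mp ⟨⟨102792090, 0, 0, 0, 0, 30573702, 0, 0, 0, ⟨0, 0⟩, 0⟩, 0, 0⟩ 0 0)) (.cut .v 16809984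 (.cut .s 10571776 (.cut .l 123033 (.cut .d (-8192) (.pos 49 .mp ⟨⟨92563598, 0, 0, 0, 0, 48173264, 0, 0, 0, ⟨0, 0⟩, 0⟩, 0, 0⟩ 0 0) (.cut .s 10565632 (.pos 49 .mp ⟨⟨93923716, 0, 0, 0, 0, 44345793, 0, 0, 0, ⟨0, 0⟩, 0⟩, 0, 0⟩ 0 0) (.pos 49 .mp ⟨⟨94313013, 0, 0, 0, 0, 44461558, 0, 0, 0, ⟨0, 0⟩, 0⟩, 0, 0⟩ 0 0))) (.pos 49 .mp ⟨⟨91741693, 0, 0, 0, 0, 47407445, 0, 0, 0, ⟨0, 0⟩, 0⟩, 0, 0⟩ 0 0)) (.cut .l 123033 (.cut .d (-8192) (.pos 49 .mp ⟨⟨93305687, 0, 0, 0, 0, 48472021, 0, 0, 0, ⟨0, 0⟩, 0⟩, 0, 0⟩ 0 0) (.cut .s 10577920 (.pos 49 .mp ⟨⟨94689909, 0, 0, 0, 0, 44601614, 0, 0, 0, ⟨0, 0⟩, 0⟩, 0, 0⟩ 0 0) (.pos 49 .mp ⟨⟨95068255, 0, 0, 0, 0, 44743089,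 0, 0, 0, ⟨0, 0⟩, 0⟩, 0, 0⟩ 0 0))) (.pos 49 .mp ⟨⟨92474344, 0, 0, 0, 0, 47739924, 0, 0, 0, ⟨0, 0⟩, 0⟩, 0, 0⟩ 0 0))) (.pos 50 .mp ⟨⟨104197660, 0, 0, 0, 0, 31234911, 0, 0, 0, ⟨0, 0⟩, 0⟩, 0, 0⟩ 0 0))))) (.pos 40 .mp ⟨⟨127094315, 0, 0, 0, 0, 0, 0, 0, 0, ⟨0, 0⟩, 0⟩, 0, 0⟩ 0 0)) (.cut .v 16842752 (.cut .d (-16384) (.cut .d (-24576) (.void 39 ⟨⟨0, 0, 0, 0, 0, 100000, 0, 0, 0, ⟨0, 0⟩, 0⟩, 0, 0⟩ 0 0) (.cut .l 123033 (.void 39 ⟨⟨0, 0, 0, 0, 0, 100000, 0, 0, 0, ⟨0, 0⟩, 0⟩, 0, 0⟩ 0 0) (.cut .l 184549 (.void 39 ⟨⟨0, 0, 0, 0, 0, 100000, 0, 0, 0, ⟨0, 0⟩, 0⟩, 0, 0⟩ 0 0) (.cut .v 16809984 (.pos 49 .mp ⟨⟨0, 0, 0, 0, 0, 192232379, 0, 0, 0, ⟨0, 0⟩,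 0⟩, 0, 0⟩ 0 0) (.cut .v 16826368 (.cut .d (-20480) (.pos 99 .mp ⟨⟨94864720, 0, 0, 0, 0, 57053360, 0, 0, 0, ⟨0, 0⟩, 0⟩, 0, 0⟩ 0 0) (.cut .s 10633216 (.cut .s 10608640 (.pos 99 .mp ⟨⟨96915254, 0, 0, 0, 0, 44336557, 0, 0, 0, ⟨0, 0⟩, 0⟩, 0, 0⟩ 0 0) (.pos 99 .mp ⟨⟨98481840, 0, 0, 0, 0, 44907185, 0, 0, 0, ⟨0, 0⟩, 0⟩, 0, 0⟩ 0 0)) (.cut .s 10657792 (.pos 99 .mp ⟨⟨100072516, 0, 0, 0, 0, 45498837, 0, 0, 0, ⟨0, 0⟩, 0⟩, 0, 0⟩ 0 0) (.pos 99 .mp ⟨⟨101687543, 0, 0, 0, 0, 46111256, 0, 0, 0, ⟨0, 0⟩, 0⟩, 0, 0⟩ 0 0)))) (.pos 100 .mp ⟨⟨134884026, 0, 0, 0, 0, 0, 0, 0, 0, ⟨0, 0⟩, 0⟩, 0, 0⟩ 0 0)))))) (.cut .s 10633216 (.cut .s 10608640 (.cut .v 16809984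 (.cut .s 10596352 (.cut .l 123033 (.cut .d (-8192) (.pos 49 .mp ⟨⟨94053479, 0, 0, 0, 0, 48778318, 0, 0, 0, ⟨0, 0⟩, 0⟩, 0, 0⟩ 0 0) (.cut .s 10590208 (.pos 49 .mp ⟨⟨95448055, 0, 0, 0, 0, 44885978, 0, 0, 0, ⟨0, 0⟩, 0⟩, 0, 0⟩ 0 0) (.pos 49 .mp ⟨⟨95829313, 0, 0, 0, 0, 45030279, 0, 0, 0, ⟨0, 0⟩, 0⟩, 0, 0⟩ 0 0))) (.pos 49 .mp ⟨⟨93212586, 0, 0, 0, 0, 48076152, 0, 0, 0, ⟨0, 0⟩, 0⟩, 0, 0⟩ 0 0)) (.cut .l 123033 (.cut .d (-8192) (.pos 49 .mp ⟨⟨94807006, 0, 0, 0, 0, 49092208, 0, 0, 0, ⟨0, 0⟩, 0⟩, 0, 0⟩ 0 0) (.cut .s 10602496 (.pos 49 .mp ⟨⟨96212033, 0, 0, 0, 0, 45175987, 0, 0, 0, ⟨0, 0⟩, 0⟩, 0, 0⟩ 0 0) (.pos 49 .mp ⟨⟨96596218, 0, 0, 0, 0, 45323100,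 0, 0, 0, ⟨0, 0⟩, 0⟩, 0, 0⟩ 0 0))) (.pos 49 .mp ⟨⟨93956447, 0, 0, 0, 0, 48416023, 0, 0, 0, ⟨0, 0⟩, 0⟩, 0, 0⟩ 0 0))) (.pos 50 .mp ⟨⟨105680191, 0, 0, 0, 0, 31842992, 0, 0, 0, ⟨0, 0⟩, 0⟩, 0, 0⟩ 0 0)) (.cut .v 16809984 (.cut .s 10620928 (.cut .l 123033 (.cut .d (-8192) (.pos 49 .mp ⟨⟨95566298, 0, 0, 0, 0, 49413746, 0, 0, 0, ⟨0, 0⟩, 0⟩, 0, 0⟩ 0 0) (.cut .s 10614784 (.pos 49 .mp ⟨⟨96981873, 0, 0, 0, 0, 45471613, 0, 0, 0, ⟨0, 0⟩, 0⟩, 0, 0⟩ 0 0) (.pos 49 .mp ⟨⟨97369001, 0, 0, 0, 0, 45621523, 0, 0, 0, ⟨0, 0⟩, 0⟩, 0, 0⟩ 0 0))) (.pos 49 .mp ⟨⟨94705958, 0, 0, 0, 0, 48759429, 0, 0, 0, ⟨0, 0⟩, 0⟩, 0, 0⟩ 0 0)) (.cut .l 123033 (.cut .d (-8192) (.pos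 49 .mp ⟨⟨96331385, 0, 0, 0, 0, 49742985, 0, 0, 0, ⟨0, 0⟩, 0⟩, 0, 0⟩ 0 0) (.cut .s 10627072 (.pos 49 .mp ⟨⟨97757607, 0, 0, 0, 0, 45772827, 0, 0, 0, ⟨0, 0⟩, 0⟩, 0, 0⟩ 0 0) (.pos 49 .mp ⟨⟨98147694, 0, 0, 0, 0, 45925520, 0, 0, 0, ⟨0, 0⟩, 0⟩, 0, 0⟩ 0 0))) (.pos 49 .mp ⟨⟨95461149, 0, 0, 0, 0, 49106262, 0, 0, 0, ⟨0, 0⟩, 0⟩, 0, 0⟩ 0 0))) (.pos 50 .mp ⟨⟨107244618, 0, 0, 0, 0, 32390671, 0, 0, 0, ⟨0, 0⟩, 0⟩, 0, 0⟩ 0 0))) (.cut .s 10657792 (.cut .s 10645504 (.cut .v 16809984 (.cut .l 123033 (.cut .d (-8192) (.pos 49 .mp ⟨⟨97102299, 0, 0, 0, 0, 50079979, 0, 0, 0, ⟨0, 0⟩, 0⟩, 0, 0⟩ 0 0) (.cut .s 10639360 (.pos 49 .mp ⟨⟨98539267, 0, 0, 0, 0, 46079599,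 0, 0, 0, ⟨0, 0⟩, 0⟩, 0, 0⟩ 0 0) (.pos 49 .mp ⟨⟨98932329, 0, 0, 0, 0, 46235060, 0, 0, 0, ⟨0, 0⟩, 0⟩, 0, 0⟩ 0 0))) (.pos 49 .mp ⟨⟨96222051, 0, 0, 0, 0, 49456415, 0, 0, 0, ⟨0, 0⟩, 0⟩, 0, 0⟩ 0 0)) (.pos 50 .mp ⟨⟨104693856, 0, 0, 0, 0, 38194403, 0, 0, 0, ⟨0, 0⟩, 0⟩, 0, 0⟩ 0 0)) (.cut .v 16809984 (.cut .l 123033 (.cut .d (-8192) (.pos 49 .mp ⟨⟨97879071, 0, 0, 0, 0, 50424783, 0, 0, 0, ⟨0, 0⟩, 0⟩, 0, 0⟩ 0 0) (.cut .s 10651648 (.pos 49 .mp ⟨⟨99326884, 0, 0, 0, 0, 46391900, 0, 0, 0, ⟨0, 0⟩, 0⟩, 0, 0⟩ 0 0) (.pos 49 .mp ⟨⟨99722937, 0, 0, 0, 0, 46550114, 0, 0, 0, ⟨0, 0⟩, 0⟩, 0, 0⟩ 0 0))) (.pos 49 .mp ⟨⟨96988693, 0, 0, 0, 0, 49809780, 0, 0, 0,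 ⟨0, 0⟩, 0⟩, 0, 0⟩ 0 0)) (.pos 50 .mp ⟨⟨105503314, 0, 0, 0, 0, 38476590, 0, 0, 0, ⟨0, 0⟩, 0⟩, 0, 0⟩ 0 0))) (.cut .s 10670080 (.cut .v 16809984 (.cut .l 123033 (.cut .d (-8192) (.pos 49 .mp ⟨⟨98661733, 0, 0, 0, 0, 50777453, 0, 0, 0, ⟨0, 0⟩, 0⟩, 0, 0⟩ 0 0) (.cut .s 10663936 (.pos 49 .mp ⟨⟨100120491, 0, 0, 0, 0, 46709699, 0, 0, 0, ⟨0, 0⟩, 0⟩, 0, 0⟩ 0 0) (.pos 49 .mp ⟨⟨100519551, 0, 0, 0, 0, 46870651, 0, 0, 0, ⟨0, 0⟩, 0⟩, 0, 0⟩ 0 0))) (.pos 49 .mp ⟨⟨97761108, 0, 0, 0, 0, 50166249, 0, 0, 0, ⟨0, 0⟩, 0⟩, 0, 0⟩ 0 0)) (.pos 50 .mp ⟨⟨106336249, 0, 0, 0, 0, 38739320, 0, 0, 0, ⟨0, 0⟩, 0⟩, 0, 0⟩ 0 0)) (.cut .v 16809984 (.cut .l 123033 (.cut .d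 (-8192) (.pos 49 .mp ⟨⟨99450315, 0, 0, 0, 0, 51138044, 0, 0, 0, ⟨0, 0⟩, 0⟩, 0, 0⟩ 0 0) (.cut .s 10676224 (.pos 49 .mp ⟨⟨100920120, 0, 0, 0, 0, 47032966, 0, 0, 0, ⟨0, 0⟩, 0⟩, 0, 0⟩ 0 0) (.pos 49 .mp ⟨⟨101322203, 0, 0, 0, 0, 47196640, 0, 0, 0, ⟨0, 0⟩, 0⟩, 0, 0⟩ 0 0))) (.pos 49 .mp ⟨⟨98539325, 0, 0, 0, 0, 50525711, 0, 0, 0, ⟨0, 0⟩, 0⟩, 0, 0⟩ 0 0)) (.pos 50 .mp ⟨⟨107193298, 0, 0, 0, 0, 38981637, 0, 0, 0, ⟨0, 0⟩, 0⟩, 0, 0⟩ 0 0)))))) (.pos 40 .mp ⟨⟨134765442, 0, 0, 0, 0, 0, 0, 0, 0, ⟨0, 0⟩, 0⟩, 0, 0⟩ 0 0))) (.cut .s 10780672 (.cut .v 16842752 (.cut .d (-16384) (.cut .d (-24576) (.void 39 ⟨⟨0, 0, 0, 0, 0, 100000, 0, 0, 0, ⟨0, 0⟩, 0⟩, 0,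 0⟩ 0 0) (.cut .d (-20480) (.pos 39 .mp ⟨⟨101382255, 0, 0, 0, 0, 62204071, 0, 0, 0, ⟨0, 0⟩, 0⟩, 0, 0⟩ 0 0) (.cut .l 123033 (.void 39 ⟨⟨0, 0, 0, 0, 0, 100000, 0, 0, 0, ⟨0, 0⟩, 0⟩, 0, 0⟩ 0 0) (.cut .v 16809984 (.pos 49 .mp ⟨⟨0, 0, 0, 0, 0, 212204965, 0, 0, 0, ⟨0, 0⟩, 0⟩, 0, 0⟩ 0 0) (.cut .l 184549 (.void 50 ⟨⟨100000, 0, 0, 0, 0, 0, 0, 0, 0, ⟨0, 0⟩, 0⟩, 0, 0⟩ 0 0) (.cut .s 10731520 (.cut .s 10706944 (.pos 50 .mp ⟨⟨103529801, 0, 0, 0, 0, 46454586, 0, 0, 0, ⟨0, 0⟩, 0⟩, 0, 0⟩ 0 0) (.pos 50 .mp ⟨⟨105197309, 0, 0, 0, 0, 47102983, 0, 0, 0, ⟨0, 0⟩, 0⟩, 0, 0⟩ 0 0)) (.pos 50 .mp ⟨⟨108608207, 0, 0, 0, 0, 46676217, 0, 0, 0, ⟨0, 0⟩, 0⟩, 0, 0⟩ 0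 0))))))) (.cut .s 10731520 (.cut .s 10706944 (.cut .s 10694656 (.cut .v 16809984 (.cut .l 123033 (.cut .d (-8192) (.pos 49 .mp ⟨⟨100244852, 0, 0, 0, 0, 51506612, 0, 0, 0, ⟨0, 0⟩, 0⟩, 0, 0⟩ 0 0) (.cut .s 10688512 (.pos 49 .mp ⟨⟨101725803, 0, 0, 0, 0, 47361669, 0, 0, 0, ⟨0, 0⟩, 0⟩, 0, 0⟩ 0 0) (.pos 49 .mp ⟨⟨102130926, 0, 0, 0, 0, 47528049, 0, 0, 0, ⟨0, 0⟩, 0⟩, 0, 0⟩ 0 0))) (.pos 49 .mp ⟨⟨99323378, 0, 0, 0, 0, 50888059, 0, 0, 0, ⟨0, 0⟩, 0⟩, 0, 0⟩ 0 0)) (.pos 50 .mp ⟨⟨108075104, 0, 0, 0, 0, 39202571, 0, 0, 0, ⟨0, 0⟩, 0⟩, 0, 0⟩ 0 0)) (.cut .v 16809984 (.cut .l 123033 (.cut .d (-8192) (.pos 49 .mp ⟨⟨101045374, 0, 0, 0, 0, 51883214, 0,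 0, 0, ⟨0, 0⟩, 0⟩, 0, 0⟩ 0 0) (.cut .s 10700800 (.pos 49 .mp ⟨⟨102537574, 0, 0, 0, 0, 47695776, 0, 0, 0, ⟨0, 0⟩, 0⟩, 0, 0⟩ 0 0) (.pos 49 .mp ⟨⟨102945753, 0, 0, 0, 0, 47864846, 0, 0, 0, ⟨0, 0⟩, 0⟩, 0, 0⟩ 0 0))) (.pos 49 .mp ⟨⟨100113297, 0, 0, 0, 0, 51253184, 0, 0, 0, ⟨0, 0⟩, 0⟩, 0, 0⟩ 0 0)) (.pos 50 .mp ⟨⟨108982311, 0, 0, 0, 0, 39401151, 0, 0, 0, ⟨0, 0⟩, 0⟩, 0, 0⟩ 0 0))) (.cut .v 16809984 (.cut .s 10719232 (.cut .l 123033 (.cut .d (-8192) (.pos 49 .mp ⟨⟨101851915, 0, 0, 0, 0, 52267906, 0, 0, 0, ⟨0, 0⟩, 0⟩, 0, 0⟩ 0 0) (.cut .s 10713088 (.pos 49 .mp ⟨⟨103355466, 0, 0, 0, 0, 48035255, 0, 0, 0, ⟨0, 0⟩, 0⟩, 0, 0⟩ 0 0) (.pos 49 .mp ⟨⟨103766717,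 0, 0, 0, 0, 48206998, 0, 0, 0, ⟨0, 0⟩, 0⟩, 0, 0⟩ 0 0))) (.pos 49 .mp ⟨⟨100909114, 0, 0, 0, 0, 51620974, 0, 0, 0, ⟨0, 0⟩, 0⟩, 0, 0⟩ 0 0)) (.cut .l 123033 (.cut .d (-8192) (.pos 49 .mp ⟨⟨102664507, 0, 0, 0, 0, 52660747, 0, 0, 0, ⟨0, 0⟩, 0⟩, 0, 0⟩ 0 0) (.cut .s 10725376 (.pos 49 .mp ⟨⟨104179512, 0, 0, 0, 0, 48380072, 0, 0, 0, ⟨0, 0⟩, 0⟩, 0, 0⟩ 0 0) (.pos 49 .mp ⟨⟨104593853, 0, 0, 0, 0, 48554472, 0, 0, 0, ⟨0, 0⟩, 0⟩, 0, 0⟩ 0 0))) (.pos 49 .mp ⟨⟨101710862, 0, 0, 0, 0, 51991321, 0, 0, 0, ⟨0, 0⟩, 0⟩, 0, 0⟩ 0 0))) (.pos 50 .mp ⟨⟨114421678, 0, 0, 0, 0, 33827750, 0, 0, 0, ⟨0, 0⟩, 0⟩, 0, 0⟩ 0 0))) (.cut .s 10756096 (.cut .v 16809984 (.cut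 .s 10743808 (.cut .l 123033 (.cut .d (-8192) (.pos 49 .mp ⟨⟨103483183, 0, 0, 0, 0, 53061794, 0, 0, 0, ⟨0, 0⟩, 0⟩, 0, 0⟩ 0 0) (.cut .s 10737664 (.pos 49 .mp ⟨⟨105009746, 0, 0, 0, 0, 48730194, 0, 0, 0, ⟨0, 0⟩, 0⟩, 0, 0⟩ 0 0) (.pos 49 .mp ⟨⟨105427194, 0, 0, 0, 0, 48907234, 0, 0, 0, ⟨0, 0⟩, 0⟩, 0, 0⟩ 0 0))) (.pos 49 .mp ⟨⟨102518574, 0, 0, 0, 0, 52364114, 0, 0, 0, ⟨0, 0⟩, 0⟩, 0, 0⟩ 0 0)) (.cut .l 123033 (.cut .d (-8192) (.pos 49 .mp ⟨⟨104307978, 0, 0, 0, 0, 53471105, 0, 0, 0, ⟨0, 0⟩, 0⟩, 0, 0⟩ 0 0) (.cut .s 10749952 (.pos 49 .mp ⟨⟨105846201, 0, 0, 0, 0, 49085587, 0, 0, 0, ⟨0, 0⟩, 0⟩, 0, 0⟩ 0 0) (.pos 49 .mp ⟨⟨106266773, 0, 0, 0, 0, 49265250,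 0, 0, 0, ⟨0, 0⟩, 0⟩, 0, 0⟩ 0 0))) (.pos 49 .mp ⟨⟨103332281, 0, 0, 0, 0, 52739243, 0, 0, 0, ⟨0, 0⟩, 0⟩, 0, 0⟩ 0 0))) (.pos 50 .mp ⟨⟨116471332, 0, 0, 0, 0, 33960148, 0, 0, 0, ⟨0, 0⟩, 0⟩, 0, 0⟩ 0 0)) (.cut .v 16809984 (.cut .s 10768384 (.cut .l 123033 (.cut .d (-8192) (.pos 49 .mp ⟨⟨105138924, 0, 0, 0, 0, 53888739, 0, 0, 0, ⟨0, 0⟩, 0⟩, 0, 0⟩ 0 0) (.cut .s 10762240 (.pos 49 .mp ⟨⟨106688914, 0, 0, 0, 0, 49446217, 0, 0, 0, ⟨0, 0⟩, 0⟩, 0, 0⟩ 0 0) (.pos 49 .mp ⟨⟨107112627, 0, 0, 0, 0, 49628484, 0, 0, 0, ⟨0, 0⟩, 0⟩, 0, 0⟩ 0 0))) (.pos 49 .mp ⟨⟨104152018, 0, 0, 0, 0, 53116595, 0, 0, 0, ⟨0, 0⟩, 0⟩, 0, 0⟩ 0 0)) (.cut .l 123033 (.cut .d (-8192)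 (.pos 49 .mp ⟨⟨105976056, 0, 0, 0, 0, 54314755, 0, 0, 0, ⟨0, 0⟩, 0⟩, 0, 0⟩ 0 0) (.cut .s 10774528 (.pos 49 .mp ⟨⟨107537917, 0, 0, 0, 0, 49812047, 0, 0, 0, ⟨0, 0⟩, 0⟩, 0, 0⟩ 0 0) (.pos 49 .mp ⟨⟨107964789, 0, 0, 0, 0, 49996901, 0, 0, 0, ⟨0, 0⟩, 0⟩, 0, 0⟩ 0 0))) (.pos 49 .mp ⟨⟨104977817, 0, 0, 0, 0, 53496061, 0, 0, 0, ⟨0, 0⟩, 0⟩, 0, 0⟩ 0 0))) (.pos 50 .mp ⟨⟨118633548, 0, 0, 0, 0, 33985973, 0, 0, 0, ⟨0, 0⟩, 0⟩, 0, 0⟩ 0 0))))) (.pos 40 .mp ⟨⟨142930150, 0, 0, 0, 0, 0, 0, 0, 0, ⟨0, 0⟩, 0⟩, 0, 0⟩ 0 0)) (.cut .v 16842752 (.cut .d (-16384) (.cut .d (-24576) (.void 39 ⟨⟨0, 0, 0, 0, 0, 100000, 0, 0, 0, ⟨0, 0⟩, 0⟩, 0, 0⟩ 0 0) (.cut .d (-20480)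 (.pos 39 .mp ⟨⟨107613371, 0, 0, 0, 0, 71660174, 0, 0, 0, ⟨0, 0⟩, 0⟩, 0, 0⟩ 0 0) (.cut .l 123033 (.void 39 ⟨⟨0, 0, 0, 0, 0, 100000, 0, 0, 0, ⟨0, 0⟩, 0⟩, 0, 0⟩ 0 0) (.cut .s 10829824 (.cut .s 10805248 (.pos 39 .mp ⟨⟨107107330, 0, 0, 0, 0, 55809631, 0, 0, 0, ⟨0, 0⟩, 0⟩, 0, 0⟩ 0 0) (.pos 39 .mp ⟨⟨108824447, 0, 0, 0, 0, 56710389, 0, 0, 0, ⟨0, 0⟩, 0⟩, 0, 0⟩ 0 0)) (.pos 39 .mp ⟨⟨110567095, 0, 0, 0, 0, 60301425, 0, 0, 0, ⟨0, 0⟩, 0⟩, 0, 0⟩ 0 0))))) (.cut .s 10829824 (.cut .s 10805248 (.cut .v 16809984 (.cut .s 10792960 (.cut .l 123033 (.cut .d (-8192) (.pos 49 .mp ⟨⟨106819407, 0, 0, 0, 0, 54749213, 0, 0, 0, ⟨0, 0⟩, 0⟩, 0, 0⟩ 0 0) (.cut .s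 10786816 (.pos 49 .mp ⟨⟨108381588, 0, 0, 0, 0, 50202514, 0, 0, 0, ⟨0, 0⟩, 0⟩, 0, 0⟩ 0 0) (.pos 49 .mp ⟨⟨108789420, 0, 0, 0, 0, 50427057, 0, 0, 0, ⟨0, 0⟩, 0⟩, 0, 0⟩ 0 0))) (.pos 49 .mp ⟨⟨105809712, 0, 0, 0, 0, 53877528, 0, 0, 0, ⟨0, 0⟩, 0⟩, 0, 0⟩ 0 0)) (.cut .d (-8192) (.pos 49 .mp ⟨⟨108098167, 0, 0, 0, 0, 53431528, 0, 0, 0, ⟨0, 0⟩, 0⟩, 0, 0⟩ 0 0) (.cut .s 10799104 (.pos 49 .mp ⟨⟨109164297, 0, 0, 0, 0, 50766198, 0, 0, 0, ⟨0, 0⟩, 0⟩, 0, 0⟩ 0 0) (.pos 49 .mp ⟨⟨109640663, 0, 0, 0, 0, 50899359, 0, 0, 0, ⟨0, 0⟩, 0⟩, 0, 0⟩ 0 0)))) (.pos 50 .mp ⟨⟨120913628, 0, 0, 0, 0, 33897088, 0, 0, 0, ⟨0, 0⟩, 0⟩, 0, 0⟩ 0 0)) (.cut .v 16809984 (.cut .s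 10817536 (.cut .s 10811392 (.pos 49 .mp ⟨⟨109084243, 0, 0, 0, 0, 52746043, 0, 0, 0, ⟨0, 0⟩, 0⟩, 0, 0⟩ 0 0) (.pos 49 .mp ⟨⟨109583410, 0, 0, 0, 0, 52842543, 0, 0, 0, ⟨0, 0⟩, 0⟩, 0, 0⟩ 0 0)) (.cut .s 10823680 (.pos 49 .mp ⟨⟨110087821, 0, 0, 0, 0, 52934583, 0, 0, 0, ⟨0, 0⟩, 0⟩, 0, 0⟩ 0 0) (.pos 49 .mp ⟨⟨110704333, 0, 0, 0, 0, 52855623, 0, 0, 0, ⟨0, 0⟩, 0⟩, 0, 0⟩ 0 0))) (.pos 50 .mp ⟨⟨123316933, 0, 0, 0, 0, 33685218, 0, 0, 0, ⟨0, 0⟩, 0⟩, 0, 0⟩ 0 0))) (.cut .s 10854400 (.cut .v 16809984 (.cut .l 123033 (.cut .d (-8192) (.pos 49 .mp ⟨⟨110255710, 0, 0, 0, 0, 58154274, 0, 0, 0, ⟨0, 0⟩, 0⟩, 0, 0⟩ 0 0) (.cut .v 16793600 (.cut .l 61516 (.cut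 .d (-4096) (.pos 55 .mp ⟨⟨110101176, 0, 0, 0, 0, 58144679, 0, 0, 0, ⟨0, 0⟩, 0⟩, 0, 0⟩ 0 0) (.cut .s 10842112 (.cut .s 10835968 (.pos 55 .mp ⟨⟨111903341, 0, 0, 0, 0, 51724234, 0, 0, 0, ⟨0, 0⟩, 0⟩, 0, 0⟩ 0 0) (.pos 55 .mp ⟨⟨112399053, 0, 0, 0, 0, 51849592, 0, 0, 0, ⟨0, 0⟩, 0⟩, 0, 0⟩ 0 0)) (.pos 55 .mp ⟨⟨112451214, 0, 0, 0, 0, 52870350, 0, 0, 0, ⟨0, 0⟩, 0⟩, 0, 0⟩ 0 0))) (.pos 55 .mp ⟨⟨109573110, 0, 0, 0, 0, 55103912, 0, 0, 0, ⟨0, 0⟩, 0⟩, 0, 0⟩ 0 0)) (.pos 56 .mp ⟨⟨126489019, 0, 0, 0, 0, 32081554, 0, 0, 0, ⟨0, 0⟩, 0⟩, 0, 0⟩ 0 0))) (.pos 49 .mp ⟨⟨109198937, 0, 0, 0, 0, 56021259, 0, 0, 0, ⟨0, 0⟩, 0⟩, 0, 0⟩ 0 0)) (.pos 50 .mp ⟨⟨125848883,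 0, 0, 0, 0, 33341953, 0, 0, 0, ⟨0, 0⟩, 0⟩, 0, 0⟩ 0 0)) (.cut .v 16809984 (.cut .l 123033 (.cut .d (-8192) (.pos 49 .mp ⟨⟨112012094, 0, 0, 0, 0, 59150368, 0, 0, 0, ⟨0, 0⟩, 0⟩, 0, 0⟩ 0 0) (.cut .v 16793600 (.cut .s 10866688 (.cut .s 10860544 (.pos 55 .mp ⟨⟨114713088, 0, 0, 0, 0, 51016644, 0, 0, 0, ⟨0, 0⟩, 0⟩, 0, 0⟩ 0 0) (.pos 55 .mp ⟨⟨115258258, 0, 0, 0, 0, 51083428, 0, 0, 0, ⟨0, 0⟩, 0⟩, 0, 0⟩ 0 0)) (.pos 55 .mp ⟨⟨113752559, 0, 0, 0, 0, 54553608, 0, 0, 0, ⟨0, 0⟩, 0⟩, 0, 0⟩ 0 0)) (.pos 56 .mp ⟨⟨129169034, 0, 0, 0, 0, 31569912, 0, 0, 0, ⟨0, 0⟩, 0⟩, 0, 0⟩ 0 0))) (.pos 49 .mp ⟨⟨110931022, 0, 0, 0, 0, 56809489, 0, 0, 0, ⟨0, 0⟩, 0⟩, 0,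 0⟩ 0 0)) (.pos 50 .mp ⟨⟨128514960, 0, 0, 0, 0, 32858742, 0, 0, 0, ⟨0, 0⟩, 0⟩, 0, 0⟩ 0 0))))) (.pos 40 .mp ⟨⟨151558161, 0, 0, 0, 0, 0, 0, 0, 0, ⟨0, 0⟩, 0⟩, 0, 0⟩ 0 0)))) (.pos 38 .mp ⟨⟨147028850, 0, 0, 0, 0, 0, 0, 0, 0, ⟨0, 0⟩, 0⟩, 0, 0⟩ 0 0)))))) (.void 36 ⟨⟨100000, 0, 0, 0, 0, 0, 0, 0, 0, ⟨0, 0⟩, 0⟩, 0, 0⟩ 0 0))) (.void 34 ⟨⟨100000, 0, 0, 0, 0, 0, 0, 0, 0, ⟨0, 0⟩, 0⟩, 0, 0⟩ 0 0))) (.void 32 ⟨⟨100000, 0, 0, 0, 0, 0, 0, 0, 0, ⟨0, 0⟩, 0⟩, 0, 0⟩ 0 0))) (.void 30 ⟨⟨100000, 0, 0, 0, 0, 0, 0, 0, 0, ⟨0, 0⟩, 0⟩, 0, 0⟩ 0 0))) (.void 28 ⟨⟨100000, 0, 0, 0, 0, 0, 0, 0, 0, ⟨0, 0⟩, 0⟩, 0, 0⟩ 0 0))) (.void 26 ⟨⟨100000, 0, 0, 0, 0, 0, 0, 0, 0,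 ⟨0, 0⟩, 0⟩, 0, 0⟩ 0 0)) (.void 91 ⟨⟨100000, 0, 0, 0, 0, 0, 0, 0, 0, ⟨0, 0⟩, 0⟩, 0, 0⟩ 0 0)) (.void 98 ⟨⟨100000, 0, 0, 0, 0, 0, 0, 0, 0, ⟨0, 0⟩, 0⟩, 0, 0⟩ 0 0))) (.cut .v 16777216 (.cut .v 8388608 (.cut .v 4194304 (.void 4 ⟨⟨0, 0, 66667, 0, 0, 0, 0, 0, 0, ⟨0, 0⟩, 0⟩, 0, 33333⟩ 0 0) (.pos 5 .pm ⟨⟨0, 0, 2004051, 0, 0, 0, 0, 0, 0, ⟨0, 0⟩, 0⟩, 0, 0⟩ 0 0)) (.pos 3 .pm ⟨⟨0, 0, 0, 0, 0, 0, 0, 0, 0, ⟨0, 0⟩, 0⟩, 0, 0⟩ 0 0)) (.cut .v 67108864 (.cut .d 5033166 (.cut .d 2516583 (.cut .v 33554432 (.cut .v 25165824 (.cut .d 1258291 (.cut .d 629145 (.cut .v 20971520 (.cut .d 314572 (.cut .v 18874368 (.cut .v 17825792 (.cut .s 10682368 (.pos 31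 .pp ⟨⟨96318607, 0, 0, 0, 0, 0, 0, 0, 0, ⟨0, 0⟩, 0⟩, 2424604, 0⟩ 0 0) (.pos 31 .pp ⟨⟨111622600, 0, 0, 0, 0, 0, 0, 0, 0, ⟨0, 0⟩, 0⟩, 2379785, 0⟩ 0 0)) (.pos 32 .pp ⟨⟨143927145, 0, 0, 0, 0, 0, 0, 0, 0, ⟨0, 0⟩, 0⟩, 0, 0⟩ 0 0)) (.pos 30 .pp ⟨⟨180712305, 0, 0, 0, 0, 0, 0, 0, 0, ⟨0, 0⟩, 0⟩, 0, 0⟩ 0 0)) (.pos 27 .pp ⟨⟨107880041, 0, 0, 0, 0, 0, 0, 0, 0, ⟨0, 0⟩, 0⟩, 0, 41784⟩ 0 0)) (.cut .d 314572 (.void 28 ⟨⟨0, 0, 0, 0, 0, 0, 0, 0, 0, ⟨0, 0⟩, 0⟩, 100000, 0⟩ 0 0) (.pos 28 .pp ⟨⟨0, 0, 0, 0, 0, 0, 0, 0, 0, ⟨0, 0⟩, 0⟩, 19525493, 0⟩ 0 0))) (.cut .v 20971520 (.pos 27 .pp ⟨⟨0, 0, 0, 0, 0, 0, 0, 0, 0, ⟨0, 0⟩, 0⟩, 0, 557160⟩ 0 0) (.pos 28 .pp ⟨⟨0,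 0, 0, 0, 0, 0, 244930, 0, 0, ⟨0, 0⟩, 0⟩, 13523411, 0⟩ 0 0))) (.pos 25 .pp ⟨⟨0, 0, 0, 0, 0, 0, 0, 0, 0, ⟨0, 0⟩, 0⟩, 0, 601733⟩ 0 0)) (.cut .d 1258291 (.cut .d 629145 (.void 26 ⟨⟨0, 0, 0, 0, 0, 0, 0, 0, 0, ⟨0, 0⟩, 0⟩, 100000, 0⟩ 0 0) (.pos 26 .pp ⟨⟨0, 0, 0, 0, 0, 0, 0, 0, 0, ⟨0, 0⟩, 0⟩, 23841060, 0⟩ 0 0)) (.pos 26 .pp ⟨⟨0, 0, 0, 0, 0, 0, 262569, 0, 0, ⟨0, 0⟩, 0⟩, 13876075, 0⟩ 0 0))) (.cut .d 1258291 (.void 91 ⟨⟨0, 0, 0, 0, 0, 0, 0, 0, 0, ⟨0, 0⟩, 0⟩, 100000, 0⟩ 0 0) (.pos 91 .pp ⟨⟨0, 0, 0, 0, 0, 0, 0, 0, 0, ⟨0, 0⟩, 0⟩, 40090390, 0⟩ 0 0))) (.cut .v 33554432 (.pos 24 .pp ⟨⟨0, 0, 0, 0, 0, 0, 0, 0, 0, ⟨0, 0⟩, 0⟩, 0, 668592⟩ 0 0) (.pos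 91 .pp ⟨⟨0, 0, 0, 0, 0, 0, 0, 0, 0, ⟨0, 0⟩, 0⟩, 18939539, 0⟩ 0 0))) (.pos 90 .pp ⟨⟨0, 0, 0, 0, 0, 0, 0, 0, 0, ⟨0, 0⟩, 0⟩, 0, 49330711⟩ 0 0)) (.void 98 ⟨⟨0, 0, 0, 42447, 0, 0, 0, 0, 0, ⟨0, 0⟩, 0⟩, 57552, 0⟩ 0 0)))),
    by decide +kernel⟩

def covers15 : cell.Covers Vale.Agent.P237.Petty.Cor.Grid.N15.table row15.1 :=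
  ⟨(.cut .d 0 (.cut .v 16777216 (.cut .d (-8388608) (.void 1 ⟨⟨0, 0, 0, 0, 0, 100000, 0, 0, 0, ⟨0, 0⟩, 0⟩, 0, 0⟩ 0 0) (.cut .d (-4194304) (.void 1 ⟨⟨0, 0, 0, 0, 0, 100000, 0, 0, 0, ⟨0, 0⟩, 0⟩, 0, 0⟩ 0 0) (.cut .d (-2097152) (.void 1 ⟨⟨0, 0, 0, 0, 0, 100000, 0, 0, 0, ⟨0, 0⟩, 0⟩, 0, 0⟩ 0 0) (.cut .d (-1048576) (.void 1 ⟨⟨0, 0, 0, 0, 0, 100000, 0, 0, 0, ⟨0, 0⟩, 0⟩, 0, 0⟩ 0 0) (.cut .d (-524288) (.void 1 ⟨⟨0, 0, 0, 0, 0, 100000, 0, 0, 0, ⟨0, 0⟩, 0⟩, 0, 0⟩ 0 0) (.cut .d (-262144) (.void 1 ⟨⟨0, 0, 0, 0, 0, 100000, 0, 0, 0, ⟨0, 0⟩, 0⟩, 0, 0⟩ 0 0) (.cut .d (-131072) (.void 1 ⟨⟨0, 0, 0, 0, 0, 100000, 0, 0, 0, ⟨0, 0⟩, 0⟩, 0, 0⟩ 0 0) (.cut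 .d (-65536) (.void 1 ⟨⟨0, 0, 0, 0, 0, 100000, 0, 0, 0, ⟨0, 0⟩, 0⟩, 0, 0⟩ 0 0) (.cut .d (-32768) (.void 1 ⟨⟨0, 0, 0, 0, 0, 100000, 0, 0, 0, ⟨0, 0⟩, 0⟩, 0, 0⟩ 0 0) (.cut .v 8388608 (.cut .v 4194304 (.void 4 ⟨⟨0, 0, 100000, 0, 0, 0, 0, 0, 0, ⟨0, 0⟩, 0⟩, 0, 0⟩ 0 0) (.pos 5 .mm ⟨⟨0, 0, 2950327, 0, 0, 79668243, 0, 0, 0, ⟨0, 0⟩, 0⟩, 0, 0⟩ 0 0)) (.cut .d (-16384) (.pos 3 .mm ⟨⟨0, 0, 0, 0, 0, 296293761, 0, 0, 0, ⟨0, 0⟩, 0⟩, 0, 0⟩ 0 0) (.cut .l 123033 (.cut .d (-8192) (.pos 3 .mm ⟨⟨0, 0, 0, 0, 0, 296226180, 0, 0, 0, ⟨0, 0⟩, 0⟩, 0, 0⟩ 0 0) (.cut .l 61516 (.cut .d (-4096) (.pos 3 .mm ⟨⟨0, 0, 0, 0, 0, 296192868, 0, 0, 0, ⟨0, 0⟩, 0⟩, 0, 0⟩ 0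 0) (.cut .l 30758 (.cut .d (-2048) (.pos 3 .mm ⟨⟨0, 0, 0, 0, 0, 296175972, 0, 0, 0, ⟨0, 0⟩, 0⟩, 0, 0⟩ 0 0) (.cut .v 12582912 (.pos 10 .mm ⟨⟨0, 0, 0, 0, 0, 135778345, 0, 0, 0, ⟨0, 0⟩, 0⟩, 0, 0⟩ 0 0) (.cut .v 14680064 (.pos 14 .mm ⟨⟨0, 0, 0, 0, 0, 167177560, 0, 0, 0, ⟨0, 0⟩, 0⟩, 0, 0⟩ 0 0) (.cut .v 15728640 (.pos 22 .mm ⟨⟨0, 0, 0, 0, 0, 184054239, 0, 0, 0, ⟨0, 0⟩, 0⟩, 0, 0⟩ 0 0) (.cut .v 16252928 (.pos 41 .mm ⟨⟨0, 0, 0, 0, 0, 192786846, 0, 0, 0, ⟨0, 0⟩, 0⟩, 0, 0⟩ 0 0) (.cut .v 16515072 (.pos 47 .mm ⟨⟨0, 0, 0, 0, 0, 197226717, 0, 0, 0, ⟨0, 0⟩, 0⟩, 0, 0⟩ 0 0) (.cut .v 16646144 (.pos 51 .mm ⟨⟨0, 0, 0, 0, 0, 199465044, 0, 0, 0, ⟨0, 0⟩,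 0⟩, 0, 0⟩ 0 0) (.cut .v 16711680 (.pos 53 .mm ⟨⟨0, 0, 0, 0, 0, 200588805, 0, 0, 0, ⟨0, 0⟩, 0⟩, 0, 0⟩ 0 0) (.cut .v 16744448 (.pos 88 .mm ⟨⟨0, 0, 0, 0, 0, 219209271, 0, 0, 0, ⟨0, 0⟩, 0⟩, 0, 0⟩ 0 0) (.cut .v 16760832 (.pos 103 .mm ⟨⟨0, 0, 0, 0, 0, 241036452, 0, 0, 0, ⟨0, 0⟩, 0⟩, 0, 0⟩ 0 0) (.cut .v 16769024 (.pos 105 .mm ⟨⟨0, 0, 0, 0, 0, 247727053, 0, 0, 0, ⟨0, 0⟩, 0⟩, 0, 0⟩ 0 0) (.cut .v 16773120 (.pos 107 .mm ⟨⟨0, 0, 0, 0, 0, 251075297, 0, 0, 0, ⟨0, 0⟩, 0⟩, 0, 0⟩ 0 0) (.cut .l 15379 (.cut .d (-1024) (.pos 108 .mm ⟨⟨0, 0, 0, 0, 0, 296167525, 0, 0, 0, ⟨0, 0⟩, 0⟩, 0, 0⟩ 0 0) (.cut .v 16775168 (.pos 109 .mm ⟨⟨0, 0, 0, 0, 0, 251102086,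 0, 0, 0, ⟨0, 0⟩, 0⟩, 0, 0⟩ 0 0) (.cut .l 7689 (.cut .d (-512) (.pos 110 .mm ⟨⟨0, 0, 0, 0, 0, 296167122, 0, 0, 0, ⟨0, 0⟩, 0⟩, 0, 0⟩ 0 0) (.cut .v 16776192 (.pos 111 .mm ⟨⟨0, 0, 0, 0, 0, 251117785, 0, 0, 0, ⟨0, 0⟩, 0⟩, 0, 0⟩ 0 0) (.cut .l 3844 (.cut .s 11108352 (.cut .s 10993664 (.pos 112 .mm ⟨⟨0, 0, 0, 0, 0, 227585961, 0, 0, 0, ⟨0, 0⟩, 0⟩, 0, 0⟩ 0 0) (.pos 112 .mm ⟨⟨0, 0, 0, 0, 0, 245574363, 0, 0, 0, ⟨0, 0⟩, 0⟩, 0, 0⟩ 0 0)) (.cut .s 11223040 (.pos 112 .mm ⟨⟨0, 0, 0, 0, 0, 265411958, 0, 0, 0, ⟨0, 0⟩, 0⟩, 0, 0⟩ 0 0) (.pos 112 .mm ⟨⟨0, 0, 0, 0, 0, 287137279, 0, 0, 0, ⟨0, 0⟩, 0⟩, 0, 0⟩ 0 0))) (.pos 112 .mm ⟨⟨0, 0, 0, 0, 0, 230957932,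 0, 0, 0, ⟨0, 0⟩, 0⟩, 0, 0⟩ 0 0)))) (.pos 110 .mm ⟨⟨0, 0, 0, 0, 0, 230964380, 0, 0, 0, ⟨0, 0⟩, 0⟩, 0, 0⟩ 0 0)))) (.pos 108 .mm ⟨⟨0, 0, 0, 0, 0, 230985737, 0, 0, 0, ⟨0, 0⟩, 0⟩, 0, 0⟩ 0 0)))))))))))))) (.pos 3 .mm ⟨⟨0, 0, 0, 0, 0, 231034094, 0, 0, 0, ⟨0, 0⟩, 0⟩, 0, 0⟩ 0 0))) (.pos 3 .mm ⟨⟨0, 0, 0, 0, 0, 231130807, 0, 0, 0, ⟨0, 0⟩, 0⟩, 0, 0⟩ 0 0))) (.pos 3 .mm ⟨⟨0, 0, 0, 0, 0, 231323880, 0, 0, 0, ⟨0, 0⟩, 0⟩, 0, 0⟩ 0 0))))))))))))) (.cut .v 67108864 (.cut .v 33554432 (.cut .v 25165824 (.cut .d (-8388608) (.void 25 ⟨⟨0, 0, 0, 0, 0, 100000, 0, 0, 0, ⟨0, 0⟩, 0⟩, 0, 0⟩ 0 0) (.cut .v 20971520 (.cut .d (-4194304) (.void 27 ⟨⟨100000, 0, 0,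 0, 0, 0, 0, 0, 0, ⟨0, 0⟩, 0⟩, 0, 0⟩ 0 0) (.cut .v 18874368 (.cut .d (-2097152) (.void 29 ⟨⟨100000, 0, 0, 0, 0, 0, 0, 0, 0, ⟨0, 0⟩, 0⟩, 0, 0⟩ 0 0) (.cut .d (-1048576) (.void 29 ⟨⟨100000, 0, 0, 0, 0, 0, 0, 0, 0, ⟨0, 0⟩, 0⟩, 0, 0⟩ 0 0) (.cut .v 17825792 (.cut .v 17301504 (.cut .d (-524288) (.void 33 ⟨⟨100000, 0, 0, 0, 0, 0, 0, 0, 0, ⟨0, 0⟩, 0⟩, 0, 0⟩ 0 0) (.cut .v 17039360 (.cut .d (-262144) (.void 35 ⟨⟨100000, 0, 0, 0, 0, 0, 0, 0, 0, ⟨0, 0⟩, 0⟩, 0, 0⟩ 0 0) (.cut .d (-131072) (.void 35 ⟨⟨100000, 0, 0, 0, 0, 0, 0, 0, 0, ⟨0, 0⟩, 0⟩, 0, 0⟩ 0 0) (.cut .d (-65536) (.void 35 ⟨⟨100000, 0, 0, 0, 0, 0, 0, 0, 0, ⟨0, 0⟩, 0⟩, 0, 0⟩ 0 0) (.cut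 .d (-32768) (.void 35 ⟨⟨0, 0, 0, 0, 0, 100000, 0, 0, 0, ⟨0, 0⟩, 0⟩, 0, 0⟩ 0 0) (.cut .s 11108352 (.cut .v 16908288 (.cut .d (-16384) (.cut .v 16842752 (.cut .d (-24576) (.void 39 ⟨⟨0, 0, 0, 0, 0, 100000, 0, 0, 0, ⟨0, 0⟩, 0⟩, 0, 0⟩ 0 0) (.cut .d (-20480) (.void 39 ⟨⟨0, 0, 0, 0, 0, 100000, 0, 0, 0, ⟨0, 0⟩, 0⟩, 0, 0⟩ 0 0) (.cut .l 123033 (.void 39 ⟨⟨0, 0, 0, 0, 0, 100000, 0, 0, 0, ⟨0, 0⟩, 0⟩, 0, 0⟩ 0 0) (.cut .l 184549 (.void 39 ⟨⟨0, 0, 0, 0, 0, 100000, 0, 0, 0, ⟨0, 0⟩, 0⟩, 0, 0⟩ 0 0) (.cut .v 16809984 (.pos 49 .mp ⟨⟨0, 0, 0, 0, 0, 248043515, 0, 0, 0, ⟨0, 0⟩, 0⟩, 0, 0⟩ 0 0) (.cut .v 16826368 (.cut .s 10993664 (.cut .s 10936320 (.pos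 99 .mp ⟨⟨114356381, 0, 0, 0, 0, 61752098, 0, 0, 0, ⟨0, 0⟩, 0⟩, 0, 0⟩ 0 0) (.pos 99 .mp ⟨⟨118667155, 0, 0, 0, 0, 63610372, 0, 0, 0, ⟨0, 0⟩, 0⟩, 0, 0⟩ 0 0)) (.cut .d (-18432) (.pos 99 .mp ⟨⟨123447170, 0, 0, 0, 0, 76510236, 0, 0, 0, ⟨0, 0⟩, 0⟩, 0, 0⟩ 0 0) (.cut .l 215307 (.pos 99 .mp ⟨⟨127059002, 0, 0, 0, 0, 71656412, 0, 0, 0, ⟨0, 0⟩, 0⟩, 0, 0⟩ 0 0) (.cut .s 11051008 (.pos 99 .mp ⟨⟨128438236, 0, 0, 0, 0, 53921728, 0, 0, 0, ⟨0, 0⟩, 0⟩, 0, 0⟩ 0 0) (.pos 99 .mp ⟨⟨133274569, 0, 0, 0, 0, 55609247, 0, 0, 0, ⟨0, 0⟩, 0⟩, 0, 0⟩ 0 0))))) (.pos 100 .mp ⟨⟨170312118, 0, 0, 0, 0, 0, 0, 0, 0, ⟨0, 0⟩, 0⟩, 0, 0⟩ 0 0))))))) (.pos 40 .mp ⟨⟨178669442,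 0, 0, 0, 0, 0, 0, 0, 0, ⟨0, 0⟩, 0⟩, 0, 0⟩ 0 0)) (.cut .s 10993664 (.cut .v 16842752 (.cut .s 10936320 (.cut .s 10907648 (.cut .v 16809984 (.cut .s 10893312 (.cut .s 10886144 (.pos 49 .mp ⟨⟨115862497, 0, 0, 0, 0, 52993905, 0, 0, 0, ⟨0, 0⟩, 0⟩, 0, 0⟩ 0 0) (.pos 49 .mp ⟨⟨116041238, 0, 0, 0, 0, 53718509, 0, 0, 0, ⟨0, 0⟩, 0⟩, 0, 0⟩ 0 0)) (.cut .s 10900480 (.pos 49 .mp ⟨⟨116230233, 0, 0, 0, 0, 54434151, 0, 0, 0, ⟨0, 0⟩, 0⟩, 0, 0⟩ 0 0) (.pos 49 .mp ⟨⟨116429695, 0, 0, 0, 0, 55140487, 0, 0, 0, ⟨0, 0⟩, 0⟩, 0, 0⟩ 0 0))) (.pos 50 .mp ⟨⟨132776716, 0, 0, 0, 0, 30392725, 0, 0, 0, ⟨0, 0⟩, 0⟩, 0, 0⟩ 0 0)) (.cut .v 16809984 (.cut .s 10921984 (.cut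 .s 10914816 (.pos 49 .mp ⟨⟨116686870, 0, 0, 0, 0, 55763521, 0, 0, 0, ⟨0, 0⟩, 0⟩, 0, 0⟩ 0 0) (.pos 49 .mp ⟨⟨117107480, 0, 0, 0, 0, 56137522, 0, 0, 0, ⟨0, 0⟩, 0⟩, 0, 0⟩ 0 0)) (.cut .d (-8192) (.pos 49 .mp ⟨⟨117575399, 0, 0, 0, 0, 57560277, 0, 0, 0, ⟨0, 0⟩, 0⟩, 0, 0⟩ 0 0) (.cut .s 10929152 (.pos 49 .mp ⟨⟨118718931, 0, 0, 0, 0, 54521004, 0, 0, 0, ⟨0, 0⟩, 0⟩, 0, 0⟩ 0 0) (.pos 49 .mp ⟨⟨119220418, 0, 0, 0, 0, 54763525, 0, 0, 0, ⟨0, 0⟩, 0⟩, 0, 0⟩ 0 0)))) (.pos 50 .mp ⟨⟨134568121, 0, 0, 0, 0, 31608783, 0, 0, 0, ⟨0, 0⟩, 0⟩, 0, 0⟩ 0 0))) (.cut .s 10964992 (.cut .v 16809984 (.cut .s 10950656 (.cut .l 123033 (.cut .d (-8192) (.pos 49 .mp ⟨⟨118066685,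 0, 0, 0, 0, 60266502, 0, 0, 0, ⟨0, 0⟩, 0⟩, 0, 0⟩ 0 0) (.cut .s 10943488 (.pos 49 .mp ⟨⟨119876659, 0, 0, 0, 0, 54722658, 0, 0, 0, ⟨0, 0⟩, 0⟩, 0, 0⟩ 0 0) (.pos 49 .mp ⟨⟨120429116, 0, 0, 0, 0, 54914658, 0, 0, 0, ⟨0, 0⟩, 0⟩, 0, 0⟩ 0 0))) (.pos 49 .mp ⟨⟨116900506, 0, 0, 0, 0, 59169545, 0, 0, 0, ⟨0, 0⟩, 0⟩, 0, 0⟩ 0 0)) (.cut .l 123033 (.cut .d (-8192) (.pos 49 .mp ⟨⟨119158458, 0, 0, 0, 0, 60673755, 0, 0, 0, ⟨0, 0⟩, 0⟩, 0, 0⟩ 0 0) (.cut .s 10957824 (.pos 49 .mp ⟨⟨120984105, 0, 0, 0, 0, 55109356, 0, 0, 0, ⟨0, 0⟩, 0⟩, 0, 0⟩ 0 0) (.pos 49 .mp ⟨⟨121541634, 0, 0, 0, 0, 55306744, 0, 0, 0, ⟨0, 0⟩, 0⟩, 0, 0⟩ 0 0))) (.pos 49 .mp ⟨⟨117976711, 0,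 0, 0, 0, 59661078, 0, 0, 0, ⟨0, 0⟩, 0⟩, 0, 0⟩ 0 0))) (.pos 50 .mp ⟨⟨136477532, 0, 0, 0, 0, 32757301, 0, 0, 0, ⟨0, 0⟩, 0⟩, 0, 0⟩ 0 0)) (.cut .v 16809984 (.cut .s 10979328 (.cut .l 123033 (.cut .d (-8192) (.pos 49 .mp ⟨⟨120260215, 0, 0, 0, 0, 61095021, 0, 0, 0, ⟨0, 0⟩, 0⟩, 0, 0⟩ 0 0) (.cut .s 10972160 (.pos 49 .mp ⟨⟨122101712, 0, 0, 0, 0, 55506814, 0, 0, 0, ⟨0, 0⟩, 0⟩, 0, 0⟩ 0 0) (.pos 49 .mp ⟨⟨122664348, 0, 0, 0, 0, 55709558, 0, 0, 0, ⟨0, 0⟩, 0⟩, 0, 0⟩ 0 0))) (.pos 49 .mp ⟨⟨119062673, 0, 0, 0, 0, 60160407, 0, 0, 0, ⟨0, 0⟩, 0⟩, 0, 0⟩ 0 0)) (.cut .l 123033 (.cut .d (-8192) (.pos 49 .mp ⟨⟨121372022, 0, 0, 0, 0, 61530420, 0, 0, 0, ⟨0,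 0⟩, 0⟩, 0, 0⟩ 0 0) (.cut .s 10986496 (.pos 49 .mp ⟨⟨123229550, 0, 0, 0, 0, 55914968, 0, 0, 0, ⟨0, 0⟩, 0⟩, 0, 0⟩ 0 0) (.cut .s 10990080 (.pos 49 .mp ⟨⟨123510927, 0, 0, 0, 0, 56354195, 0, 0, 0, ⟨0, 0⟩, 0⟩, 0, 0⟩ 0 0) (.pos 49 .mp ⟨⟨123771153, 0, 0, 0, 0, 56492691, 0, 0, 0, ⟨0, 0⟩, 0⟩, 0, 0⟩ 0 0)))) (.pos 49 .mp ⟨⟨120158458, 0, 0, 0, 0, 60667300, 0, 0, 0, ⟨0, 0⟩, 0⟩, 0, 0⟩ 0 0))) (.pos 50 .mp ⟨⟨138515682, 0, 0, 0, 0, 33822273, 0, 0, 0, ⟨0, 0⟩, 0⟩, 0, 0⟩ 0 0)))) (.pos 40 .mp ⟨⟨158861594, 0, 0, 0, 0, 0, 0, 0, 0, ⟨0, 0⟩, 0⟩, 0, 0⟩ 0 0)) (.cut .v 16842752 (.cut .s 11051008 (.cut .s 11022336 (.cut .s 11008000 (.cut .v 16809984 (.cut .l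 123033 (.cut .d (-8192) (.pos 49 .mp ⟨⟨122493946, 0, 0, 0, 0, 61980076, 0, 0, 0, ⟨0, 0⟩, 0⟩, 0, 0⟩ 0 0) (.cut .v 16793600 (.cut .s 11000832 (.pos 55 .mp ⟨⟨123067203, 0, 0, 0, 0, 58353213, 0, 0, 0, ⟨0, 0⟩, 0⟩, 0, 0⟩ 0 0) (.pos 55 .mp ⟨⟨123505685, 0, 0, 0, 0, 58779027, 0, 0, 0, ⟨0, 0⟩, 0⟩, 0, 0⟩ 0 0)) (.pos 56 .mp ⟨⟨134521541, 0, 0, 0, 0, 42380342, 0, 0, 0, ⟨0, 0⟩, 0⟩, 0, 0⟩ 0 0))) (.pos 49 .mp ⟨⟨121264131, 0, 0, 0, 0, 61181526, 0, 0, 0, ⟨0, 0⟩, 0⟩, 0, 0⟩ 0 0)) (.pos 50 .mp ⟨⟨133764847, 0, 0, 0, 0, 43863192, 0, 0, 0, ⟨0, 0⟩, 0⟩, 0, 0⟩ 0 0)) (.cut .v 16809984 (.cut .s 11015168 (.cut .s 11011584 (.pos 49 .mp ⟨⟨123992343, 0, 0, 0, 0,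 59130265, 0, 0, 0, ⟨0, 0⟩, 0⟩, 0, 0⟩ 0 0) (.cut .s 11013376 (.pos 49 .mp ⟨⟨125370932, 0, 0, 0, 0, 57392272, 0, 0, 0, ⟨0, 0⟩, 0⟩, 0, 0⟩ 0 0) (.pos 49 .mp ⟨⟨125474436, 0, 0, 0, 0, 57511621, 0, 0, 0, ⟨0, 0⟩, 0⟩, 0, 0⟩ 0 0))) (.cut .d (-8192) (.pos 49 .mp ⟨⟨124632475, 0, 0, 0, 0, 59973860, 0, 0, 0, ⟨0, 0⟩, 0⟩, 0, 0⟩ 0 0) (.cut .s 11018752 (.pos 49 .mp ⟨⟨125777628, 0, 0, 0, 0, 57310193, 0, 0, 0, ⟨0, 0⟩, 0⟩, 0, 0⟩ 0 0) (.pos 49 .mp ⟨⟨126046664, 0, 0, 0, 0, 57448431, 0, 0, 0, ⟨0, 0⟩, 0⟩, 0, 0⟩ 0 0)))) (.pos 50 .mp ⟨⟨134805793, 0, 0, 0, 0, 44450984, 0, 0, 0, ⟨0, 0⟩, 0⟩, 0, 0⟩ 0 0))) (.cut .s 11036672 (.cut .v 16809984 (.cut .s 11029504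 (.cut .d (-8192) (.pos 49 .mp ⟨⟨125150508, 0, 0, 0, 0, 60299627, 0, 0, 0, ⟨0, 0⟩, 0⟩, 0, 0⟩ 0 0) (.cut .s 11025920 (.pos 49 .mp ⟨⟨126317084, 0, 0, 0, 0, 57586356, 0, 0, 0, ⟨0, 0⟩, 0⟩, 0, 0⟩ 0 0) (.pos 49 .mp ⟨⟨126588896, 0, 0, 0, 0, 57723954, 0, 0, 0, ⟨0, 0⟩, 0⟩, 0, 0⟩ 0 0))) (.cut .d (-8192) (.pos 49 .mp ⟨⟨125675310, 0, 0, 0, 0, 60621574, 0, 0, 0, ⟨0, 0⟩, 0⟩, 0, 0⟩ 0 0) (.cut .s 11033088 (.pos 49 .mp ⟨⟨126862112, 0, 0, 0, 0, 57861211, 0, 0, 0, ⟨0, 0⟩, 0⟩, 0, 0⟩ 0 0) (.pos 49 .mp ⟨⟨127138445, 0, 0, 0, 0, 57995486, 0, 0, 0, ⟨0, 0⟩, 0⟩, 0, 0⟩ 0 0)))) (.pos 50 .mp ⟨⟨135885411, 0, 0, 0, 0, 45008380, 0, 0, 0, ⟨0, 0⟩, 0⟩, 0, 0⟩ 0 0))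 (.cut .v 16809984 (.cut .s 11043840 (.cut .d (-8192) (.pos 49 .mp ⟨⟨126206983, 0, 0, 0, 0, 60939538, 0, 0, 0, ⟨0, 0⟩, 0⟩, 0, 0⟩ 0 0) (.cut .s 11040256 (.pos 49 .mp ⟨⟨127443302, 0, 0, 0, 0, 58087586, 0, 0, 0, ⟨0, 0⟩, 0⟩, 0, 0⟩ 0 0) (.pos 49 .mp ⟨⟨127748265, 0, 0, 0, 0, 58181330, 0, 0, 0, ⟨0, 0⟩, 0⟩, 0, 0⟩ 0 0))) (.cut .d (-8192) (.pos 49 .mp ⟨⟨126745626, 0, 0, 0, 0, 61253359, 0, 0, 0, ⟨0, 0⟩, 0⟩, 0, 0⟩ 0 0) (.cut .s 11047424 (.pos 49 .mp ⟨⟨128053329, 0, 0, 0, 0, 58276729, 0, 0, 0, ⟨0, 0⟩, 0⟩, 0, 0⟩ 0 0) (.pos 49 .mp ⟨⟨128358486, 0, 0, 0, 0, 58373798, 0, 0, 0, ⟨0, 0⟩, 0⟩, 0, 0⟩ 0 0)))) (.pos 50 .mp ⟨⟨137005103, 0, 0, 0, 0, 45533248,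 0, 0, 0, ⟨0, 0⟩, 0⟩, 0, 0⟩ 0 0)))) (.cut .s 11079680 (.cut .s 11065344 (.cut .v 16809984 (.cut .s 11058176 (.cut .d (-8192) (.pos 49 .mp ⟨⟨127291340, 0, 0, 0, 0, 61562874, 0, 0, 0, ⟨0, 0⟩, 0⟩, 0, 0⟩ 0 0) (.cut .s 11054592 (.pos 49 .mp ⟨⟨128663730, 0, 0, 0, 0, 58472550, 0, 0, 0, ⟨0, 0⟩, 0⟩, 0, 0⟩ 0 0) (.pos 49 .mp ⟨⟨128969054, 0, 0, 0, 0, 58572997, 0, 0, 0, ⟨0, 0⟩, 0⟩, 0, 0⟩ 0 0))) (.cut .d (-8192) (.pos 49 .mp ⟨⟨127844226, 0, 0, 0, 0, 61867921, 0, 0, 0, ⟨0, 0⟩, 0⟩, 0, 0⟩ 0 0) (.cut .s 11061760 (.pos 49 .mp ⟨⟨129274452, 0, 0, 0, 0, 58675153, 0, 0, 0, ⟨0, 0⟩, 0⟩, 0, 0⟩ 0 0) (.pos 49 .mp ⟨⟨129579918, 0, 0, 0, 0, 58779032, 0, 0, 0,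 ⟨0, 0⟩, 0⟩, 0, 0⟩ 0 0)))) (.pos 50 .mp ⟨⟨138166278, 0, 0, 0, 0, 46023431, 0, 0, 0, ⟨0, 0⟩, 0⟩, 0, 0⟩ 0 0)) (.cut .v 16809984 (.cut .s 11072512 (.cut .d (-8192) (.pos 49 .mp ⟨⟨128404385, 0, 0, 0, 0, 62168337, 0, 0, 0, ⟨0, 0⟩, 0⟩, 0, 0⟩ 0 0) (.cut .s 11068928 (.pos 49 .mp ⟨⟨129885444, 0, 0, 0, 0, 58884645, 0, 0, 0, ⟨0, 0⟩, 0⟩, 0, 0⟩ 0 0) (.pos 49 .mp ⟨⟨130191024, 0, 0, 0, 0, 58992008, 0, 0, 0, ⟨0, 0⟩, 0⟩, 0, 0⟩ 0 0))) (.cut .d (-8192) (.pos 49 .mp ⟨⟨128971920, 0, 0, 0, 0, 62463956, 0, 0, 0, ⟨0, 0⟩, 0⟩, 0, 0⟩ 0 0) (.cut .s 11076096 (.pos 49 .mp ⟨⟨130496652, 0, 0, 0, 0, 59101133, 0, 0, 0, ⟨0, 0⟩, 0⟩, 0, 0⟩ 0 0) (.pos 49 .mp ⟨⟨130802320,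 0, 0, 0, 0, 59212035, 0, 0, 0, ⟨0, 0⟩, 0⟩, 0, 0⟩ 0 0)))) (.pos 50 .mp ⟨⟨139370356, 0, 0, 0, 0, 46476754, 0, 0, 0, ⟨0, 0⟩, 0⟩, 0, 0⟩ 0 0))) (.cut .s 11094016 (.cut .v 16809984 (.cut .s 11086848 (.cut .d (-8192) (.pos 49 .mp ⟨⟨128071868, 0, 0, 0, 0, 65422004, 0, 0, 0, ⟨0, 0⟩, 0⟩, 0, 0⟩ 0 0) (.cut .s 11083264 (.pos 49 .mp ⟨⟨131108022, 0, 0, 0, 0, 59324726, 0, 0, 0, ⟨0, 0⟩, 0⟩, 0, 0⟩ 0 0) (.pos 49 .mp ⟨⟨131413751, 0, 0, 0, 0, 59439220, 0, 0, 0, ⟨0, 0⟩, 0⟩, 0, 0⟩ 0 0))) (.cut .d (-8192) (.pos 49 .mp ⟨⟨128661865, 0, 0, 0, 0, 65695521, 0, 0, 0, ⟨0, 0⟩, 0⟩, 0, 0⟩ 0 0) (.cut .s 11090432 (.pos 49 .mp ⟨⟨131718770, 0, 0, 0, 0, 59556744, 0,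 0, 0, ⟨0, 0⟩, 0⟩, 0, 0⟩ 0 0) (.pos 49 .mp ⟨⟨132021485, 0, 0, 0, 0, 59679949, 0, 0, 0, ⟨0, 0⟩, 0⟩, 0, 0⟩ 0 0)))) (.pos 50 .mp ⟨⟨140618766, 0, 0, 0, 0, 46891019, 0, 0, 0, ⟨0, 0⟩, 0⟩, 0, 0⟩ 0 0)) (.cut .v 16809984 (.cut .s 11101184 (.cut .d (-8192) (.pos 49 .mp ⟨⟨129254485, 0, 0, 0, 0, 65972887, 0, 0, 0, ⟨0, 0⟩, 0⟩, 0, 0⟩ 0 0) (.cut .s 11097600 (.pos 49 .mp ⟨⟨132324877, 0, 0, 0, 0, 59803887, 0, 0, 0, ⟨0, 0⟩, 0⟩, 0, 0⟩ 0 0) (.pos 49 .mp ⟨⟨132628949, 0, 0, 0, 0, 59928556, 0, 0, 0, ⟨0, 0⟩, 0⟩, 0, 0⟩ 0 0))) (.cut .d (-8192) (.pos 49 .mp ⟨⟨129849737, 0, 0, 0, 0, 66254120, 0, 0, 0, ⟨0, 0⟩, 0⟩, 0, 0⟩ 0 0) (.cut .s 11104768 (.pos 49 .mp ⟨⟨132933699,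 0, 0, 0, 0, 60053957, 0, 0, 0, ⟨0, 0⟩, 0⟩, 0, 0⟩ 0 0) (.pos 49 .mp ⟨⟨133239131, 0, 0, 0, 0, 60180089, 0, 0, 0, ⟨0, 0⟩, 0⟩, 0, 0⟩ 0 0)))) (.pos 50 .mp ⟨⟨141912946, 0, 0, 0, 0, 47264004, 0, 0, 0, ⟨0, 0⟩, 0⟩, 0, 0⟩ 0 0))))) (.pos 40 .mp ⟨⟨170099605, 0, 0, 0, 0, 0, 0, 0, 0, ⟨0, 0⟩, 0⟩, 0, 0⟩ 0 0)))) (.pos 38 .mp ⟨⟨172827672, 0, 0, 0, 0, 0, 0, 0, 0, ⟨0, 0⟩, 0⟩, 0, 0⟩ 0 0)) (.cut .v 16908288 (.cut .d (-16384) (.cut .d (-24576) (.void 37 ⟨⟨0, 0, 0, 0, 0, 100000, 0, 0, 0, ⟨0, 0⟩, 0⟩, 0, 0⟩ 0 0) (.cut .d (-20480) (.void 37 ⟨⟨0, 0, 0, 0, 0, 100000, 0, 0, 0, ⟨0, 0⟩, 0⟩, 0, 0⟩ 0 0) (.cut .v 16842752 (.cut .l 123033 (.void 39 ⟨⟨0, 0, 0, 0, 0,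 100000, 0, 0, 0, ⟨0, 0⟩, 0⟩, 0, 0⟩ 0 0) (.cut .d (-18432) (.pos 39 .mp ⟨⟨132670218, 0, 0, 0, 0, 113951072, 0, 0, 0, ⟨0, 0⟩, 0⟩, 0, 0⟩ 0 0) (.cut .v 16809984 (.pos 49 .mp ⟨⟨0, 0, 0, 0, 0, 304472968, 0, 0, 0, ⟨0, 0⟩, 0⟩, 0, 0⟩ 0 0) (.cut .v 16826368 (.cut .l 184549 (.void 99 ⟨⟨100000, 0, 0, 0, 0, 0, 0, 0, 0, ⟨0, 0⟩, 0⟩, 0, 0⟩ 0 0) (.cut .l 215307 (.void 99 ⟨⟨0, 0, 0, 0, 0, 100000, 0, 0, 0, ⟨0, 0⟩, 0⟩, 0, 0⟩ 0 0) (.cut .s 11223040 (.cut .s 11165696 (.pos 99 .mp ⟨⟨138286937, 0, 0, 0, 0, 57424947, 0, 0, 0, ⟨0, 0⟩, 0⟩, 0, 0⟩ 0 0) (.pos 99 .mp ⟨⟨137562798, 0, 0, 0, 0, 70575782, 0, 0, 0, ⟨0, 0⟩, 0⟩, 0, 0⟩ 0 0)) (.pos 99 .mp ⟨⟨142723045,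 0, 0, 0, 0, 78955237, 0, 0, 0, ⟨0, 0⟩, 0⟩, 0, 0⟩ 0 0)))) (.pos 100 .mp ⟨⟨195296801, 0, 0, 0, 0, 0, 0, 0, 0, ⟨0, 0⟩, 0⟩, 0, 0⟩ 0 0))))) (.pos 40 .mp ⟨⟨199294368, 0, 0, 0, 0, 0, 0, 0, 0, ⟨0, 0⟩, 0⟩, 0, 0⟩ 0 0)))) (.cut .s 11223040 (.cut .v 16842752 (.cut .s 11165696 (.cut .s 11137024 (.cut .s 11122688 (.cut .v 16809984 (.cut .s 11115520 (.cut .d (-8192) (.pos 49 .mp ⟨⟨130447631, 0, 0, 0, 0, 66539236, 0, 0, 0, ⟨0, 0⟩, 0⟩, 0, 0⟩ 0 0) (.cut .s 11111936 (.pos 49 .mp ⟨⟨133545245, 0, 0, 0, 0, 60306952, 0, 0, 0, ⟨0, 0⟩, 0⟩, 0, 0⟩ 0 0) (.pos 49 .mp ⟨⟨133852042, 0, 0, 0, 0, 60434547, 0, 0, 0, ⟨0, 0⟩, 0⟩, 0, 0⟩ 0 0))) (.cut .d (-8192) (.pos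 49 .mp ⟨⟨131048175, 0, 0, 0, 0, 66828253, 0, 0, 0, ⟨0, 0⟩, 0⟩, 0, 0⟩ 0 0) (.cut .s 11119104 (.pos 49 .mp ⟨⟨134159524, 0, 0, 0, 0, 60562872, 0, 0, 0, ⟨0, 0⟩, 0⟩, 0, 0⟩ 0 0) (.pos 49 .mp ⟨⟨134467691, 0, 0, 0, 0, 60691927, 0, 0, 0, ⟨0, 0⟩, 0⟩, 0, 0⟩ 0 0)))) (.pos 50 .mp ⟨⟨143254346, 0, 0, 0, 0, 47593469, 0, 0, 0, ⟨0, 0⟩, 0⟩, 0, 0⟩ 0 0)) (.cut .v 16809984 (.cut .s 11129856 (.cut .d (-8192) (.pos 49 .mp ⟨⟨131651379, 0, 0, 0, 0, 67121187, 0, 0, 0, ⟨0, 0⟩, 0⟩, 0, 0⟩ 0 0) (.cut .s 11126272 (.pos 49 .mp ⟨⟨134776545, 0, 0, 0, 0, 60821714, 0, 0, 0, ⟨0, 0⟩, 0⟩, 0, 0⟩ 0 0) (.pos 49 .mp ⟨⟨135082100, 0, 0, 0, 0, 60958868, 0, 0, 0, ⟨0, 0⟩, 0⟩,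 0, 0⟩ 0 0))) (.cut .d (-8192) (.pos 49 .mp ⟨⟨132257253, 0, 0, 0, 0, 67418056, 0, 0, 0, ⟨0, 0⟩, 0⟩, 0, 0⟩ 0 0) (.cut .s 11133440 (.pos 49 .mp ⟨⟨135387549, 0, 0, 0, 0, 61098079, 0, 0, 0, ⟨0, 0⟩, 0⟩, 0, 0⟩ 0 0) (.pos 49 .mp ⟨⟨135692928, 0, 0, 0, 0, 61239290, 0, 0, 0, ⟨0, 0⟩, 0⟩, 0, 0⟩ 0 0)))) (.pos 50 .mp ⟨⟨144644422, 0, 0, 0, 0, 47877146, 0, 0, 0, ⟨0, 0⟩, 0⟩, 0, 0⟩ 0 0))) (.cut .s 11151360 (.cut .v 16809984 (.cut .s 11144192 (.cut .d (-8192) (.pos 49 .mp ⟨⟨132865804, 0, 0, 0, 0, 67718877, 0, 0, 0, ⟨0, 0⟩, 0⟩, 0, 0⟩ 0 0) (.cut .s 11140608 (.pos 49 .mp ⟨⟨135998228, 0, 0, 0, 0, 61382518, 0, 0, 0, ⟨0, 0⟩, 0⟩, 0, 0⟩ 0 0) (.pos 49 .mp ⟨⟨136303442,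 0, 0, 0, 0, 61527776, 0, 0, 0, ⟨0, 0⟩, 0⟩, 0, 0⟩ 0 0))) (.cut .d (-8192) (.pos 49 .mp ⟨⟨133477044, 0, 0, 0, 0, 68023667, 0, 0, 0, ⟨0, 0⟩, 0⟩, 0, 0⟩ 0 0) (.cut .s 11147776 (.pos 49 .mp ⟨⟨136608564, 0, 0, 0, 0, 61675081, 0, 0, 0, ⟨0, 0⟩, 0⟩, 0, 0⟩ 0 0) (.pos 49 .mp ⟨⟨136913584, 0, 0, 0, 0, 61824445, 0, 0, 0, ⟨0, 0⟩, 0⟩, 0, 0⟩ 0 0)))) (.pos 50 .mp ⟨⟨146084644, 0, 0, 0, 0, 48112750, 0, 0, 0, ⟨0, 0⟩, 0⟩, 0, 0⟩ 0 0)) (.cut .v 16809984 (.cut .s 11158528 (.cut .d (-8192) (.pos 49 .mp ⟨⟨134090980, 0, 0, 0, 0, 68332444, 0, 0, 0, ⟨0, 0⟩, 0⟩, 0, 0⟩ 0 0) (.cut .s 11154944 (.pos 49 .mp ⟨⟨137218497, 0, 0, 0, 0, 61975885, 0, 0, 0, ⟨0, 0⟩, 0⟩, 0,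 0⟩ 0 0) (.pos 49 .mp ⟨⟨137523295, 0, 0, 0, 0, 62129416, 0, 0, 0, ⟨0, 0⟩, 0⟩, 0, 0⟩ 0 0))) (.cut .d (-8192) (.pos 49 .mp ⟨⟨134707623, 0, 0, 0, 0, 68645226, 0, 0, 0, ⟨0, 0⟩, 0⟩, 0, 0⟩ 0 0) (.cut .s 11162112 (.pos 49 .mp ⟨⟨137827970, 0, 0, 0, 0, 62285052, 0, 0, 0, ⟨0, 0⟩, 0⟩, 0, 0⟩ 0 0) (.pos 49 .mp ⟨⟨138132515, 0, 0, 0, 0, 62442809, 0, 0, 0, ⟨0, 0⟩, 0⟩, 0, 0⟩ 0 0)))) (.pos 50 .mp ⟨⟨147576491, 0, 0, 0, 0, 48297967, 0, 0, 0, ⟨0, 0⟩, 0⟩, 0, 0⟩ 0 0)))) (.cut .s 11194368 (.cut .s 11180032 (.cut .v 16809984 (.cut .s 11172864 (.cut .d (-8192) (.pos 49 .mp ⟨⟨135326983, 0, 0, 0, 0, 68962029, 0, 0, 0, ⟨0, 0⟩, 0⟩, 0, 0⟩ 0 0) (.cut .s 11169280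 (.pos 49 .mp ⟨⟨138436923, 0, 0, 0, 0, 62602701, 0, 0, 0, ⟨0, 0⟩, 0⟩, 0, 0⟩ 0 0) (.pos 49 .mp ⟨⟨138741185, 0, 0, 0, 0, 62764745, 0, 0, 0, ⟨0, 0⟩, 0⟩, 0, 0⟩ 0 0))) (.cut .d (-8192) (.pos 49 .mp ⟨⟨135949067, 0, 0, 0, 0, 69282872, 0, 0, 0, ⟨0, 0⟩, 0⟩, 0, 0⟩ 0 0) (.cut .s 11176448 (.pos 49 .mp ⟨⟨139065024, 0, 0, 0, 0, 62898239, 0, 0, 0, ⟨0, 0⟩, 0⟩, 0, 0⟩ 0 0) (.pos 49 .mp ⟨⟨139405128, 0, 0, 0, 0, 63008327, 0, 0, 0, ⟨0, 0⟩, 0⟩, 0, 0⟩ 0 0)))) (.pos 50 .mp ⟨⟨149121451, 0, 0, 0, 0, 48430463, 0, 0, 0, ⟨0, 0⟩, 0⟩, 0, 0⟩ 0 0)) (.cut .v 16809984 (.cut .s 11187200 (.cut .d (-8192) (.pos 49 .mp ⟨⟨136573888, 0, 0, 0, 0, 69607773, 0, 0, 0, ⟨0, 0⟩,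 0⟩, 0, 0⟩ 0 0) (.cut .s 11183616 (.pos 49 .mp ⟨⟨139747100, 0, 0, 0, 0, 63117412, 0, 0, 0, ⟨0, 0⟩, 0⟩, 0, 0⟩ 0 0) (.pos 49 .mp ⟨⟨140090953, 0, 0, 0, 0, 63225479, 0, 0, 0, ⟨0, 0⟩, 0⟩, 0, 0⟩ 0 0))) (.cut .d (-8192) (.pos 49 .mp ⟨⟨137201452, 0, 0, 0, 0, 69936749, 0, 0, 0, ⟨0, 0⟩, 0⟩, 0, 0⟩ 0 0) (.cut .s 11190784 (.pos 49 .mp ⟨⟨140436697, 0, 0, 0, 0, 63332511, 0, 0, 0, ⟨0, 0⟩, 0⟩, 0, 0⟩ 0 0) (.pos 49 .mp ⟨⟨140784345, 0, 0, 0, 0, 63438490, 0, 0, 0, ⟨0, 0⟩, 0⟩, 0, 0⟩ 0 0)))) (.pos 50 .mp ⟨⟨150721024, 0, 0, 0, 0, 48507880, 0, 0, 0, ⟨0, 0⟩, 0⟩, 0, 0⟩ 0 0))) (.cut .s 11208704 (.cut .v 16809984 (.cut .s 11201536 (.cut .s 11197952 (.pos 49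 .mp ⟨⟨139632336, 0, 0, 0, 0, 66091951, 0, 0, 0, ⟨0, 0⟩, 0⟩, 0, 0⟩ 0 0) (.pos 49 .mp ⟨⟨139988253, 0, 0, 0, 0, 66183727, 0, 0, 0, ⟨0, 0⟩, 0⟩, 0, 0⟩ 0 0)) (.cut .s 11205120 (.pos 49 .mp ⟨⟨140346486, 0, 0, 0, 0, 66273526, 0, 0, 0, ⟨0, 0⟩, 0⟩, 0, 0⟩ 0 0) (.pos 49 .mp ⟨⟨140707051, 0, 0, 0, 0, 66361326, 0, 0, 0, ⟨0, 0⟩, 0⟩, 0, 0⟩ 0 0))) (.pos 50 .mp ⟨⟨152376722, 0, 0, 0, 0, 48527835, 0, 0, 0, ⟨0, 0⟩, 0⟩, 0, 0⟩ 0 0)) (.cut .v 16809984 (.cut .l 123033 (.cut .d (-8192) (.pos 49 .mp ⟨⟨140585071, 0, 0, 0, 0, 70522856, 0, 0, 0, ⟨0, 0⟩, 0⟩, 0, 0⟩ 0 0) (.cut .v 16793600 (.cut .s 11215872 (.pos 55 .mp ⟨⟨141237916, 0, 0, 0, 0, 66179742, 0, 0, 0,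 ⟨0, 0⟩, 0⟩, 0, 0⟩ 0 0) (.pos 55 .mp ⟨⟨142116879, 0, 0, 0, 0, 66111860, 0, 0, 0, ⟨0, 0⟩, 0⟩, 0, 0⟩ 0 0)) (.pos 56 .mp ⟨⟨155020075, 0, 0, 0, 0, 46661203, 0, 0, 0, ⟨0, 0⟩, 0⟩, 0, 0⟩ 0 0))) (.pos 49 .mp ⟨⟨139082980, 0, 0, 0, 0, 69615022, 0, 0, 0, ⟨0, 0⟩, 0⟩, 0, 0⟩ 0 0)) (.pos 50 .mp ⟨⟨154090065, 0, 0, 0, 0, 48487920, 0, 0, 0, ⟨0, 0⟩, 0⟩, 0, 0⟩ 0 0))))) (.pos 40 .mp ⟨⟨182433336, 0, 0, 0, 0, 0, 0, 0, 0, ⟨0, 0⟩, 0⟩, 0, 0⟩ 0 0)) (.cut .v 16842752 (.cut .s 11280384 (.cut .s 11251712 (.cut .v 16809984 (.cut .s 11237376 (.cut .l 123033 (.cut .d (-8192) (.pos 49 .mp ⟨⟨141878658, 0, 0, 0, 0, 71218311, 0, 0, 0, ⟨0, 0⟩, 0⟩, 0, 0⟩ 0 0) (.cut .s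 11230208 (.pos 49 .mp ⟨⟨144037553, 0, 0, 0, 0, 64420739, 0, 0, 0, ⟨0, 0⟩, 0⟩, 0, 0⟩ 0 0) (.pos 49 .mp ⟨⟨144698335, 0, 0, 0, 0, 64713596, 0, 0, 0, ⟨0, 0⟩, 0⟩, 0, 0⟩ 0 0))) (.pos 49 .mp ⟨⟨140356441, 0, 0, 0, 0, 70214401, 0, 0, 0, ⟨0, 0⟩, 0⟩, 0, 0⟩ 0 0)) (.cut .l 123033 (.cut .d (-8192) (.pos 49 .mp ⟨⟨143183624, 0, 0, 0, 0, 71930302, 0, 0, 0, ⟨0, 0⟩, 0⟩, 0, 0⟩ 0 0) (.cut .s 11244544 (.pos 49 .mp ⟨⟨145362024, 0, 0, 0, 0, 65008763, 0, 0, 0, ⟨0, 0⟩, 0⟩, 0, 0⟩ 0 0) (.pos 49 .mp ⟨⟨146028630, 0, 0, 0, 0, 65306229, 0, 0, 0, ⟨0, 0⟩, 0⟩, 0, 0⟩ 0 0))) (.pos 49 .mp ⟨⟨141641026, 0, 0, 0, 0, 70817039, 0, 0, 0, ⟨0, 0⟩, 0⟩, 0, 0⟩ 0 0))) (.pos 50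 .mp ⟨⟨164492515, 0, 0, 0, 0, 36845439, 0, 0, 0, ⟨0, 0⟩, 0⟩, 0, 0⟩ 0 0)) (.cut .v 16809984 (.cut .s 11266048 (.cut .d (-8192) (.pos 49 .mp ⟨⟨142974672, 0, 0, 0, 0, 73765527, 0, 0, 0, ⟨0, 0⟩, 0⟩, 0, 0⟩ 0 0) (.cut .s 11258880 (.pos 49 .mp ⟨⟨146698163, 0, 0, 0, 0, 65649216, 0, 0, 0, ⟨0, 0⟩, 0⟩, 0, 0⟩ 0 0) (.pos 49 .mp ⟨⟨147370633, 0, 0, 0, 0, 65961752, 0, 0, 0, ⟨0, 0⟩, 0⟩, 0, 0⟩ 0 0))) (.cut .d (-8192) (.pos 49 .mp ⟨⟨144288636, 0, 0, 0, 0, 74519595, 0, 0, 0, ⟨0, 0⟩, 0⟩, 0, 0⟩ 0 0) (.cut .s 11273216 (.pos 49 .mp ⟨⟨147993589, 0, 0, 0, 0, 66365199, 0, 0, 0, ⟨0, 0⟩, 0⟩, 0, 0⟩ 0 0) (.pos 49 .mp ⟨⟨148628498, 0, 0, 0, 0, 66760421, 0, 0, 0,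 ⟨0, 0⟩, 0⟩, 0, 0⟩ 0 0)))) (.pos 50 .mp ⟨⟨168439808, 0, 0, 0, 0, 36121791, 0, 0, 0, ⟨0, 0⟩, 0⟩, 0, 0⟩ 0 0))) (.cut .s 11309056 (.cut .v 16809984 (.cut .s 11294720 (.cut .s 11287552 (.cut .s 11283968 (.pos 49 .mp ⟨⟨150680334, 0, 0, 0, 0, 64762868, 0, 0, 0, ⟨0, 0⟩, 0⟩, 0, 0⟩ 0 0) (.pos 49 .mp ⟨⟨151112696, 0, 0, 0, 0, 64782642, 0, 0, 0, ⟨0, 0⟩, 0⟩, 0, 0⟩ 0 0)) (.pos 49 .mp ⟨⟨148599123, 0, 0, 0, 0, 69823173, 0, 0, 0, ⟨0, 0⟩, 0⟩, 0, 0⟩ 0 0)) (.cut .s 11301888 (.pos 49 .mp ⟨⟨149583437, 0, 0, 0, 0, 69664115, 0, 0, 0, ⟨0, 0⟩, 0⟩, 0, 0⟩ 0 0) (.pos 49 .mp ⟨⟨150697360, 0, 0, 0, 0, 69304203, 0, 0, 0, ⟨0, 0⟩, 0⟩, 0, 0⟩ 0 0))) (.pos 50 .mp ⟨⟨172643671,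 0, 0, 0, 0, 35116033, 0, 0, 0, ⟨0, 0⟩, 0⟩, 0, 0⟩ 0 0)) (.cut .v 16809984 (.cut .s 11323392 (.cut .s 11316224 (.pos 49 .mp ⟨⟨151833339, 0, 0, 0, 0, 68915459, 0, 0, 0, ⟨0, 0⟩, 0⟩, 0, 0⟩ 0 0) (.pos 49 .mp ⟨⟨152991573, 0, 0, 0, 0, 68497534, 0, 0, 0, ⟨0, 0⟩, 0⟩, 0, 0⟩ 0 0)) (.cut .s 11330560 (.pos 49 .mp ⟨⟨154172262, 0, 0, 0, 0, 68050075, 0, 0, 0, ⟨0, 0⟩, 0⟩, 0, 0⟩ 0 0) (.pos 49 .mp ⟨⟨155375605, 0, 0, 0, 0, 67572732, 0, 0, 0, ⟨0, 0⟩, 0⟩, 0, 0⟩ 0 0))) (.pos 50 .mp ⟨⟨177116746, 0, 0, 0, 0, 33807823, 0, 0, 0, ⟨0, 0⟩, 0⟩, 0, 0⟩ 0 0)))) (.pos 40 .mp ⟨⟨195864907, 0, 0, 0, 0, 0, 0, 0, 0, ⟨0, 0⟩, 0⟩, 0, 0⟩ 0 0)))) (.pos 38 .mp ⟨⟨198626978, 0,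 0, 0, 0, 0, 0, 0, 0, ⟨0, 0⟩, 0⟩, 0, 0⟩ 0 0))))))) (.void 36 ⟨⟨100000, 0, 0, 0, 0, 0, 0, 0, 0, ⟨0, 0⟩, 0⟩, 0, 0⟩ 0 0))) (.void 34 ⟨⟨100000, 0, 0, 0, 0, 0, 0, 0, 0, ⟨0, 0⟩, 0⟩, 0, 0⟩ 0 0)) (.void 32 ⟨⟨100000, 0, 0, 0, 0, 0, 0, 0, 0, ⟨0, 0⟩, 0⟩, 0, 0⟩ 0 0)))) (.void 30 ⟨⟨100000, 0, 0, 0, 0, 0, 0, 0, 0, ⟨0, 0⟩, 0⟩, 0, 0⟩ 0 0))) (.void 28 ⟨⟨100000, 0, 0, 0, 0, 0, 0, 0, 0, ⟨0, 0⟩, 0⟩, 0, 0⟩ 0 0))) (.void 26 ⟨⟨100000, 0, 0, 0, 0, 0, 0, 0, 0, ⟨0, 0⟩, 0⟩, 0, 0⟩ 0 0)) (.void 91 ⟨⟨100000, 0, 0, 0, 0, 0, 0, 0, 0, ⟨0, 0⟩, 0⟩, 0, 0⟩ 0 0)) (.void 98 ⟨⟨100000, 0, 0, 0, 0, 0, 0, 0, 0, ⟨0, 0⟩, 0⟩, 0, 0⟩ 0 0))) (.cut .v 16777216 (.cut .v 8388608 (.cut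 .v 4194304 (.cut .v 2097152 (.void 6 ⟨⟨0, 0, 66667, 0, 0, 0, 0, 0, 0, ⟨0, 0⟩, 0⟩, 0, 33333⟩ 0 0) (.pos 7 .pm ⟨⟨0, 0, 6004418, 0, 0, 0, 0, 0, 0, ⟨0, 0⟩, 0⟩, 0, 170155⟩ 0 0)) (.pos 5 .pm ⟨⟨0, 0, 2943171, 0, 0, 0, 0, 0, 0, ⟨0, 0⟩, 0⟩, 0, 103189⟩ 0 0)) (.pos 3 .pm ⟨⟨0, 0, 0, 0, 0, 0, 0, 0, 0, ⟨0, 0⟩, 0⟩, 0, 0⟩ 0 0)) (.cut .v 67108864 (.cut .d 4548041 (.cut .d 2274020 (.cut .v 33554432 (.cut .v 25165824 (.cut .d 1137010 (.cut .d 568505 (.cut .v 20971520 (.cut .d 284252 (.cut .v 18874368 (.cut .d 142126 (.cut .v 17825792 (.cut .s 11108352 (.pos 31 .pp ⟨⟨131963733, 0, 0, 0, 0, 0, 0, 0, 0, ⟨0, 0⟩, 0⟩, 2264212, 0⟩ 0 0) (.pos 31 .pp ⟨⟨155106179,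 0, 0, 0, 0, 0, 0, 0, 0, ⟨0, 0⟩, 0⟩, 2214627, 0⟩ 0 0)) (.pos 32 .pp ⟨⟨199889121, 0, 0, 0, 0, 0, 0, 0, 0, ⟨0, 0⟩, 0⟩, 0, 0⟩ 0 0)) (.pos 29 .pp ⟨⟨123752291, 0, 0, 0, 0, 0, 0, 0, 0, ⟨0, 0⟩, 0⟩, 0, 73567⟩ 0 0)) (.cut .d 142126 (.void 30 ⟨⟨100000, 0, 0, 0, 0, 0, 0, 0, 0, ⟨0, 0⟩, 0⟩, 0, 0⟩ 0 0) (.pos 30 .pp ⟨⟨212816230, 0, 0, 0, 0, 0, 0, 0, 0, ⟨0, 0⟩, 0⟩, 0, 0⟩ 0 0))) (.pos 27 .pp ⟨⟨135822019, 0, 0, 0, 0, 0, 0, 0, 0, ⟨0, 0⟩, 0⟩, 0, 39253⟩ 0 0)) (.cut .d 284252 (.void 28 ⟨⟨100000, 0, 0, 0, 0, 0, 0, 0, 0, ⟨0, 0⟩, 0⟩, 0, 0⟩ 0 0) (.pos 28 .pp ⟨⟨0, 0, 0, 0, 0, 0, 0, 0, 0, ⟨0, 0⟩, 0⟩, 24993605, 0⟩ 0 0))) (.pos 25 .pp ⟨⟨0, 0, 0, 0, 0, 0, 0, 0,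 0, ⟨0, 0⟩, 0⟩, 15194513, 123324⟩ 0 0)) (.pos 25 .pp ⟨⟨0, 0, 0, 0, 0, 0, 0, 0, 0, ⟨0, 0⟩, 0⟩, 0, 510465⟩ 0 0)) (.cut .d 1137010 (.cut .d 568505 (.void 26 ⟨⟨0, 0, 0, 0, 0, 0, 0, 0, 0, ⟨0, 0⟩, 0⟩, 100000, 0⟩ 0 0) (.pos 26 .pp ⟨⟨0, 0, 0, 0, 0, 0, 0, 0, 0, ⟨0, 0⟩, 0⟩, 29941959, 0⟩ 0 0)) (.pos 26 .pp ⟨⟨0, 0, 0, 0, 0, 0, 299420, 0, 0, ⟨0, 0⟩, 0⟩, 16359347, 0⟩ 0 0))) (.cut .d 1137010 (.void 91 ⟨⟨0, 0, 0, 0, 0, 0, 0, 0, 0, ⟨0, 0⟩, 0⟩, 100000, 0⟩ 0 0) (.pos 91 .pp ⟨⟨0, 0, 0, 0, 0, 0, 0, 0, 0, ⟨0, 0⟩, 0⟩, 48301944, 0⟩ 0 0))) (.cut .v 33554432 (.pos 24 .pp ⟨⟨0, 0, 0, 0, 0, 0, 0, 0, 0, ⟨0, 0⟩, 0⟩, 0, 567183⟩ 0 0) (.pos 91 .pp ⟨⟨0, 0, 0, 0, 0,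 0, 103130, 0, 0, ⟨0, 0⟩, 0⟩, 20096428, 0⟩ 0 0))) (.pos 90 .pp ⟨⟨0, 2193157, 0, 0, 0, 0, 0, 0, 0, ⟨0, 0⟩, 0⟩, 0, 30526055⟩ 0 0)) (.void 98 ⟨⟨0, 0, 0, 43179, 0, 0, 0, 0, 0, ⟨0, 0⟩, 0⟩, 56821, 0⟩ 0 0)))),
    by decide +kernel⟩

def covers16 : cell.Covers Vale.Agent.P237.Petty.Cor.Grid.N15.table row16.1 :=
  ⟨(.cut .d 0 (.cut .v 16777216 (.cut .d (-8388608) (.void 1 ⟨⟨0, 0, 0, 0, 0, 100000, 0, 0, 0, ⟨0, 0⟩, 0⟩, 0, 0⟩ 0 0) (.cut .d (-4194304) (.void 1 ⟨⟨0, 0, 0, 0, 0, 100000, 0, 0, 0, ⟨0, 0⟩, 0⟩, 0, 0⟩ 0 0) (.cut .d (-2097152) (.void 1 ⟨⟨0, 0, 0, 0, 0, 100000, 0, 0, 0, ⟨0, 0⟩, 0⟩, 0, 0⟩ 0 0) (.cut .d (-1048576) (.void 1 ⟨⟨0, 0, 0, 0,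 0, 100000, 0, 0, 0, ⟨0, 0⟩, 0⟩, 0, 0⟩ 0 0) (.cut .d (-524288) (.void 1 ⟨⟨0, 0, 0, 0, 0, 100000, 0, 0, 0, ⟨0, 0⟩, 0⟩, 0, 0⟩ 0 0) (.cut .d (-262144) (.void 1 ⟨⟨0, 0, 0, 0, 0, 100000, 0, 0, 0, ⟨0, 0⟩, 0⟩, 0, 0⟩ 0 0) (.cut .d (-131072) (.void 1 ⟨⟨0, 0, 0, 0, 0, 100000, 0, 0, 0, ⟨0, 0⟩, 0⟩, 0, 0⟩ 0 0) (.cut .d (-65536) (.void 1 ⟨⟨0, 0, 0, 0, 0, 100000, 0, 0, 0, ⟨0, 0⟩, 0⟩, 0, 0⟩ 0 0) (.cut .d (-32768) (.void 1 ⟨⟨0, 0, 0, 0, 0, 100000, 0, 0, 0, ⟨0, 0⟩, 0⟩, 0, 0⟩ 0 0) (.cut .v 8388608 (.cut .v 4194304 (.void 4 ⟨⟨0, 0, 100000, 0, 0, 0, 0, 0, 0, ⟨0, 0⟩, 0⟩, 0, 0⟩ 0 0) (.pos 5 .mm ⟨⟨0, 0, 4357848, 0, 0, 107607144, 0, 0, 0, ⟨0, 0⟩, 0⟩, 0,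 0⟩ 0 0)) (.cut .s 11534336 (.pos 3 .mm ⟨⟨0, 0, 0, 0, 0, 319498627, 0, 0, 0, ⟨0, 0⟩, 0⟩, 0, 0⟩ 0 0) (.pos 3 .mm ⟨⟨0, 0, 0, 0, 0, 364972744, 0, 0, 0, ⟨0, 0⟩, 0⟩, 0, 0⟩ 0 0)))))))))))) (.cut .v 67108864 (.cut .v 33554432 (.cut .v 25165824 (.cut .d (-8388608) (.void 25 ⟨⟨100000, 0, 0, 0, 0, 0, 0, 0, 0, ⟨0, 0⟩, 0⟩, 0, 0⟩ 0 0) (.cut .v 20971520 (.cut .d (-4194304) (.void 27 ⟨⟨100000, 0, 0, 0, 0, 0, 0, 0, 0, ⟨0, 0⟩, 0⟩, 0, 0⟩ 0 0) (.cut .d (-2097152) (.void 27 ⟨⟨100000, 0, 0, 0, 0, 0, 0, 0, 0, ⟨0, 0⟩, 0⟩, 0, 0⟩ 0 0) (.cut .v 18874368 (.cut .d (-1048576) (.void 29 ⟨⟨100000, 0, 0, 0, 0, 0, 0, 0, 0, ⟨0, 0⟩, 0⟩, 0, 0⟩ 0 0) (.cut .v 17825792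 (.cut .d (-524288) (.void 31 ⟨⟨100000, 0, 0, 0, 0, 0, 0, 0, 0, ⟨0, 0⟩, 0⟩, 0, 0⟩ 0 0) (.cut .d (-262144) (.void 31 ⟨⟨100000, 0, 0, 0, 0, 0, 0, 0, 0, ⟨0, 0⟩, 0⟩, 0, 0⟩ 0 0) (.cut .d (-131072) (.void 31 ⟨⟨100000, 0, 0, 0, 0, 0, 0, 0, 0, ⟨0, 0⟩, 0⟩, 0, 0⟩ 0 0) (.cut .d (-65536) (.void 31 ⟨⟨100000, 0, 0, 0, 0, 0, 0, 0, 0, ⟨0, 0⟩, 0⟩, 0, 0⟩ 0 0) (.cut .d (-32768) (.void 31 ⟨⟨100000, 0, 0, 0, 0, 0, 0, 0, 0, ⟨0, 0⟩, 0⟩, 0, 0⟩ 0 0) (.cut .v 17301504 (.cut .v 17039360 (.cut .v 16908288 (.cut .d (-16384) (.cut .s 11534336 (.cut .v 16842752 (.cut .s 11436032 (.pos 39 .mp ⟨⟨156838852, 0, 0, 0, 0, 87650385, 0, 0, 0, ⟨0, 0⟩, 0⟩, 0, 0⟩ 0 0) (.cut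 .s 11485184 (.pos 39 .mp ⟨⟨165328360, 0, 0, 0, 0, 84185545, 0, 0, 0, ⟨0, 0⟩, 0⟩, 0, 0⟩ 0 0) (.pos 39 .mp ⟨⟨170596890, 0, 0, 0, 0, 86508852, 0, 0, 0, ⟨0, 0⟩, 0⟩, 0, 0⟩ 0 0))) (.void 40 ⟨⟨100000, 0, 0, 0, 0, 0, 0, 0, 0, ⟨0, 0⟩, 0⟩, 0, 0⟩ 0 0)) (.void 37 ⟨⟨0, 0, 0, 0, 0, 100000, 0, 0, 0, ⟨0, 0⟩, 0⟩, 0, 0⟩ 0 0)) (.cut .s 11534336 (.cut .s 11436032 (.cut .v 16842752 (.cut .s 11386880 (.cut .v 16809984 (.cut .s 11362304 (.cut .l 123033 (.cut .d (-8192) (.pos 49 .mp ⟨⟨153607297, 0, 0, 0, 0, 77531679, 0, 0, 0, ⟨0, 0⟩, 0⟩, 0, 0⟩ 0 0) (.cut .s 11350016 (.pos 49 .mp ⟨⟨155469100, 0, 0, 0, 0, 69052282, 0, 0, 0, ⟨0, 0⟩, 0⟩, 0, 0⟩ 0 0) (.pos 49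 .mp ⟨⟨156690878, 0, 0, 0, 0, 69437242, 0, 0, 0, ⟨0, 0⟩, 0⟩, 0, 0⟩ 0 0))) (.pos 49 .mp ⟨⟨150949187, 0, 0, 0, 0, 76323247, 0, 0, 0, ⟨0, 0⟩, 0⟩, 0, 0⟩ 0 0)) (.cut .s 11374592 (.cut .s 11368448 (.pos 49 .mp ⟨⟨158265501, 0, 0, 0, 0, 69009506, 0, 0, 0, ⟨0, 0⟩, 0⟩, 0, 0⟩ 0 0) (.pos 49 .mp ⟨⟨158451851, 0, 0, 0, 0, 69905782, 0, 0, 0, ⟨0, 0⟩, 0⟩, 0, 0⟩ 0 0)) (.cut .s 11380736 (.pos 49 .mp ⟨⟨158649742, 0, 0, 0, 0, 70790695, 0, 0, 0, ⟨0, 0⟩, 0⟩, 0, 0⟩ 0 0) (.pos 49 .mp ⟨⟨158859352, 0, 0, 0, 0, 71663951, 0, 0, 0, ⟨0, 0⟩, 0⟩, 0, 0⟩ 0 0)))) (.pos 50 .mp ⟨⟨195802604, 0, 0, 0, 0, 13348710, 0, 0, 0, ⟨0, 0⟩, 0⟩, 0, 0⟩ 0 0)) (.cut .s 11411456 (.cut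 .v 16809984 (.cut .s 11399168 (.cut .s 11393024 (.pos 49 .mp ⟨⟨159080857, 0, 0, 0, 0, 72525255, 0, 0, 0, ⟨0, 0⟩, 0⟩, 0, 0⟩ 0 0) (.pos 49 .mp ⟨⟨159314434, 0, 0, 0, 0, 73374311, 0, 0, 0, ⟨0, 0⟩, 0⟩, 0, 0⟩ 0 0)) (.cut .s 11405312 (.pos 49 .mp ⟨⟨159560260, 0, 0, 0, 0, 74210824, 0, 0, 0, ⟨0, 0⟩, 0⟩, 0, 0⟩ 0 0) (.pos 49 .mp ⟨⟨159977882, 0, 0, 0, 0, 74777913, 0, 0, 0, ⟨0, 0⟩, 0⟩, 0, 0⟩ 0 0))) (.pos 50 .mp ⟨⟨182936221, 0, 0, 0, 0, 39186503, 0, 0, 0, ⟨0, 0⟩, 0⟩, 0, 0⟩ 0 0)) (.cut .v 16809984 (.cut .s 11423744 (.cut .d (-8192) (.pos 49 .mp ⟨⟨158309595, 0, 0, 0, 0, 80845685, 0, 0, 0, ⟨0, 0⟩, 0⟩, 0, 0⟩ 0 0) (.cut .s 11417600 (.pos 49 .mp ⟨⟨162336418,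 0, 0, 0, 0, 72009469, 0, 0, 0, ⟨0, 0⟩, 0⟩, 0, 0⟩ 0 0) (.pos 49 .mp ⟨⟨162870045, 0, 0, 0, 0, 72377997, 0, 0, 0, ⟨0, 0⟩, 0⟩, 0, 0⟩ 0 0))) (.cut .d (-8192) (.pos 49 .mp ⟨⟨159556751, 0, 0, 0, 0, 81312213, 0, 0, 0, ⟨0, 0⟩, 0⟩, 0, 0⟩ 0 0) (.cut .s 11429888 (.pos 49 .mp ⟨⟨163537362, 0, 0, 0, 0, 72542285, 0, 0, 0, ⟨0, 0⟩, 0⟩, 0, 0⟩ 0 0) (.pos 49 .mp ⟨⟨164229815, 0, 0, 0, 0, 72676817, 0, 0, 0, ⟨0, 0⟩, 0⟩, 0, 0⟩ 0 0)))) (.pos 50 .mp ⟨⟨184972548, 0, 0, 0, 0, 40792983, 0, 0, 0, ⟨0, 0⟩, 0⟩, 0, 0⟩ 0 0)))) (.pos 40 .mp ⟨⟨209278418, 0, 0, 0, 0, 0, 0, 0, 0, ⟨0, 0⟩, 0⟩, 0, 0⟩ 0 0)) (.cut .v 16842752 (.cut .s 11485184 (.cut .s 11460608 (.cut .v 16809984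 (.cut .s 11448320 (.cut .d (-8192) (.pos 49 .mp ⟨⟨160813742, 0, 0, 0, 0, 81793800, 0, 0, 0, ⟨0, 0⟩, 0⟩, 0, 0⟩ 0 0) (.cut .s 11442176 (.pos 49 .mp ⟨⟨164874431, 0, 0, 0, 0, 72899643, 0, 0, 0, ⟨0, 0⟩, 0⟩, 0, 0⟩ 0 0) (.pos 49 .mp ⟨⟨165521604, 0, 0, 0, 0, 73125453, 0, 0, 0, ⟨0, 0⟩, 0⟩, 0, 0⟩ 0 0))) (.cut .d (-8192) (.pos 49 .mp ⟨⟨162080630, 0, 0, 0, 0, 82290564, 0, 0, 0, ⟨0, 0⟩, 0⟩, 0, 0⟩ 0 0) (.cut .s 11454464 (.pos 49 .mp ⟨⟨166171341, 0, 0, 0, 0, 73354246, 0, 0, 0, ⟨0, 0⟩, 0⟩, 0, 0⟩ 0 0) (.pos 49 .mp ⟨⟨166823650, 0, 0, 0, 0, 73586020, 0, 0, 0, ⟨0, 0⟩, 0⟩, 0, 0⟩ 0 0)))) (.pos 50 .mp ⟨⟨187160148, 0, 0, 0, 0, 42278542, 0, 0, 0, ⟨0, 0⟩,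 0⟩, 0, 0⟩ 0 0)) (.cut .v 16809984 (.cut .s 11472896 (.cut .d (-8192) (.pos 49 .mp ⟨⟨163357479, 0, 0, 0, 0, 82802627, 0, 0, 0, ⟨0, 0⟩, 0⟩, 0, 0⟩ 0 0) (.cut .s 11466752 (.pos 49 .mp ⟨⟨167478539, 0, 0, 0, 0, 73820774, 0, 0, 0, ⟨0, 0⟩, 0⟩, 0, 0⟩ 0 0) (.pos 49 .mp ⟨⟨168136018, 0, 0, 0, 0, 74058506, 0, 0, 0, ⟨0, 0⟩, 0⟩, 0, 0⟩ 0 0))) (.cut .d (-8192) (.pos 49 .mp ⟨⟨164644351, 0, 0, 0, 0, 83330111, 0, 0, 0, ⟨0, 0⟩, 0⟩, 0, 0⟩ 0 0) (.cut .s 11479040 (.pos 49 .mp ⟨⟨168796094, 0, 0, 0, 0, 74299214, 0, 0, 0, ⟨0, 0⟩, 0⟩, 0, 0⟩ 0 0) (.cut .s 11482112 (.pos 49 .mp ⟨⟨169246107, 0, 0, 0, 0, 74703601, 0, 0, 0, ⟨0, 0⟩, 0⟩, 0, 0⟩ 0 0) (.pos 49 .mp ⟨⟨169545912,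 0, 0, 0, 0, 74874902, 0, 0, 0, ⟨0, 0⟩, 0⟩, 0, 0⟩ 0 0))))) (.pos 50 .mp ⟨⟨189509080, 0, 0, 0, 0, 43627495, 0, 0, 0, ⟨0, 0⟩, 0⟩, 0, 0⟩ 0 0))) (.cut .s 11509760 (.cut .v 16809984 (.cut .s 11497472 (.cut .d (-8192) (.cut .s 11491328 (.pos 49 .mp ⟨⟨165941312, 0, 0, 0, 0, 83140394, 0, 0, 0, ⟨0, 0⟩, 0⟩, 0, 0⟩ 0 0) (.pos 49 .mp ⟨⟨166593597, 0, 0, 0, 0, 83413330, 0, 0, 0, ⟨0, 0⟩, 0⟩, 0, 0⟩ 0 0)) (.cut .l 123033 (.cut .v 16793600 (.cut .s 11491328 (.pos 55 .mp ⟨⟨168341407, 0, 0, 0, 0, 77646891, 0, 0, 0, ⟨0, 0⟩, 0⟩, 0, 0⟩ 0 0) (.pos 55 .mp ⟨⟨168806411, 0, 0, 0, 0, 78232143, 0, 0, 0, ⟨0, 0⟩, 0⟩, 0, 0⟩ 0 0)) (.pos 56 .mp ⟨⟨183628664, 0, 0, 0,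 0, 55588618, 0, 0, 0, ⟨0, 0⟩, 0⟩, 0, 0⟩ 0 0)) (.pos 49 .mp ⟨⟨168936774, 0, 0, 0, 0, 0, 0, 0, 0, ⟨0, 0⟩, 0⟩, 0, 0⟩ 0 0))) (.cut .d (-8192) (.cut .s 11503616 (.pos 49 .mp ⟨⟨167248427, 0, 0, 0, 0, 83690190, 0, 0, 0, ⟨0, 0⟩, 0⟩, 0, 0⟩ 0 0) (.pos 49 .mp ⟨⟨167905813, 0, 0, 0, 0, 83970989, 0, 0, 0, ⟨0, 0⟩, 0⟩, 0, 0⟩ 0 0)) (.cut .l 123033 (.cut .v 16793600 (.cut .s 11503616 (.pos 55 .mp ⟨⟨169286574, 0, 0, 0, 0, 78799910, 0, 0, 0, ⟨0, 0⟩, 0⟩, 0, 0⟩ 0 0) (.pos 55 .mp ⟨⟨169877162, 0, 0, 0, 0, 79195962, 0, 0, 0, ⟨0, 0⟩, 0⟩, 0, 0⟩ 0 0)) (.pos 56 .mp ⟨⟨184850133, 0, 0, 0, 0, 56275005, 0, 0, 0, ⟨0, 0⟩, 0⟩, 0, 0⟩ 0 0)) (.pos 49 .mp ⟨⟨170264705,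 0, 0, 0, 0, 0, 0, 0, 0, ⟨0, 0⟩, 0⟩, 0, 0⟩ 0 0)))) (.cut .s 11497472 (.pos 50 .mp ⟨⟨182406764, 0, 0, 0, 0, 57992351, 0, 0, 0, ⟨0, 0⟩, 0⟩, 0, 0⟩ 0 0) (.pos 50 .mp ⟨⟨183613025, 0, 0, 0, 0, 58708783, 0, 0, 0, ⟨0, 0⟩, 0⟩, 0, 0⟩ 0 0))) (.cut .v 16809984 (.cut .s 11522048 (.cut .d (-8192) (.cut .s 11515904 (.pos 49 .mp ⟨⟨168565762, 0, 0, 0, 0, 84255743, 0, 0, 0, ⟨0, 0⟩, 0⟩, 0, 0⟩ 0 0) (.pos 49 .mp ⟨⟨169228282, 0, 0, 0, 0, 84544468, 0, 0, 0, ⟨0, 0⟩, 0⟩, 0, 0⟩ 0 0)) (.cut .l 123033 (.cut .v 16793600 (.cut .d (-4096) (.pos 55 .mp ⟨⟨169033268, 0, 0, 0, 0, 83843426, 0, 0, 0, ⟨0, 0⟩, 0⟩, 0, 0⟩ 0 0) (.cut .s 11515904 (.pos 55 .mp ⟨⟨171510349,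 0, 0, 0, 0, 77789456, 0, 0, 0, ⟨0, 0⟩, 0⟩, 0, 0⟩ 0 0) (.pos 55 .mp ⟨⟨172139041, 0, 0, 0, 0, 78126661, 0, 0, 0, ⟨0, 0⟩, 0⟩, 0, 0⟩ 0 0))) (.pos 56 .mp ⟨⟨186118162, 0, 0, 0, 0, 56917609, 0, 0, 0, ⟨0, 0⟩, 0⟩, 0, 0⟩ 0 0)) (.pos 49 .mp ⟨⟨171602884, 0, 0, 0, 0, 0, 0, 0, 0, ⟨0, 0⟩, 0⟩, 0, 0⟩ 0 0))) (.cut .d (-8192) (.cut .s 11528192 (.pos 49 .mp ⟨⟨169893382, 0, 0, 0, 0, 84837181, 0, 0, 0, ⟨0, 0⟩, 0⟩, 0, 0⟩ 0 0) (.pos 49 .mp ⟨⟨170561070, 0, 0, 0, 0, 85133897, 0, 0, 0, ⟨0, 0⟩, 0⟩, 0, 0⟩ 0 0)) (.cut .l 123033 (.cut .v 16793600 (.cut .d (-4096) (.pos 55 .mp ⟨⟨170360422, 0, 0, 0, 0, 84430637, 0, 0, 0, ⟨0, 0⟩, 0⟩, 0, 0⟩ 0 0) (.cut .s 11528192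 (.pos 55 .mp ⟨⟨172793255, 0, 0, 0, 0, 78430815, 0, 0, 0, ⟨0, 0⟩, 0⟩, 0, 0⟩ 0 0) (.pos 55 .mp ⟨⟨173497849, 0, 0, 0, 0, 78662279, 0, 0, 0, ⟨0, 0⟩, 0⟩, 0, 0⟩ 0 0))) (.pos 56 .mp ⟨⟨187434061, 0, 0, 0, 0, 57514348, 0, 0, 0, ⟨0, 0⟩, 0⟩, 0, 0⟩ 0 0)) (.pos 49 .mp ⟨⟨172951376, 0, 0, 0, 0, 0, 0, 0, 0, ⟨0, 0⟩, 0⟩, 0, 0⟩ 0 0)))) (.cut .s 11522048 (.pos 50 .mp ⟨⟨184865659, 0, 0, 0, 0, 59381830, 0, 0, 0, ⟨0, 0⟩, 0⟩, 0, 0⟩ 0 0) (.pos 50 .mp ⟨⟨186165979, 0, 0, 0, 0, 60009408, 0, 0, 0, ⟨0, 0⟩, 0⟩, 0, 0⟩ 0 0))))) (.pos 40 .mp ⟨⟨221891310, 0, 0, 0, 0, 0, 0, 0, 0, ⟨0, 0⟩, 0⟩, 0, 0⟩ 0 0))) (.cut .s 11632640 (.cut .v 16842752 (.cut .s 11583488 (.cut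 .s 11558912 (.cut .v 16809984 (.cut .s 11546624 (.cut .d (-8192) (.cut .s 11540480 (.pos 49 .mp ⟨⟨171231354, 0, 0, 0, 0, 85434631, 0, 0, 0, ⟨0, 0⟩, 0⟩, 0, 0⟩ 0 0) (.pos 49 .mp ⟨⟨171904244, 0, 0, 0, 0, 85739401, 0, 0, 0, ⟨0, 0⟩, 0⟩, 0, 0⟩ 0 0)) (.cut .l 123033 (.cut .v 16793600 (.cut .d (-4096) (.pos 55 .mp ⟨⟨171697930, 0, 0, 0, 0, 85033856, 0, 0, 0, ⟨0, 0⟩, 0⟩, 0, 0⟩ 0 0) (.cut .s 11540480 (.pos 55 .mp ⟨⟨174188821, 0, 0, 0, 0, 78924447, 0, 0, 0, ⟨0, 0⟩, 0⟩, 0, 0⟩ 0 0) (.pos 55 .mp ⟨⟨174870940, 0, 0, 0, 0, 79209227, 0, 0, 0, ⟨0, 0⟩, 0⟩, 0, 0⟩ 0 0))) (.pos 56 .mp ⟨⟨188799153, 0, 0, 0, 0, 58063121, 0, 0, 0, ⟨0, 0⟩, 0⟩, 0, 0⟩ 0 0))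 (.pos 49 .mp ⟨⟨173631513, 0, 0, 0, 0, 78468457, 0, 0, 0, ⟨0, 0⟩, 0⟩, 0, 0⟩ 0 0))) (.cut .d (-8192) (.cut .s 11552768 (.pos 49 .mp ⟨⟨172579747, 0, 0, 0, 0, 86048222, 0, 0, 0, ⟨0, 0⟩, 0⟩, 0, 0⟩ 0 0) (.pos 49 .mp ⟨⟨173257872, 0, 0, 0, 0, 86361111, 0, 0, 0, ⟨0, 0⟩, 0⟩, 0, 0⟩ 0 0)) (.cut .l 123033 (.cut .v 16793600 (.cut .d (-4096) (.pos 55 .mp ⟨⟨173045860, 0, 0, 0, 0, 85653212, 0, 0, 0, ⟨0, 0⟩, 0⟩, 0, 0⟩ 0 0) (.cut .s 11552768 (.pos 55 .mp ⟨⟨175555721, 0, 0, 0, 0, 79497024, 0, 0, 0, ⟨0, 0⟩, 0⟩, 0, 0⟩ 0 0) (.pos 55 .mp ⟨⟨176243172, 0, 0, 0, 0, 79787838, 0, 0, 0, ⟨0, 0⟩, 0⟩, 0, 0⟩ 0 0))) (.pos 56 .mp ⟨⟨190214766, 0, 0, 0, 0, 58561808,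 0, 0, 0, ⟨0, 0⟩, 0⟩, 0, 0⟩ 0 0)) (.pos 49 .mp ⟨⟨174994928, 0, 0, 0, 0, 79057395, 0, 0, 0, ⟨0, 0⟩, 0⟩, 0, 0⟩ 0 0)))) (.cut .s 11546624 (.pos 50 .mp ⟨⟨187515307, 0, 0, 0, 0, 60589416, 0, 0, 0, ⟨0, 0⟩, 0⟩, 0, 0⟩ 0 0) (.pos 50 .mp ⟨⟨188914974, 0, 0, 0, 0, 61119734, 0, 0, 0, ⟨0, 0⟩, 0⟩, 0, 0⟩ 0 0))) (.cut .v 16809984 (.cut .s 11571200 (.cut .d (-8192) (.cut .s 11565056 (.pos 49 .mp ⟨⟨173938628, 0, 0, 0, 0, 86678085, 0, 0, 0, ⟨0, 0⟩, 0⟩, 0, 0⟩ 0 0) (.pos 49 .mp ⟨⟨174622023, 0, 0, 0, 0, 86999158, 0, 0, 0, ⟨0, 0⟩, 0⟩, 0, 0⟩ 0 0)) (.cut .l 123033 (.cut .v 16793600 (.cut .d (-4096) (.pos 55 .mp ⟨⟨174404281, 0, 0, 0, 0, 86288835, 0, 0, 0,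 ⟨0, 0⟩, 0⟩, 0, 0⟩ 0 0) (.cut .s 11565056 (.pos 55 .mp ⟨⟨176933302, 0, 0, 0, 0, 80081664, 0, 0, 0, ⟨0, 0⟩, 0⟩, 0, 0⟩ 0 0) (.pos 55 .mp ⟨⟨177626120, 0, 0, 0, 0, 80378503, 0, 0, 0, ⟨0, 0⟩, 0⟩, 0, 0⟩ 0 0))) (.pos 56 .mp ⟨⟨191682238, 0, 0, 0, 0, 59008267, 0, 0, 0, ⟨0, 0⟩, 0⟩, 0, 0⟩ 0 0)) (.pos 49 .mp ⟨⟨176368796, 0, 0, 0, 0, 79651269, 0, 0, 0, ⟨0, 0⟩, 0⟩, 0, 0⟩ 0 0))) (.cut .d (-8192) (.cut .s 11577344 (.pos 49 .mp ⟨⟨175308067, 0, 0, 0, 0, 87324349, 0, 0, 0, ⟨0, 0⟩, 0⟩, 0, 0⟩ 0 0) (.pos 49 .mp ⟨⟨175996767, 0, 0, 0, 0, 87653674, 0, 0, 0, ⟨0, 0⟩, 0⟩, 0, 0⟩ 0 0)) (.cut .l 123033 (.cut .v 16793600 (.cut .d (-4096) (.pos 55 .mp ⟨⟨175773260,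 0, 0, 0, 0, 86940855, 0, 0, 0, ⟨0, 0⟩, 0⟩, 0, 0⟩ 0 0) (.cut .s 11577344 (.pos 55 .mp ⟨⟨178321635, 0, 0, 0, 0, 80678350, 0, 0, 0, ⟨0, 0⟩, 0⟩, 0, 0⟩ 0 0) (.pos 55 .mp ⟨⟨179019855, 0, 0, 0, 0, 80981204, 0, 0, 0, ⟨0, 0⟩, 0⟩, 0, 0⟩ 0 0))) (.pos 56 .mp ⟨⟨193202917, 0, 0, 0, 0, 59400340, 0, 0, 0, ⟨0, 0⟩, 0⟩, 0, 0⟩ 0 0)) (.pos 49 .mp ⟨⟨177753188, 0, 0, 0, 0, 80249862, 0, 0, 0, ⟨0, 0⟩, 0⟩, 0, 0⟩ 0 0)))) (.cut .s 11571200 (.pos 50 .mp ⟨⟨190366319, 0, 0, 0, 0, 61598219, 0, 0, 0, ⟨0, 0⟩, 0⟩, 0, 0⟩ 0 0) (.pos 50 .mp ⟨⟨191870692, 0, 0, 0, 0, 62022710, 0, 0, 0, ⟨0, 0⟩, 0⟩, 0, 0⟩ 0 0)))) (.cut .s 11608064 (.cut .v 16809984 (.cut .s 11595776 (.cut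 .d (-8192) (.cut .s 11589632 (.pos 49 .mp ⟨⟨176688132, 0, 0, 0, 0, 87987148, 0, 0, 0, ⟨0, 0⟩, 0⟩, 0, 0⟩ 0 0) (.pos 49 .mp ⟨⟨177382172, 0, 0, 0, 0, 88324790, 0, 0, 0, ⟨0, 0⟩, 0⟩, 0, 0⟩ 0 0)) (.cut .l 123033 (.cut .v 16793600 (.cut .d (-4096) (.pos 55 .mp ⟨⟨177152868, 0, 0, 0, 0, 87609405, 0, 0, 0, ⟨0, 0⟩, 0⟩, 0, 0⟩ 0 0) (.cut .s 11589632 (.pos 55 .mp ⟨⟨179720789, 0, 0, 0, 0, 81287062, 0, 0, 0, ⟨0, 0⟩, 0⟩, 0, 0⟩ 0 0) (.pos 55 .mp ⟨⟨180424447, 0, 0, 0, 0, 81595922, 0, 0, 0, ⟨0, 0⟩, 0⟩, 0, 0⟩ 0 0))) (.pos 56 .mp ⟨⟨194778160, 0, 0, 0, 0, 59735843, 0, 0, 0, ⟨0, 0⟩, 0⟩, 0, 0⟩ 0 0)) (.pos 49 .mp ⟨⟨179148173, 0, 0, 0, 0, 80852957, 0, 0,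 0, ⟨0, 0⟩, 0⟩, 0, 0⟩ 0 0))) (.cut .d (-8192) (.cut .s 11601920 (.pos 49 .mp ⟨⟨178078895, 0, 0, 0, 0, 88666616, 0, 0, 0, ⟨0, 0⟩, 0⟩, 0, 0⟩ 0 0) (.pos 49 .mp ⟨⟨178778309, 0, 0, 0, 0, 89012642, 0, 0, 0, ⟨0, 0⟩, 0⟩, 0, 0⟩ 0 0)) (.cut .l 123033 (.cut .v 16793600 (.cut .d (-4096) (.pos 55 .mp ⟨⟨178543176, 0, 0, 0, 0, 88294618, 0, 0, 0, ⟨0, 0⟩, 0⟩, 0, 0⟩ 0 0) (.cut .s 11601920 (.pos 55 .mp ⟨⟨181130837, 0, 0, 0, 0, 81907782, 0, 0, 0, ⟨0, 0⟩, 0⟩, 0, 0⟩ 0 0) (.pos 55 .mp ⟨⟨181839968, 0, 0, 0, 0, 82222638, 0, 0, 0, ⟨0, 0⟩, 0⟩, 0, 0⟩ 0 0))) (.pos 56 .mp ⟨⟨196409333, 0, 0, 0, 0, 60012578, 0, 0, 0, ⟨0, 0⟩, 0⟩, 0, 0⟩ 0 0)) (.pos 49 .mp ⟨⟨180553823,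 0, 0, 0, 0, 81460336, 0, 0, 0, ⟨0, 0⟩, 0⟩, 0, 0⟩ 0 0)))) (.cut .s 11595776 (.pos 50 .mp ⟨⟨193429450, 0, 0, 0, 0, 62391026, 0, 0, 0, ⟨0, 0⟩, 0⟩, 0, 0⟩ 0 0) (.pos 50 .mp ⟨⟨195043960, 0, 0, 0, 0, 62700966, 0, 0, 0, ⟨0, 0⟩, 0⟩, 0, 0⟩ 0 0))) (.cut .v 16809984 (.cut .s 11620352 (.cut .d (-8192) (.cut .s 11614208 (.pos 49 .mp ⟨⟨179480425, 0, 0, 0, 0, 89362886, 0, 0, 0, ⟨0, 0⟩, 0⟩, 0, 0⟩ 0 0) (.pos 49 .mp ⟨⟨180185250, 0, 0, 0, 0, 89717365, 0, 0, 0, ⟨0, 0⟩, 0⟩, 0, 0⟩ 0 0)) (.cut .l 123033 (.cut .v 16793600 (.cut .d (-4096) (.pos 55 .mp ⟨⟨179944252, 0, 0, 0, 0, 88996629, 0, 0, 0, ⟨0, 0⟩, 0⟩, 0, 0⟩ 0 0) (.cut .s 11614208 (.pos 55 .mp ⟨⟨182551851,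 0, 0, 0, 0, 82540489, 0, 0, 0, ⟨0, 0⟩, 0⟩, 0, 0⟩ 0 0) (.pos 55 .mp ⟨⟨183266492, 0, 0, 0, 0, 82861331, 0, 0, 0, ⟨0, 0⟩, 0⟩, 0, 0⟩ 0 0))) (.pos 56 .mp ⟨⟨198097811, 0, 0, 0, 0, 60228320, 0, 0, 0, ⟨0, 0⟩, 0⟩, 0, 0⟩ 0 0)) (.pos 49 .mp ⟨⟨181970209, 0, 0, 0, 0, 82071780, 0, 0, 0, ⟨0, 0⟩, 0⟩, 0, 0⟩ 0 0))) (.cut .d (-8192) (.cut .s 11626496 (.pos 49 .mp ⟨⟨180892795, 0, 0, 0, 0, 90076096, 0, 0, 0, ⟨0, 0⟩, 0⟩, 0, 0⟩ 0 0) (.pos 49 .mp ⟨⟨181603067, 0, 0, 0, 0, 90439096, 0, 0, 0, ⟨0, 0⟩, 0⟩, 0, 0⟩ 0 0)) (.cut .l 123033 (.cut .v 16793600 (.cut .d (-4096) (.pos 55 .mp ⟨⟨181356171, 0, 0, 0, 0, 89715574, 0, 0, 0, ⟨0, 0⟩, 0⟩, 0, 0⟩ 0 0) (.cut .s 11626496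 (.pos 55 .mp ⟨⟨183970117, 0, 0, 0, 0, 83208759, 0, 0, 0, ⟨0, 0⟩, 0⟩, 0, 0⟩ 0 0) (.pos 55 .mp ⟨⟨184672266, 0, 0, 0, 0, 83567903, 0, 0, 0, ⟨0, 0⟩, 0⟩, 0, 0⟩ 0 0))) (.pos 56 .mp ⟨⟨199844979, 0, 0, 0, 0, 60380828, 0, 0, 0, ⟨0, 0⟩, 0⟩, 0, 0⟩ 0 0)) (.pos 49 .mp ⟨⟨183397403, 0, 0, 0, 0, 82687069, 0, 0, 0, ⟨0, 0⟩, 0⟩, 0, 0⟩ 0 0)))) (.cut .s 11620352 (.pos 50 .mp ⟨⟨196715599, 0, 0, 0, 0, 62950305, 0, 0, 0, ⟨0, 0⟩, 0⟩, 0, 0⟩ 0 0) (.pos 50 .mp ⟨⟨198445753, 0, 0, 0, 0, 63136801, 0, 0, 0, ⟨0, 0⟩, 0⟩, 0, 0⟩ 0 0))))) (.pos 40 .mp ⟨⟨235583885, 0, 0, 0, 0, 0, 0, 0, 0, ⟨0, 0⟩, 0⟩, 0, 0⟩ 0 0)) (.cut .v 16842752 (.cut .s 11681792 (.cut .s 11657216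 (.cut .v 16809984 (.cut .s 11644928 (.cut .d (-8192) (.cut .s 11638784 (.pos 49 .mp ⟨⟨182316076, 0, 0, 0, 0, 90806382, 0, 0, 0, ⟨0, 0⟩, 0⟩, 0, 0⟩ 0 0) (.pos 49 .mp ⟨⟨183031832, 0, 0, 0, 0, 91177972, 0, 0, 0, ⟨0, 0⟩, 0⟩, 0, 0⟩ 0 0)) (.cut .l 123033 (.cut .v 16793600 (.cut .s 11638784 (.cut .s 11635712 (.pos 55 .mp ⟨⟨186768271, 0, 0, 0, 0, 81500627, 0, 0, 0, ⟨0, 0⟩, 0⟩, 0, 0⟩ 0 0) (.pos 55 .mp ⟨⟨187170625, 0, 0, 0, 0, 81602411, 0, 0, 0, ⟨0, 0⟩, 0⟩, 0, 0⟩ 0 0)) (.pos 55 .mp ⟨⟨185054853, 0, 0, 0, 0, 86115169, 0, 0, 0, ⟨0, 0⟩, 0⟩, 0, 0⟩ 0 0)) (.pos 56 .mp ⟨⟨201652232, 0, 0, 0, 0, 60467836, 0, 0, 0, ⟨0, 0⟩, 0⟩, 0, 0⟩ 0 0)) (.pos 49 .mp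 ⟨⟨184835478, 0, 0, 0, 0, 83305981, 0, 0, 0, ⟨0, 0⟩, 0⟩, 0, 0⟩ 0 0))) (.cut .d (-8192) (.pos 49 .mp ⟨⟨183750343, 0, 0, 0, 0, 92405231, 0, 0, 0, ⟨0, 0⟩, 0⟩, 0, 0⟩ 0 0) (.cut .l 123033 (.cut .v 16793600 (.cut .s 11651072 (.pos 55 .mp ⟨⟨185849395, 0, 0, 0, 0, 86338958, 0, 0, 0, ⟨0, 0⟩, 0⟩, 0, 0⟩ 0 0) (.pos 55 .mp ⟨⟨186728151, 0, 0, 0, 0, 86432259, 0, 0, 0, ⟨0, 0⟩, 0⟩, 0, 0⟩ 0 0)) (.pos 56 .mp ⟨⟨203520975, 0, 0, 0, 0, 60487059, 0, 0, 0, ⟨0, 0⟩, 0⟩, 0, 0⟩ 0 0)) (.pos 49 .mp ⟨⟨186284507, 0, 0, 0, 0, 83928294, 0, 0, 0, ⟨0, 0⟩, 0⟩, 0, 0⟩ 0 0)))) (.cut .s 11644928 (.pos 50 .mp ⟨⟨200235819, 0, 0, 0, 0, 63258188, 0, 0, 0, ⟨0, 0⟩, 0⟩, 0, 0⟩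 0 0) (.pos 50 .mp ⟨⟨202087203, 0, 0, 0, 0, 63312179, 0, 0, 0, ⟨0, 0⟩, 0⟩, 0, 0⟩ 0 0))) (.cut .v 16809984 (.cut .s 11669504 (.cut .d (-8192) (.pos 49 .mp ⟨⟨185195667, 0, 0, 0, 0, 93179474, 0, 0, 0, ⟨0, 0⟩, 0⟩, 0, 0⟩ 0 0) (.cut .l 123033 (.cut .d (-4096) (.pos 49 .mp ⟨⟨187899694, 0, 0, 0, 0, 88168704, 0, 0, 0, ⟨0, 0⟩, 0⟩, 0, 0⟩ 0 0) (.cut .s 11663360 (.pos 49 .mp ⟨⟨188639527, 0, 0, 0, 0, 84749681, 0, 0, 0, ⟨0, 0⟩, 0⟩, 0, 0⟩ 0 0) (.pos 49 .mp ⟨⟨189353323, 0, 0, 0, 0, 85137825, 0, 0, 0, ⟨0, 0⟩, 0⟩, 0, 0⟩ 0 0))) (.pos 49 .mp ⟨⟨187744566, 0, 0, 0, 0, 84553785, 0, 0, 0, ⟨0, 0⟩, 0⟩, 0, 0⟩ 0 0))) (.cut .d (-8192) (.pos 49 .mp ⟨⟨186652125,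 0, 0, 0, 0, 93971251, 0, 0, 0, ⟨0, 0⟩, 0⟩, 0, 0⟩ 0 0) (.cut .s 11675648 (.cut .s 11672576 (.pos 49 .mp ⟨⟨191151170, 0, 0, 0, 0, 83651831, 0, 0, 0, ⟨0, 0⟩, 0⟩, 0, 0⟩ 0 0) (.pos 49 .mp ⟨⟨191566825, 0, 0, 0, 0, 83757763, 0, 0, 0, ⟨0, 0⟩, 0⟩, 0, 0⟩ 0 0)) (.pos 49 .mp ⟨⟨192092415, 0, 0, 0, 0, 83898361, 0, 0, 0, ⟨0, 0⟩, 0⟩, 0, 0⟩ 0 0)))) (.cut .s 11669504 (.pos 50 .mp ⟨⟨204001320, 0, 0, 0, 0, 63296466, 0, 0, 0, ⟨0, 0⟩, 0⟩, 0, 0⟩ 0 0) (.pos 50 .mp ⟨⟨205979597, 0, 0, 0, 0, 63208718, 0, 0, 0, ⟨0, 0⟩, 0⟩, 0, 0⟩ 0 0)))) (.cut .s 11706368 (.cut .v 16809984 (.cut .s 11694080 (.cut .d (-8192) (.pos 49 .mp ⟨⟨188119790, 0, 0, 0, 0, 94780705, 0,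 0, 0, ⟨0, 0⟩, 0⟩, 0, 0⟩ 0 0) (.cut .s 11687936 (.pos 49 .mp ⟨⟨192846034, 0, 0, 0, 0, 84238895, 0, 0, 0, ⟨0, 0⟩, 0⟩, 0, 0⟩ 0 0) (.pos 49 .mp ⟨⟨193602566, 0, 0, 0, 0, 84582312, 0, 0, 0, ⟨0, 0⟩, 0⟩, 0, 0⟩ 0 0))) (.cut .d (-8192) (.pos 49 .mp ⟨⟨189598739, 0, 0, 0, 0, 95607980, 0, 0, 0, ⟨0, 0⟩, 0⟩, 0, 0⟩ 0 0) (.cut .s 11700224 (.pos 49 .mp ⟨⟨194362023, 0, 0, 0, 0, 84928610, 0, 0, 0, ⟨0, 0⟩, 0⟩, 0, 0⟩ 0 0) (.pos 49 .mp ⟨⟨195124414, 0, 0, 0, 0, 85277783, 0, 0, 0, ⟨0, 0⟩, 0⟩, 0, 0⟩ 0 0)))) (.pos 50 .mp ⟨⟨219634409, 0, 0, 0, 0, 46885337, 0, 0, 0, ⟨0, 0⟩, 0⟩, 0, 0⟩ 0 0)) (.cut .v 16809984 (.cut .s 11718656 (.cut .d (-8192) (.pos 49 .mp ⟨⟨191089049,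 0, 0, 0, 0, 96453223, 0, 0, 0, ⟨0, 0⟩, 0⟩, 0, 0⟩ 0 0) (.cut .s 11712512 (.pos 49 .mp ⟨⟨195889750, 0, 0, 0, 0, 85629828, 0, 0, 0, ⟨0, 0⟩, 0⟩, 0, 0⟩ 0 0) (.pos 49 .mp ⟨⟨196658039, 0, 0, 0, 0, 85984741, 0, 0, 0, ⟨0, 0⟩, 0⟩, 0, 0⟩ 0 0))) (.cut .d (-8192) (.pos 49 .mp ⟨⟨192590796, 0, 0, 0, 0, 97316578, 0, 0, 0, ⟨0, 0⟩, 0⟩, 0, 0⟩ 0 0) (.cut .s 11724800 (.pos 49 .mp ⟨⟨197429293, 0, 0, 0, 0, 86342518, 0, 0, 0, ⟨0, 0⟩, 0⟩, 0, 0⟩ 0 0) (.pos 49 .mp ⟨⟨198192137, 0, 0, 0, 0, 86722747, 0, 0, 0, ⟨0, 0⟩, 0⟩, 0, 0⟩ 0 0)))) (.pos 50 .mp ⟨⟨224179528, 0, 0, 0, 0, 45938992, 0, 0, 0, ⟨0, 0⟩, 0⟩, 0, 0⟩ 0 0)))) (.pos 40 .mp ⟨⟨250358026, 0, 0, 0, 0, 0,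 0, 0, 0, ⟨0, 0⟩, 0⟩, 0, 0⟩ 0 0))))) (.pos 38 .mp ⟨⟨249090203, 0, 0, 0, 0, 0, 0, 0, 0, ⟨0, 0⟩, 0⟩, 0, 0⟩ 0 0)) (.void 36 ⟨⟨100000, 0, 0, 0, 0, 0, 0, 0, 0, ⟨0, 0⟩, 0⟩, 0, 0⟩ 0 0)) (.void 34 ⟨⟨100000, 0, 0, 0, 0, 0, 0, 0, 0, ⟨0, 0⟩, 0⟩, 0, 0⟩ 0 0))))))) (.void 32 ⟨⟨100000, 0, 0, 0, 0, 0, 0, 0, 0, ⟨0, 0⟩, 0⟩, 0, 0⟩ 0 0))) (.void 30 ⟨⟨100000, 0, 0, 0, 0, 0, 0, 0, 0, ⟨0, 0⟩, 0⟩, 0, 0⟩ 0 0)))) (.void 28 ⟨⟨100000, 0, 0, 0, 0, 0, 0, 0, 0, ⟨0, 0⟩, 0⟩, 0, 0⟩ 0 0))) (.void 26 ⟨⟨100000, 0, 0, 0, 0, 0, 0, 0, 0, ⟨0, 0⟩, 0⟩, 0, 0⟩ 0 0)) (.void 91 ⟨⟨100000, 0, 0, 0, 0, 0, 0, 0, 0, ⟨0, 0⟩, 0⟩, 0, 0⟩ 0 0)) (.void 98 ⟨⟨100000, 0, 0, 0, 0, 0, 0, 0,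 0, ⟨0, 0⟩, 0⟩, 0, 0⟩ 0 0))) (.cut .v 16777216 (.cut .v 8388608 (.cut .v 4194304 (.cut .v 2097152 (.cut .v 1048576 (.pos 113 .pm ⟨⟨0, 0, 27476909, 0, 0, 0, 0, 0, 40095221, ⟨0, 0⟩, 1983364⟩, 0, 0⟩ 0 0) (.pos 114 .pm ⟨⟨0, 0, 8784747, 0, 0, 0, 0, 0, 0, ⟨0, 0⟩, 0⟩, 0, 57984⟩ 0 0)) (.pos 7 .pm ⟨⟨0, 0, 402006, 0, 0, 0, 0, 0, 0, ⟨0, 0⟩, 0⟩, 0, 104370⟩ 0 0)) (.pos 5 .pm ⟨⟨0, 3925337, 0, 0, 0, 0, 0, 0, 0, ⟨0, 0⟩, 0⟩, 0, 130463⟩ 0 0)) (.pos 3 .pm ⟨⟨0, 0, 0, 0, 0, 0, 0, 0, 0, ⟨0, 0⟩, 0⟩, 0, 0⟩ 0 0)) (.cut .v 67108864 (.cut .d 4024593 (.cut .d 2012296 (.cut .v 33554432 (.cut .v 25165824 (.cut .d 1006148 (.cut .d 503074 (.cut .v 20971520 (.cut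 .d 251537 (.cut .v 18874368 (.cut .d 125768 (.cut .v 17825792 (.cut .s 11534336 (.pos 31 .pp ⟨⟨168977600, 0, 0, 0, 0, 0, 0, 0, 0, ⟨0, 0⟩, 0⟩, 3504860, 0⟩ 0 0) (.pos 31 .pp ⟨⟨192969462, 0, 0, 0, 0, 0, 0, 0, 0, ⟨0, 0⟩, 0⟩, 3674052, 0⟩ 0 0)) (.pos 32 .pp ⟨⟨256455002, 0, 0, 0, 0, 0, 0, 0, 0, ⟨0, 0⟩, 0⟩, 0, 0⟩ 0 0)) (.pos 29 .pp ⟨⟨164031126, 0, 0, 0, 0, 0, 0, 0, 0, ⟨0, 0⟩, 0⟩, 0, 57595⟩ 0 0)) (.pos 30 .pp ⟨⟨300802160, 0, 0, 0, 0, 0, 0, 0, 0, ⟨0, 0⟩, 0⟩, 0, 0⟩ 0 0)) (.pos 27 .pp ⟨⟨177833493, 0, 0, 0, 0, 0, 0, 0, 0, ⟨0, 0⟩, 0⟩, 0, 34205⟩ 0 0)) (.cut .d 251537 (.void 28 ⟨⟨100000, 0, 0, 0, 0, 0, 0, 0, 0, ⟨0, 0⟩, 0⟩, 0, 0⟩ 0 0) (.pos 28 .pp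 ⟨⟨0, 0, 0, 0, 0, 0, 0, 0, 0, ⟨0, 0⟩, 0⟩, 32093261, 0⟩ 0 0))) (.pos 25 .pp ⟨⟨0, 0, 0, 0, 0, 0, 0, 0, 0, ⟨0, 0⟩, 0⟩, 19573501, 103622⟩ 0 0)) (.pos 25 .pp ⟨⟨0, 0, 0, 0, 0, 0, 0, 0, 0, ⟨0, 0⟩, 0⟩, 0, 402685⟩ 0 0)) (.cut .d 1006148 (.cut .d 503074 (.void 26 ⟨⟨0, 0, 0, 0, 0, 0, 0, 0, 0, ⟨0, 0⟩, 0⟩, 100000, 0⟩ 0 0) (.pos 26 .pp ⟨⟨0, 0, 0, 0, 0, 0, 0, 0, 0, ⟨0, 0⟩, 0⟩, 38070023, 0⟩ 0 0)) (.pos 26 .pp ⟨⟨0, 0, 0, 0, 0, 0, 293606, 0, 0, ⟨0, 0⟩, 0⟩, 20041786, 0⟩ 0 0))) (.cut .d 1006148 (.void 91 ⟨⟨0, 0, 0, 0, 0, 0, 0, 0, 0, ⟨0, 0⟩, 0⟩, 100000, 0⟩ 0 0) (.pos 91 .pp ⟨⟨0, 0, 0, 0, 0, 0, 0, 0, 0, ⟨0, 0⟩, 0⟩, 59205727, 0⟩ 0 0))) (.pos 90 .pp ⟨⟨0,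 0, 0, 0, 0, 0, 0, 0, 0, ⟨0, 0⟩, 0⟩, 12368229, 189006⟩ 0 0)) (.pos 90 .pp ⟨⟨0, 53001528, 0, 0, 0, 0, 0, 0, 0, ⟨0, 0⟩, 0⟩, 0, 260926⟩ 0 0)) (.void 98 ⟨⟨0, 0, 0, 43868, 0, 0, 0, 0, 0, ⟨0, 0⟩, 0⟩, 56132, 0⟩ 0 0)))),
    by decide +kernel⟩

def covers17 : cell.Covers Vale.Agent.P237.Petty.Cor.Grid.N15.table row17.1 :=
  ⟨(.cut .d 0 (.cut .v 16777216 (.cut .d (-8388608) (.void 1 ⟨⟨0, 0, 0, 0, 0, 100000, 0, 0, 0, ⟨0, 0⟩, 0⟩, 0, 0⟩ 0 0) (.cut .d (-4194304) (.void 1 ⟨⟨0, 0, 0, 0, 0, 100000, 0, 0, 0, ⟨0, 0⟩, 0⟩, 0, 0⟩ 0 0) (.cut .d (-2097152) (.void 1 ⟨⟨0, 0, 0, 0, 0, 100000, 0, 0, 0, ⟨0, 0⟩, 0⟩, 0, 0⟩ 0 0) (.cut .d (-1048576) (.void 1 ⟨⟨0,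 0, 0, 0, 0, 100000, 0, 0, 0, ⟨0, 0⟩, 0⟩, 0, 0⟩ 0 0) (.cut .d (-524288) (.void 1 ⟨⟨0, 0, 0, 0, 0, 100000, 0, 0, 0, ⟨0, 0⟩, 0⟩, 0, 0⟩ 0 0) (.cut .d (-262144) (.void 1 ⟨⟨0, 0, 0, 0, 0, 100000, 0, 0, 0, ⟨0, 0⟩, 0⟩, 0, 0⟩ 0 0) (.cut .d (-131072) (.void 1 ⟨⟨0, 0, 0, 0, 0, 100000, 0, 0, 0, ⟨0, 0⟩, 0⟩, 0, 0⟩ 0 0) (.cut .d (-65536) (.void 1 ⟨⟨0, 0, 0, 0, 0, 100000, 0, 0, 0, ⟨0, 0⟩, 0⟩, 0, 0⟩ 0 0) (.cut .d (-32768) (.void 1 ⟨⟨0, 0, 0, 0, 0, 100000, 0, 0, 0, ⟨0, 0⟩, 0⟩, 0, 0⟩ 0 0) (.cut .d (-16384) (.void 1 ⟨⟨0, 0, 0, 0, 0, 100000, 0, 0, 0, ⟨0, 0⟩, 0⟩, 0, 0⟩ 0 0) (.cut .v 8388608 (.cut .v 4194304 (.void 4 ⟨⟨0, 0, 100000, 0, 0, 0, 0, 0, 0,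 ⟨0, 0⟩, 0⟩, 0, 0⟩ 0 0) (.pos 5 .mm ⟨⟨0, 0, 5926249, 0, 0, 139999805, 0, 0, 0, ⟨0, 0⟩, 0⟩, 0, 0⟩ 0 0)) (.cut .s 11862016 (.pos 3 .mm ⟨⟨0, 0, 0, 0, 0, 412158977, 0, 0, 0, ⟨0, 0⟩, 0⟩, 0, 0⟩ 0 0) (.pos 3 .mm ⟨⟨0, 0, 0, 0, 0, 450130377, 0, 0, 0, ⟨0, 0⟩, 0⟩, 0, 0⟩ 0 0))))))))))))) (.cut .v 268435456 (.cut .v 67108864 (.cut .v 33554432 (.cut .v 25165824 (.cut .d (-8388608) (.void 25 ⟨⟨100000, 0, 0, 0, 0, 0, 0, 0, 0, ⟨0, 0⟩, 0⟩, 0, 0⟩ 0 0) (.cut .d (-4194304) (.void 25 ⟨⟨100000, 0, 0, 0, 0, 0, 0, 0, 0, ⟨0, 0⟩, 0⟩, 0, 0⟩ 0 0) (.cut .v 20971520 (.cut .d (-2097152) (.void 27 ⟨⟨100000, 0, 0, 0, 0, 0, 0, 0, 0, ⟨0, 0⟩, 0⟩, 0, 0⟩ 0 0) (.cut .v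 18874368 (.cut .d (-1048576) (.void 29 ⟨⟨100000, 0, 0, 0, 0, 0, 0, 0, 0, ⟨0, 0⟩, 0⟩, 0, 0⟩ 0 0) (.cut .v 17825792 (.cut .d (-524288) (.void 31 ⟨⟨100000, 0, 0, 0, 0, 0, 0, 0, 0, ⟨0, 0⟩, 0⟩, 0, 0⟩ 0 0) (.cut .d (-262144) (.void 31 ⟨⟨100000, 0, 0, 0, 0, 0, 0, 0, 0, ⟨0, 0⟩, 0⟩, 0, 0⟩ 0 0) (.cut .d (-131072) (.void 31 ⟨⟨100000, 0, 0, 0, 0, 0, 0, 0, 0, ⟨0, 0⟩, 0⟩, 0, 0⟩ 0 0) (.cut .d (-65536) (.void 31 ⟨⟨100000, 0, 0, 0, 0, 0, 0, 0, 0, ⟨0, 0⟩, 0⟩, 0, 0⟩ 0 0) (.cut .d (-32768) (.void 31 ⟨⟨100000, 0, 0, 0, 0, 0, 0, 0, 0, ⟨0, 0⟩, 0⟩, 0, 0⟩ 0 0) (.cut .d (-16384) (.void 31 ⟨⟨0, 0, 0, 0, 0, 100000, 0, 0, 0, ⟨0, 0⟩, 0⟩, 0, 0⟩ 0 0) (.cut .v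 17301504 (.cut .v 17039360 (.cut .v 16908288 (.cut .s 11862016 (.cut .v 16842752 (.cut .s 11796480 (.cut .s 11763712 (.cut .s 11747328 (.cut .v 16809984 (.cut .d (-8192) (.pos 49 .mp ⟨⟨194099394, 0, 0, 0, 0, 98859661, 0, 0, 0, ⟨0, 0⟩, 0⟩, 0, 0⟩ 0 0) (.cut .s 11739136 (.pos 49 .mp ⟨⟨199236868, 0, 0, 0, 0, 86828397, 0, 0, 0, ⟨0, 0⟩, 0⟩, 0, 0⟩ 0 0) (.pos 49 .mp ⟨⟨200280286, 0, 0, 0, 0, 87173559, 0, 0, 0, ⟨0, 0⟩, 0⟩, 0, 0⟩ 0 0))) (.pos 50 .mp ⟨⟨218808505, 0, 0, 0, 0, 59197382, 0, 0, 0, ⟨0, 0⟩, 0⟩, 0, 0⟩ 0 0)) (.cut .v 16809984 (.cut .d (-8192) (.pos 49 .mp ⟨⟨196141006, 0, 0, 0, 0, 99625352, 0, 0, 0, ⟨0, 0⟩, 0⟩, 0, 0⟩ 0 0) (.cut .l 123033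 (.cut .d (-4096) (.pos 49 .mp ⟨⟨199620911, 0, 0, 0, 0, 93079706, 0, 0, 0, ⟨0, 0⟩, 0⟩, 0, 0⟩ 0 0) (.cut .s 11755520 (.pos 49 .mp ⟨⟨199960391, 0, 0, 0, 0, 89652912, 0, 0, 0, ⟨0, 0⟩, 0⟩, 0, 0⟩ 0 0) (.pos 49 .mp ⟨⟨201063617, 0, 0, 0, 0, 89918969, 0, 0, 0, ⟨0, 0⟩, 0⟩, 0, 0⟩ 0 0))) (.pos 49 .mp ⟨⟨200078244, 0, 0, 0, 0, 87394735, 0, 0, 0, ⟨0, 0⟩, 0⟩, 0, 0⟩ 0 0))) (.pos 50 .mp ⟨⟨220398187, 0, 0, 0, 0, 60705547, 0, 0, 0, ⟨0, 0⟩, 0⟩, 0, 0⟩ 0 0))) (.cut .s 11780096 (.cut .v 16809984 (.cut .d (-8192) (.pos 49 .mp ⟨⟨198204585, 0, 0, 0, 0, 100426636, 0, 0, 0, ⟨0, 0⟩, 0⟩, 0, 0⟩ 0 0) (.cut .l 123033 (.cut .v 16793600 (.cut .s 11771904 (.pos 55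 .mp ⟨⟨200614276, 0, 0, 0, 0, 92893946, 0, 0, 0, ⟨0, 0⟩, 0⟩, 0, 0⟩ 0 0) (.cut .s 11776000 (.pos 55 .mp ⟨⟨204768321, 0, 0, 0, 0, 87780906, 0, 0, 0, ⟨0, 0⟩, 0⟩, 0, 0⟩ 0 0) (.pos 55 .mp ⟨⟨205193871, 0, 0, 0, 0, 88144238, 0, 0, 0, ⟨0, 0⟩, 0⟩, 0, 0⟩ 0 0))) (.pos 56 .mp ⟨⟨223736864, 0, 0, 0, 0, 58879702, 0, 0, 0, ⟨0, 0⟩, 0⟩, 0, 0⟩ 0 0)) (.pos 49 .mp ⟨⟨202182783, 0, 0, 0, 0, 88248744, 0, 0, 0, ⟨0, 0⟩, 0⟩, 0, 0⟩ 0 0))) (.pos 50 .mp ⟨⟨222081604, 0, 0, 0, 0, 62131232, 0, 0, 0, ⟨0, 0⟩, 0⟩, 0, 0⟩ 0 0)) (.cut .v 16809984 (.cut .d (-8192) (.cut .s 11788288 (.pos 49 .mp ⟨⟨200290333, 0, 0, 0, 0, 99964644, 0, 0, 0, ⟨0, 0⟩, 0⟩, 0, 0⟩ 0 0) (.pos 49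 .mp ⟨⟨201341584, 0, 0, 0, 0, 100385852, 0, 0, 0, ⟨0, 0⟩, 0⟩, 0, 0⟩ 0 0)) (.cut .l 123033 (.cut .v 16793600 (.cut .d (-4096) (.pos 55 .mp ⟨⟨200742145, 0, 0, 0, 0, 100030284, 0, 0, 0, ⟨0, 0⟩, 0⟩, 0, 0⟩ 0 0) (.cut .s 11788288 (.pos 55 .mp ⟨⟨203912070, 0, 0, 0, 0, 91574735, 0, 0, 0, ⟨0, 0⟩, 0⟩, 0, 0⟩ 0 0) (.pos 55 .mp ⟨⟨204978046, 0, 0, 0, 0, 91980613, 0, 0, 0, ⟨0, 0⟩, 0⟩, 0, 0⟩ 0 0))) (.pos 56 .mp ⟨⟨225546081, 0, 0, 0, 0, 60161144, 0, 0, 0, ⟨0, 0⟩, 0⟩, 0, 0⟩ 0 0)) (.pos 49 .mp ⟨⟨204309303, 0, 0, 0, 0, 89118615, 0, 0, 0, ⟨0, 0⟩, 0⟩, 0, 0⟩ 0 0))) (.pos 50 .mp ⟨⟨223862818, 0, 0, 0, 0, 63467952, 0, 0, 0, ⟨0, 0⟩, 0⟩, 0, 0⟩ 0 0)))) (.cut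 .s 11829248 (.cut .s 11812864 (.cut .v 16809984 (.cut .d (-8192) (.cut .s 11804672 (.pos 49 .mp ⟨⟨202398453, 0, 0, 0, 0, 100816176, 0, 0, 0, ⟨0, 0⟩, 0⟩, 0, 0⟩ 0 0) (.pos 49 .mp ⟨⟨203460967, 0, 0, 0, 0, 101255669, 0, 0, 0, ⟨0, 0⟩, 0⟩, 0, 0⟩ 0 0)) (.cut .l 123033 (.cut .v 16793600 (.cut .d (-4096) (.pos 55 .mp ⟨⟨202847610, 0, 0, 0, 0, 100902268, 0, 0, 0, ⟨0, 0⟩, 0⟩, 0, 0⟩ 0 0) (.cut .s 11804672 (.pos 55 .mp ⟨⟨206049748, 0, 0, 0, 0, 92393534, 0, 0, 0, ⟨0, 0⟩, 0⟩, 0, 0⟩ 0 0) (.pos 55 .mp ⟨⟨207127200, 0, 0, 0, 0, 92813492, 0, 0, 0, ⟨0, 0⟩, 0⟩, 0, 0⟩ 0 0))) (.pos 56 .mp ⟨⟨227457667, 0, 0, 0, 0, 61346052, 0, 0, 0, ⟨0, 0⟩, 0⟩, 0, 0⟩ 0 0))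 (.pos 49 .mp ⟨⟨206458008, 0, 0, 0, 0, 90003701, 0, 0, 0, ⟨0, 0⟩, 0⟩, 0, 0⟩ 0 0))) (.pos 50 .mp ⟨⟨225745930, 0, 0, 0, 0, 64709140, 0, 0, 0, ⟨0, 0⟩, 0⟩, 0, 0⟩ 0 0)) (.cut .v 16809984 (.cut .d (-8192) (.cut .s 11821056 (.pos 49 .mp ⟨⟨204529152, 0, 0, 0, 0, 101704382, 0, 0, 0, ⟨0, 0⟩, 0⟩, 0, 0⟩ 0 0) (.pos 49 .mp ⟨⟨205603033, 0, 0, 0, 0, 102162366, 0, 0, 0, ⟨0, 0⟩, 0⟩, 0, 0⟩ 0 0)) (.cut .l 123033 (.cut .v 16793600 (.cut .d (-4096) (.pos 55 .mp ⟨⟨204975633, 0, 0, 0, 0, 101811012, 0, 0, 0, ⟨0, 0⟩, 0⟩, 0, 0⟩ 0 0) (.cut .l 61516 (.cut .d (-2048) (.pos 55 .mp ⟨⟨207728336, 0, 0, 0, 0, 96618806, 0, 0, 0, ⟨0, 0⟩, 0⟩, 0, 0⟩ 0 0) (.cut .s 11821056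 (.pos 55 .mp ⟨⟨207512766, 0, 0, 0, 0, 94319162, 0, 0, 0, ⟨0, 0⟩, 0⟩, 0, 0⟩ 0 0) (.pos 55 .mp ⟨⟨208629875, 0, 0, 0, 0, 94699251, 0, 0, 0, ⟨0, 0⟩, 0⟩, 0, 0⟩ 0 0))) (.pos 55 .mp ⟨⟨207983305, 0, 0, 0, 0, 91604955, 0, 0, 0, ⟨0, 0⟩, 0⟩, 0, 0⟩ 0 0))) (.pos 56 .mp ⟨⟨229475758, 0, 0, 0, 0, 62427771, 0, 0, 0, ⟨0, 0⟩, 0⟩, 0, 0⟩ 0 0)) (.pos 49 .mp ⟨⟨208629109, 0, 0, 0, 0, 90903351, 0, 0, 0, ⟨0, 0⟩, 0⟩, 0, 0⟩ 0 0))) (.pos 50 .mp ⟨⟨227735084, 0, 0, 0, 0, 65848137, 0, 0, 0, ⟨0, 0⟩, 0⟩, 0, 0⟩ 0 0))) (.cut .s 11845632 (.cut .v 16809984 (.cut .d (-8192) (.cut .s 11837440 (.pos 49 .mp ⟨⟨206682639, 0, 0, 0, 0, 102629675, 0, 0, 0, ⟨0, 0⟩, 0⟩, 0, 0⟩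 0 0) (.pos 49 .mp ⟨⟨207767994, 0, 0, 0, 0, 103106360, 0, 0, 0, ⟨0, 0⟩, 0⟩, 0, 0⟩ 0 0)) (.cut .l 123033 (.cut .v 16793600 (.cut .d (-4096) (.pos 55 .mp ⟨⟨207126424, 0, 0, 0, 0, 102756929, 0, 0, 0, ⟨0, 0⟩, 0⟩, 0, 0⟩ 0 0) (.cut .l 61516 (.cut .v 16785408 (.cut .d (-2048) (.pos 57 .mp ⟨⟨207349307, 0, 0, 0, 0, 102135785, 0, 0, 0, ⟨0, 0⟩, 0⟩, 0, 0⟩ 0 0) (.cut .s 11837440 (.pos 57 .mp ⟨⟨209522905, 0, 0, 0, 0, 95460589, 0, 0, 0, ⟨0, 0⟩, 0⟩, 0, 0⟩ 0 0) (.pos 57 .mp ⟨⟨210618996, 0, 0, 0, 0, 95916067, 0, 0, 0, ⟨0, 0⟩, 0⟩, 0, 0⟩ 0 0))) (.pos 58 .mp ⟨⟨232490013, 0, 0, 0, 0, 61659137, 0, 0, 0, ⟨0, 0⟩, 0⟩, 0, 0⟩ 0 0)) (.pos 55 .mp ⟨⟨210163294,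 0, 0, 0, 0, 92535513, 0, 0, 0, ⟨0, 0⟩, 0⟩, 0, 0⟩ 0 0))) (.pos 56 .mp ⟨⟨231604533, 0, 0, 0, 0, 63399558, 0, 0, 0, ⟨0, 0⟩, 0⟩, 0, 0⟩ 0 0)) (.pos 49 .mp ⟨⟨210822815, 0, 0, 0, 0, 91816908, 0, 0, 0, ⟨0, 0⟩, 0⟩, 0, 0⟩ 0 0))) (.pos 50 .mp ⟨⟨229834461, 0, 0, 0, 0, 66878199, 0, 0, 0, ⟨0, 0⟩, 0⟩, 0, 0⟩ 0 0)) (.cut .v 16809984 (.cut .d (-8192) (.cut .s 11853824 (.pos 49 .mp ⟨⟨208859126, 0, 0, 0, 0, 103592474, 0, 0, 0, ⟨0, 0⟩, 0⟩, 0, 0⟩ 0 0) (.pos 49 .mp ⟨⟨209956062, 0, 0, 0, 0, 104088071, 0, 0, 0, ⟨0, 0⟩, 0⟩, 0, 0⟩ 0 0)) (.cut .l 123033 (.cut .v 16793600 (.cut .d (-4096) (.pos 55 .mp ⟨⟨209300195, 0, 0, 0, 0, 103740438, 0, 0, 0, ⟨0, 0⟩, 0⟩,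 0, 0⟩ 0 0) (.cut .l 61516 (.cut .v 16785408 (.cut .d (-2048) (.pos 57 .mp ⟨⟨209521732, 0, 0, 0, 0, 103118365, 0, 0, 0, ⟨0, 0⟩, 0⟩, 0, 0⟩ 0 0) (.cut .s 11853824 (.pos 57 .mp ⟨⟨211719409, 0, 0, 0, 0, 96381255, 0, 0, 0, ⟨0, 0⟩, 0⟩, 0, 0⟩ 0 0) (.pos 57 .mp ⟨⟨212825689, 0, 0, 0, 0, 96853515, 0, 0, 0, ⟨0, 0⟩, 0⟩, 0, 0⟩ 0 0))) (.pos 58 .mp ⟨⟨234748621, 0, 0, 0, 0, 62484515, 0, 0, 0, ⟨0, 0⟩, 0⟩, 0, 0⟩ 0 0)) (.pos 55 .mp ⟨⟨212365909, 0, 0, 0, 0, 93479579, 0, 0, 0, ⟨0, 0⟩, 0⟩, 0, 0⟩ 0 0))) (.pos 56 .mp ⟨⟨233848212, 0, 0, 0, 0, 64254580, 0, 0, 0, ⟨0, 0⟩, 0⟩, 0, 0⟩ 0 0)) (.pos 49 .mp ⟨⟨213039342, 0, 0, 0, 0, 92743714, 0, 0, 0, ⟨0, 0⟩, 0⟩, 0,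 0⟩ 0 0))) (.pos 50 .mp ⟨⟨232048284, 0, 0, 0, 0, 67792489, 0, 0, 0, ⟨0, 0⟩, 0⟩, 0, 0⟩ 0 0))))) (.pos 40 .mp ⟨⟨269706566, 0, 0, 0, 0, 0, 0, 0, 0, ⟨0, 0⟩, 0⟩, 0, 0⟩ 0 0)) (.cut .v 16842752 (.cut .s 11927552 (.cut .s 11894784 (.cut .s 11878400 (.cut .v 16809984 (.cut .d (-8192) (.cut .s 11870208 (.pos 49 .mp ⟨⟨211058829, 0, 0, 0, 0, 104593204, 0, 0, 0, ⟨0, 0⟩, 0⟩, 0, 0⟩ 0 0) (.pos 49 .mp ⟨⟨212167454, 0, 0, 0, 0, 105107927, 0, 0, 0, ⟨0, 0⟩, 0⟩, 0, 0⟩ 0 0)) (.cut .l 123033 (.cut .v 16793600 (.cut .s 11870208 (.cut .s 11866112 (.pos 55 .mp ⟨⟨214828420, 0, 0, 0, 0, 95670927, 0, 0, 0, ⟨0, 0⟩, 0⟩, 0, 0⟩ 0 0) (.pos 55 .mp ⟨⟨215334013, 0, 0,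 0, 0, 96001354, 0, 0, 0, ⟨0, 0⟩, 0⟩, 0, 0⟩ 0 0)) (.cut .s 11874304 (.pos 55 .mp ⟨⟨215848909, 0, 0, 0, 0, 96320403, 0, 0, 0, ⟨0, 0⟩, 0⟩, 0, 0⟩ 0 0) (.pos 55 .mp ⟨⟨216373176, 0, 0, 0, 0, 96627957, 0, 0, 0, ⟨0, 0⟩, 0⟩, 0, 0⟩ 0 0))) (.pos 56 .mp ⟨⟨236211058, 0, 0, 0, 0, 64985911, 0, 0, 0, ⟨0, 0⟩, 0⟩, 0, 0⟩ 0 0)) (.pos 49 .mp ⟨⟨215278907, 0, 0, 0, 0, 93683103, 0, 0, 0, ⟨0, 0⟩, 0⟩, 0, 0⟩ 0 0))) (.cut .s 11870208 (.pos 50 .mp ⟨⟨226351061, 0, 0, 0, 0, 79760093, 0, 0, 0, ⟨0, 0⟩, 0⟩, 0, 0⟩ 0 0) (.pos 50 .mp ⟨⟨227487603, 0, 0, 0, 0, 80222340, 0, 0, 0, ⟨0, 0⟩, 0⟩, 0, 0⟩ 0 0))) (.cut .v 16809984 (.cut .d (-8192) (.cut .s 11886592 (.pos 49 .mp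 ⟨⟨213281965, 0, 0, 0, 0, 105632294, 0, 0, 0, ⟨0, 0⟩, 0⟩, 0, 0⟩ 0 0) (.pos 49 .mp ⟨⟨214402389, 0, 0, 0, 0, 106166361, 0, 0, 0, ⟨0, 0⟩, 0⟩, 0, 0⟩ 0 0)) (.cut .l 123033 (.cut .v 16793600 (.cut .s 11886592 (.cut .s 11882496 (.pos 55 .mp ⟨⟨216906880, 0, 0, 0, 0, 96923897, 0, 0, 0, ⟨0, 0⟩, 0⟩, 0, 0⟩ 0 0) (.pos 55 .mp ⟨⟨217450091, 0, 0, 0, 0, 97208105, 0, 0, 0, ⟨0, 0⟩, 0⟩, 0, 0⟩ 0 0)) (.cut .s 11890688 (.pos 55 .mp ⟨⟨218002876, 0, 0, 0, 0, 97480460, 0, 0, 0, ⟨0, 0⟩, 0⟩, 0, 0⟩ 0 0) (.pos 55 .mp ⟨⟨218565303, 0, 0, 0, 0, 97740846, 0, 0, 0, ⟨0, 0⟩, 0⟩, 0, 0⟩ 0 0))) (.pos 56 .mp ⟨⟨238697376, 0, 0, 0, 0, 65586533, 0, 0, 0, ⟨0, 0⟩, 0⟩, 0, 0⟩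 0 0)) (.pos 49 .mp ⟨⟨217541730, 0, 0, 0, 0, 94634406, 0, 0, 0, ⟨0, 0⟩, 0⟩, 0, 0⟩ 0 0))) (.cut .s 11886592 (.pos 50 .mp ⟨⟨228654948, 0, 0, 0, 0, 80652161, 0, 0, 0, ⟨0, 0⟩, 0⟩, 0, 0⟩ 0 0) (.pos 50 .mp ⟨⟨229853642, 0, 0, 0, 0, 81048669, 0, 0, 0, ⟨0, 0⟩, 0⟩, 0, 0⟩ 0 0)))) (.cut .s 11911168 (.cut .v 16809984 (.cut .d (-8192) (.cut .s 11902976 (.pos 49 .mp ⟨⟨215528755, 0, 0, 0, 0, 106710181, 0, 0, 0, ⟨0, 0⟩, 0⟩, 0, 0⟩ 0 0) (.pos 49 .mp ⟨⟨216661091, 0, 0, 0, 0, 107263810, 0, 0, 0, ⟨0, 0⟩, 0⟩, 0, 0⟩ 0 0)) (.cut .l 123033 (.cut .v 16793600 (.cut .s 11902976 (.cut .s 11898880 (.pos 55 .mp ⟨⟨219137439, 0, 0, 0, 0, 97989141, 0, 0, 0, ⟨0, 0⟩,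 0⟩, 0, 0⟩ 0 0) (.pos 55 .mp ⟨⟨219719354, 0, 0, 0, 0, 98225227, 0, 0, 0, ⟨0, 0⟩, 0⟩, 0, 0⟩ 0 0)) (.cut .s 11907072 (.pos 55 .mp ⟨⟨220311115, 0, 0, 0, 0, 98448984, 0, 0, 0, ⟨0, 0⟩, 0⟩, 0, 0⟩ 0 0) (.pos 55 .mp ⟨⟨220912790, 0, 0, 0, 0, 98660293, 0, 0, 0, ⟨0, 0⟩, 0⟩, 0, 0⟩ 0 0))) (.pos 56 .mp ⟨⟨241311514, 0, 0, 0, 0, 66049333, 0, 0, 0, ⟨0, 0⟩, 0⟩, 0, 0⟩ 0 0)) (.pos 49 .mp ⟨⟨219828033, 0, 0, 0, 0, 95596950, 0, 0, 0, ⟨0, 0⟩, 0⟩, 0, 0⟩ 0 0))) (.cut .s 11902976 (.pos 50 .mp ⟨⟨231084230, 0, 0, 0, 0, 81410969, 0, 0, 0, ⟨0, 0⟩, 0⟩, 0, 0⟩ 0 0) (.pos 50 .mp ⟨⟨232347263, 0, 0, 0, 0, 81738161, 0, 0, 0, ⟨0, 0⟩, 0⟩, 0, 0⟩ 0 0))) (.cut .v 16809984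 (.cut .d (-8192) (.cut .s 11919360 (.pos 49 .mp ⟨⟨217799424, 0, 0, 0, 0, 107827304, 0, 0, 0, ⟨0, 0⟩, 0⟩, 0, 0⟩ 0 0) (.pos 49 .mp ⟨⟨218943783, 0, 0, 0, 0, 108400719, 0, 0, 0, ⟨0, 0⟩, 0⟩, 0, 0⟩ 0 0)) (.cut .l 123033 (.cut .v 16793600 (.cut .d (-4096) (.pos 55 .mp ⟨⟨218229420, 0, 0, 0, 0, 108058970, 0, 0, 0, ⟨0, 0⟩, 0⟩, 0, 0⟩ 0 0) (.cut .l 61516 (.cut .v 16785408 (.cut .d (-2048) (.pos 57 .mp ⟨⟨218445471, 0, 0, 0, 0, 107432944, 0, 0, 0, ⟨0, 0⟩, 0⟩, 0, 0⟩ 0 0) (.cut .s 11919360 (.cut .s 11915264 (.pos 57 .mp ⟨⟨221869166, 0, 0, 0, 0, 98245358, 0, 0, 0, ⟨0, 0⟩, 0⟩, 0, 0⟩ 0 0) (.pos 57 .mp ⟨⟨222466084, 0, 0, 0, 0, 98475057, 0, 0, 0, ⟨0,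 0⟩, 0⟩, 0, 0⟩ 0 0)) (.pos 57 .mp ⟨⟨221890489, 0, 0, 0, 0, 100885276, 0, 0, 0, ⟨0, 0⟩, 0⟩, 0, 0⟩ 0 0))) (.pos 58 .mp ⟨⟨245020245, 0, 0, 0, 0, 64473499, 0, 0, 0, ⟨0, 0⟩, 0⟩, 0, 0⟩ 0 0)) (.pos 55 .mp ⟨⟨221406977, 0, 0, 0, 0, 97377652, 0, 0, 0, ⟨0, 0⟩, 0⟩, 0, 0⟩ 0 0))) (.pos 56 .mp ⟨⟨244057869, 0, 0, 0, 0, 66367101, 0, 0, 0, ⟨0, 0⟩, 0⟩, 0, 0⟩ 0 0)) (.pos 49 .mp ⟨⟨222138042, 0, 0, 0, 0, 96570057, 0, 0, 0, ⟨0, 0⟩, 0⟩, 0, 0⟩ 0 0))) (.cut .s 11919360 (.pos 50 .mp ⟨⟨233643291, 0, 0, 0, 0, 82029338, 0, 0, 0, ⟨0, 0⟩, 0⟩, 0, 0⟩ 0 0) (.pos 50 .mp ⟨⟨234972870, 0, 0, 0, 0, 82283588, 0, 0, 0, ⟨0, 0⟩, 0⟩, 0, 0⟩ 0 0))))) (.cut .s 11960320 (.cut .s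 11943936 (.cut .v 16809984 (.cut .d (-8192) (.cut .s 11935744 (.pos 49 .mp ⟨⟨220094198, 0, 0, 0, 0, 108984112, 0, 0, 0, ⟨0, 0⟩, 0⟩, 0, 0⟩ 0 0) (.pos 49 .mp ⟨⟨221250696, 0, 0, 0, 0, 109577538, 0, 0, 0, ⟨0, 0⟩, 0⟩, 0, 0⟩ 0 0)) (.cut .l 123033 (.cut .v 16793600 (.cut .d (-4096) (.pos 55 .mp ⟨⟨220521372, 0, 0, 0, 0, 109236921, 0, 0, 0, ⟨0, 0⟩, 0⟩, 0, 0⟩ 0 0) (.cut .l 61516 (.cut .v 16785408 (.cut .d (-2048) (.pos 57 .mp ⟨⟨220736026, 0, 0, 0, 0, 108609846, 0, 0, 0, ⟨0, 0⟩, 0⟩, 0, 0⟩ 0 0) (.cut .s 11935744 (.pos 57 .mp ⟨⟨223050834, 0, 0, 0, 0, 101420824, 0, 0, 0, ⟨0, 0⟩, 0⟩, 0, 0⟩ 0 0) (.pos 57 .mp ⟨⟨224217330, 0, 0, 0, 0, 101963357,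 0, 0, 0, ⟨0, 0⟩, 0⟩, 0, 0⟩ 0 0))) (.pos 58 .mp ⟨⟨247919301, 0, 0, 0, 0, 64606805, 0, 0, 0, ⟨0, 0⟩, 0⟩, 0, 0⟩ 0 0)) (.pos 55 .mp ⟨⟨223726009, 0, 0, 0, 0, 98379263, 0, 0, 0, ⟨0, 0⟩, 0⟩, 0, 0⟩ 0 0))) (.pos 56 .mp ⟨⟨246940879, 0, 0, 0, 0, 66532529, 0, 0, 0, ⟨0, 0⟩, 0⟩, 0, 0⟩ 0 0)) (.pos 49 .mp ⟨⟨224471987, 0, 0, 0, 0, 97553042, 0, 0, 0, ⟨0, 0⟩, 0⟩, 0, 0⟩ 0 0))) (.pos 50 .mp ⟨⟨244984950, 0, 0, 0, 0, 70381639, 0, 0, 0, ⟨0, 0⟩, 0⟩, 0, 0⟩ 0 0)) (.cut .v 16809984 (.cut .d (-8192) (.cut .s 11952128 (.pos 49 .mp ⟨⟨222413307, 0, 0, 0, 0, 110181056, 0, 0, 0, ⟨0, 0⟩, 0⟩, 0, 0⟩ 0 0) (.pos 49 .mp ⟨⟨223582060, 0, 0, 0, 0, 110794723, 0, 0, 0, ⟨0,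 0⟩, 0⟩, 0, 0⟩ 0 0)) (.cut .l 123033 (.cut .v 16793600 (.cut .d (-4096) (.pos 55 .mp ⟨⟨222837638, 0, 0, 0, 0, 110455096, 0, 0, 0, ⟨0, 0⟩, 0⟩, 0, 0⟩ 0 0) (.cut .l 61516 (.cut .v 16785408 (.cut .d (-2048) (.pos 57 .mp ⟨⟨223050883, 0, 0, 0, 0, 109826948, 0, 0, 0, ⟨0, 0⟩, 0⟩, 0, 0⟩ 0 0) (.cut .s 11952128 (.pos 57 .mp ⟨⟨225390006, 0, 0, 0, 0, 102512867, 0, 0, 0, ⟨0, 0⟩, 0⟩, 0, 0⟩ 0 0) (.pos 57 .mp ⟨⟨226568892, 0, 0, 0, 0, 103069341, 0, 0, 0, ⟨0, 0⟩, 0⟩, 0, 0⟩ 0 0))) (.pos 58 .mp ⟨⟨250959718, 0, 0, 0, 0, 64579869, 0, 0, 0, ⟨0, 0⟩, 0⟩, 0, 0⟩ 0 0)) (.pos 55 .mp ⟨⟨226069004, 0, 0, 0, 0, 99390348, 0, 0, 0, ⟨0, 0⟩, 0⟩, 0, 0⟩ 0 0))) (.pos 56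 .mp ⟨⟨249965031, 0, 0, 0, 0, 66538208, 0, 0, 0, ⟨0, 0⟩, 0⟩, 0, 0⟩ 0 0)) (.pos 49 .mp ⟨⟨226830099, 0, 0, 0, 0, 98545219, 0, 0, 0, ⟨0, 0⟩, 0⟩, 0, 0⟩ 0 0))) (.pos 50 .mp ⟨⟨247976585, 0, 0, 0, 0, 70452517, 0, 0, 0, ⟨0, 0⟩, 0⟩, 0, 0⟩ 0 0))) (.cut .s 11976704 (.cut .v 16809984 (.cut .d (-8192) (.cut .s 11968512 (.pos 49 .mp ⟨⟨224756984, 0, 0, 0, 0, 111418596, 0, 0, 0, ⟨0, 0⟩, 0⟩, 0, 0⟩ 0 0) (.pos 49 .mp ⟨⟨225938110, 0, 0, 0, 0, 112052734, 0, 0, 0, ⟨0, 0⟩, 0⟩, 0, 0⟩ 0 0)) (.cut .l 123033 (.cut .v 16793600 (.cut .d (-4096) (.pos 55 .mp ⟨⟨225178450, 0, 0, 0, 0, 111713954, 0, 0, 0, ⟨0, 0⟩, 0⟩, 0, 0⟩ 0 0) (.cut .l 61516 (.cut .d (-2048) (.pos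 55 .mp ⟨⟨228236681, 0, 0, 0, 0, 105862659, 0, 0, 0, ⟨0, 0⟩, 0⟩, 0, 0⟩ 0 0) (.cut .s 11968512 (.pos 55 .mp ⟨⟨227966209, 0, 0, 0, 0, 103293402, 0, 0, 0, ⟨0, 0⟩, 0⟩, 0, 0⟩ 0 0) (.pos 55 .mp ⟨⟨229121797, 0, 0, 0, 0, 103931461, 0, 0, 0, ⟨0, 0⟩, 0⟩, 0, 0⟩ 0 0))) (.pos 55 .mp ⟨⟨228436193, 0, 0, 0, 0, 100410220, 0, 0, 0, ⟨0, 0⟩, 0⟩, 0, 0⟩ 0 0))) (.pos 56 .mp ⟨⟨253134861, 0, 0, 0, 0, 66376629, 0, 0, 0, ⟨0, 0⟩, 0⟩, 0, 0⟩ 0 0)) (.pos 49 .mp ⟨⟨229212613, 0, 0, 0, 0, 99545893, 0, 0, 0, ⟨0, 0⟩, 0⟩, 0, 0⟩ 0 0))) (.pos 50 .mp ⟨⟨251113466, 0, 0, 0, 0, 70357117, 0, 0, 0, ⟨0, 0⟩, 0⟩, 0, 0⟩ 0 0)) (.cut .v 16809984 (.cut .d (-8192) (.cut .s 11984896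 (.pos 49 .mp ⟨⟨227125467, 0, 0, 0, 0, 112697197, 0, 0, 0, ⟨0, 0⟩, 0⟩, 0, 0⟩ 0 0) (.pos 49 .mp ⟨⟨228319085, 0, 0, 0, 0, 113352042, 0, 0, 0, ⟨0, 0⟩, 0⟩, 0, 0⟩ 0 0)) (.cut .l 123033 (.cut .v 16793600 (.cut .d (-4096) (.pos 55 .mp ⟨⟨227544046, 0, 0, 0, 0, 113013962, 0, 0, 0, ⟨0, 0⟩, 0⟩, 0, 0⟩ 0 0) (.cut .s 11984896 (.pos 55 .mp ⟨⟨231131047, 0, 0, 0, 0, 103244279, 0, 0, 0, ⟨0, 0⟩, 0⟩, 0, 0⟩ 0 0) (.pos 55 .mp ⟨⟨232342094, 0, 0, 0, 0, 103816941, 0, 0, 0, ⟨0, 0⟩, 0⟩, 0, 0⟩ 0 0))) (.pos 56 .mp ⟨⟨256454950, 0, 0, 0, 0, 66040176, 0, 0, 0, ⟨0, 0⟩, 0⟩, 0, 0⟩ 0 0)) (.pos 49 .mp ⟨⟨231619768, 0, 0, 0, 0, 100554365, 0, 0, 0, ⟨0, 0⟩, 0⟩, 0, 0⟩ 0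 0))) (.pos 50 .mp ⟨⟨254400180, 0, 0, 0, 0, 70087824, 0, 0, 0, ⟨0, 0⟩, 0⟩, 0, 0⟩ 0 0))))) (.pos 40 .mp ⟨⟨292300121, 0, 0, 0, 0, 0, 0, 0, 0, ⟨0, 0⟩, 0⟩, 0, 0⟩ 0 0))) (.pos 38 .mp ⟨⟨290714120, 0, 0, 0, 0, 0, 0, 0, 0, ⟨0, 0⟩, 0⟩, 0, 0⟩ 0 0)) (.void 36 ⟨⟨100000, 0, 0, 0, 0, 0, 0, 0, 0, ⟨0, 0⟩, 0⟩, 0, 0⟩ 0 0)) (.void 34 ⟨⟨100000, 0, 0, 0, 0, 0, 0, 0, 0, ⟨0, 0⟩, 0⟩, 0, 0⟩ 0 0)))))))) (.void 32 ⟨⟨100000, 0, 0, 0, 0, 0, 0, 0, 0, ⟨0, 0⟩, 0⟩, 0, 0⟩ 0 0))) (.void 30 ⟨⟨100000, 0, 0, 0, 0, 0, 0, 0, 0, ⟨0, 0⟩, 0⟩, 0, 0⟩ 0 0))) (.void 28 ⟨⟨100000, 0, 0, 0, 0, 0, 0, 0, 0, ⟨0, 0⟩, 0⟩, 0, 0⟩ 0 0)))) (.void 26 ⟨⟨100000, 0, 0, 0, 0, 0, 0, 0, 0, ⟨0,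 0⟩, 0⟩, 0, 0⟩ 0 0)) (.void 91 ⟨⟨100000, 0, 0, 0, 0, 0, 0, 0, 0, ⟨0, 0⟩, 0⟩, 0, 0⟩ 0 0)) (.void 98 ⟨⟨100000, 0, 0, 0, 0, 0, 0, 0, 0, ⟨0, 0⟩, 0⟩, 0, 0⟩ 0 0)) (.void 117 ⟨⟨95723, 0, 0, 4277, 0, 0, 0, 0, 0, ⟨0, 0⟩, 0⟩, 0, 0⟩ 0 0))) (.cut .v 16777216 (.cut .v 8388608 (.cut .v 4194304 (.cut .v 2097152 (.cut .v 1048576 (.pos 113 .pm ⟨⟨0, 0, 25363875, 0, 0, 0, 0, 0, 36202033, ⟨0, 0⟩, 1983364⟩, 0, 0⟩ 0 0) (.pos 114 .pm ⟨⟨0, 0, 6450880, 0, 0, 0, 0, 0, 0, ⟨0, 0⟩, 0⟩, 0, 47811⟩ 0 0)) (.pos 7 .pm ⟨⟨0, 2205754, 0, 0, 0, 0, 0, 0, 0, ⟨0, 0⟩, 0⟩, 0, 86060⟩ 0 0)) (.cut .d 3608508 (.pos 5 .pm ⟨⟨0, 0, 5926177, 0, 0, 0, 0, 0, 0, ⟨0, 0⟩, 0⟩, 0, 0⟩ 0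 0) (.pos 5 .pm ⟨⟨0, 45794423, 0, 0, 0, 0, 0, 0, 0, ⟨0, 0⟩, 0⟩, 0, 107575⟩ 0 0))) (.pos 3 .pm ⟨⟨0, 0, 0, 0, 0, 0, 0, 0, 0, ⟨0, 0⟩, 0⟩, 0, 0⟩ 0 0)) (.cut .v 268435456 (.cut .v 67108864 (.cut .d 3608508 (.cut .d 1804254 (.cut .v 33554432 (.cut .d 902127 (.cut .v 25165824 (.cut .d 451063 (.cut .v 20971520 (.cut .d 225531 (.cut .v 18874368 (.cut .v 17825792 (.cut .s 11862016 (.pos 31 .pp ⟨⟨195997121, 0, 0, 0, 0, 0, 0, 0, 0, ⟨0, 0⟩, 0⟩, 6099302, 0⟩ 0 0) (.pos 31 .pp ⟨⟨215445420, 0, 0, 0, 0, 0, 0, 0, 0, ⟨0, 0⟩, 0⟩, 6245692, 0⟩ 0 0)) (.pos 32 .pp ⟨⟨294306722, 0, 0, 0, 0, 0, 0, 0, 0, ⟨0, 0⟩, 0⟩, 0, 0⟩ 0 0)) (.pos 30 .pp ⟨⟨359538640, 0, 0,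 0, 0, 0, 0, 0, 0, ⟨0, 0⟩, 0⟩, 0, 0⟩ 0 0)) (.pos 27 .pp ⟨⟨224573865, 0, 0, 0, 0, 0, 0, 0, 0, ⟨0, 0⟩, 0⟩, 0, 27691⟩ 0 0)) (.cut .d 225531 (.void 28 ⟨⟨0, 0, 0, 0, 0, 0, 0, 0, 0, ⟨0, 0⟩, 0⟩, 100000, 0⟩ 0 0) (.pos 28 .pp ⟨⟨0, 0, 0, 0, 0, 0, 0, 0, 0, ⟨0, 0⟩, 0⟩, 39070669, 0⟩ 0 0))) (.pos 25 .pp ⟨⟨0, 0, 0, 0, 0, 0, 0, 0, 0, ⟨0, 0⟩, 0⟩, 24217477, 85081⟩ 0 0)) (.pos 26 .pp ⟨⟨0, 0, 0, 0, 0, 0, 0, 0, 0, ⟨0, 0⟩, 0⟩, 60539917, 0⟩ 0 0)) (.pos 24 .pp ⟨⟨0, 0, 0, 0, 0, 0, 0, 0, 0, ⟨0, 0⟩, 0⟩, 23288895, 91829⟩ 0 0)) (.cut .d 902127 (.void 91 ⟨⟨0, 0, 0, 0, 0, 0, 0, 0, 0, ⟨0, 0⟩, 0⟩, 100000, 0⟩ 0 0) (.pos 91 .pp ⟨⟨0, 0, 0, 0, 0, 0, 0, 0, 0, ⟨0, 0⟩,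 0⟩, 70151311, 0⟩ 0 0))) (.pos 90 .pp ⟨⟨0, 0, 0, 0, 0, 0, 0, 0, 0, ⟨0, 0⟩, 0⟩, 13262117, 164687⟩ 0 0)) (.pos 90 .pp ⟨⟨0, 80255170, 0, 0, 0, 0, 0, 0, 0, ⟨0, 0⟩, 0⟩, 0, 215149⟩ 0 0)) (.void 98 ⟨⟨0, 0, 0, 44370, 0, 0, 0, 0, 0, ⟨0, 0⟩, 0⟩, 55630, 0⟩ 0 0)) (.void 117 ⟨⟨0, 0, 0, 0, 0, 0, 0, 0, 0, ⟨0, 0⟩, 0⟩, 100000, 0⟩ 0 0)))),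
    by decide +kernel⟩

def covers18 : cell.Covers Vale.Agent.P237.Petty.Cor.Grid.N15.table row18.1 :=
  ⟨(.cut .d 0 (.cut .v 16777216 (.cut .d (-8388608) (.void 1 ⟨⟨0, 0, 0, 0, 0, 100000, 0, 0, 0, ⟨0, 0⟩, 0⟩, 0, 0⟩ 0 0) (.cut .d (-4194304) (.void 1 ⟨⟨0, 0, 0, 0, 0, 100000, 0, 0, 0, ⟨0, 0⟩, 0⟩, 0, 0⟩ 0 0) (.cut .d (-2097152) (.void 1 ⟨⟨0, 0, 0, 0, 0, 100000, 0, 0, 0, ⟨0, 0⟩, 0⟩, 0, 0⟩ 0 0) (.cut .d (-1048576) (.void 1 ⟨⟨0, 0, 0, 0, 0, 100000, 0, 0, 0, ⟨0, 0⟩, 0⟩, 0, 0⟩ 0 0) (.cut .d (-524288) (.void 1 ⟨⟨0, 0, 0, 0, 0, 100000, 0, 0, 0, ⟨0, 0⟩, 0⟩, 0, 0⟩ 0 0) (.cut .d (-262144) (.void 1 ⟨⟨0, 0, 0, 0, 0, 100000, 0, 0, 0, ⟨0, 0⟩, 0⟩,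 0, 0⟩ 0 0) (.cut .d (-131072) (.void 1 ⟨⟨0, 0, 0, 0, 0, 100000, 0, 0, 0, ⟨0, 0⟩, 0⟩, 0, 0⟩ 0 0) (.cut .d (-65536) (.void 1 ⟨⟨0, 0, 0, 0, 0, 100000, 0, 0, 0, ⟨0, 0⟩, 0⟩, 0, 0⟩ 0 0) (.cut .d (-32768) (.void 1 ⟨⟨0, 0, 0, 0, 0, 100000, 0, 0, 0, ⟨0, 0⟩, 0⟩, 0, 0⟩ 0 0) (.cut .d (-16384) (.void 1 ⟨⟨0, 0, 0, 0, 0, 100000, 0, 0, 0, ⟨0, 0⟩, 0⟩, 0, 0⟩ 0 0) (.cut .v 8388608 (.cut .v 4194304 (.void 4 ⟨⟨0, 0, 100000, 0, 0, 0, 0, 0, 0, ⟨0, 0⟩, 0⟩, 0, 0⟩ 0 0) (.pos 5 .mm ⟨⟨0, 0, 7213805, 0, 0, 167824193, 0, 0, 0, ⟨0, 0⟩, 0⟩, 0, 0⟩ 0 0)) (.cut .s 12124160 (.pos 3 .mm ⟨⟨0, 0, 0, 0, 0, 492971358, 0, 0, 0, ⟨0, 0⟩, 0⟩, 0, 0⟩ 0 0) (.pos 3 .mm ⟨⟨0, 0,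 0, 0, 0, 539308794, 0, 0, 0, ⟨0, 0⟩, 0⟩, 0, 0⟩ 0 0))))))))))))) (.cut .v 268435456 (.cut .v 67108864 (.cut .v 33554432 (.cut .v 25165824 (.cut .d (-8388608) (.void 25 ⟨⟨100000, 0, 0, 0, 0, 0, 0, 0, 0, ⟨0, 0⟩, 0⟩, 0, 0⟩ 0 0) (.cut .d (-4194304) (.void 25 ⟨⟨100000, 0, 0, 0, 0, 0, 0, 0, 0, ⟨0, 0⟩, 0⟩, 0, 0⟩ 0 0) (.cut .v 20971520 (.cut .d (-2097152) (.void 27 ⟨⟨100000, 0, 0, 0, 0, 0, 0, 0, 0, ⟨0, 0⟩, 0⟩, 0, 0⟩ 0 0) (.cut .v 18874368 (.cut .d (-1048576) (.void 29 ⟨⟨100000, 0, 0, 0, 0, 0, 0, 0, 0, ⟨0, 0⟩, 0⟩, 0, 0⟩ 0 0) (.cut .v 17825792 (.cut .d (-524288) (.void 31 ⟨⟨100000, 0, 0, 0, 0, 0, 0, 0, 0, ⟨0, 0⟩, 0⟩, 0, 0⟩ 0 0) (.cut .d (-262144)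 (.void 31 ⟨⟨100000, 0, 0, 0, 0, 0, 0, 0, 0, ⟨0, 0⟩, 0⟩, 0, 0⟩ 0 0) (.cut .d (-131072) (.void 31 ⟨⟨100000, 0, 0, 0, 0, 0, 0, 0, 0, ⟨0, 0⟩, 0⟩, 0, 0⟩ 0 0) (.cut .d (-65536) (.void 31 ⟨⟨100000, 0, 0, 0, 0, 0, 0, 0, 0, ⟨0, 0⟩, 0⟩, 0, 0⟩ 0 0) (.cut .d (-32768) (.void 31 ⟨⟨100000, 0, 0, 0, 0, 0, 0, 0, 0, ⟨0, 0⟩, 0⟩, 0, 0⟩ 0 0) (.cut .d (-16384) (.void 31 ⟨⟨0, 0, 0, 0, 0, 100000, 0, 0, 0, ⟨0, 0⟩, 0⟩, 0, 0⟩ 0 0) (.cut .v 17301504 (.cut .v 17039360 (.cut .v 16908288 (.cut .s 12124160 (.cut .v 16842752 (.cut .s 12058624 (.cut .s 12025856 (.cut .s 12009472 (.cut .v 16809984 (.cut .d (-8192) (.pos 49 .mp ⟨⟨229519360, 0, 0, 0, 0, 115612624,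 0, 0, 0, ⟨0, 0⟩, 0⟩, 0, 0⟩ 0 0) (.cut .l 123033 (.cut .v 16793600 (.cut .d (-4096) (.pos 55 .mp ⟨⟨229934988, 0, 0, 0, 0, 114353618, 0, 0, 0, ⟨0, 0⟩, 0⟩, 0, 0⟩ 0 0) (.cut .s 12001280 (.pos 55 .mp ⟨⟨233559931, 0, 0, 0, 0, 104396681, 0, 0, 0, ⟨0, 0⟩, 0⟩, 0, 0⟩ 0 0) (.pos 55 .mp ⟨⟨234784178, 0, 0, 0, 0, 104863299, 0, 0, 0, ⟨0, 0⟩, 0⟩, 0, 0⟩ 0 0))) (.pos 56 .mp ⟨⟨257289047, 0, 0, 0, 0, 69636425, 0, 0, 0, ⟨0, 0⟩, 0⟩, 0, 0⟩ 0 0)) (.pos 49 .mp ⟨⟨234371372, 0, 0, 0, 0, 101328078, 0, 0, 0, ⟨0, 0⟩, 0⟩, 0, 0⟩ 0 0))) (.pos 50 .mp ⟨⟨255198829, 0, 0, 0, 0, 73754016, 0, 0, 0, ⟨0, 0⟩, 0⟩, 0, 0⟩ 0 0)) (.cut .v 16809984 (.cut .d (-8192) (.pos 49 .mp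 ⟨⟨231941877, 0, 0, 0, 0, 116621561, 0, 0, 0, ⟨0, 0⟩, 0⟩, 0, 0⟩ 0 0) (.cut .l 123033 (.cut .v 16793600 (.cut .d (-4096) (.pos 55 .mp ⟨⟨232352925, 0, 0, 0, 0, 115363416, 0, 0, 0, ⟨0, 0⟩, 0⟩, 0, 0⟩ 0 0) (.cut .l 61516 (.cut .d (-2048) (.pos 55 .mp ⟨⟨235732479, 0, 0, 0, 0, 108817359, 0, 0, 0, ⟨0, 0⟩, 0⟩, 0, 0⟩ 0 0) (.cut .s 12017664 (.pos 55 .mp ⟨⟨235145375, 0, 0, 0, 0, 106707295, 0, 0, 0, ⟨0, 0⟩, 0⟩, 0, 0⟩ 0 0) (.pos 55 .mp ⟨⟨236423439, 0, 0, 0, 0, 107113995, 0, 0, 0, ⟨0, 0⟩, 0⟩, 0, 0⟩ 0 0))) (.pos 55 .mp ⟨⟨236024570, 0, 0, 0, 0, 103251260, 0, 0, 0, ⟨0, 0⟩, 0⟩, 0, 0⟩ 0 0))) (.pos 56 .mp ⟨⟨259503472, 0, 0, 0, 0, 70978978, 0, 0, 0, ⟨0,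 0⟩, 0⟩, 0, 0⟩ 0 0)) (.pos 49 .mp ⟨⟨236844769, 0, 0, 0, 0, 102334642, 0, 0, 0, ⟨0, 0⟩, 0⟩, 0, 0⟩ 0 0))) (.pos 50 .mp ⟨⟨257378025, 0, 0, 0, 0, 75166710, 0, 0, 0, ⟨0, 0⟩, 0⟩, 0, 0⟩ 0 0))) (.cut .s 12042240 (.cut .v 16809984 (.cut .d (-8192) (.cut .s 12034048 (.pos 49 .mp ⟨⟨234391033, 0, 0, 0, 0, 116018590, 0, 0, 0, ⟨0, 0⟩, 0⟩, 0, 0⟩ 0 0) (.pos 49 .mp ⟨⟨235625680, 0, 0, 0, 0, 116548815, 0, 0, 0, ⟨0, 0⟩, 0⟩, 0, 0⟩ 0 0)) (.cut .l 123033 (.cut .v 16793600 (.cut .d (-4096) (.pos 55 .mp ⟨⟨234797452, 0, 0, 0, 0, 116419175, 0, 0, 0, ⟨0, 0⟩, 0⟩, 0, 0⟩ 0 0) (.cut .l 61516 (.cut .d (-2048) (.pos 55 .mp ⟨⟨238014667, 0, 0, 0, 0, 110222225, 0, 0,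 0, ⟨0, 0⟩, 0⟩, 0, 0⟩ 0 0) (.cut .s 12034048 (.pos 55 .mp ⟨⟨237687358, 0, 0, 0, 0, 107569162, 0, 0, 0, ⟨0, 0⟩, 0⟩, 0, 0⟩ 0 0) (.pos 55 .mp ⟨⟨238932535, 0, 0, 0, 0, 108081589, 0, 0, 0, ⟨0, 0⟩, 0⟩, 0, 0⟩ 0 0))) (.pos 55 .mp ⟨⟨238508273, 0, 0, 0, 0, 104298226, 0, 0, 0, ⟨0, 0⟩, 0⟩, 0, 0⟩ 0 0))) (.pos 56 .mp ⟨⟨261840977, 0, 0, 0, 0, 72204211, 0, 0, 0, ⟨0, 0⟩, 0⟩, 0, 0⟩ 0 0)) (.pos 49 .mp ⟨⟨239345477, 0, 0, 0, 0, 103360103, 0, 0, 0, ⟨0, 0⟩, 0⟩, 0, 0⟩ 0 0))) (.cut .s 12034048 (.pos 50 .mp ⟨⟨251346304, 0, 0, 0, 0, 88060291, 0, 0, 0, ⟨0, 0⟩, 0⟩, 0, 0⟩ 0 0) (.pos 50 .mp ⟨⟨252460833, 0, 0, 0, 0, 88789122, 0, 0, 0, ⟨0, 0⟩, 0⟩, 0, 0⟩ 0 0))) (.cut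 .v 16809984 (.cut .d (-8192) (.cut .s 12050432 (.pos 49 .mp ⟨⟨236867085, 0, 0, 0, 0, 117090690, 0, 0, 0, ⟨0, 0⟩, 0⟩, 0, 0⟩ 0 0) (.pos 49 .mp ⟨⟨238115279, 0, 0, 0, 0, 117644283, 0, 0, 0, ⟨0, 0⟩, 0⟩, 0, 0⟩ 0 0)) (.cut .l 123033 (.cut .v 16793600 (.cut .d (-4096) (.pos 55 .mp ⟨⟨237268829, 0, 0, 0, 0, 117521434, 0, 0, 0, ⟨0, 0⟩, 0⟩, 0, 0⟩ 0 0) (.cut .l 61516 (.cut .d (-2048) (.pos 55 .mp ⟨⟨240361404, 0, 0, 0, 0, 111592966, 0, 0, 0, ⟨0, 0⟩, 0⟩, 0, 0⟩ 0 0) (.cut .s 12050432 (.pos 55 .mp ⟨⟨240184542, 0, 0, 0, 0, 108602983, 0, 0, 0, ⟨0, 0⟩, 0⟩, 0, 0⟩ 0 0) (.pos 55 .mp ⟨⟨241443413, 0, 0, 0, 0, 109133335, 0, 0, 0, ⟨0, 0⟩, 0⟩, 0, 0⟩ 0 0)))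 (.pos 55 .mp ⟨⟨241019298, 0, 0, 0, 0, 105363619, 0, 0, 0, ⟨0, 0⟩, 0⟩, 0, 0⟩ 0 0))) (.pos 56 .mp ⟨⟨264306820, 0, 0, 0, 0, 73303575, 0, 0, 0, ⟨0, 0⟩, 0⟩, 0, 0⟩ 0 0)) (.pos 49 .mp ⟨⟨241873764, 0, 0, 0, 0, 104403644, 0, 0, 0, ⟨0, 0⟩, 0⟩, 0, 0⟩ 0 0))) (.cut .s 12050432 (.pos 50 .mp ⟨⟨253607333, 0, 0, 0, 0, 89486848, 0, 0, 0, ⟨0, 0⟩, 0⟩, 0, 0⟩ 0 0) (.pos 50 .mp ⟨⟨254786468, 0, 0, 0, 0, 90152387, 0, 0, 0, ⟨0, 0⟩, 0⟩, 0, 0⟩ 0 0))))) (.cut .s 12091392 (.cut .s 12075008 (.cut .v 16809984 (.cut .d (-8192) (.cut .s 12066816 (.pos 49 .mp ⟨⟨239370297, 0, 0, 0, 0, 118209662, 0, 0, 0, ⟨0, 0⟩, 0⟩, 0, 0⟩ 0 0) (.pos 49 .mp ⟨⟨240632172, 0, 0, 0, 0,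 118786898, 0, 0, 0, ⟨0, 0⟩, 0⟩, 0, 0⟩ 0 0)) (.cut .l 123033 (.cut .v 16793600 (.cut .d (-4096) (.pos 55 .mp ⟨⟨239767318, 0, 0, 0, 0, 118670737, 0, 0, 0, ⟨0, 0⟩, 0⟩, 0, 0⟩ 0 0) (.cut .l 61516 (.cut .v 16785408 (.cut .d (-2048) (.pos 57 .mp ⟨⟨239967008, 0, 0, 0, 0, 118040846, 0, 0, 0, ⟨0, 0⟩, 0⟩, 0, 0⟩ 0 0) (.cut .s 12066816 (.pos 57 .mp ⟨⟨242484075, 0, 0, 0, 0, 110034800, 0, 0, 0, ⟨0, 0⟩, 0⟩, 0, 0⟩ 0 0) (.cut .s 12070912 (.pos 57 .mp ⟨⟨245046497, 0, 0, 0, 0, 108147682, 0, 0, 0, ⟨0, 0⟩, 0⟩, 0, 0⟩ 0 0) (.pos 57 .mp ⟨⟨245664506, 0, 0, 0, 0, 108455629, 0, 0, 0, ⟨0, 0⟩, 0⟩, 0, 0⟩ 0 0)))) (.pos 58 .mp ⟨⟨268024191, 0, 0, 0, 0, 72064125,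 0, 0, 0, ⟨0, 0⟩, 0⟩, 0, 0⟩ 0 0)) (.pos 55 .mp ⟨⟨243557912, 0, 0, 0, 0, 106446619, 0, 0, 0, ⟨0, 0⟩, 0⟩, 0, 0⟩ 0 0))) (.pos 56 .mp ⟨⟨266906315, 0, 0, 0, 0, 74268402, 0, 0, 0, ⟨0, 0⟩, 0⟩, 0, 0⟩ 0 0)) (.pos 49 .mp ⟨⟨244429901, 0, 0, 0, 0, 105464438, 0, 0, 0, ⟨0, 0⟩, 0⟩, 0, 0⟩ 0 0))) (.cut .s 12066816 (.pos 50 .mp ⟨⟨255998905, 0, 0, 0, 0, 90784650, 0, 0, 0, ⟨0, 0⟩, 0⟩, 0, 0⟩ 0 0) (.pos 50 .mp ⟨⟨257245316, 0, 0, 0, 0, 91382539, 0, 0, 0, ⟨0, 0⟩, 0⟩, 0, 0⟩ 0 0))) (.cut .d (-8192) (.cut .d (-12288) (.pos 39 .mp ⟨⟨244493067, 0, 0, 0, 0, 119885692, 0, 0, 0, ⟨0, 0⟩, 0⟩, 0, 0⟩ 0 0) (.cut .v 16809984 (.cut .s 12083200 (.pos 49 .mp ⟨⟨241900936,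 0, 0, 0, 0, 119376059, 0, 0, 0, ⟨0, 0⟩, 0⟩, 0, 0⟩ 0 0) (.pos 49 .mp ⟨⟨243176625, 0, 0, 0, 0, 119977216, 0, 0, 0, ⟨0, 0⟩, 0⟩, 0, 0⟩ 0 0)) (.pos 50 .mp ⟨⟨266737506, 0, 0, 0, 0, 80055120, 0, 0, 0, ⟨0, 0⟩, 0⟩, 0, 0⟩ 0 0))) (.cut .v 16809984 (.cut .l 123033 (.cut .v 16793600 (.cut .d (-4096) (.pos 55 .mp ⟨⟨242293186, 0, 0, 0, 0, 119867636, 0, 0, 0, ⟨0, 0⟩, 0⟩, 0, 0⟩ 0 0) (.cut .l 61516 (.cut .v 16785408 (.cut .d (-2048) (.pos 57 .mp ⟨⟨242490506, 0, 0, 0, 0, 119238129, 0, 0, 0, ⟨0, 0⟩, 0⟩, 0, 0⟩ 0 0) (.cut .l 30758 (.cut .d (-1024) (.pos 57 .mp ⟨⟨245582447, 0, 0, 0, 0, 113214103, 0, 0, 0, ⟨0, 0⟩, 0⟩, 0, 0⟩ 0 0) (.cut .s 12083200 (.pos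 57 .mp ⟨⟨244595368, 0, 0, 0, 0, 111829421, 0, 0, 0, ⟨0, 0⟩, 0⟩, 0, 0⟩ 0 0) (.pos 57 .mp ⟨⟨245890167, 0, 0, 0, 0, 112379090, 0, 0, 0, ⟨0, 0⟩, 0⟩, 0, 0⟩ 0 0))) (.pos 57 .mp ⟨⟨245680520, 0, 0, 0, 0, 108047406, 0, 0, 0, ⟨0, 0⟩, 0⟩, 0, 0⟩ 0 0))) (.pos 58 .mp ⟨⟨270781540, 0, 0, 0, 0, 72847923, 0, 0, 0, ⟨0, 0⟩, 0⟩, 0, 0⟩ 0 0)) (.pos 55 .mp ⟨⟨246124389, 0, 0, 0, 0, 107546401, 0, 0, 0, ⟨0, 0⟩, 0⟩, 0, 0⟩ 0 0))) (.pos 56 .mp ⟨⟨269644833, 0, 0, 0, 0, 75089904, 0, 0, 0, ⟨0, 0⟩, 0⟩, 0, 0⟩ 0 0)) (.pos 49 .mp ⟨⟨247014162, 0, 0, 0, 0, 106541656, 0, 0, 0, ⟨0, 0⟩, 0⟩, 0, 0⟩ 0 0)) (.pos 50 .mp ⟨⟨312668854, 0, 0, 0, 0, 0, 0, 0, 0, ⟨0, 0⟩, 0⟩, 0, 0⟩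 0 0)))) (.cut .s 12107776 (.cut .d (-8192) (.cut .d (-12288) (.pos 39 .mp ⟨⟨247086700, 0, 0, 0, 0, 121111261, 0, 0, 0, ⟨0, 0⟩, 0⟩, 0, 0⟩ 0 0) (.cut .v 16809984 (.cut .s 12099584 (.pos 49 .mp ⟨⟨244459273, 0, 0, 0, 0, 120590438, 0, 0, 0, ⟨0, 0⟩, 0⟩, 0, 0⟩ 0 0) (.pos 49 .mp ⟨⟨245748914, 0, 0, 0, 0, 121215798, 0, 0, 0, ⟨0, 0⟩, 0⟩, 0, 0⟩ 0 0)) (.pos 50 .mp ⟨⟨269530951, 0, 0, 0, 0, 80875277, 0, 0, 0, ⟨0, 0⟩, 0⟩, 0, 0⟩ 0 0))) (.cut .v 16809984 (.cut .l 123033 (.cut .v 16793600 (.cut .d (-4096) (.pos 55 .mp ⟨⟨244846703, 0, 0, 0, 0, 121112691, 0, 0, 0, ⟨0, 0⟩, 0⟩, 0, 0⟩ 0 0) (.cut .l 61516 (.cut .v 16785408 (.cut .d (-2048) (.pos 57 .mp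 ⟨⟨245041629, 0, 0, 0, 0, 120483563, 0, 0, 0, ⟨0, 0⟩, 0⟩, 0, 0⟩ 0 0) (.cut .l 30758 (.cut .d (-1024) (.pos 57 .mp ⟨⟨248139081, 0, 0, 0, 0, 114447145, 0, 0, 0, ⟨0, 0⟩, 0⟩, 0, 0⟩ 0 0) (.cut .s 12099584 (.pos 57 .mp ⟨⟨247181705, 0, 0, 0, 0, 112957172, 0, 0, 0, ⟨0, 0⟩, 0⟩, 0, 0⟩ 0 0) (.pos 57 .mp ⟨⟨248477991, 0, 0, 0, 0, 113548551, 0, 0, 0, ⟨0, 0⟩, 0⟩, 0, 0⟩ 0 0))) (.pos 57 .mp ⟨⟨248266128, 0, 0, 0, 0, 109174577, 0, 0, 0, ⟨0, 0⟩, 0⟩, 0, 0⟩ 0 0))) (.pos 58 .mp ⟨⟨273683637, 0, 0, 0, 0, 73478829, 0, 0, 0, ⟨0, 0⟩, 0⟩, 0, 0⟩ 0 0)) (.pos 55 .mp ⟨⟨248719004, 0, 0, 0, 0, 108662132, 0, 0, 0, ⟨0, 0⟩, 0⟩, 0, 0⟩ 0 0))) (.pos 56 .mp ⟨⟨272527799,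 0, 0, 0, 0, 75759169, 0, 0, 0, ⟨0, 0⟩, 0⟩, 0, 0⟩ 0 0)) (.pos 49 .mp ⟨⟨249626825, 0, 0, 0, 0, 107634460, 0, 0, 0, ⟨0, 0⟩, 0⟩, 0, 0⟩ 0 0)) (.pos 50 .mp ⟨⟨315874400, 0, 0, 0, 0, 0, 0, 0, 0, ⟨0, 0⟩, 0⟩, 0, 0⟩ 0 0))) (.cut .d (-8192) (.cut .d (-12288) (.pos 39 .mp ⟨⟨249708835, 0, 0, 0, 0, 122384968, 0, 0, 0, ⟨0, 0⟩, 0⟩, 0, 0⟩ 0 0) (.cut .v 16809984 (.cut .s 12115968 (.pos 49 .mp ⟨⟨247045582, 0, 0, 0, 0, 121853367, 0, 0, 0, ⟨0, 0⟩, 0⟩, 0, 0⟩ 0 0) (.pos 49 .mp ⟨⟨248349313, 0, 0, 0, 0, 122503216, 0, 0, 0, ⟨0, 0⟩, 0⟩, 0, 0⟩ 0 0)) (.pos 50 .mp ⟨⟨272469862, 0, 0, 0, 0, 81541804, 0, 0, 0, ⟨0, 0⟩, 0⟩, 0, 0⟩ 0 0))) (.cut .v 16809984 (.cut .l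 123033 (.cut .v 16793600 (.cut .d (-4096) (.pos 55 .mp ⟨⟨247428143, 0, 0, 0, 0, 122406470, 0, 0, 0, ⟨0, 0⟩, 0⟩, 0, 0⟩ 0 0) (.cut .l 61516 (.cut .v 16785408 (.cut .d (-2048) (.pos 57 .mp ⟨⟨247620650, 0, 0, 0, 0, 121777715, 0, 0, 0, ⟨0, 0⟩, 0⟩, 0, 0⟩ 0 0) (.cut .l 30758 (.cut .d (-1024) (.pos 57 .mp ⟨⟨250768668, 0, 0, 0, 0, 115631137, 0, 0, 0, ⟨0, 0⟩, 0⟩, 0, 0⟩ 0 0) (.cut .s 12115968 (.pos 57 .mp ⟨⟨249781348, 0, 0, 0, 0, 114148876, 0, 0, 0, ⟨0, 0⟩, 0⟩, 0, 0⟩ 0 0) (.pos 57 .mp ⟨⟨251091812, 0, 0, 0, 0, 114758136, 0, 0, 0, ⟨0, 0⟩, 0⟩, 0, 0⟩ 0 0))) (.pos 57 .mp ⟨⟨250880021, 0, 0, 0, 0, 110317044, 0, 0, 0, ⟨0, 0⟩, 0⟩, 0, 0⟩ 0 0))) (.pos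 58 .mp ⟨⟨276735964, 0, 0, 0, 0, 73947808, 0, 0, 0, ⟨0, 0⟩, 0⟩, 0, 0⟩ 0 0)) (.pos 55 .mp ⟨⟨251342037, 0, 0, 0, 0, 109792976, 0, 0, 0, ⟨0, 0⟩, 0⟩, 0, 0⟩ 0 0))) (.pos 56 .mp ⟨⟨275560700, 0, 0, 0, 0, 76267160, 0, 0, 0, ⟨0, 0⟩, 0⟩, 0, 0⟩ 0 0)) (.pos 49 .mp ⟨⟨252268174, 0, 0, 0, 0, 108742007, 0, 0, 0, ⟨0, 0⟩, 0⟩, 0, 0⟩ 0 0)) (.pos 50 .mp ⟨⟨319134873, 0, 0, 0, 0, 0, 0, 0, 0, ⟨0, 0⟩, 0⟩, 0, 0⟩ 0 0)))))) (.pos 40 .mp ⟨⟨317498621, 0, 0, 0, 0, 0, 0, 0, 0, ⟨0, 0⟩, 0⟩, 0, 0⟩ 0 0)) (.cut .v 16842752 (.cut .s 12189696 (.cut .s 12156928 (.cut .s 12140544 (.cut .d (-8192) (.cut .d (-12288) (.pos 39 .mp ⟨⟨252359754, 0, 0, 0, 0, 123707383, 0, 0, 0,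 ⟨0, 0⟩, 0⟩, 0, 0⟩ 0 0) (.cut .v 16809984 (.cut .s 12132352 (.pos 49 .mp ⟨⟨249660141, 0, 0, 0, 0, 123165418, 0, 0, 0, ⟨0, 0⟩, 0⟩, 0, 0⟩ 0 0) (.pos 49 .mp ⟨⟨250978103, 0, 0, 0, 0, 123840047, 0, 0, 0, ⟨0, 0⟩, 0⟩, 0, 0⟩ 0 0)) (.pos 50 .mp ⟨⟨275559743, 0, 0, 0, 0, 82045629, 0, 0, 0, ⟨0, 0⟩, 0⟩, 0, 0⟩ 0 0))) (.cut .v 16809984 (.cut .l 123033 (.cut .v 16793600 (.cut .d (-4096) (.pos 55 .mp ⟨⟨250037783, 0, 0, 0, 0, 123749548, 0, 0, 0, ⟨0, 0⟩, 0⟩, 0, 0⟩ 0 0) (.cut .l 61516 (.cut .d (-2048) (.pos 55 .mp ⟨⟨253136128, 0, 0, 0, 0, 117806626, 0, 0, 0, ⟨0, 0⟩, 0⟩, 0, 0⟩ 0 0) (.cut .v 16785408 (.cut .l 30758 (.cut .d (-1024) (.pos 57 .mp ⟨⟨253473340,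 0, 0, 0, 0, 116762295, 0, 0, 0, ⟨0, 0⟩, 0⟩, 0, 0⟩ 0 0) (.cut .s 12132352 (.pos 57 .mp ⟨⟨252399059, 0, 0, 0, 0, 115395994, 0, 0, 0, ⟨0, 0⟩, 0⟩, 0, 0⟩ 0 0) (.pos 57 .mp ⟨⟨253707160, 0, 0, 0, 0, 116054795, 0, 0, 0, ⟨0, 0⟩, 0⟩, 0, 0⟩ 0 0))) (.pos 57 .mp ⟨⟨253522481, 0, 0, 0, 0, 111473966, 0, 0, 0, ⟨0, 0⟩, 0⟩, 0, 0⟩ 0 0)) (.pos 58 .mp ⟨⟨321907553, 0, 0, 0, 0, 0, 0, 0, 0, ⟨0, 0⟩, 0⟩, 0, 0⟩ 0 0))) (.pos 55 .mp ⟨⟨253993772, 0, 0, 0, 0, 110938088, 0, 0, 0, ⟨0, 0⟩, 0⟩, 0, 0⟩ 0 0))) (.pos 56 .mp ⟨⟨278749081, 0, 0, 0, 0, 76604710, 0, 0, 0, ⟨0, 0⟩, 0⟩, 0, 0⟩ 0 0)) (.pos 49 .mp ⟨⟨254938495, 0, 0, 0, 0, 109863447, 0, 0, 0, ⟨0, 0⟩, 0⟩, 0, 0⟩ 0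 0)) (.pos 50 .mp ⟨⟨322450797, 0, 0, 0, 0, 0, 0, 0, 0, ⟨0, 0⟩, 0⟩, 0, 0⟩ 0 0))) (.cut .d (-8192) (.cut .d (-12288) (.pos 39 .mp ⟨⟨255039744, 0, 0, 0, 0, 125079081, 0, 0, 0, ⟨0, 0⟩, 0⟩, 0, 0⟩ 0 0) (.cut .v 16809984 (.cut .s 12148736 (.pos 49 .mp ⟨⟨252303234, 0, 0, 0, 0, 124527176, 0, 0, 0, ⟨0, 0⟩, 0⟩, 0, 0⟩ 0 0) (.pos 49 .mp ⟨⟨253635569, 0, 0, 0, 0, 125226878, 0, 0, 0, ⟨0, 0⟩, 0⟩, 0, 0⟩ 0 0)) (.pos 50 .mp ⟨⟨278806152, 0, 0, 0, 0, 82377557, 0, 0, 0, ⟨0, 0⟩, 0⟩, 0, 0⟩ 0 0))) (.cut .v 16809984 (.cut .l 123033 (.cut .v 16793600 (.cut .d (-4096) (.pos 55 .mp ⟨⟨252675907, 0, 0, 0, 0, 125142509, 0, 0, 0, ⟨0, 0⟩, 0⟩, 0, 0⟩ 0 0) (.cut .l 61516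 (.cut .d (-2048) (.pos 55 .mp ⟨⟨255914098, 0, 0, 0, 0, 118895139, 0, 0, 0, ⟨0, 0⟩, 0⟩, 0, 0⟩ 0 0) (.cut .v 16785408 (.cut .s 12148736 (.pos 57 .mp ⟨⟨255517284, 0, 0, 0, 0, 115938023, 0, 0, 0, ⟨0, 0⟩, 0⟩, 0, 0⟩ 0 0) (.pos 57 .mp ⟨⟨256860040, 0, 0, 0, 0, 116577165, 0, 0, 0, ⟨0, 0⟩, 0⟩, 0, 0⟩ 0 0)) (.pos 58 .mp ⟨⟨325273743, 0, 0, 0, 0, 0, 0, 0, 0, ⟨0, 0⟩, 0⟩, 0, 0⟩ 0 0))) (.pos 55 .mp ⟨⟨256674498, 0, 0, 0, 0, 112096616, 0, 0, 0, ⟨0, 0⟩, 0⟩, 0, 0⟩ 0 0))) (.pos 56 .mp ⟨⟨282098548, 0, 0, 0, 0, 76762525, 0, 0, 0, ⟨0, 0⟩, 0⟩, 0, 0⟩ 0 0)) (.pos 49 .mp ⟨⟨257638078, 0, 0, 0, 0, 110997923, 0, 0, 0, ⟨0, 0⟩, 0⟩, 0, 0⟩ 0 0)) (.pos 50 .mp ⟨⟨325822704,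 0, 0, 0, 0, 0, 0, 0, 0, ⟨0, 0⟩, 0⟩, 0, 0⟩ 0 0)))) (.cut .d (-8192) (.cut .d (-12288) (.pos 39 .mp ⟨⟨257749099, 0, 0, 0, 0, 132565533, 0, 0, 0, ⟨0, 0⟩, 0⟩, 0, 0⟩ 0 0) (.cut .v 16809984 (.cut .s 12173312 (.cut .s 12165120 (.pos 49 .mp ⟨⟨254975145, 0, 0, 0, 0, 125939228, 0, 0, 0, ⟨0, 0⟩, 0⟩, 0, 0⟩ 0 0) (.pos 49 .mp ⟨⟨256321999, 0, 0, 0, 0, 126664302, 0, 0, 0, ⟨0, 0⟩, 0⟩, 0, 0⟩ 0 0)) (.pos 49 .mp ⟨⟨257676166, 0, 0, 0, 0, 129330517, 0, 0, 0, ⟨0, 0⟩, 0⟩, 0, 0⟩ 0 0)) (.pos 50 .mp ⟨⟨301965429, 0, 0, 0, 0, 53922619, 0, 0, 0, ⟨0, 0⟩, 0⟩, 0, 0⟩ 0 0))) (.cut .v 16809984 (.cut .l 123033 (.cut .s 12173312 (.cut .v 16793600 (.cut .d (-4096) (.pos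 55 .mp ⟨⟨255342798, 0, 0, 0, 0, 126585943, 0, 0, 0, ⟨0, 0⟩, 0⟩, 0, 0⟩ 0 0) (.cut .l 61516 (.cut .d (-2048) (.pos 55 .mp ⟨⟨258771436, 0, 0, 0, 0, 119923313, 0, 0, 0, ⟨0, 0⟩, 0⟩, 0, 0⟩ 0 0) (.cut .s 12165120 (.pos 55 .mp ⟨⟨258448980, 0, 0, 0, 0, 116838558, 0, 0, 0, ⟨0, 0⟩, 0⟩, 0, 0⟩ 0 0) (.pos 55 .mp ⟨⟨259807589, 0, 0, 0, 0, 117493231, 0, 0, 0, ⟨0, 0⟩, 0⟩, 0, 0⟩ 0 0))) (.pos 55 .mp ⟨⟨259384506, 0, 0, 0, 0, 113267702, 0, 0, 0, ⟨0, 0⟩, 0⟩, 0, 0⟩ 0 0))) (.pos 56 .mp ⟨⟨285614770, 0, 0, 0, 0, 76731177, 0, 0, 0, ⟨0, 0⟩, 0⟩, 0, 0⟩ 0 0)) (.cut .v 16793600 (.cut .d (-4096) (.pos 55 .mp ⟨⟨258038749, 0, 0, 0, 0, 128080450, 0, 0, 0, ⟨0, 0⟩, 0⟩,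 0, 0⟩ 0 0) (.cut .l 61516 (.cut .d (-2048) (.pos 55 .mp ⟨⟨261710335, 0, 0, 0, 0, 120887231, 0, 0, 0, ⟨0, 0⟩, 0⟩, 0, 0⟩ 0 0) (.cut .s 12181504 (.pos 55 .mp ⟨⟨261173591, 0, 0, 0, 0, 118156692, 0, 0, 0, ⟨0, 0⟩, 0⟩, 0, 0⟩ 0 0) (.pos 55 .mp ⟨⟨262539248, 0, 0, 0, 0, 118843736, 0, 0, 0, ⟨0, 0⟩, 0⟩, 0, 0⟩ 0 0))) (.pos 55 .mp ⟨⟨262124092, 0, 0, 0, 0, 114450481, 0, 0, 0, ⟨0, 0⟩, 0⟩, 0, 0⟩ 0 0))) (.pos 56 .mp ⟨⟨289303479, 0, 0, 0, 0, 76501102, 0, 0, 0, ⟨0, 0⟩, 0⟩, 0, 0⟩ 0 0))) (.pos 49 .mp ⟨⟨263126215, 0, 0, 0, 0, 108400213, 0, 0, 0, ⟨0, 0⟩, 0⟩, 0, 0⟩ 0 0)) (.pos 50 .mp ⟨⟨331462701, 0, 0, 0, 0, 0, 0, 0, 0, ⟨0, 0⟩, 0⟩, 0, 0⟩ 0 0)))) (.cut .s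 12222464 (.cut .d (-8192) (.cut .d (-12288) (.pos 39 .mp ⟨⟨263257086, 0, 0, 0, 0, 135753977, 0, 0, 0, ⟨0, 0⟩, 0⟩, 0, 0⟩ 0 0) (.cut .v 16809984 (.cut .s 12206080 (.pos 49 .mp ⟨⟨260406592, 0, 0, 0, 0, 130875954, 0, 0, 0, ⟨0, 0⟩, 0⟩, 0, 0⟩ 0 0) (.pos 49 .mp ⟨⟨263166721, 0, 0, 0, 0, 132473699, 0, 0, 0, ⟨0, 0⟩, 0⟩, 0, 0⟩ 0 0)) (.pos 50 .mp ⟨⟨309939833, 0, 0, 0, 0, 52624166, 0, 0, 0, ⟨0, 0⟩, 0⟩, 0, 0⟩ 0 0))) (.cut .v 16809984 (.cut .l 123033 (.cut .s 12206080 (.cut .d (-4096) (.pos 49 .mp ⟨⟨264025820, 0, 0, 0, 0, 123987674, 0, 0, 0, ⟨0, 0⟩, 0⟩, 0, 0⟩ 0 0) (.cut .v 16793600 (.cut .s 12197888 (.cut .s 12193792 (.pos 55 .mp ⟨⟨265922100,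 0, 0, 0, 0, 115901978, 0, 0, 0, ⟨0, 0⟩, 0⟩, 0, 0⟩ 0 0) (.pos 55 .mp ⟨⟨266705901, 0, 0, 0, 0, 116100521, 0, 0, 0, ⟨0, 0⟩, 0⟩, 0, 0⟩ 0 0)) (.pos 55 .mp ⟨⟨266269528, 0, 0, 0, 0, 118713393, 0, 0, 0, ⟨0, 0⟩, 0⟩, 0, 0⟩ 0 0)) (.pos 56 .mp ⟨⟨335902260, 0, 0, 0, 0, 0, 0, 0, 0, ⟨0, 0⟩, 0⟩, 0, 0⟩ 0 0))) (.cut .d (-4096) (.pos 49 .mp ⟨⟨267126296, 0, 0, 0, 0, 124840688, 0, 0, 0, ⟨0, 0⟩, 0⟩, 0, 0⟩ 0 0) (.cut .s 12214272 (.pos 49 .mp ⟨⟨268166510, 0, 0, 0, 0, 118598544, 0, 0, 0, ⟨0, 0⟩, 0⟩, 0, 0⟩ 0 0) (.pos 49 .mp ⟨⟨269579994, 0, 0, 0, 0, 119289066, 0, 0, 0, ⟨0, 0⟩, 0⟩, 0, 0⟩ 0 0)))) (.pos 49 .mp ⟨⟨268734995, 0, 0, 0, 0, 110628649, 0, 0, 0, ⟨0,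 0⟩, 0⟩, 0, 0⟩ 0 0)) (.pos 50 .mp ⟨⟨338557658, 0, 0, 0, 0, 0, 0, 0, 0, ⟨0, 0⟩, 0⟩, 0, 0⟩ 0 0))) (.cut .d (-8192) (.cut .l 123033 (.void 39 ⟨⟨0, 0, 0, 0, 0, 100000, 0, 0, 0, ⟨0, 0⟩, 0⟩, 0, 0⟩ 0 0) (.cut .s 12238848 (.pos 39 .mp ⟨⟨266946401, 0, 0, 0, 0, 132759072, 0, 0, 0, ⟨0, 0⟩, 0⟩, 0, 0⟩ 0 0) (.pos 39 .mp ⟨⟨269776748, 0, 0, 0, 0, 134274065, 0, 0, 0, ⟨0, 0⟩, 0⟩, 0, 0⟩ 0 0))) (.cut .v 16809984 (.cut .l 123033 (.cut .s 12238848 (.cut .d (-4096) (.pos 49 .mp ⟨⟨270314964, 0, 0, 0, 0, 125617782, 0, 0, 0, ⟨0, 0⟩, 0⟩, 0, 0⟩ 0 0) (.cut .s 12230656 (.pos 49 .mp ⟨⟨271001173, 0, 0, 0, 0, 119988161, 0, 0, 0, ⟨0, 0⟩, 0⟩, 0, 0⟩ 0 0) (.pos 49 .mp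 ⟨⟨272430085, 0, 0, 0, 0, 120695811, 0, 0, 0, ⟨0, 0⟩, 0⟩, 0, 0⟩ 0 0))) (.cut .d (-4096) (.pos 49 .mp ⟨⟨269618166, 0, 0, 0, 0, 135022317, 0, 0, 0, ⟨0, 0⟩, 0⟩, 0, 0⟩ 0 0) (.cut .s 12247040 (.pos 49 .mp ⟨⟨273846438, 0, 0, 0, 0, 121450798, 0, 0, 0, ⟨0, 0⟩, 0⟩, 0, 0⟩ 0 0) (.pos 49 .mp ⟨⟨275194181, 0, 0, 0, 0, 122360213, 0, 0, 0, ⟨0, 0⟩, 0⟩, 0, 0⟩ 0 0)))) (.pos 49 .mp ⟨⟨274466899, 0, 0, 0, 0, 112891566, 0, 0, 0, ⟨0, 0⟩, 0⟩, 0, 0⟩ 0 0)) (.pos 50 .mp ⟨⟨345885935, 0, 0, 0, 0, 0, 0, 0, 0, ⟨0, 0⟩, 0⟩, 0, 0⟩ 0 0))))) (.pos 40 .mp ⟨⟨344665833, 0, 0, 0, 0, 0, 0, 0, 0, ⟨0, 0⟩, 0⟩, 0, 0⟩ 0 0))) (.pos 38 .mp ⟨⟨342708483, 0, 0, 0, 0, 0, 0, 0, 0, ⟨0,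 0⟩, 0⟩, 0, 0⟩ 0 0)) (.void 36 ⟨⟨100000, 0, 0, 0, 0, 0, 0, 0, 0, ⟨0, 0⟩, 0⟩, 0, 0⟩ 0 0)) (.void 34 ⟨⟨100000, 0, 0, 0, 0, 0, 0, 0, 0, ⟨0, 0⟩, 0⟩, 0, 0⟩ 0 0)))))))) (.void 32 ⟨⟨100000, 0, 0, 0, 0, 0, 0, 0, 0, ⟨0, 0⟩, 0⟩, 0, 0⟩ 0 0))) (.void 30 ⟨⟨100000, 0, 0, 0, 0, 0, 0, 0, 0, ⟨0, 0⟩, 0⟩, 0, 0⟩ 0 0))) (.void 28 ⟨⟨100000, 0, 0, 0, 0, 0, 0, 0, 0, ⟨0, 0⟩, 0⟩, 0, 0⟩ 0 0)))) (.void 26 ⟨⟨100000, 0, 0, 0, 0, 0, 0, 0, 0, ⟨0, 0⟩, 0⟩, 0, 0⟩ 0 0)) (.void 91 ⟨⟨100000, 0, 0, 0, 0, 0, 0, 0, 0, ⟨0, 0⟩, 0⟩, 0, 0⟩ 0 0)) (.void 98 ⟨⟨100000, 0, 0, 0, 0, 0, 0, 0, 0, ⟨0, 0⟩, 0⟩, 0, 0⟩ 0 0)) (.void 117 ⟨⟨95634, 0, 0, 4366, 0, 0, 0, 0, 0, ⟨0, 0⟩, 0⟩, 0,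 0⟩ 0 0))) (.cut .v 16777216 (.cut .v 8388608 (.cut .v 4194304 (.cut .v 2097152 (.cut .v 1048576 (.pos 113 .pm ⟨⟨0, 0, 15243621, 0, 0, 0, 0, 0, 0, ⟨0, 0⟩, 0⟩, 0, 13903⟩ 0 0) (.pos 114 .pm ⟨⟨0, 0, 2363011, 0, 0, 0, 0, 0, 0, ⟨0, 0⟩, 0⟩, 0, 38619⟩ 0 0)) (.cut .d 3346276 (.pos 7 .pm ⟨⟨0, 0, 44455513, 0, 0, 0, 0, 0, 0, ⟨0, 0⟩, 0⟩, 0, 49654⟩ 0 0) (.pos 7 .pm ⟨⟨0, 38727397, 0, 0, 0, 0, 0, 0, 0, ⟨0, 0⟩, 0⟩, 0, 69515⟩ 0 0))) (.cut .d 3346276 (.pos 5 .pm ⟨⟨0, 0, 7210942, 0, 0, 0, 0, 0, 0, ⟨0, 0⟩, 0⟩, 0, 0⟩ 0 0) (.cut .d 5019414 (.pos 5 .pm ⟨⟨0, 0, 0, 0, 0, 0, 0, 0, 0, ⟨0, 0⟩, 0⟩, 0, 69515⟩ 0 0) (.pos 5 .pm ⟨⟨0, 97364800, 0, 0, 0, 0, 0, 0,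 0, ⟨0, 0⟩, 0⟩, 0, 86894⟩ 0 0)))) (.cut .d 3346276 (.pos 3 .pm ⟨⟨0, 0, 0, 0, 0, 0, 0, 0, 0, ⟨0, 0⟩, 0⟩, 0, 0⟩ 0 0) (.pos 3 .pm ⟨⟨0, 104841887, 0, 0, 0, 0, 0, 0, 0, ⟨0, 0⟩, 0⟩, 0, 115858⟩ 0 0))) (.cut .v 268435456 (.cut .v 67108864 (.cut .d 3346276 (.cut .d 1673138 (.cut .v 33554432 (.cut .d 836569 (.cut .v 25165824 (.cut .d 418284 (.cut .v 20971520 (.cut .d 209142 (.cut .v 18874368 (.cut .v 17825792 (.cut .s 12124160 (.pos 31 .pp ⟨⟨235586259, 0, 0, 0, 0, 0, 0, 0, 0, ⟨0, 0⟩, 0⟩, 6575053, 0⟩ 0 0) (.pos 31 .pp ⟨⟨259591682, 0, 0, 0, 0, 0, 0, 0, 0, ⟨0, 0⟩, 0⟩, 6638334, 0⟩ 0 0)) (.pos 32 .pp ⟨⟨345552127, 0, 0, 0, 0, 0, 0, 0, 0, ⟨0, 0⟩,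 0⟩, 0, 0⟩ 0 0)) (.pos 30 .pp ⟨⟨421745552, 0, 0, 0, 0, 0, 0, 0, 0, ⟨0, 0⟩, 0⟩, 0, 0⟩ 0 0)) (.pos 27 .pp ⟨⟨262910631, 0, 0, 0, 0, 0, 0, 0, 0, ⟨0, 0⟩, 0⟩, 0, 23350⟩ 0 0)) (.cut .d 209142 (.void 28 ⟨⟨100000, 0, 0, 0, 0, 0, 0, 0, 0, ⟨0, 0⟩, 0⟩, 0, 0⟩ 0 0) (.pos 28 .pp ⟨⟨0, 0, 0, 0, 0, 0, 0, 0, 0, ⟨0, 0⟩, 0⟩, 45706277, 0⟩ 0 0))) (.pos 25 .pp ⟨⟨0, 0, 0, 0, 0, 0, 0, 0, 0, ⟨0, 0⟩, 0⟩, 27954394, 72531⟩ 0 0)) (.pos 26 .pp ⟨⟨0, 0, 0, 0, 0, 0, 0, 0, 0, ⟨0, 0⟩, 0⟩, 70712794, 0⟩ 0 0)) (.pos 24 .pp ⟨⟨0, 0, 0, 0, 0, 0, 0, 0, 0, ⟨0, 0⟩, 0⟩, 26314700, 80893⟩ 0 0)) (.cut .d 836569 (.void 91 ⟨⟨0, 0, 0, 0, 0, 0, 0, 0, 0, ⟨0, 0⟩, 0⟩, 100000, 0⟩ 0 0) (.pos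 91 .pp ⟨⟨0, 0, 0, 0, 0, 0, 0, 0, 0, ⟨0, 0⟩, 0⟩, 80333638, 0⟩ 0 0))) (.pos 90 .pp ⟨⟨0, 0, 0, 0, 0, 0, 0, 0, 0, ⟨0, 0⟩, 0⟩, 14157996, 142891⟩ 0 0)) (.pos 90 .pp ⟨⟨0, 118087905, 0, 0, 0, 0, 0, 0, 0, ⟨0, 0⟩, 0⟩, 0, 173787⟩ 0 0)) (.void 98 ⟨⟨0, 0, 0, 44795, 0, 0, 0, 0, 0, ⟨0, 0⟩, 0⟩, 55205, 0⟩ 0 0)) (.void 117 ⟨⟨0, 0, 0, 0, 0, 0, 0, 0, 0, ⟨0, 0⟩, 0⟩, 100000, 0⟩ 0 0)))),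
    by decide +kernel⟩

def covers19 : cell.Covers Vale.Agent.P237.Petty.Cor.Grid.N15.table row19.1 :=
  ⟨(.cut .d 0 (.cut .v 16777216 (.cut .d (-8388608) (.void 1 ⟨⟨0, 0, 0, 0, 0, 100000, 0, 0, 0, ⟨0, 0⟩, 0⟩, 0, 0⟩ 0 0) (.cut .d (-4194304) (.void 1 ⟨⟨0, 0, 0, 0, 0, 100000, 0, 0, 0, ⟨0, 0⟩, 0⟩, 0, 0⟩ 0 0) (.cut .d (-2097152) (.void 1 ⟨⟨0, 0, 0, 0, 0, 100000, 0, 0, 0, ⟨0, 0⟩, 0⟩, 0, 0⟩ 0 0) (.cut .d (-1048576) (.void 1 ⟨⟨0, 0, 0, 0, 0, 100000, 0, 0, 0, ⟨0, 0⟩, 0⟩, 0, 0⟩ 0 0) (.cut .d (-524288) (.void 1 ⟨⟨0, 0, 0, 0, 0, 100000, 0, 0, 0, ⟨0, 0⟩, 0⟩, 0, 0⟩ 0 0) (.cut .d (-262144) (.void 1 ⟨⟨0, 0, 0, 0, 0, 100000, 0, 0, 0, ⟨0, 0⟩, 0⟩,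 0, 0⟩ 0 0) (.cut .d (-131072) (.void 1 ⟨⟨0, 0, 0, 0, 0, 100000, 0, 0, 0, ⟨0, 0⟩, 0⟩, 0, 0⟩ 0 0) (.cut .d (-65536) (.void 1 ⟨⟨0, 0, 0, 0, 0, 100000, 0, 0, 0, ⟨0, 0⟩, 0⟩, 0, 0⟩ 0 0) (.cut .d (-32768) (.void 1 ⟨⟨0, 0, 0, 0, 0, 100000, 0, 0, 0, ⟨0, 0⟩, 0⟩, 0, 0⟩ 0 0) (.cut .d (-16384) (.void 1 ⟨⟨0, 0, 0, 0, 0, 100000, 0, 0, 0, ⟨0, 0⟩, 0⟩, 0, 0⟩ 0 0) (.cut .v 8388608 (.cut .v 4194304 (.void 4 ⟨⟨0, 0, 100000, 0, 0, 0, 0, 0, 0, ⟨0, 0⟩, 0⟩, 0, 0⟩ 0 0) (.pos 5 .mm ⟨⟨0, 0, 8740410, 0, 0, 201964491, 0, 0, 0, ⟨0, 0⟩, 0⟩, 0, 0⟩ 0 0)) (.cut .s 12386304 (.pos 3 .mm ⟨⟨0, 0, 0, 0, 0, 591696307, 0, 0, 0, ⟨0, 0⟩, 0⟩, 0, 0⟩ 0 0) (.pos 3 .mm ⟨⟨0, 0,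 0, 0, 0, 647285890, 0, 0, 0, ⟨0, 0⟩, 0⟩, 0, 0⟩ 0 0))))))))))))) (.cut .v 268435456 (.cut .v 67108864 (.cut .v 33554432 (.cut .v 25165824 (.cut .d (-8388608) (.void 25 ⟨⟨100000, 0, 0, 0, 0, 0, 0, 0, 0, ⟨0, 0⟩, 0⟩, 0, 0⟩ 0 0) (.cut .d (-4194304) (.void 25 ⟨⟨100000, 0, 0, 0, 0, 0, 0, 0, 0, ⟨0, 0⟩, 0⟩, 0, 0⟩ 0 0) (.cut .v 20971520 (.cut .d (-2097152) (.void 27 ⟨⟨100000, 0, 0, 0, 0, 0, 0, 0, 0, ⟨0, 0⟩, 0⟩, 0, 0⟩ 0 0) (.cut .v 18874368 (.cut .d (-1048576) (.void 29 ⟨⟨100000, 0, 0, 0, 0, 0, 0, 0, 0, ⟨0, 0⟩, 0⟩, 0, 0⟩ 0 0) (.cut .v 17825792 (.cut .d (-524288) (.void 31 ⟨⟨100000, 0, 0, 0, 0, 0, 0, 0, 0, ⟨0, 0⟩, 0⟩, 0, 0⟩ 0 0) (.cut .d (-262144)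 (.void 31 ⟨⟨100000, 0, 0, 0, 0, 0, 0, 0, 0, ⟨0, 0⟩, 0⟩, 0, 0⟩ 0 0) (.cut .d (-131072) (.void 31 ⟨⟨100000, 0, 0, 0, 0, 0, 0, 0, 0, ⟨0, 0⟩, 0⟩, 0, 0⟩ 0 0) (.cut .d (-65536) (.void 31 ⟨⟨100000, 0, 0, 0, 0, 0, 0, 0, 0, ⟨0, 0⟩, 0⟩, 0, 0⟩ 0 0) (.cut .d (-32768) (.void 31 ⟨⟨100000, 0, 0, 0, 0, 0, 0, 0, 0, ⟨0, 0⟩, 0⟩, 0, 0⟩ 0 0) (.cut .d (-16384) (.void 31 ⟨⟨0, 0, 0, 0, 0, 100000, 0, 0, 0, ⟨0, 0⟩, 0⟩, 0, 0⟩ 0 0) (.cut .v 17301504 (.cut .v 17039360 (.cut .v 16908288 (.cut .s 12386304 (.cut .v 16842752 (.cut .s 12320768 (.cut .s 12288000 (.cut .d (-8192) (.cut .s 12271616 (.pos 39 .mp ⟨⟨272638284, 0, 0, 0, 0, 137817261, 0, 0, 0, ⟨0, 0⟩, 0⟩,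 0, 0⟩ 0 0) (.cut .s 12279808 (.pos 39 .mp ⟨⟨275537038, 0, 0, 0, 0, 136442892, 0, 0, 0, ⟨0, 0⟩, 0⟩, 0, 0⟩ 0 0) (.pos 39 .mp ⟨⟨276998660, 0, 0, 0, 0, 136989805, 0, 0, 0, ⟨0, 0⟩, 0⟩, 0, 0⟩ 0 0))) (.cut .v 16809984 (.cut .l 123033 (.cut .s 12271616 (.cut .s 12263424 (.pos 49 .mp ⟨⟨278779793, 0, 0, 0, 0, 119717213, 0, 0, 0, ⟨0, 0⟩, 0⟩, 0, 0⟩ 0 0) (.cut .s 12267520 (.pos 49 .mp ⟨⟨279700502, 0, 0, 0, 0, 120348475, 0, 0, 0, ⟨0, 0⟩, 0⟩, 0, 0⟩ 0 0) (.pos 49 .mp ⟨⟨280275551, 0, 0, 0, 0, 120875816, 0, 0, 0, ⟨0, 0⟩, 0⟩, 0, 0⟩ 0 0))) (.cut .d (-4096) (.pos 49 .mp ⟨⟨275354516, 0, 0, 0, 0, 137888583, 0, 0, 0, ⟨0, 0⟩, 0⟩, 0, 0⟩ 0 0) (.cut .s 12279808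 (.pos 49 .mp ⟨⟨279693657, 0, 0, 0, 0, 123924240, 0, 0, 0, ⟨0, 0⟩, 0⟩, 0, 0⟩ 0 0) (.pos 49 .mp ⟨⟨281170885, 0, 0, 0, 0, 124467586, 0, 0, 0, ⟨0, 0⟩, 0⟩, 0, 0⟩ 0 0)))) (.pos 49 .mp ⟨⟨280333396, 0, 0, 0, 0, 116333444, 0, 0, 0, ⟨0, 0⟩, 0⟩, 0, 0⟩ 0 0)) (.pos 50 .mp ⟨⟨353460878, 0, 0, 0, 0, 0, 0, 0, 0, ⟨0, 0⟩, 0⟩, 0, 0⟩ 0 0))) (.cut .d (-8192) (.cut .l 123033 (.void 39 ⟨⟨0, 0, 0, 0, 0, 100000, 0, 0, 0, ⟨0, 0⟩, 0⟩, 0, 0⟩ 0 0) (.cut .s 12304384 (.pos 39 .mp ⟨⟨278615981, 0, 0, 0, 0, 138419036, 0, 0, 0, ⟨0, 0⟩, 0⟩, 0, 0⟩ 0 0) (.cut .s 12312576 (.pos 39 .mp ⟨⟨282179327, 0, 0, 0, 0, 136095343, 0, 0, 0, ⟨0, 0⟩, 0⟩, 0, 0⟩ 0 0) (.pos 39 .mp ⟨⟨283564343,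 0, 0, 0, 0, 136982943, 0, 0, 0, ⟨0, 0⟩, 0⟩, 0, 0⟩ 0 0)))) (.cut .v 16809984 (.cut .l 123033 (.cut .s 12304384 (.cut .d (-4096) (.pos 49 .mp ⟨⟨278272291, 0, 0, 0, 0, 139049753, 0, 0, 0, ⟨0, 0⟩, 0⟩, 0, 0⟩ 0 0) (.cut .s 12296192 (.pos 49 .mp ⟨⟨282656466, 0, 0, 0, 0, 125022031, 0, 0, 0, ⟨0, 0⟩, 0⟩, 0, 0⟩ 0 0) (.pos 49 .mp ⟨⟨284150443, 0, 0, 0, 0, 125587562, 0, 0, 0, ⟨0, 0⟩, 0⟩, 0, 0⟩ 0 0))) (.cut .d (-4096) (.pos 49 .mp ⟨⟨281222961, 0, 0, 0, 0, 140269715, 0, 0, 0, ⟨0, 0⟩, 0⟩, 0, 0⟩ 0 0) (.cut .v 16793600 (.cut .s 12312576 (.pos 55 .mp ⟨⟨285128860, 0, 0, 0, 0, 127019592, 0, 0, 0, ⟨0, 0⟩, 0⟩, 0, 0⟩ 0 0) (.cut .s 12316672 (.pos 55 .mp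 ⟨⟨287851298, 0, 0, 0, 0, 125133443, 0, 0, 0, ⟨0, 0⟩, 0⟩, 0, 0⟩ 0 0) (.pos 55 .mp ⟨⟨288510198, 0, 0, 0, 0, 125586847, 0, 0, 0, ⟨0, 0⟩, 0⟩, 0, 0⟩ 0 0))) (.pos 56 .mp ⟨⟨361117267, 0, 0, 0, 0, 0, 0, 0, 0, ⟨0, 0⟩, 0⟩, 0, 0⟩ 0 0)))) (.pos 49 .mp ⟨⟨286333253, 0, 0, 0, 0, 118700004, 0, 0, 0, ⟨0, 0⟩, 0⟩, 0, 0⟩ 0 0)) (.pos 50 .mp ⟨⟨360469934, 0, 0, 0, 0, 0, 0, 0, 0, ⟨0, 0⟩, 0⟩, 0, 0⟩ 0 0)))) (.cut .s 12353536 (.cut .d (-8192) (.cut .d (-12288) (.pos 39 .mp ⟨⟨288938285, 0, 0, 0, 0, 142674484, 0, 0, 0, ⟨0, 0⟩, 0⟩, 0, 0⟩ 0 0) (.cut .v 16809984 (.cut .s 12337152 (.pos 49 .mp ⟨⟨283380331, 0, 0, 0, 0, 142297874, 0, 0, 0, ⟨0, 0⟩, 0⟩, 0, 0⟩ 0 0)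 (.pos 49 .mp ⟨⟨286401410, 0, 0, 0, 0, 143624480, 0, 0, 0, ⟨0, 0⟩, 0⟩, 0, 0⟩ 0 0)) (.pos 50 .mp ⟨⟨339196307, 0, 0, 0, 0, 53440979, 0, 0, 0, ⟨0, 0⟩, 0⟩, 0, 0⟩ 0 0))) (.cut .v 16809984 (.cut .l 123033 (.cut .s 12337152 (.cut .d (-4096) (.pos 49 .mp ⟨⟨284206871, 0, 0, 0, 0, 141549194, 0, 0, 0, ⟨0, 0⟩, 0⟩, 0, 0⟩ 0 0) (.cut .v 16793600 (.cut .l 61516 (.cut .d (-2048) (.pos 55 .mp ⟨⟨284096747, 0, 0, 0, 0, 141048571, 0, 0, 0, ⟨0, 0⟩, 0⟩, 0, 0⟩ 0 0) (.cut .s 12328960 (.pos 55 .mp ⟨⟨287082837, 0, 0, 0, 0, 129895501, 0, 0, 0, ⟨0, 0⟩, 0⟩, 0, 0⟩ 0 0) (.pos 55 .mp ⟨⟨288599783, 0, 0, 0, 0, 130523825, 0, 0, 0, ⟨0, 0⟩, 0⟩, 0, 0⟩ 0 0))) (.pos 55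 .mp ⟨⟨288186118, 0, 0, 0, 0, 126215466, 0, 0, 0, ⟨0, 0⟩, 0⟩, 0, 0⟩ 0 0)) (.pos 56 .mp ⟨⟨364739130, 0, 0, 0, 0, 0, 0, 0, 0, ⟨0, 0⟩, 0⟩, 0, 0⟩ 0 0))) (.cut .d (-4096) (.pos 49 .mp ⟨⟨287224369, 0, 0, 0, 0, 142888926, 0, 0, 0, ⟨0, 0⟩, 0⟩, 0, 0⟩ 0 0) (.cut .v 16793600 (.cut .l 61516 (.cut .d (-2048) (.pos 55 .mp ⟨⟨287107199, 0, 0, 0, 0, 142392952, 0, 0, 0, ⟨0, 0⟩, 0⟩, 0, 0⟩ 0 0) (.cut .s 12345344 (.pos 55 .mp ⟨⟨290125260, 0, 0, 0, 0, 131163309, 0, 0, 0, ⟨0, 0⟩, 0⟩, 0, 0⟩ 0 0) (.cut .s 12349440 (.pos 55 .mp ⟨⟨291938210, 0, 0, 0, 0, 130935974, 0, 0, 0, ⟨0, 0⟩, 0⟩, 0, 0⟩ 0 0) (.pos 55 .mp ⟨⟨292665589, 0, 0, 0, 0, 131329383, 0, 0, 0, ⟨0,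 0⟩, 0⟩, 0, 0⟩ 0 0)))) (.pos 55 .mp ⟨⟨291247437, 0, 0, 0, 0, 127552049, 0, 0, 0, ⟨0, 0⟩, 0⟩, 0, 0⟩ 0 0)) (.pos 56 .mp ⟨⟨368427607, 0, 0, 0, 0, 0, 0, 0, 0, ⟨0, 0⟩, 0⟩, 0, 0⟩ 0 0)))) (.cut .s 12337152 (.pos 49 .mp ⟨⟨289384231, 0, 0, 0, 0, 124813522, 0, 0, 0, ⟨0, 0⟩, 0⟩, 0, 0⟩ 0 0) (.pos 49 .mp ⟨⟨292469719, 0, 0, 0, 0, 126118482, 0, 0, 0, ⟨0, 0⟩, 0⟩, 0, 0⟩ 0 0))) (.pos 50 .mp ⟨⟨367741276, 0, 0, 0, 0, 0, 0, 0, 0, ⟨0, 0⟩, 0⟩, 0, 0⟩ 0 0))) (.cut .d (-8192) (.cut .d (-12288) (.pos 39 .mp ⟨⟨295083709, 0, 0, 0, 0, 145624799, 0, 0, 0, ⟨0, 0⟩, 0⟩, 0, 0⟩ 0 0) (.cut .l 123033 (.void 39 ⟨⟨0, 0, 0, 0, 0, 100000, 0, 0, 0, ⟨0, 0⟩, 0⟩, 0, 0⟩ 0 0)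 (.cut .v 16809984 (.cut .s 12369920 (.pos 49 .mp ⟨⟨289456471, 0, 0, 0, 0, 143459970, 0, 0, 0, ⟨0, 0⟩, 0⟩, 0, 0⟩ 0 0) (.pos 49 .mp ⟨⟨292545873, 0, 0, 0, 0, 144925993, 0, 0, 0, ⟨0, 0⟩, 0⟩, 0, 0⟩ 0 0)) (.pos 50 .mp ⟨⟨344859125, 0, 0, 0, 0, 56730338, 0, 0, 0, ⟨0, 0⟩, 0⟩, 0, 0⟩ 0 0)))) (.cut .v 16809984 (.cut .l 123033 (.cut .s 12369920 (.cut .v 16793600 (.cut .d (-4096) (.pos 55 .mp ⟨⟨289740618, 0, 0, 0, 0, 143806775, 0, 0, 0, ⟨0, 0⟩, 0⟩, 0, 0⟩ 0 0) (.cut .l 61516 (.cut .d (-2048) (.pos 55 .mp ⟨⟨290151513, 0, 0, 0, 0, 143798357, 0, 0, 0, ⟨0, 0⟩, 0⟩, 0, 0⟩ 0 0) (.cut .v 16785408 (.cut .l 30758 (.cut .d (-1024) (.pos 57 .mp ⟨⟨290089931,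 0, 0, 0, 0, 143551695, 0, 0, 0, ⟨0, 0⟩, 0⟩, 0, 0⟩ 0 0) (.cut .s 12361728 (.pos 57 .mp ⟨⟨292333153, 0, 0, 0, 0, 133874980, 0, 0, 0, ⟨0, 0⟩, 0⟩, 0, 0⟩ 0 0) (.pos 57 .mp ⟨⟨293921033, 0, 0, 0, 0, 134476468, 0, 0, 0, ⟨0, 0⟩, 0⟩, 0, 0⟩ 0 0))) (.pos 57 .mp ⟨⟨293721219, 0, 0, 0, 0, 129639626, 0, 0, 0, ⟨0, 0⟩, 0⟩, 0, 0⟩ 0 0)) (.pos 58 .mp ⟨⟨371973564, 0, 0, 0, 0, 0, 0, 0, 0, ⟨0, 0⟩, 0⟩, 0, 0⟩ 0 0))) (.pos 55 .mp ⟨⟨294343265, 0, 0, 0, 0, 128908631, 0, 0, 0, ⟨0, 0⟩, 0⟩, 0, 0⟩ 0 0))) (.pos 56 .mp ⟨⟨321066427, 0, 0, 0, 0, 91239385, 0, 0, 0, ⟨0, 0⟩, 0⟩, 0, 0⟩ 0 0)) (.cut .d (-4096) (.cut .s 12378112 (.pos 49 .mp ⟨⟨293361548, 0, 0, 0, 0, 143026808,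 0, 0, 0, ⟨0, 0⟩, 0⟩, 0, 0⟩ 0 0) (.pos 49 .mp ⟨⟨294917394, 0, 0, 0, 0, 143758842, 0, 0, 0, ⟨0, 0⟩, 0⟩, 0, 0⟩ 0 0)) (.cut .v 16793600 (.cut .l 61516 (.cut .d (-2048) (.pos 55 .mp ⟨⟨293230050, 0, 0, 0, 0, 145265543, 0, 0, 0, ⟨0, 0⟩, 0⟩, 0, 0⟩ 0 0) (.cut .v 16785408 (.cut .l 30758 (.cut .d (-1024) (.pos 57 .mp ⟨⟨293164874, 0, 0, 0, 0, 145021215, 0, 0, 0, ⟨0, 0⟩, 0⟩, 0, 0⟩ 0 0) (.cut .s 12378112 (.pos 57 .mp ⟨⟨295480630, 0, 0, 0, 0, 135159973, 0, 0, 0, ⟨0, 0⟩, 0⟩, 0, 0⟩ 0 0) (.pos 57 .mp ⟨⟨297043668, 0, 0, 0, 0, 135864749, 0, 0, 0, ⟨0, 0⟩, 0⟩, 0, 0⟩ 0 0))) (.pos 57 .mp ⟨⟨296839492, 0, 0, 0, 0, 131031438, 0, 0, 0, ⟨0, 0⟩, 0⟩, 0, 0⟩ 0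 0)) (.pos 58 .mp ⟨⟨375795120, 0, 0, 0, 0, 0, 0, 0, 0, ⟨0, 0⟩, 0⟩, 0, 0⟩ 0 0))) (.pos 55 .mp ⟨⟨297473966, 0, 0, 0, 0, 130284142, 0, 0, 0, ⟨0, 0⟩, 0⟩, 0, 0⟩ 0 0)) (.pos 56 .mp ⟨⟨376007099, 0, 0, 0, 0, 0, 0, 0, 0, ⟨0, 0⟩, 0⟩, 0, 0⟩ 0 0)))) (.cut .s 12369920 (.pos 49 .mp ⟨⟨295590081, 0, 0, 0, 0, 127442920, 0, 0, 0, ⟨0, 0⟩, 0⟩, 0, 0⟩ 0 0) (.pos 49 .mp ⟨⟨298745689, 0, 0, 0, 0, 128785758, 0, 0, 0, ⟨0, 0⟩, 0⟩, 0, 0⟩ 0 0))) (.pos 50 .mp ⟨⟨375280174, 0, 0, 0, 0, 0, 0, 0, 0, ⟨0, 0⟩, 0⟩, 0, 0⟩ 0 0))))) (.pos 40 .mp ⟨⟨375019674, 0, 0, 0, 0, 0, 0, 0, 0, ⟨0, 0⟩, 0⟩, 0, 0⟩ 0 0)) (.cut .v 16842752 (.cut .s 12451840 (.cut .s 12419072 (.cut .d (-8192)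 (.cut .d (-12288) (.pos 39 .mp ⟨⟨301357289, 0, 0, 0, 0, 148848361, 0, 0, 0, ⟨0, 0⟩, 0⟩, 0, 0⟩ 0 0) (.cut .l 123033 (.void 39 ⟨⟨0, 0, 0, 0, 0, 100000, 0, 0, 0, ⟨0, 0⟩, 0⟩, 0, 0⟩ 0 0) (.cut .v 16809984 (.cut .s 12402688 (.pos 49 .mp ⟨⟨295669982, 0, 0, 0, 0, 146437184, 0, 0, 0, ⟨0, 0⟩, 0⟩, 0, 0⟩ 0 0) (.pos 49 .mp ⟨⟨298829168, 0, 0, 0, 0, 147993403, 0, 0, 0, ⟨0, 0⟩, 0⟩, 0, 0⟩ 0 0)) (.cut .s 12402688 (.pos 50 .mp ⟨⟨327262799, 0, 0, 0, 0, 94632173, 0, 0, 0, ⟨0, 0⟩, 0⟩, 0, 0⟩ 0 0) (.pos 50 .mp ⟨⟨330714919, 0, 0, 0, 0, 95657879, 0, 0, 0, ⟨0, 0⟩, 0⟩, 0, 0⟩ 0 0))))) (.cut .v 16809984 (.cut .l 123033 (.cut .s 12402688 (.cut .d (-4096) (.cut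 .s 12394496 (.pos 49 .mp ⟨⟨296481952, 0, 0, 0, 0, 144506525, 0, 0, 0, ⟨0, 0⟩, 0⟩, 0, 0⟩ 0 0) (.pos 49 .mp ⟨⟨298055268, 0, 0, 0, 0, 145269953, 0, 0, 0, ⟨0, 0⟩, 0⟩, 0, 0⟩ 0 0)) (.cut .v 16793600 (.cut .l 61516 (.cut .d (-2048) (.pos 55 .mp ⟨⟨296343170, 0, 0, 0, 0, 146795279, 0, 0, 0, ⟨0, 0⟩, 0⟩, 0, 0⟩ 0 0) (.cut .v 16785408 (.cut .l 30758 (.cut .d (-1024) (.pos 57 .mp ⟨⟨296274362, 0, 0, 0, 0, 146553297, 0, 0, 0, ⟨0, 0⟩, 0⟩, 0, 0⟩ 0 0) (.cut .s 12394496 (.pos 57 .mp ⟨⟨298615469, 0, 0, 0, 0, 136580661, 0, 0, 0, ⟨0, 0⟩, 0⟩, 0, 0⟩ 0 0) (.pos 57 .mp ⟨⟨300196079, 0, 0, 0, 0, 137307691, 0, 0, 0, ⟨0, 0⟩, 0⟩, 0, 0⟩ 0 0))) (.pos 57 .mp ⟨⟨299992825,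 0, 0, 0, 0, 132441367, 0, 0, 0, ⟨0, 0⟩, 0⟩, 0, 0⟩ 0 0)) (.pos 58 .mp ⟨⟨379685296, 0, 0, 0, 0, 0, 0, 0, 0, ⟨0, 0⟩, 0⟩, 0, 0⟩ 0 0))) (.pos 55 .mp ⟨⟨300639915, 0, 0, 0, 0, 131677502, 0, 0, 0, ⟨0, 0⟩, 0⟩, 0, 0⟩ 0 0)) (.pos 56 .mp ⟨⟨379899488, 0, 0, 0, 0, 0, 0, 0, 0, ⟨0, 0⟩, 0⟩, 0, 0⟩ 0 0))) (.cut .d (-4096) (.cut .s 12410880 (.pos 49 .mp ⟨⟨299637390, 0, 0, 0, 0, 146049224, 0, 0, 0, ⟨0, 0⟩, 0⟩, 0, 0⟩ 0 0) (.pos 49 .mp ⟨⟨301228364, 0, 0, 0, 0, 146844438, 0, 0, 0, ⟨0, 0⟩, 0⟩, 0, 0⟩ 0 0)) (.cut .v 16793600 (.cut .l 61516 (.cut .d (-2048) (.pos 55 .mp ⟨⟨299491245, 0, 0, 0, 0, 148388344, 0, 0, 0, ⟨0, 0⟩, 0⟩, 0, 0⟩ 0 0) (.cut .v 16785408 (.cut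 .l 30758 (.cut .d (-1024) (.pos 57 .mp ⟨⟨299418763, 0, 0, 0, 0, 148148721, 0, 0, 0, ⟨0, 0⟩, 0⟩, 0, 0⟩ 0 0) (.cut .v 16781312 (.cut .s 12410880 (.pos 65 .mp ⟨⟨301647177, 0, 0, 0, 0, 138273018, 0, 0, 0, ⟨0, 0⟩, 0⟩, 0, 0⟩ 0 0) (.pos 65 .mp ⟨⟨303244850, 0, 0, 0, 0, 139023481, 0, 0, 0, ⟨0, 0⟩, 0⟩, 0, 0⟩ 0 0)) (.pos 66 .mp ⟨⟨383535646, 0, 0, 0, 0, 0, 0, 0, 0, ⟨0, 0⟩, 0⟩, 0, 0⟩ 0 0))) (.pos 57 .mp ⟨⟨303181593, 0, 0, 0, 0, 133868328, 0, 0, 0, ⟨0, 0⟩, 0⟩, 0, 0⟩ 0 0)) (.pos 58 .mp ⟨⟨383644795, 0, 0, 0, 0, 0, 0, 0, 0, ⟨0, 0⟩, 0⟩, 0, 0⟩ 0 0))) (.pos 55 .mp ⟨⟨303841487, 0, 0, 0, 0, 133087622, 0, 0, 0, ⟨0, 0⟩, 0⟩, 0, 0⟩ 0 0)) (.pos 56 .mp ⟨⟨383861239,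 0, 0, 0, 0, 0, 0, 0, 0, ⟨0, 0⟩, 0⟩, 0, 0⟩ 0 0)))) (.cut .s 12402688 (.pos 49 .mp ⟨⟨301936917, 0, 0, 0, 0, 130145908, 0, 0, 0, ⟨0, 0⟩, 0⟩, 0, 0⟩ 0 0) (.pos 49 .mp ⟨⟨305164147, 0, 0, 0, 0, 131522273, 0, 0, 0, ⟨0, 0⟩, 0⟩, 0, 0⟩ 0 0))) (.pos 50 .mp ⟨⟨383092060, 0, 0, 0, 0, 0, 0, 0, 0, ⟨0, 0⟩, 0⟩, 0, 0⟩ 0 0))) (.cut .d (-8192) (.cut .d (-12288) (.void 39 ⟨⟨0, 0, 0, 0, 0, 100000, 0, 0, 0, ⟨0, 0⟩, 0⟩, 0, 0⟩ 0 0) (.cut .l 123033 (.void 39 ⟨⟨0, 0, 0, 0, 0, 100000, 0, 0, 0, ⟨0, 0⟩, 0⟩, 0, 0⟩ 0 0) (.cut .l 184549 (.pos 39 .mp ⟨⟨305721800, 0, 0, 0, 0, 155931792, 0, 0, 0, ⟨0, 0⟩, 0⟩, 0, 0⟩ 0 0) (.cut .s 12435456 (.pos 39 .mp ⟨⟨310347151, 0,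 0, 0, 0, 131804231, 0, 0, 0, ⟨0, 0⟩, 0⟩, 0, 0⟩ 0 0) (.pos 39 .mp ⟨⟨313679798, 0, 0, 0, 0, 133203422, 0, 0, 0, ⟨0, 0⟩, 0⟩, 0, 0⟩ 0 0))))) (.cut .v 16809984 (.cut .l 123033 (.cut .s 12435456 (.cut .d (-4096) (.cut .s 12427264 (.pos 49 .mp ⟨⟨302828238, 0, 0, 0, 0, 147655695, 0, 0, 0, ⟨0, 0⟩, 0⟩, 0, 0⟩ 0 0) (.pos 49 .mp ⟨⟨304437060, 0, 0, 0, 0, 148483093, 0, 0, 0, ⟨0, 0⟩, 0⟩, 0, 0⟩ 0 0)) (.cut .v 16793600 (.cut .l 61516 (.cut .d (-2048) (.pos 55 .mp ⟨⟨302674648, 0, 0, 0, 0, 150045531, 0, 0, 0, ⟨0, 0⟩, 0⟩, 0, 0⟩ 0 0) (.cut .v 16785408 (.cut .l 30758 (.cut .d (-1024) (.pos 57 .mp ⟨⟨302598452, 0, 0, 0, 0, 149808278, 0, 0, 0, ⟨0, 0⟩, 0⟩,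 0, 0⟩ 0 0) (.cut .s 12427264 (.pos 57 .mp ⟨⟨304991235, 0, 0, 0, 0, 139555305, 0, 0, 0, ⟨0, 0⟩, 0⟩, 0, 0⟩ 0 0) (.pos 57 .mp ⟨⟨306607556, 0, 0, 0, 0, 140326618, 0, 0, 0, ⟨0, 0⟩, 0⟩, 0, 0⟩ 0 0))) (.pos 57 .mp ⟨⟨306406178, 0, 0, 0, 0, 135311225, 0, 0, 0, ⟨0, 0⟩, 0⟩, 0, 0⟩ 0 0)) (.pos 58 .mp ⟨⟨387674330, 0, 0, 0, 0, 0, 0, 0, 0, ⟨0, 0⟩, 0⟩, 0, 0⟩ 0 0))) (.pos 55 .mp ⟨⟨307079066, 0, 0, 0, 0, 134513402, 0, 0, 0, ⟨0, 0⟩, 0⟩, 0, 0⟩ 0 0)) (.pos 56 .mp ⟨⟨387893066, 0, 0, 0, 0, 0, 0, 0, 0, ⟨0, 0⟩, 0⟩, 0, 0⟩ 0 0))) (.cut .d (-4096) (.cut .s 12443648 (.pos 49 .mp ⟨⟨306054878, 0, 0, 0, 0, 149326736, 0, 0, 0, ⟨0, 0⟩, 0⟩, 0, 0⟩ 0 0) (.pos 49 .mp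 ⟨⟨307681740, 0, 0, 0, 0, 150186723, 0, 0, 0, ⟨0, 0⟩, 0⟩, 0, 0⟩ 0 0)) (.cut .v 16793600 (.cut .l 61516 (.cut .d (-2048) (.pos 55 .mp ⟨⟨305893759, 0, 0, 0, 0, 151767641, 0, 0, 0, ⟨0, 0⟩, 0⟩, 0, 0⟩ 0 0) (.cut .v 16785408 (.cut .l 30758 (.cut .d (-1024) (.pos 57 .mp ⟨⟨305813809, 0, 0, 0, 0, 151532772, 0, 0, 0, ⟨0, 0⟩, 0⟩, 0, 0⟩ 0 0) (.cut .s 12443648 (.pos 57 .mp ⟨⟨308232925, 0, 0, 0, 0, 141108952, 0, 0, 0, ⟨0, 0⟩, 0⟩, 0, 0⟩ 0 0) (.pos 57 .mp ⟨⟨309867391, 0, 0, 0, 0, 141902285, 0, 0, 0, ⟨0, 0⟩, 0⟩, 0, 0⟩ 0 0))) (.pos 57 .mp ⟨⟨309666967, 0, 0, 0, 0, 136768955, 0, 0, 0, ⟨0, 0⟩, 0⟩, 0, 0⟩ 0 0)) (.pos 58 .mp ⟨⟨391774624, 0, 0, 0, 0, 0,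 0, 0, 0, ⟨0, 0⟩, 0⟩, 0, 0⟩ 0 0))) (.pos 55 .mp ⟨⟨310353042, 0, 0, 0, 0, 135953735, 0, 0, 0, ⟨0, 0⟩, 0⟩, 0, 0⟩ 0 0)) (.pos 56 .mp ⟨⟨391995692, 0, 0, 0, 0, 0, 0, 0, 0, ⟨0, 0⟩, 0⟩, 0, 0⟩ 0 0)))) (.cut .s 12435456 (.pos 49 .mp ⟨⟨308427767, 0, 0, 0, 0, 132913745, 0, 0, 0, ⟨0, 0⟩, 0⟩, 0, 0⟩ 0 0) (.pos 49 .mp ⟨⟨311728169, 0, 0, 0, 0, 134319207, 0, 0, 0, ⟨0, 0⟩, 0⟩, 0, 0⟩ 0 0))) (.pos 50 .mp ⟨⟨391182531, 0, 0, 0, 0, 0, 0, 0, 0, ⟨0, 0⟩, 0⟩, 0, 0⟩ 0 0)))) (.cut .s 12484608 (.cut .d (-8192) (.cut .d (-12288) (.void 39 ⟨⟨0, 0, 0, 0, 0, 100000, 0, 0, 0, ⟨0, 0⟩, 0⟩, 0, 0⟩ 0 0) (.cut .l 123033 (.void 39 ⟨⟨0, 0, 0, 0, 0, 100000, 0, 0, 0, ⟨0, 0⟩,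 0⟩, 0, 0⟩ 0 0) (.cut .v 16809984 (.cut .s 12468224 (.pos 49 .mp ⟨⟨308520974, 0, 0, 0, 0, 152930731, 0, 0, 0, ⟨0, 0⟩, 0⟩, 0, 0⟩ 0 0) (.pos 49 .mp ⟨⟨311824284, 0, 0, 0, 0, 154665519, 0, 0, 0, ⟨0, 0⟩, 0⟩, 0, 0⟩ 0 0)) (.pos 50 .mp ⟨⟨368574739, 0, 0, 0, 0, 58347475, 0, 0, 0, ⟨0, 0⟩, 0⟩, 0, 0⟩ 0 0)))) (.cut .v 16809984 (.cut .l 123033 (.cut .s 12468224 (.cut .d (-4096) (.pos 49 .mp ⟨⟨309317695, 0, 0, 0, 0, 154018224, 0, 0, 0, ⟨0, 0⟩, 0⟩, 0, 0⟩ 0 0) (.cut .v 16793600 (.cut .l 61516 (.cut .d (-2048) (.pos 55 .mp ⟨⟨309148965, 0, 0, 0, 0, 153555491, 0, 0, 0, ⟨0, 0⟩, 0⟩, 0, 0⟩ 0 0) (.cut .v 16785408 (.cut .l 30758 (.cut .d (-1024) (.pos 57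 .mp ⟨⟨309065218, 0, 0, 0, 0, 153323018, 0, 0, 0, ⟨0, 0⟩, 0⟩, 0, 0⟩ 0 0) (.cut .s 12460032 (.pos 57 .mp ⟨⟨311511003, 0, 0, 0, 0, 142706596, 0, 0, 0, ⟨0, 0⟩, 0⟩, 0, 0⟩ 0 0) (.pos 57 .mp ⟨⟨313120202, 0, 0, 0, 0, 143605834, 0, 0, 0, ⟨0, 0⟩, 0⟩, 0, 0⟩ 0 0))) (.pos 57 .mp ⟨⟨312964353, 0, 0, 0, 0, 138240403, 0, 0, 0, ⟨0, 0⟩, 0⟩, 0, 0⟩ 0 0)) (.pos 58 .mp ⟨⟨395946414, 0, 0, 0, 0, 0, 0, 0, 0, ⟨0, 0⟩, 0⟩, 0, 0⟩ 0 0))) (.pos 55 .mp ⟨⟨313663810, 0, 0, 0, 0, 137407501, 0, 0, 0, ⟨0, 0⟩, 0⟩, 0, 0⟩ 0 0)) (.pos 56 .mp ⟨⟨396169853, 0, 0, 0, 0, 0, 0, 0, 0, ⟨0, 0⟩, 0⟩, 0, 0⟩ 0 0))) (.cut .d (-4096) (.pos 49 .mp ⟨⟨312617083, 0, 0, 0, 0, 155867788, 0,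 0, 0, ⟨0, 0⟩, 0⟩, 0, 0⟩ 0 0) (.cut .v 16793600 (.cut .l 61516 (.cut .d (-2048) (.pos 55 .mp ⟨⟨312440657, 0, 0, 0, 0, 155409907, 0, 0, 0, ⟨0, 0⟩, 0⟩, 0, 0⟩ 0 0) (.cut .s 12476416 (.cut .s 12472320 (.pos 55 .mp ⟨⟨316062808, 0, 0, 0, 0, 141870210, 0, 0, 0, ⟨0, 0⟩, 0⟩, 0, 0⟩ 0 0) (.pos 55 .mp ⟨⟨316955925, 0, 0, 0, 0, 142193493, 0, 0, 0, ⟨0, 0⟩, 0⟩, 0, 0⟩ 0 0)) (.pos 55 .mp ⟨⟨317408592, 0, 0, 0, 0, 143724978, 0, 0, 0, ⟨0, 0⟩, 0⟩, 0, 0⟩ 0 0))) (.pos 55 .mp ⟨⟨317011771, 0, 0, 0, 0, 138873569, 0, 0, 0, ⟨0, 0⟩, 0⟩, 0, 0⟩ 0 0)) (.pos 56 .mp ⟨⟨400416296, 0, 0, 0, 0, 0, 0, 0, 0, ⟨0, 0⟩, 0⟩, 0, 0⟩ 0 0)))) (.cut .s 12468224 (.pos 49 .mp ⟨⟨315065753,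 0, 0, 0, 0, 135737531, 0, 0, 0, ⟨0, 0⟩, 0⟩, 0, 0⟩ 0 0) (.pos 49 .mp ⟨⟨318440925, 0, 0, 0, 0, 137167578, 0, 0, 0, ⟨0, 0⟩, 0⟩, 0, 0⟩ 0 0))) (.pos 50 .mp ⟨⟨399557355, 0, 0, 0, 0, 0, 0, 0, 0, ⟨0, 0⟩, 0⟩, 0, 0⟩ 0 0))) (.cut .d (-8192) (.cut .l 123033 (.void 39 ⟨⟨0, 0, 0, 0, 0, 100000, 0, 0, 0, ⟨0, 0⟩, 0⟩, 0, 0⟩ 0 0) (.cut .s 12500992 (.cut .s 12492800 (.pos 39 .mp ⟨⟨316679136, 0, 0, 0, 0, 153817360, 0, 0, 0, ⟨0, 0⟩, 0⟩, 0, 0⟩ 0 0) (.pos 39 .mp ⟨⟨318467476, 0, 0, 0, 0, 154496140, 0, 0, 0, ⟨0, 0⟩, 0⟩, 0, 0⟩ 0 0)) (.pos 39 .mp ⟨⟨319715826, 0, 0, 0, 0, 159169190, 0, 0, 0, ⟨0, 0⟩, 0⟩, 0, 0⟩ 0 0))) (.cut .v 16809984 (.cut .l 123033 (.cut .s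 12500992 (.cut .d (-4096) (.pos 49 .mp ⟨⟨315953440, 0, 0, 0, 0, 157784731, 0, 0, 0, ⟨0, 0⟩, 0⟩, 0, 0⟩ 0 0) (.cut .v 16793600 (.cut .l 61516 (.cut .d (-2048) (.pos 55 .mp ⟨⟨315769234, 0, 0, 0, 0, 157331728, 0, 0, 0, ⟨0, 0⟩, 0⟩, 0, 0⟩ 0 0) (.cut .s 12492800 (.pos 55 .mp ⟨⟨319095661, 0, 0, 0, 0, 144562195, 0, 0, 0, ⟨0, 0⟩, 0⟩, 0, 0⟩ 0 0) (.pos 55 .mp ⟨⟨320792175, 0, 0, 0, 0, 145410190, 0, 0, 0, ⟨0, 0⟩, 0⟩, 0, 0⟩ 0 0))) (.pos 55 .mp ⟨⟨320397331, 0, 0, 0, 0, 140350801, 0, 0, 0, ⟨0, 0⟩, 0⟩, 0, 0⟩ 0 0)) (.pos 56 .mp ⟨⟨404735778, 0, 0, 0, 0, 0, 0, 0, 0, ⟨0, 0⟩, 0⟩, 0, 0⟩ 0 0))) (.cut .d (-4096) (.pos 49 .mp ⟨⟨319327173, 0, 0, 0, 0, 159769905,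 0, 0, 0, ⟨0, 0⟩, 0⟩, 0, 0⟩ 0 0) (.cut .v 16793600 (.cut .s 12509184 (.cut .s 12505088 (.pos 55 .mp ⟨⟨325200749, 0, 0, 0, 0, 141284474, 0, 0, 0, ⟨0, 0⟩, 0⟩, 0, 0⟩ 0 0) (.pos 55 .mp ⟨⟨326195332, 0, 0, 0, 0, 141492714, 0, 0, 0, ⟨0, 0⟩, 0⟩, 0, 0⟩ 0 0)) (.pos 55 .mp ⟨⟨325496663, 0, 0, 0, 0, 145107871, 0, 0, 0, ⟨0, 0⟩, 0⟩, 0, 0⟩ 0 0)) (.pos 56 .mp ⟨⟨409129070, 0, 0, 0, 0, 0, 0, 0, 0, ⟨0, 0⟩, 0⟩, 0, 0⟩ 0 0)))) (.cut .s 12500992 (.pos 49 .mp ⟨⟨321854095, 0, 0, 0, 0, 138608200, 0, 0, 0, ⟨0, 0⟩, 0⟩, 0, 0⟩ 0 0) (.pos 49 .mp ⟨⟨325305683, 0, 0, 0, 0, 140058236, 0, 0, 0, ⟨0, 0⟩, 0⟩, 0, 0⟩ 0 0))) (.pos 50 .mp ⟨⟨408222479, 0, 0, 0, 0, 0, 0, 0,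 0, ⟨0, 0⟩, 0⟩, 0, 0⟩ 0 0))))) (.cut .s 12451840 (.pos 40 .mp ⟨⟨397677314, 0, 0, 0, 0, 0, 0, 0, 0, ⟨0, 0⟩, 0⟩, 0, 0⟩ 0 0) (.pos 40 .mp ⟨⟨414329013, 0, 0, 0, 0, 0, 0, 0, 0, ⟨0, 0⟩, 0⟩, 0, 0⟩ 0 0)))) (.pos 38 .mp ⟨⟨405420525, 0, 0, 0, 0, 0, 0, 0, 0, ⟨0, 0⟩, 0⟩, 0, 0⟩ 0 0)) (.void 36 ⟨⟨100000, 0, 0, 0, 0, 0, 0, 0, 0, ⟨0, 0⟩, 0⟩, 0, 0⟩ 0 0)) (.void 34 ⟨⟨100000, 0, 0, 0, 0, 0, 0, 0, 0, ⟨0, 0⟩, 0⟩, 0, 0⟩ 0 0)))))))) (.void 32 ⟨⟨100000, 0, 0, 0, 0, 0, 0, 0, 0, ⟨0, 0⟩, 0⟩, 0, 0⟩ 0 0))) (.void 30 ⟨⟨100000, 0, 0, 0, 0, 0, 0, 0, 0, ⟨0, 0⟩, 0⟩, 0, 0⟩ 0 0))) (.void 28 ⟨⟨100000, 0, 0, 0, 0, 0, 0, 0, 0, ⟨0, 0⟩, 0⟩, 0, 0⟩ 0 0)))) (.void 26 ⟨⟨100000,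 0, 0, 0, 0, 0, 0, 0, 0, ⟨0, 0⟩, 0⟩, 0, 0⟩ 0 0)) (.void 91 ⟨⟨100000, 0, 0, 0, 0, 0, 0, 0, 0, ⟨0, 0⟩, 0⟩, 0, 0⟩ 0 0)) (.void 98 ⟨⟨100000, 0, 0, 0, 0, 0, 0, 0, 0, ⟨0, 0⟩, 0⟩, 0, 0⟩ 0 0)) (.void 117 ⟨⟨94839, 0, 0, 4443, 0, 0, 0, 0, 0, ⟨0, 0⟩, 0⟩, 0, 0⟩ 0 0))) (.cut .v 16777216 (.cut .v 8388608 (.cut .v 4194304 (.cut .d 3095263 (.pos 4 .pm ⟨⟨0, 0, 510165952, 0, 0, 0, 0, 0, 0, ⟨0, 0⟩, 0⟩, 0, 38993⟩ 0 0) (.cut .v 2097152 (.cut .v 1048576 (.pos 113 .pm ⟨⟨0, 0, 5221566, 0, 0, 0, 0, 0, 0, ⟨0, 0⟩, 0⟩, 0, 10918⟩ 0 0) (.pos 114 .pm ⟨⟨0, 24406527, 0, 0, 0, 0, 0, 0, 0, ⟨0, 0⟩, 0⟩, 0, 30328⟩ 0 0)) (.cut .d 4642894 (.pos 7 .pm ⟨⟨0, 0, 0, 0, 0, 0,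 0, 0, 0, ⟨0, 0⟩, 0⟩, 0, 38993⟩ 0 0) (.pos 7 .pm ⟨⟨0, 87071736, 0, 0, 0, 0, 0, 0, 0, ⟨0, 0⟩, 0⟩, 0, 54591⟩ 0 0)))) (.cut .d 3095263 (.pos 5 .pm ⟨⟨0, 0, 8734278, 0, 0, 0, 0, 0, 0, ⟨0, 0⟩, 0⟩, 0, 0⟩ 0 0) (.cut .d 4642894 (.pos 5 .pm ⟨⟨0, 0, 0, 0, 0, 0, 0, 0, 0, ⟨0, 0⟩, 0⟩, 0, 54591⟩ 0 0) (.cut .d 5416710 (.pos 5 .pm ⟨⟨0, 0, 0, 0, 0, 0, 0, 0, 0, ⟨0, 0⟩, 0⟩, 0, 68238⟩ 0 0) (.pos 5 .pm ⟨⟨0, 159842887, 0, 0, 0, 0, 0, 0, 0, ⟨0, 0⟩, 0⟩, 0, 68238⟩ 0 0))))) (.cut .d 3095263 (.pos 3 .pm ⟨⟨0, 0, 0, 0, 0, 0, 0, 0, 0, ⟨0, 0⟩, 0⟩, 0, 0⟩ 0 0) (.pos 3 .pm ⟨⟨0, 136805007, 0, 0, 0, 0, 0, 0, 0, ⟨0, 0⟩, 0⟩, 0, 90984⟩ 0 0))) (.cut .v 268435456 (.cut .v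 67108864 (.cut .d 3095263 (.cut .d 1547631 (.cut .v 33554432 (.cut .d 773815 (.cut .v 25165824 (.cut .d 386907 (.cut .v 20971520 (.cut .d 193453 (.cut .v 18874368 (.cut .v 17825792 (.cut .s 12386304 (.pos 31 .pp ⟨⟨284400845, 0, 0, 0, 0, 0, 0, 0, 0, ⟨0, 0⟩, 0⟩, 6932471, 0⟩ 0 0) (.pos 31 .pp ⟨⟨312474536, 0, 0, 0, 0, 0, 0, 0, 0, ⟨0, 0⟩, 0⟩, 7070554, 0⟩ 0 0)) (.pos 32 .pp ⟨⟨406509491, 0, 0, 0, 0, 0, 0, 0, 0, ⟨0, 0⟩, 0⟩, 0, 0⟩ 0 0)) (.pos 30 .pp ⟨⟨495690902, 0, 0, 0, 0, 0, 0, 0, 0, ⟨0, 0⟩, 0⟩, 0, 0⟩ 0 0)) (.pos 27 .pp ⟨⟨0, 0, 0, 0, 0, 0, 0, 0, 0, ⟨0, 0⟩, 0⟩, 34705314, 52533⟩ 0 0)) (.cut .d 193453 (.void 28 ⟨⟨100000, 0, 0, 0, 0, 0, 0,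 0, 0, ⟨0, 0⟩, 0⟩, 0, 0⟩ 0 0) (.pos 28 .pp ⟨⟨0, 0, 0, 0, 0, 0, 0, 0, 0, ⟨0, 0⟩, 0⟩, 53588705, 0⟩ 0 0))) (.pos 25 .pp ⟨⟨0, 0, 0, 0, 0, 0, 0, 0, 0, ⟨0, 0⟩, 0⟩, 32402282, 60576⟩ 0 0)) (.pos 26 .pp ⟨⟨0, 0, 0, 0, 0, 0, 0, 0, 0, ⟨0, 0⟩, 0⟩, 82756484, 0⟩ 0 0)) (.pos 24 .pp ⟨⟨0, 0, 0, 0, 0, 0, 0, 0, 0, ⟨0, 0⟩, 0⟩, 29933197, 69199⟩ 0 0)) (.cut .d 773815 (.void 91 ⟨⟨0, 0, 0, 0, 0, 0, 0, 0, 0, ⟨0, 0⟩, 0⟩, 100000, 0⟩ 0 0) (.pos 91 .pp ⟨⟨0, 0, 0, 0, 0, 0, 0, 0, 0, ⟨0, 0⟩, 0⟩, 92540620, 0⟩ 0 0))) (.pos 90 .pp ⟨⟨0, 0, 0, 0, 0, 0, 0, 0, 0, ⟨0, 0⟩, 0⟩, 15371812, 120050⟩ 0 0)) (.pos 90 .pp ⟨⟨0, 163582558, 0, 0, 0, 0, 0, 0, 0, ⟨0, 0⟩, 0⟩, 0, 136477⟩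 0 0)) (.void 98 ⟨⟨0, 0, 0, 45217, 0, 0, 0, 0, 0, ⟨0, 0⟩, 0⟩, 54783, 0⟩ 0 0)) (.void 117 ⟨⟨0, 0, 0, 0, 0, 0, 0, 0, 0, ⟨0, 0⟩, 0⟩, 100000, 0⟩ 0 0)))),
    by decide +kernel⟩

end Vale.Agent.P237.Petty.Cor.Grid.Tiny.N15
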